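import Vale.Agent.P232.TorusTools

/-! # P232, module A: ball, tube, slab and their complements -/

namespace Vale.Agent.P232

open MeasureTheory Set Filter Topology Torus
open scoped ENNReal

namespace Region

/-- Squared distance from the centre, in the coordinates of `S`. -/
noncomputable def sqd (S : Finset (Fin 3)) (x : V3) : ℝ := ∑ j ∈ S, (x j - 1 / 2) ^ 2

/-- The periodised ball, tube or slab. -/
def region (S : Finset (Fin 3)) (R : ℝ) : Set V3 :=
  {x | sqd S (fun j => Int.fract (x j)) < R ^ 2}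

theorem continuous_sqd (S : Finset (Fin 3)) : Continuous (sqd S) := by unfold sqd; fun_prop

theorem contDiff_sqd (S : Finset (Fin 3)) : ContDiff ℝ 1 (sqd S) := by unfold sqd; fun_prop

theorem isTorusSet_region (S : Finset (Fin 3)) (R : ℝ) : IsTorusSet (region S R) := by
  refine ⟨?_, fun x k => by simp [region, Int.fract_add_intCast]⟩
  exact (measurableSet_lt ((continuous_sqd S).measurable.comp
    (measurable_pi_iff.2 fun j => measurable_fract.comp (measurable_pi_apply j))) measurable_const)

theorem region_inter_cell (S : Finset (Fin 3)) (R : ℝ) :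
    region S R ∩ cell = {x | sqd S x < R ^ 2} ∩ cell := by
  ext x
  simp only [region, mem_inter_iff, mem_ofPred_eq, and_congr_left_iff]
  intro hx
  rw [show (fun j => Int.fract (x j)) = x from funext fun j =>
    Int.fract_eq_self.2 (hx j (mem_univ j))]

/-- Smooth step in the squared distance. -/
noncomputable def cut (S : Finset (Fin 3)) (R R' : ℝ) (x : V3) : ℝ :=
  Real.smoothTransition ((R' ^ 2 - sqd S x) / (R' ^ 2 - R ^ 2))

/-- Minus the derivative of the step. -/
noncomputable def slope (S : Finset (Fin 3)) (R R' : ℝ) (x : V3) : ℝ :=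
  deriv Real.smoothTransition ((R' ^ 2 - sqd S x) / (R' ^ 2 - R ^ 2)) / (R' ^ 2 - R ^ 2)

theorem contDiff_smooth : ContDiff ℝ 1 Real.smoothTransition :=
  Real.smoothTransition.contDiff (n := 1)

theorem contDiff_cut (S : Finset (Fin 3)) (R R' : ℝ) : ContDiff ℝ 1 (cut S R R') := by
  unfold cut
  exact contDiff_smooth.comp ((contDiff_const.sub (contDiff_sqd S)).div_const _)

theorem continuous_slope (S : Finset (Fin 3)) (R R' : ℝ) : Continuous (slope S R R') := by
  unfold slope
  exact (((contDiff_smooth.continuous_deriv le_rfl).comp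
    ((continuous_const.sub (continuous_sqd S)).div_const _))).div_const _

theorem cut_mem (S : Finset (Fin 3)) (R R' : ℝ) (x : V3) : cut S R R' x ∈ Icc (0 : ℝ) 1 :=
  ⟨Real.smoothTransition.nonneg _, Real.smoothTransition.le_one _⟩

theorem cut_eq_one {S : Finset (Fin 3)} {R R' : ℝ} (h : R ^ 2 < R' ^ 2) {x : V3}
    (hx : sqd S x ≤ R ^ 2) : cut S R R' x = 1 :=
  Real.smoothTransition.one_of_one_le (by rw [le_div_iff₀ (sub_pos.2 h)]; linarith)

theorem cut_eq_zero {S : Finset (Fin 3)} {R R' : ℝ} (h : R ^ 2 < R' ^ 2) {x : V3}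
    (hx : R' ^ 2 ≤ sqd S x) : cut S R R' x = 0 :=
  Real.smoothTransition.zero_of_nonpos
    (div_nonpos_of_nonpos_of_nonneg (by linarith) (sub_pos.2 h).le)

theorem slope_nonneg {S : Finset (Fin 3)} {R R' : ℝ} (h : R ^ 2 < R' ^ 2) (x : V3) :
    0 ≤ slope S R R' x :=
  div_nonneg Real.smoothTransition.monotone.deriv_nonneg (sub_pos.2 h).le

theorem slope_eq_zero {S : Finset (Fin 3)} {R R' : ℝ} (h : R ^ 2 < R' ^ 2) {x : V3}
    (hx : sqd S x < R ^ 2) : slope S R R' x = 0 := by
  have h1 : (1 : ℝ) < (R' ^ 2 - sqd S x) / (R' ^ 2 - R ^ 2) := by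
    rw [lt_div_iff₀ (sub_pos.2 h)]; linarith
  have h2 : Real.smoothTransition =ᶠ[𝓝 ((R' ^ 2 - sqd S x) / (R' ^ 2 - R ^ 2))] fun _ => 1 :=
    (eventually_gt_nhds h1).mono fun t ht => Real.smoothTransition.one_of_one_le ht.le
  simp [slope, h2.deriv_eq]

theorem hasFDerivAt_sqd (S : Finset (Fin 3)) (x : V3) :
    HasFDerivAt (sqd S)
      (∑ j ∈ S, (2 * (x j - 1 / 2)) • ContinuousLinearMap.proj (R := ℝ) (φ := fun _ => ℝ) j) x := by
  unfold sqd
  refine HasFDerivAt.fun_sum fun j _ => ?_
  have h := ((hasFDerivAt_apply (𝕜 := ℝ) (F' := fun _ : Fin 3 => ℝ) j x).sub_const (1 / 2 : ℝ)).pow 2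
  simpa using h

theorem fderiv_cut (S : Finset (Fin 3)) (R R' : ℝ) (x : V3) (i : Fin 3) :
    fderiv ℝ (cut S R R') x (Pi.single i 1) =
      -(slope S R R' x * if i ∈ S then 2 * (x i - 1 / 2) else 0) := by
  have hq := (hasFDerivAt_sqd S x).const_sub (R' ^ 2) |>.mul_const ((R' ^ 2 - R ^ 2)⁻¹)
  have hs := ((contDiff_smooth.differentiable one_ne_zero)
    ((R' ^ 2 - sqd S x) * (R' ^ 2 - R ^ 2)⁻¹)).hasDerivAt.comp_hasFDerivAt x hq
  have e : cut S R R' = Real.smoothTransition ∘
      fun y => (R' ^ 2 - sqd S y) * (R' ^ 2 - R ^ 2)⁻¹ := by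
    funext y; simp [cut, div_eq_mul_inv]
  rw [e, hs.fderiv]
  simp only [_root_.smul_apply, _root_.neg_apply, FunLike.coe_sum,
    Finset.sum_apply, ContinuousLinearMap.proj_apply, Pi.single_apply, smul_eq_mul, mul_ite,
    mul_one, mul_zero, Finset.sum_ite_eq', slope, div_eq_mul_inv]
  split_ifs <;> ring

theorem sqd_ins {S : Finset (Fin 3)} {i : Fin 3} (q : Fin 2 → ℝ) :
    sqd S (ins i 1 q) = sqd S (ins i 0 q) := by
  refine Finset.sum_congr rfl fun j _ => ?_
  rcases Fin.eq_self_or_eq_succAbove i j with rfl | ⟨k, rfl⟩ <;> simp [ins] <;> norm_num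

theorem face_large {S : Finset (Fin 3)} {i : Fin 3} (hi : i ∈ S) (q : Fin 2 → ℝ) :
    1 / 4 ≤ sqd S (ins i 0 q) := by
  refine le_trans (le_of_eq ?_) (Finset.single_le_sum (fun j _ => sq_nonneg _) hi)
  simp [ins]; norm_num

/-- The scaling identity. -/
theorem integral_scaling {S : Finset (Fin 3)} {R R' : ℝ} (h : R ^ 2 < R' ^ 2)
    (h' : R' ^ 2 ≤ 1 / 4) :
    ∫ x in cell, 2 * slope S R R' x * sqd S x = S.card * ∫ x in cell, cut S R R' x := by
  have hd : ∀ i : Fin 3, i ∈ S →
      ∫ x in cell, (cut S R R' x - slope S R R' x * (2 * (x i - 1 / 2) ^ 2)) = 0 := by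
    intro i hi
    have hF : ContDiff ℝ 1 fun x : V3 => (x i - 1 / 2) * cut S R R' x :=
      ((contDiff_apply ℝ ℝ i).sub contDiff_const).mul (contDiff_cut S R R')
    have e : ∀ x : V3, cut S R R' x - slope S R R' x * (2 * (x i - 1 / 2) ^ 2) =
        fderiv ℝ (fun x : V3 => (x i - 1 / 2) * cut S R R' x) x (Pi.single i 1) := by
      intro x
      rw [(((hasFDerivAt_apply i x).sub_const (1 / 2 : ℝ)).fun_mul
        ((contDiff_cut S R R').differentiable one_ne_zero x).hasFDerivAt).fderiv]
      simp only [_root_.add_apply, _root_.smul_apply,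
        ContinuousLinearMap.proj_apply, Pi.single_eq_same, smul_eq_mul, fderiv_cut, hi, if_true]
      ring
    simp only [e]
    refine integral_cell_fderiv hF i fun q => ?_
    rw [cut_eq_zero h (sqd_ins (i := i) q ▸ h'.trans (face_large hi q)),
      cut_eq_zero h (h'.trans (face_large hi q))]
    simp
  have hint : ∀ f : V3 → ℝ, Continuous f → Integrable f (volume.restrict cell) :=
    fun f hf => integrableOn_cell hf
  have hc := (contDiff_cut S R R').continuous
  have hsl := continuous_slope S R R'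
  have hsum := Finset.sum_eq_zero hd
  rw [← integral_finsetSum _ fun i _ => hint _ (by fun_prop)] at hsum
  have e : ∀ x, ∑ i ∈ S, (cut S R R' x - slope S R R' x * (2 * (x i - 1 / 2) ^ 2)) =
      S.card * cut S R R' x - 2 * slope S R R' x * sqd S x := by
    intro x
    rw [Finset.sum_sub_distrib, Finset.sum_const, nsmul_eq_mul, sqd, Finset.mul_sum]
    congr 1
    exact Finset.sum_congr rfl fun j _ => by ring
  simp only [e] at hsum
  have hq := continuous_sqd S
  rw [integral_sub (hint _ (by fun_prop)) (hint (fun x => 2 * slope S R R' x * sqd S x) (by fun_prop)),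
    integral_const_mul] at hsum
  linarith

/-- Integration of a field against the cut. -/
theorem cut_divg_le {X : V3 → V3} (hX : IsField X) {S : Finset (Fin 3)} {R R' : ℝ} (hR : 0 < R)
    (h : R ^ 2 < R' ^ 2) (h' : R' ^ 2 ≤ 1 / 4) :
    ∫ x in cell, cut S R R' x * divg X x ≤ S.card / R * ∫ x in cell, cut S R R' x := by
  obtain ⟨hX1, hXp, hXn⟩ := hX
  have hint : ∀ f : V3 → ℝ, Continuous f → Integrable f (volume.restrict cell) :=
    fun f hf => integrableOn_cell hf
  have hc := contDiff_cut S R R'
  have hsl := continuous_slope S R R'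
  have hz : ∀ i : Fin 3, ∫ x in cell,
      fderiv ℝ (fun x => cut S R R' x * X x i) x (Pi.single i 1) = 0 := fun i =>
    integral_cell_fderiv (hc.mul (contDiff_component hX1 i)) i fun q => by
      show cut S R R' _ * X _ i = cut S R R' _ * X _ i
      rw [ins_one_eq (periodic_component hXp i) i q]
      simp only [cut, sqd_ins]
  have hsum := Finset.sum_eq_zero (s := Finset.univ) fun i _ => hz i
  rw [← integral_finsetSum _ fun i _ =>
    hint _ (continuous_partial (hc.mul (contDiff_component hX1 i)) i)] at hsum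
  have e : ∀ x, ∑ i, fderiv ℝ (fun x => cut S R R' x * X x i) x (Pi.single i 1) =
      cut S R R' x * divg X x - slope S R R' x * ∑ i ∈ S, 2 * (x i - 1 / 2) * X x i := by
    intro x
    have e1 : ∀ i, fderiv ℝ (fun x => cut S R R' x * X x i) x (Pi.single i 1) =
        cut S R R' x * fderiv ℝ (fun y => X y i) x (Pi.single i 1) -
          if i ∈ S then slope S R R' x * (2 * (x i - 1 / 2) * X x i) else 0 := by
      intro i
      rw [fderiv_fun_mul (hc.differentiable one_ne_zero x)
        ((contDiff_component hX1 i).differentiable one_ne_zero x)]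
      simp only [_root_.add_apply, _root_.smul_apply, smul_eq_mul, fderiv_cut]
      split_ifs <;> ring
    simp only [e1, Finset.sum_sub_distrib, Finset.sum_ite_mem, Finset.univ_inter, divg_eq hX1,
      Finset.mul_sum]
  simp only [e] at hsum
  have hcs : Continuous fun x => slope S R R' x * ∑ i ∈ S, 2 * (x i - 1 / 2) * X x i := by
    have := hX1.continuous; fun_prop
  rw [integral_sub (hint (fun x => cut S R R' x * divg X x)
    (hc.continuous.mul (continuous_divg hX1))) (hint _ hcs)] at hsum
  have hb : ∀ x, slope S R R' x * ∑ i ∈ S, 2 * (x i - 1 / 2) * X x i ≤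
      2 * slope S R R' x * sqd S x / R := by
    intro x
    rcases lt_or_ge (sqd S x) (R ^ 2) with hx | hx
    · simp [slope_eq_zero h hx]
    have hcs : ∑ i ∈ S, (x i - 1 / 2) * X x i ≤ √(sqd S x) * √(∑ i ∈ S, X x i ^ 2) :=
      Real.sum_mul_le_sqrt_mul_sqrt S _ _
    have h1 : √(∑ i ∈ S, X x i ^ 2) ≤ 1 := Real.sqrt_le_one.2 <|
      (Finset.sum_le_univ_sum_of_nonneg fun i => sq_nonneg _).trans (hXn x)
    have h2 : √(sqd S x) ≤ sqd S x / R := by
      rw [le_div_iff₀ hR]
      have h3 : R ≤ √(sqd S x) := Real.le_sqrt_of_sq_le hx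
      have h4 := Real.mul_self_sqrt ((sq_nonneg R).trans hx)
      nlinarith [Real.sqrt_nonneg (sqd S x)]
    have h5 : ∑ i ∈ S, 2 * (x i - 1 / 2) * X x i ≤ 2 * (sqd S x / R) := by
      simp only [mul_assoc, ← Finset.mul_sum]
      refine mul_le_mul_of_nonneg_left (hcs.trans ?_) zero_le_two
      exact (mul_le_of_le_one_right (Real.sqrt_nonneg _) h1).trans h2
    calc _ ≤ slope S R R' x * (2 * (sqd S x / R)) :=
          mul_le_mul_of_nonneg_left h5 (slope_nonneg h x)
      _ = _ := by ring
  calc ∫ x in cell, cut S R R' x * divg X x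
      = ∫ x in cell, slope S R R' x * ∑ i ∈ S, 2 * (x i - 1 / 2) * X x i := by linarith
    _ ≤ ∫ x in cell, 2 * slope S R R' x * sqd S x / R :=
        integral_mono (hint _ hcs)
          (hint _ (((continuous_const.mul hsl).mul (continuous_sqd S)).div_const R)) hb
    _ = _ := by rw [integral_div, integral_scaling h h']; ring

/-- Perimeter of a ball, tube or slab whose volume is `κ R ^ |S|`. -/
theorem perim_region_le {S : Finset (Fin 3)} {κ R : ℝ} (hR : 0 < R) (hR2 : R < 1 / 2)
    (hκ : ∀ r, 0 < r → r < 1 / 2 → torusVol (region S r) = κ * r ^ S.card) :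
    perim (region S R) ≤ ENNReal.ofReal (S.card / R * (κ * R ^ S.card)) := by
  refine iSup₂_le fun X hX => ENNReal.ofReal_le_ofReal ?_
  have hcont := continuous_divg hX.1
  obtain ⟨M, hM⟩ := (isCompact_Icc (a := fun _ : Fin 3 => (0 : ℝ)) (b := fun _ => 1))
    |>.exists_bound_of_continuousOn hcont.continuousOn
  have hmeas : ∀ r, MeasurableSet (region S r ∩ cell) := fun r =>
    (isTorusSet_region S r).1.inter measurableSet_cell
  have hfin : ∀ r, volume (region S r ∩ cell) ≠ ⊤ := fun r =>
    measure_ne_top_of_subset inter_subset_right (by simp [volume_cell])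
  have key : ∀ R' : ℝ, R < R' → R' < 1 / 2 → ∫ x in region S R ∩ cell, divg X x ≤
      S.card / R * (κ * R' ^ S.card) + M * (κ * R' ^ S.card - κ * R ^ S.card) := by
    intro R' hRR hR'
    have h : R ^ 2 < R' ^ 2 := pow_lt_pow_left₀ hRR hR.le two_ne_zero
    have h' : R' ^ 2 ≤ 1 / 4 := by nlinarith
    set E := region S R ∩ cell
    set E' := region S R' ∩ cell
    have hEE : E ⊆ E' := by
      simp only [E, E', region_inter_cell]
      exact inter_subset_inter_left _ fun x hx => lt_trans hx h
    have hvE : ∀ r, 0 < r → r < 1 / 2 → volume.real (region S r ∩ cell) = κ * r ^ S.card := hκ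
    have hcut0 : ∀ x ∈ cell \ E', cut S R R' x = 0 := by
      rintro x ⟨hx, hx'⟩
      refine cut_eq_zero h (not_lt.1 fun hlt => hx' ?_)
      simp only [E', region_inter_cell]; exact ⟨hlt, hx⟩
    have hcut1 : ∀ x ∈ E, cut S R R' x = 1 := by
      intro x hx
      simp only [E, region_inter_cell] at hx
      exact cut_eq_one h (le_of_lt hx.1)
    have hcd : Continuous fun x => cut S R R' x * divg X x :=
      (contDiff_cut S R R').continuous.mul hcont
    have hsplit : ∫ x in E', cut S R R' x * divg X x =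
        (∫ x in E, divg X x) + ∫ x in E' \ E, cut S R R' x * divg X x := by
      rw [← setIntegral_congr_fun (f := fun x => cut S R R' x * divg X x) (g := divg X) (hmeas R)
          (fun x hx => by simp only [hcut1 x hx, one_mul]),
        ← setIntegral_union disjoint_sdiff_right ((hmeas R').diff (hmeas R))
          ((integrableOn_cell hcd).mono_set inter_subset_right)
          ((integrableOn_cell hcd).mono_set (sdiff_subset.trans inter_subset_right)),
        union_sdiff_cancel hEE]
    have hcell : ∫ x in cell, cut S R R' x * divg X x =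
        ∫ x in E', cut S R R' x * divg X x :=
      setIntegral_eq_of_subset_of_forall_sdiff_eq_zero measurableSet_cell inter_subset_right
        fun x hx => by rw [hcut0 x hx, zero_mul]
    have hcutint : ∫ x in cell, cut S R R' x ≤ κ * R' ^ S.card := by
      rw [setIntegral_eq_of_subset_of_forall_sdiff_eq_zero measurableSet_cell inter_subset_right
        hcut0, ← hvE R' (hR.trans hRR) hR']
      calc ∫ x in E', cut S R R' x ≤ ∫ _x in E', (1 : ℝ) :=
            setIntegral_mono_on ((integrableOn_cell (contDiff_cut S R R').continuous).mono_set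
              inter_subset_right) (integrableOn_const (hfin R')) (hmeas R')
              fun x _ => (cut_mem S R R' x).2
        _ = volume.real E' := by simp
    have hdiff : ‖∫ x in E' \ E, cut S R R' x * divg X x‖ ≤ M * volume.real (E' \ E) := by
      refine norm_setIntegral_le_of_norm_le_const
        ((measure_mono sdiff_subset).trans_lt (lt_top_iff_ne_top.2 (hfin R'))) fun x hx => ?_
      have hx01 : x ∈ Icc (fun _ : Fin 3 => (0 : ℝ)) (fun _ => 1) :=
        ⟨fun j => (hx.1.2 j (mem_univ j)).1, fun j => (hx.1.2 j (mem_univ j)).2.le⟩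
      obtain ⟨c0, c1⟩ := cut_mem S R R' x
      rw [norm_mul, Real.norm_eq_abs, abs_of_nonneg c0]
      exact (mul_le_of_le_one_left (norm_nonneg _) c1).trans (hM x hx01)
    rw [measureReal_sdiff hEE (hmeas R) (hfin R'), hvE R' (hR.trans hRR) hR', hvE R hR hR2] at hdiff
    have h1 := cut_divg_le hX (S := S) hR h h'
    have h2 := mul_le_mul_of_nonneg_left hcutint (show (0 : ℝ) ≤ S.card / R by positivity)
    have h3 := (abs_le.1 hdiff).1
    linarith
  have hlim : Tendsto (fun R' : ℝ => S.card / R * (κ * R' ^ S.card) +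
      M * (κ * R' ^ S.card - κ * R ^ S.card)) (𝓝[>] R) (𝓝 (S.card / R * (κ * R ^ S.card))) := by
    refine (Continuous.tendsto' ?_ R _ (by ring)).mono_left nhdsWithin_le_nhds
    fun_prop
  refine ge_of_tendsto hlim ?_
  filter_upwards [Ioo_mem_nhdsGT hR2] with R' hR' using key R' hR'.1 hR'.2

/-- Volume of the slab. -/
theorem vol_slab {r : ℝ} (hr : 0 < r) (hr2 : r < 1 / 2) :
    torusVol (region {0} r) = 2 * r ^ ({0} : Finset (Fin 3)).card := by
  have e : region {0} r ∩ cell = univ.pi
      (Function.update (fun _ : Fin 3 => Ico (0 : ℝ) 1) 0 (Ioo (1 / 2 - r) (1 / 2 + r))) := by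
    rw [region_inter_cell]
    ext x
    simp only [sqd, cell, Finset.sum_singleton, mem_inter_iff, mem_ofPred_eq, mem_univ_pi]
    rw [sq_lt_sq, abs_of_pos hr, abs_lt]
    constructor
    · rintro ⟨⟨a, b⟩, h⟩ j
      by_cases hj : j = 0
      · subst hj; simp only [Function.update_self, mem_Ioo]; constructor <;> linarith
      · simpa [Function.update_of_ne hj] using h j
    · intro h
      have h0 := h 0
      simp only [Function.update_self, mem_Ioo] at h0
      refine ⟨⟨by linarith, by linarith⟩, fun j => ?_⟩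
      by_cases hj : j = 0
      · subst hj; constructor <;> linarith
      · simpa [Function.update_of_ne hj] using h j
  rw [torusVol, e, measureReal_def, volume_pi_pi, Fin.prod_univ_three]
  simp [Real.volume_Ico, Real.volume_Ioo, ENNReal.toReal_ofReal (show 0 ≤ r + r by linarith)]
  ring

/-- Volume of the ball. -/
theorem vol_ball {r : ℝ} (hr : 0 < r) (hr2 : r < 1 / 2) :
    torusVol (region Finset.univ r) =
      Real.pi * 4 / 3 * r ^ (Finset.univ : Finset (Fin 3)).card := by
  have e : region Finset.univ r ∩ cell = WithLp.toLp 2 ⁻¹'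
      Metric.ball (WithLp.toLp 2 fun _ : Fin 3 => (1 / 2 : ℝ)) r := by
    rw [region_inter_cell]
    ext x
    simp only [sqd, mem_inter_iff, mem_ofPred_eq, mem_preimage, Metric.mem_ball,
      EuclideanSpace.dist_eq, Real.dist_eq, sq_abs]
    rw [Real.sqrt_lt (Finset.sum_nonneg fun j _ => sq_nonneg _) hr.le]
    refine and_iff_left_of_imp fun h j _ => ?_
    have h1 : (x j - 1 / 2) ^ 2 < r ^ 2 := lt_of_le_of_lt
      (Finset.single_le_sum (fun i _ => sq_nonneg (x i - 1 / 2)) (Finset.mem_univ j)) h
    obtain ⟨a, b⟩ := abs_lt.1 (by simpa [abs_of_pos hr] using sq_lt_sq.1 h1 :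
      |x j - 1 / 2| < r)
    constructor <;> linarith
  rw [torusVol, e, measureReal_def,
    (PiLp.volume_preserving_toLp (Fin 3)).measure_preimage measurableSet_ball.nullMeasurableSet,
    EuclideanSpace.volume_ball_fin_three, ENNReal.toReal_mul, ENNReal.toReal_pow,
    ENNReal.toReal_ofReal hr.le, ENNReal.toReal_ofReal (by positivity), Finset.card_univ,
    Fintype.card_fin]
  ring

/-- Volume of the tube. -/
theorem vol_tube {r : ℝ} (hr : 0 < r) (hr2 : r < 1 / 2) :
    torusVol (region {1, 2} r) = Real.pi * r ^ ({1, 2} : Finset (Fin 3)).card := by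
  have e : (fun p : ℝ × (Fin 2 → ℝ) => ins 0 p.1 p.2) ⁻¹' (region {1, 2} r ∩ cell) =
      Ico (0 : ℝ) 1 ×ˢ (WithLp.toLp 2 ⁻¹'
        Metric.ball (WithLp.toLp 2 fun _ : Fin 2 => (1 / 2 : ℝ)) r) := by
    rw [region_inter_cell]
    ext ⟨t, q⟩
    have e1 : sqd {1, 2} (ins 0 t q) = ∑ j : Fin 2, (q j - 1 / 2) ^ 2 := by
      rw [sqd, Finset.sum_pair (by decide), Fin.sum_univ_two,
        show (1 : Fin 3) = Fin.succAbove 0 0 from rfl, show (2 : Fin 3) = Fin.succAbove 0 1 from rfl]
      simp [ins]
      rfl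
    simp only [mem_preimage, mem_inter_iff, mem_ofPred_eq, mem_prod, ins_mem_cell, e1,
      Metric.mem_ball, EuclideanSpace.dist_eq, Real.dist_eq, sq_abs,
      Real.sqrt_lt (Finset.sum_nonneg fun j _ => sq_nonneg (q j - 1 / 2)) hr.le]
    refine ⟨fun h => ⟨h.2.1, h.1⟩, fun h => ⟨h.2, h.1, fun j _ => ?_⟩⟩
    have h1 : (q j - 1 / 2) ^ 2 < r ^ 2 := lt_of_le_of_lt
      (Finset.single_le_sum (fun i _ => sq_nonneg (q i - 1 / 2)) (Finset.mem_univ j)) h.2
    obtain ⟨a, b⟩ := abs_lt.1 (by simpa [abs_of_pos hr] using sq_lt_sq.1 h1 :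
      |q j - 1 / 2| < r)
    constructor <;> linarith
  rw [torusVol, measureReal_def, ← (measurePreserving_ins 0).measure_preimage
      ((isTorusSet_region _ r).1.inter measurableSet_cell).nullMeasurableSet, e,
    Measure.volume_eq_prod, Measure.prod_prod,
    (PiLp.volume_preserving_toLp (Fin 2)).measure_preimage measurableSet_ball.nullMeasurableSet,
    EuclideanSpace.volume_ball_fin_two, Finset.card_pair (by decide)]
  simp [Real.volume_Ico, ENNReal.toReal_mul, hr.le, Real.pi_nonneg]
  ring

end Region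

open Region

/-- The complement has at most the same perimeter. -/
theorem perim_compl_le {E : Set V3} (hE : IsTorusSet E) : perim Eᶜ ≤ perim E := by
  refine iSup₂_le fun X hX => le_iSup₂_of_le _ (IsField.neg hX) (ENNReal.ofReal_le_ofReal ?_)
  have hi := integrableOn_cell (continuous_divg hX.1)
  have h0 := integral_cell_divg hX.1 hX.2.1
  have e : Eᶜ ∩ cell = cell \ (E ∩ cell) := by ext x; simp; tauto
  rw [e, setIntegral_sdiff (hE.1.inter measurableSet_cell) hi inter_subset_right, h0]
  simp only [divg_neg, integral_neg]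
  simp

theorem isTorusSet_compl {E : Set V3} (hE : IsTorusSet E) : IsTorusSet Eᶜ :=
  ⟨hE.1.compl, fun x k => not_congr (hE.2 x k)⟩

theorem torusVol_compl {E : Set V3} (hE : IsTorusSet E) : torusVol Eᶜ = 1 - torusVol E := by
  have e : Eᶜ ∩ cell = cell \ (E ∩ cell) := by ext x; simp; tauto
  rw [torusVol, e, measureReal_sdiff inter_subset_right (hE.1.inter measurableSet_cell)
    (by simp [volume_cell]), measureReal_def, volume_cell]
  simp [torusVol]

theorem exists_region {v : ℝ} (hv : 0 < v) (hv2 : v ≤ 1 / 2) :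
    ∃ E, IsTorusSet E ∧ torusVol E = v ∧ perim E ≤ ENNReal.ofReal
      (min (min ((36 * Real.pi) ^ (1 / 3 : ℝ) * v ^ (2 / 3 : ℝ)) (2 * √(Real.pi * v))) 2) := by
  set B := (36 * Real.pi) ^ (1 / 3 : ℝ) * v ^ (2 / 3 : ℝ) with hBdef
  set T := 2 * √(Real.pi * v) with hTdef
  have hπ := Real.pi_pos
  have hπ3 := Real.pi_gt_three
  have hπ4 := Real.pi_lt_four
  have hB0 : 0 ≤ B := by positivity
  have hT0 : 0 < T := by positivity
  have hB3 : B ^ 3 = 36 * Real.pi * v ^ 2 := by
    rw [hBdef, mul_pow, ← Real.rpow_natCast (_ ^ (1 / 3 : ℝ)) 3, ← Real.rpow_mul (by positivity),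
      ← Real.rpow_natCast (_ ^ (2 / 3 : ℝ)) 3, ← Real.rpow_mul hv.le]
    norm_num
  have hT2 : T ^ 2 = 4 * (Real.pi * v) := by
    rw [hTdef, mul_pow, Real.sq_sqrt (by positivity)]; norm_num
  rcases le_total 2 (min B T) with h2 | h2
  · refine ⟨_, isTorusSet_region {0} (v / 2), ?_,
      (perim_region_le (half_pos hv) (by linarith) fun r => vol_slab).trans
        (ENNReal.ofReal_le_ofReal ?_)⟩
    · rw [vol_slab (half_pos hv) (by linarith)]; simp; ring
    · rw [min_eq_right h2]; simp; field_simp; norm_num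
  rw [min_eq_left h2]
  rcases le_total B T with hBT | hBT
  · rw [min_eq_left hBT] at h2 ⊢
    have hB : 0 < B := by
      refine hB0.lt_of_ne fun h => ?_
      rw [← h] at hB3
      have : 0 < 36 * Real.pi * v ^ 2 := by positivity
      linarith
    have hv' : v ≤ 4 * Real.pi / 81 := by
      have h1 := pow_le_pow_left₀ hB0 hBT 6
      have e1 : B ^ 6 = (36 * Real.pi * v ^ 2) ^ 2 := by rw [← hB3]; ring
      have e2 : T ^ 6 = (4 * (Real.pi * v)) ^ 3 := by rw [← hT2]; ring
      rw [e1, e2] at h1
      have h2' : 1296 * v * (Real.pi ^ 2 * v ^ 3) ≤ 64 * Real.pi * (Real.pi ^ 2 * v ^ 3) := by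
        linarith
      have h3 := le_of_mul_le_mul_right h2' (by positivity)
      linarith
    set R := 3 * v / B with hRdef
    have hR : 0 < R := by positivity
    have hvol : Real.pi * 4 / 3 * R ^ 3 = v := by
      rw [hRdef, div_pow, hB3]; field_simp; ring
    have hR2 : R < 1 / 2 := by
      by_contra hc
      rw [not_lt] at hc
      have := pow_le_pow_left₀ (by norm_num) hc 3
      nlinarith
    refine ⟨_, isTorusSet_region Finset.univ R, ?_,
      (perim_region_le hR hR2 fun r => vol_ball).trans (ENNReal.ofReal_le_ofReal ?_)⟩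
    · rw [vol_ball hR hR2, Finset.card_univ, Fintype.card_fin, hvol]
    · rw [Finset.card_univ, Fintype.card_fin, hvol, hRdef]; field_simp; norm_num
  · rw [min_eq_right hBT] at h2 ⊢
    set R := 2 * v / T with hRdef
    have hR : 0 < R := by positivity
    have hvol : Real.pi * R ^ 2 = v := by
      rw [hRdef, div_pow, hT2]; field_simp; ring
    have hR2 : R < 1 / 2 := by
      by_contra hc
      rw [not_lt] at hc
      have h1 := pow_le_pow_left₀ (by norm_num) hc 2
      have h3 := pow_le_pow_left₀ hT0.le h2 2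
      rw [hT2] at h3
      nlinarith
    refine ⟨_, isTorusSet_region {1, 2} R, ?_,
      (perim_region_le hR hR2 fun r => vol_tube).trans (ENNReal.ofReal_le_ofReal ?_)⟩
    · rw [vol_tube hR hR2, Finset.card_pair (by decide), hvol]
    · rw [Finset.card_pair (by decide), hvol, hRdef]; field_simp; norm_num

/-- Ball, tube, slab and their complements. -/
theorem attain : Attain := by
  intro V hV
  obtain ⟨E, hE, hvol, hper⟩ := exists_region (v := min V (1 - V))
    (lt_min hV.1 (by linarith [hV.2]))
    (by rcases le_total V (1 / 2) with h | h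
        · exact (min_le_left _ _).trans h
        · exact (min_le_right _ _).trans (by linarith))
  rcases le_total V (1 - V) with h | h
  · exact ⟨E, hE, by rw [hvol, min_eq_left h], hper⟩
  · refine ⟨Eᶜ, isTorusSet_compl hE, ?_, (perim_compl_le hE).trans hper⟩
    rw [torusVol_compl hE, hvol, min_eq_right h]; ring

end Vale.Agent.P232
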