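import Vale.Agent.P232.Slices

/-! # P232: the law of a sheet, calibrations by slices and the master inequalities -/

namespace Vale.Agent.P232

open MeasureTheory Set Filter Topology
open scoped ENNReal

namespace Calib

variable {D : Set V3}

/-- Sup of the heights at which the slice is larger than `s`. -/
noncomputable def inv (D : Set V3) (i : Fin 3) (s : ℝ) : ℝ :=
  volume.real {t : ℝ | t ∈ Ioo (0 : ℝ) 1 ∧ s < sliceA D i t}

theorem inv_antitone (D : Set V3) (i : Fin 3) : Antitone (inv D i) := fun _ _ hss =>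
  measureReal_mono (fun _ ht => ⟨ht.1, hss.trans_lt ht.2⟩)
    (ne_top_of_le_ne_top (by simp) (measure_mono (μ := volume) (t := Ioo (0 : ℝ) 1) fun _ h => h.1))

theorem le_inv (hD : IsDown D) (i : Fin 3) {s t : ℝ} (ht : t ∈ Ioo (0 : ℝ) 1)
    (h : s < sliceA D i t) : t ≤ inv D i s := by
  have := measureReal_mono (μ := volume) (s₁ := Ioc 0 t)
    (s₂ := {u : ℝ | u ∈ Ioo (0 : ℝ) 1 ∧ s < sliceA D i u})
    (fun u hu => ⟨⟨hu.1, hu.2.trans_lt ht.2⟩,
      h.trans_le (sliceA_antitone hD i ⟨hu.1, hu.2.trans_lt ht.2⟩ ht hu.2)⟩)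
    (ne_top_of_le_ne_top (by simp) (measure_mono (μ := volume) (t := Ioo (0 : ℝ) 1) fun _ h => h.1))
  rwa [Real.volume_real_Ioc_of_le ht.1.le, sub_zero] at this

theorem inv_le (hD : IsDown D) (i : Fin 3) {s t : ℝ} (ht : t ∈ Ioo (0 : ℝ) 1)
    (h : sliceA D i t ≤ s) : inv D i s ≤ t := by
  have := measureReal_mono (μ := volume) (s₂ := Ioo 0 t)
    (s₁ := {u : ℝ | u ∈ Ioo (0 : ℝ) 1 ∧ s < sliceA D i u})
    (fun u hu => ⟨hu.1.1, lt_of_not_ge fun hge =>
      (h.trans_lt hu.2).not_ge (sliceA_antitone hD i ht hu.1 hge)⟩)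
    (by simp)
  rwa [Real.volume_real_Ioo_of_le ht.1.le, sub_zero] at this

theorem inv_mem (hD : IsDown D) (i : Fin 3) {s : ℝ} (hs : s ∈ Ioo (endA1 D i) (endA0 D i)) :
    inv D i s ∈ Ioo (0 : ℝ) 1 := by
  obtain ⟨t, h1, h2⟩ := (((sliceA_tendsto_zero hD i).eventually (eventually_gt_nhds hs.2)).and
    (Ioo_mem_nhdsGT zero_lt_one)).exists
  obtain ⟨u, h3, h4⟩ := (((sliceA_tendsto_one hD i).eventually (eventually_lt_nhds hs.1)).and
    (Ioo_mem_nhdsLT zero_lt_one)).exists
  exact ⟨h2.1.trans_le (le_inv hD i h2 h1), (inv_le hD i h4 h3.le).trans_lt h4.2⟩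

theorem slice_inv (hD : IsDown D) (i : Fin 3) {s : ℝ} (hs : s ∈ Ioo (endA1 D i) (endA0 D i))
    (hc : ContinuousWithinAt (sliceA D i) (Ioo 0 1) (inv D i s)) :
    sliceA D i (inv D i s) = s := by
  have hτ := inv_mem hD i hs
  have hc' : ContinuousAt (sliceA D i) (inv D i s) :=
    hc.continuousAt (Ioo_mem_nhds hτ.1 hτ.2)
  refine le_antisymm ?_ ?_
  · refine le_of_tendsto (hc'.tendsto.mono_left (nhdsWithin_le_nhds (s := Ioi (inv D i s)))) ?_
    filter_upwards [Ioo_mem_nhdsGT hτ.2] with t ht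
    exact not_lt.1 fun h => ht.1.not_ge (le_inv hD i ⟨hτ.1.trans ht.1, ht.2⟩ h)
  · refine ge_of_tendsto (hc'.tendsto.mono_left (nhdsWithin_le_nhds (s := Iio (inv D i s)))) ?_
    filter_upwards [Ioo_mem_nhdsLT hτ.1] with t ht
    exact (not_le.1 fun h => ht.2.not_ge (inv_le hD i ⟨ht.1, ht.2.trans hτ.2⟩ h)).le

/-- The conditions characterising the law of the sheet. -/
def IsLaw (D : Set V3) (i : Fin 3) (μ : Measure ℝ) : Prop :=
  μ univ = ENNReal.ofReal (endA0 D i - endA1 D i) ∧ μ (Ioo 0 1)ᶜ = 0 ∧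
    (∀ t ∈ Ioo (0 : ℝ) 1, μ (Ioi t) ≤ ENNReal.ofReal (sliceA D i t - endA1 D i)) ∧
    ∀ y t : ℝ, t ∈ Ioo (0 : ℝ) 1 → y < t → ENNReal.ofReal (sliceA D i t - endA1 D i) ≤ μ (Ioi y)

theorem IsLaw.le {i : Fin 3} {μ ν : Measure ℝ} (hμ : IsLaw D i μ) (hν : IsLaw D i ν) (y : ℝ)
    (hy : y < 1) : ν (Ioi y) ≤ μ (Ioi y) := by
  have hy1 : max y 0 < 1 := max_lt hy one_pos
  obtain ⟨u, ha, hu, hl⟩ := exists_seq_strictAnti_tendsto' hy1
  have hU : (⋃ n, Ioi (u n)) = Ioi (max y 0) := by
    ext x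
    simp only [mem_iUnion, mem_Ioi]
    refine ⟨fun ⟨n, hn⟩ => (hu n).1.trans hn, fun hx => ?_⟩
    exact (hl.eventually (eventually_lt_nhds hx)).exists
  have hmono : Monotone fun n => Ioi (u n) := fun m n hmn => Ioi_subset_Ioi (ha.antitone hmn)
  calc ν (Ioi y) ≤ ν (Ioi (max y 0) ∪ (Ioo 0 1)ᶜ) := measure_mono fun x hx => by
        by_cases h : x ∈ Ioo (0 : ℝ) 1
        · exact Or.inl (max_lt (show y < x from hx) h.1)
        · exact Or.inr h
    _ ≤ ν (Ioi (max y 0)) + ν (Ioo 0 1)ᶜ := measure_union_le _ _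
    _ = ν (⋃ n, Ioi (u n)) := by rw [hν.2.1, add_zero, hU]
    _ = ⨆ n, ν (Ioi (u n)) := hmono.measure_iUnion
    _ ≤ μ (Ioi y) := iSup_le fun n => by
        have hn : u n ∈ Ioo (0 : ℝ) 1 := ⟨(le_max_right y 0).trans_lt (hu n).1, (hu n).2⟩
        exact (hν.2.2.1 _ hn).trans (hμ.2.2.2 y _ hn ((le_max_left y 0).trans_lt (hu n).1))

theorem IsLaw.unique {i : Fin 3} {μ ν : Measure ℝ} [IsFiniteMeasure μ] [IsFiniteMeasure ν]
    (hμ : IsLaw D i μ) (hν : IsLaw D i ν) : μ = ν := by
  refine Measure.ext_of_Iic μ ν fun y => ?_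
  have e : μ (Ioi y) = ν (Ioi y) := by
    rcases lt_or_ge y 1 with hy | hy
    · exact le_antisymm (hν.le hμ y hy) (hμ.le hν y hy)
    · have h : Ioi y ⊆ (Ioo (0 : ℝ) 1)ᶜ := fun x hx h => (hy.trans_lt hx).not_gt h.2
      rw [measure_mono_null h hμ.2.1, measure_mono_null h hν.2.1]
  rw [← compl_Ioi, measure_compl measurableSet_Ioi (measure_ne_top _ _),
    measure_compl measurableSet_Ioi (measure_ne_top _ _), e, hμ.1, hν.1]

theorem endA1_le_endA0 (D : Set V3) (i : Fin 3) : endA1 D i ≤ endA0 D i :=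
  measureReal_mono (fun _ hq => ⟨hq.1, by rw [hq.2]; exact one_pos⟩) (posSet_finite D i)

theorem isLaw_ext (hD : IsDown D) (i : Fin 3) :
    IsLaw D i ((volume.restrict {q | q ∈ square ∧ ext D i q ∈ Ioo (0 : ℝ) 1}).map (ext D i)) := by
  have hm := measurable_ext hD.1 i
  have hset : ∀ T : Set ℝ, MeasurableSet T →
      ((volume.restrict {q | q ∈ square ∧ ext D i q ∈ Ioo (0 : ℝ) 1}).map (ext D i)) T =
        volume {q | q ∈ square ∧ ext D i q ∈ Ioo (0 : ℝ) 1 ∧ ext D i q ∈ T} := fun T hT => by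
    rw [Measure.map_apply hm hT, Measure.restrict_apply (hm hT)]
    congr 1
    ext q
    simp only [mem_inter_iff, mem_preimage, mem_ofPred_eq]
    tauto
  have hfull : {q | q ∈ square ∧ ext D i q = 1} ⊆ {q | q ∈ square ∧ 0 < ext D i q} := fun q hq =>
    ⟨hq.1, by rw [hq.2]; exact one_pos⟩
  have hfm : MeasurableSet {q | q ∈ square ∧ ext D i q = 1} :=
    measurableSet_square.inter (hm (measurableSet_singleton 1))
  have key : ∀ S : Set (Fin 2 → ℝ), {q | q ∈ square ∧ ext D i q = 1} ⊆ S → volume S ≠ ⊤ →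
      volume (S \ {q | q ∈ square ∧ ext D i q = 1}) =
        ENNReal.ofReal (volume.real S - endA1 D i) := fun S h1 h2 => by
    rw [endA1, ← measureReal_sdiff h1 hfm h2, measureReal_def, ENNReal.ofReal_toReal
      (ne_top_of_le_ne_top h2 (measure_mono sdiff_subset))]
  refine ⟨?_, ?_, fun t ht => ?_, fun y t ht hy => ?_⟩
  · rw [hset univ MeasurableSet.univ, endA0, ← key _ hfull (posSet_finite D i)]
    congr 1
    ext q
    simp only [mem_univ, and_true, mem_Ioo, mem_ofPred_eq, Set.mem_sdiff, not_and]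
    exact ⟨fun h => ⟨⟨h.1, h.2.1⟩, fun _ => h.2.2.ne⟩,
      fun h => ⟨h.1.1, h.1.2, lt_of_le_of_ne (ext_le_one hD i q) (h.2 h.1.1)⟩⟩
  · rw [hset _ measurableSet_Ioo.compl]
    exact measure_mono_null (fun q hq => (hq.2.2 hq.2.1).elim) measure_empty
  · rw [hset _ measurableSet_Ioi, sliceA, ← key {q | i.insertNth t q ∈ D} (fun q hq => mem_of_lt_ext hD ht.1
      (by rw [hq.2]; exact ht.2)) (ne_top_of_le_ne_top ENNReal.one_ne_top (slice_volume_le hD i t))]
    exact measure_mono fun q hq => ⟨mem_of_lt_ext hD ht.1 hq.2.2, fun h => hq.2.1.2.ne h.2⟩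
  · rw [hset _ measurableSet_Ioi, sliceA, ← key {q | i.insertNth t q ∈ D} (fun q hq => mem_of_lt_ext hD ht.1
      (by rw [hq.2]; exact ht.2)) (ne_top_of_le_ne_top ENNReal.one_ne_top (slice_volume_le hD i t))]
    refine measure_mono fun q hq => ?_
    have hle := le_ext_of_mem hD hq.1
    have hsq := slice_subset hD i t hq.1
    exact ⟨hsq, ⟨ht.1.trans_le hle, lt_of_le_of_ne (ext_le_one hD i q) fun h => hq.2 ⟨hsq, h⟩⟩,
      hy.trans_le hle⟩

theorem isLaw_inv (hD : IsDown D) (i : Fin 3) :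
    IsLaw D i ((volume.restrict (Ioo (endA1 D i) (endA0 D i))).map (inv D i)) := by
  have hm := (inv_antitone D i).measurable
  have hset : ∀ T : Set ℝ, MeasurableSet T →
      ((volume.restrict (Ioo (endA1 D i) (endA0 D i))).map (inv D i)) T =
        volume (inv D i ⁻¹' T ∩ Ioo (endA1 D i) (endA0 D i)) := fun T hT => by
    rw [Measure.map_apply hm hT, Measure.restrict_apply (hm hT)]
  refine ⟨?_, ?_, fun t ht => ?_, fun y t ht hy => ?_⟩
  · rw [hset univ MeasurableSet.univ]
    simp [Real.volume_Ioo]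
  · rw [hset _ measurableSet_Ioo.compl]
    exact measure_mono_null (fun s hs => (hs.1 (inv_mem hD i hs.2)).elim) measure_empty
  · rw [hset _ measurableSet_Ioi, ← Real.volume_Ioo]
    exact measure_mono fun s hs =>
      ⟨hs.2.1, lt_of_not_ge fun h => (show t < inv D i s from hs.1).not_ge (inv_le hD i ht h)⟩
  · rw [hset _ measurableSet_Ioi, ← Real.volume_Ioo]
    exact measure_mono fun s hs => ⟨hy.trans_le (le_inv hD i ht hs.2),
      hs.1, hs.2.trans_le (sliceA_le_endA0 hD i ht)⟩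

end Calib

open Calib

/-- Proof of `SheetLaw`. -/
theorem sheetLaw : SheetLaw := by
  intro D hD i g hg
  have : IsFiniteMeasure
      (volume.restrict {q : Fin 2 → ℝ | q ∈ square ∧ ext D i q ∈ Ioo (0 : ℝ) 1}) :=
    isFiniteMeasure_restrict.2 (ne_top_of_le_ne_top (by simp [volume_square])
      (measure_mono (μ := volume) (show _ ⊆ square from fun q hq => hq.1)))
  have hm := (inv_antitone D i).measurable
  have hgi : Measurable fun x : V3 => g (x i) := hg.comp (measurable_pi_apply i)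
  calc ∫⁻ x, g (x i) ∂sheet D i
      = ∫⁻ y, g y ∂(volume.restrict {q | q ∈ square ∧ ext D i q ∈ Ioo (0 : ℝ) 1}).map (ext D i) := by
        rw [lintegral_sheet hD.1 i hgi, lintegral_map hg (measurable_ext hD.1 i)]
        simp
    _ = ∫⁻ y, g y ∂(volume.restrict (Ioo (endA1 D i) (endA0 D i))).map (inv D i) := by
        rw [(isLaw_ext hD i).unique (isLaw_inv hD i)]
    _ = _ := lintegral_map hg hm

/-- The slicing calibration, the three integrals kept apart. -/
theorem calib_le {D : Set V3} {h : ℝ} {c : Fin 3 → ℝ} (hst : Stationary D h c) {i : Fin 3}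
    {L B w : ℝ → ℝ} {Z : Set ℝ} (hL : LengthBound D i L) (hB : Measurable B) (hw : Measurable w)
    (hZ : MeasurableSet Z) (hbd : ∀ t, 0 ≤ B t ∧ 0 ≤ w t ∧ B t ^ 2 + w t ^ 2 ≤ 1)
    (hBZ : ∀ t ∈ Z, B t = 0) :
    (∫⁻ x, ENNReal.ofReal (B (x i)) ∂sheet D i)
      + (∫⁻ t in Ioo (0 : ℝ) 1 \ Z, ENNReal.ofReal (w t * L t))
      + (∫⁻ t in Ioo (0 : ℝ) 1 ∩ Z, ENNReal.ofReal (h * sliceA D i t + c i))
      ≤ ENNReal.ofReal (area D) := by
  have hxi : Measurable fun x : V3 => x i := measurable_pi_apply i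
  have hBx : Measurable fun x : V3 => ENNReal.ofReal (B (x i)) := (hB.comp hxi).ennreal_ofReal
  rw [← lintegral_mul_dens D i hBx, ofReal_area]
  have h1 : ∫⁻ t in Ioo (0 : ℝ) 1 \ Z, ENNReal.ofReal (w t * L t) ≤
      ∫⁻ x, Zᶜ.indicator (fun t => ENNReal.ofReal (w t)) (x i) * ENNReal.ofReal (dtan D i x)
        ∂surf D := by
    refine le_trans (le_of_eq ?_) (hL.2 _ (hw.ennreal_ofReal.indicator hZ.compl))
    rw [sdiff_eq, inter_comm, ← Measure.restrict_restrict hZ.compl, ← lintegral_indicator hZ.compl]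
    refine lintegral_congr fun t => ?_
    by_cases ht : t ∈ Z <;> simp [ht, ENNReal.ofReal_mul (hbd t).2.1]
  have h2 : ∫⁻ t in Ioo (0 : ℝ) 1 ∩ Z, ENNReal.ofReal (h * sliceA D i t + c i) =
      ∫⁻ x, Z.indicator 1 (x i) * ENNReal.ofReal (dtan D i x ^ 2 / dnorm D x) ∂surf D := by
    rw [hst.flux i _ (measurable_one.indicator hZ), inter_comm, ← Measure.restrict_restrict hZ,
      ← lintegral_indicator hZ]
    refine lintegral_congr fun t => ?_
    by_cases ht : t ∈ Z <;> simp [ht]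
  have m1 : Measurable fun x => ENNReal.ofReal (B (x i)) * ENNReal.ofReal (dens D i x) :=
    (hB.comp hxi).ennreal_ofReal.mul (measurable_dens D i).ennreal_ofReal
  have m2 : Measurable fun x =>
      Zᶜ.indicator (fun t => ENNReal.ofReal (w t)) (x i) * ENNReal.ofReal (dtan D i x) :=
    ((hw.ennreal_ofReal.indicator hZ.compl).comp hxi).mul (measurable_dtan D i).ennreal_ofReal
  refine (add_le_add (add_le_add le_rfl h1) h2.le).trans ?_
  have m12 : Measurable fun x => ENNReal.ofReal (B (x i)) * ENNReal.ofReal (dens D i x) +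
      Zᶜ.indicator (fun t => ENNReal.ofReal (w t)) (x i) * ENNReal.ofReal (dtan D i x) := m1.add m2
  rw [← lintegral_add_left m1, ← lintegral_add_left m12]
  refine lintegral_mono fun x => ?_
  obtain ⟨hB0, hw0, hBw⟩ := hbd (x i)
  have hρ := dens_nonneg D i x
  have hτ := dtan_nonneg D i x
  have hsq := dnorm_sq D i x
  by_cases hx : x i ∈ Z
  · simp only [indicator_of_notMem (notMem_compl_iff.2 hx), indicator_of_mem hx, hBZ _ hx,
      ENNReal.ofReal_zero, zero_mul, zero_add, Pi.one_apply, one_mul]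
    refine ENNReal.ofReal_le_ofReal (div_le_of_le_mul₀ (dnorm_nonneg D x) (dnorm_nonneg D x) ?_)
    nlinarith
  · simp only [indicator_of_mem (mem_compl hx), indicator_of_notMem hx, zero_mul, add_zero]
    rw [← ENNReal.ofReal_mul hB0, ← ENNReal.ofReal_mul hw0,
      ← ENNReal.ofReal_add (mul_nonneg hB0 hρ) (mul_nonneg hw0 hτ)]
    refine ENNReal.ofReal_le_ofReal (le_of_pow_le_pow_left₀ two_ne_zero (dnorm_nonneg D x) ?_)
    nlinarith [sq_nonneg (B (x i) * dtan D i x - w (x i) * dens D i x),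
      mul_nonneg (sub_nonneg.2 hBw) (add_nonneg (sq_nonneg (dens D i x)) (sq_nonneg (dtan D i x)))]

/-- Proof of `CalibGen` (there the last integral stands inside the middle one). -/
theorem calibGen : CalibGen := by
  intro D h c _ hst i L B w Z hL hB hw hZ hbd hBZ
  refine le_trans ?_ (calib_le hst hL hB hw hZ hbd hBZ)
  rw [lintegral_add_right _ measurable_const, setLIntegral_const, ← add_assoc]
  exact add_le_add le_rfl (mul_le_of_le_one_right' ((measure_mono sdiff_subset).trans (by simp)))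

namespace Calib

variable {D : Set V3}

theorem bfun_mem (F l : ℝ) : 0 ≤ bfun F l ∧ bfun F l ≤ 1 := by
  unfold bfun
  split_ifs
  · exact ⟨Real.sqrt_nonneg _, Real.sqrt_le_one.2 (by linarith [sq_nonneg (F / l)])⟩
  · simp

theorem measurable_bfun {F l : ℝ → ℝ} (hF : Measurable F) (hl : Measurable l) :
    Measurable fun t => bfun (F t) (l t) := by
  unfold bfun
  exact Measurable.ite (measurableSet_lt hF hl)
    (measurable_const.sub ((hF.div hl).pow_const 2)).sqrt measurable_const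

theorem lintegral_flux {h : ℝ} {c : Fin 3 → ℝ} (hD : IsDown D) (hst : Stationary D h c)
    (i : Fin 3) :
    ∫⁻ t in Ioo (0 : ℝ) 1, ENNReal.ofReal (h * sliceA D i t + c i) =
        ENNReal.ofReal (h * dvol D + c i) ∧ 0 ≤ h * dvol D + c i := by
  have hI : IntegrableOn (fun t => h * sliceA D i t + c i) (Ioo 0 1) :=
    ((integrableOn_sliceA hD i).const_mul h).add (integrableOn_const (by simp))
  have e : ∫ t in Ioo (0 : ℝ) 1, (h * sliceA D i t + c i) = h * dvol D + c i := by
    rw [integral_add ((integrableOn_sliceA hD i).const_mul h) (integrableOn_const (by simp)),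
      integral_const_mul, integral_sliceA hD i]
    simp
  refine ⟨?_, ?_⟩
  · rw [← ofReal_integral_eq_lintegral_ofReal hI
      ((ae_restrict_iff' measurableSet_Ioo).2 (ae_of_all _ (hst.fluxNonneg i))), e]
  · rw [← e]; exact setIntegral_nonneg measurableSet_Ioo (hst.fluxNonneg i)

end Calib

open scoped Classical in
/-- Proof of `MainIneq`. -/
theorem mainIneq : MainIneq := by
  intro D h c hD hst i ell hell hL
  set a := sliceA D i with ha
  set N := {t | t ∈ Ioo (0 : ℝ) 1 ∧ ¬ContinuousWithinAt a (Ioo 0 1) t} with hN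
  have hNc : N.Countable := (sliceA_antitone hD i).countable_not_continuousWithinAt
  set G := Ioo (0 : ℝ) 1 \ N with hG
  have hGm : MeasurableSet G := measurableSet_Ioo.diff hNc.measurableSet
  set F : ℝ → ℝ := fun t => h * a t + c i with hF
  set l : ℝ → ℝ := fun t => ell (a t) with hl
  have ham : Measurable a := measurable_sliceA hD.1 i
  have hFm : Measurable F := (ham.const_mul h).add measurable_const
  have hlm : Measurable l := hell.measurable.comp ham
  set B : ℝ → ℝ := G.piecewise (fun t => bfun (F t) (l t)) 1 with hB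
  set w : ℝ → ℝ := (G ∩ {t | F t < l t}).indicator fun t => F t / l t with hw
  set Z : Set ℝ := G ∩ {t | l t ≤ F t} with hZ
  have hFG : ∀ t ∈ G, 0 ≤ F t := fun t ht => hst.fluxNonneg i t ht.1
  have hbd : ∀ t, 0 ≤ B t ∧ 0 ≤ w t ∧ B t ^ 2 + w t ^ 2 ≤ 1 := by
    intro t
    by_cases ht : t ∈ G
    · by_cases hlt : F t < l t
      · have hl0 : 0 < l t := (hFG t ht).trans_lt hlt
        have h1 : F t / l t ≤ 1 := (div_le_one hl0).2 hlt.le
        have h2 : 0 ≤ F t / l t := div_nonneg (hFG t ht) hl0.le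
        simp only [hB, hw, piecewise_eq_of_mem _ _ _ ht,
          indicator_of_mem (show t ∈ G ∩ {t | F t < l t} from ⟨ht, hlt⟩), bfun, if_pos hlt]
        refine ⟨Real.sqrt_nonneg _, h2, ?_⟩
        rw [Real.sq_sqrt (by nlinarith)]
        linarith
      · simp [hB, hw, bfun, hlt, ht]
    · simp [hB, hw, ht]
  have hBZ : ∀ t ∈ Z, B t = 0 := fun t ht => by
    simp [hB, bfun, ht.1, not_lt.2 (show l t ≤ F t from ht.2)]
  have hZm : MeasurableSet Z := hGm.inter (measurableSet_le hlm hFm)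
  have hBm : Measurable B := (measurable_bfun hFm hlm).piecewise hGm measurable_one
  have hcal := calib_le (B := B) (w := w) (Z := Z) hst hL hBm
    ((hFm.div hlm).indicator (hGm.inter (measurableSet_lt hFm hlm))) hZm hbd hBZ
  have hrest : ∫⁻ t in Ioo (0 : ℝ) 1 \ Z, ENNReal.ofReal (w t * l t) =
      ∫⁻ t in Ioo (0 : ℝ) 1 \ Z, ENNReal.ofReal (F t) := by
    refine lintegral_congr_ae ((ae_restrict_iff' (measurableSet_Ioo.diff hZm)).2 ?_)
    filter_upwards [measure_eq_zero_iff_ae_notMem.1 (hNc.measure_zero volume)] with t htN ht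
    have hG' : t ∈ G := ⟨ht.1, htN⟩
    have hlt : F t < l t := not_le.1 fun hle => ht.2 ⟨hG', hle⟩
    rw [hw, indicator_of_mem (show t ∈ G ∩ {t | F t < l t} from ⟨hG', hlt⟩),
      div_mul_cancel₀ _ ((hFG t hG').trans_lt hlt).ne']
  obtain ⟨hflux, hnn⟩ := lintegral_flux hD hst i
  have hsplit : (∫⁻ t in Ioo (0 : ℝ) 1 \ Z, ENNReal.ofReal (F t))
      + (∫⁻ t in Ioo (0 : ℝ) 1 ∩ Z, ENNReal.ofReal (F t)) = ENNReal.ofReal (h * dvol D + c i) := by
    rw [add_comm, lintegral_inter_add_sdiff _ _ hZm, hflux]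
  rw [hrest, add_assoc, hsplit, sheetLaw D hD i _ hBm.ennreal_ofReal] at hcal
  set I : ℝ → ℝ := fun s => bfun (h * s + c i) (ell s) with hI
  have hIi : IntegrableOn I (Ioo (endA1 D i) (endA0 D i)) :=
    IntegrableOn.of_bound measure_Ioo_lt_top (measurable_bfun
      ((measurable_id.const_mul h).add measurable_const) hell.measurable).aestronglyMeasurable 1
      (ae_of_all _ fun s => by
        rw [Real.norm_eq_abs, abs_of_nonneg (bfun_mem _ _).1]; exact (bfun_mem _ _).2)
  have hsheet : ENNReal.ofReal (∫ s in endA1 D i..endA0 D i, I s) ≤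
      ∫⁻ s in Ioo (endA1 D i) (endA0 D i), ENNReal.ofReal (B (inv D i s)) := by
    rw [intervalIntegral.integral_of_le (endA1_le_endA0 D i), integral_Ioc_eq_integral_Ioo,
      ofReal_integral_eq_lintegral_ofReal hIi (ae_of_all _ fun s => (bfun_mem _ _).1)]
    refine setLIntegral_mono' measurableSet_Ioo fun s hs => ENNReal.ofReal_le_ofReal ?_
    by_cases ht : inv D i s ∈ G
    · have e := slice_inv hD i hs (not_not.1 fun hc => ht.2 ⟨ht.1, hc⟩)
      simp only [hB, piecewise_eq_of_mem _ _ _ ht, hF, hl, ha, e, hI]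
      exact le_rfl
    · simp only [hB, piecewise_eq_of_notMem _ _ _ ht, hI, Pi.one_apply]
      exact (bfun_mem _ _).2
  have hI0 : 0 ≤ ∫ s in endA1 D i..endA0 D i, I s :=
    intervalIntegral.integral_nonneg (endA1_le_endA0 D i) fun s _ => (bfun_mem _ _).1
  refine (ENNReal.ofReal_le_ofReal_iff (area_nonneg D)).1 ?_
  rw [ENNReal.ofReal_add hnn hI0, add_comm]
  exact (add_le_add hsheet le_rfl).trans hcal

/-- Proof of `QuadIneq`. -/
theorem quadIneq : QuadIneq := by
  intro D h c hD hst i β _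
  obtain ⟨hflux, hnn⟩ := lintegral_flux hD hst i
  have hfd0 : ∀ x, 0 ≤ dtan D i x ^ 2 / dnorm D x := fun x =>
    div_nonneg (sq_nonneg _) (dnorm_nonneg D x)
  have hfd1 : ∫ x, dtan D i x ^ 2 / dnorm D x ∂surf D = h * dvol D + c i := by
    rw [integral_eq_lintegral_of_nonneg_ae (ae_of_all _ hfd0)
      (((measurable_dtan D i).pow_const 2).div (measurable_dnorm D)).aestronglyMeasurable]
    have := hst.flux i 1 measurable_one
    simp only [Pi.one_apply, one_mul] at this
    rw [this, hflux, ENNReal.toReal_ofReal hnn]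
  have hd1 : ∫ x, dens D i x ∂surf D = endA0 D i - endA1 D i := by
    rw [integral_eq_lintegral_of_nonneg_ae (ae_of_all _ (dens_nonneg D i))
      (measurable_dens D i).aestronglyMeasurable]
    have := lintegral_mul_dens D i (F := fun x : V3 => (1 : ℝ≥0∞)) measurable_const
    simp only [one_mul] at this
    rw [this, sheetLaw D hD i (fun _ => 1) measurable_const]
    simp [Real.volume_Ioo, endA1_le_endA0 D i]
  have hle : ∀ x, dtan D i x ^ 2 / dnorm D x ≤ dnorm D x := fun x => by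
    refine div_le_of_le_mul₀ (dnorm_nonneg D x) (dnorm_nonneg D x) ?_
    nlinarith [dnorm_sq D i x, sq_nonneg (dens D i x)]
  have hfi : Integrable (fun x => dtan D i x ^ 2 / dnorm D x) (surf D) :=
    (integrable_dnorm D).mono'
      (((measurable_dtan D i).pow_const 2).div (measurable_dnorm D)).aestronglyMeasurable
      (ae_of_all _ fun x => by rw [Real.norm_eq_abs, abs_of_nonneg (hfd0 x)]; exact hle x)
  have hdi : Integrable (fun x => dens D i x) (surf D) :=
    Integrable.of_bound (measurable_dens D i).aestronglyMeasurable 1 (by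
      filter_upwards [dens_le_one D i] with x hx
      rwa [Real.norm_eq_abs, abs_of_nonneg (dens_nonneg D i x)])
  have key : ∀ x, dtan D i x ^ 2 / dnorm D x + 2 * β * dens D i x ≤
      (1 + β ^ 2) * dnorm D x := by
    intro x
    have hs := dnorm_sq D i x
    rcases (dnorm_nonneg D x).eq_or_lt with h0 | h0
    · rw [← h0] at hs
      have : dens D i x = 0 := by nlinarith [sq_nonneg (dtan D i x)]
      simp [← h0, this]
    · rw [div_add' _ _ _ h0.ne', div_le_iff₀ h0]
      nlinarith [sq_nonneg (dens D i x - β * dnorm D x)]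
  have hsum : Integrable (fun x => dtan D i x ^ 2 / dnorm D x + 2 * β * dens D i x) (surf D) :=
    hfi.add (hdi.const_mul (2 * β))
  have := integral_mono hsum ((integrable_dnorm D).const_mul (1 + β ^ 2)) key
  rw [integral_add hfi (hdi.const_mul _), integral_const_mul, integral_const_mul, hfd1, hd1] at this
  rw [show area D = ∫ x, dnorm D x ∂surf D from rfl]
  linarith

end Vale.Agent.P232
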