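import Vale.Agent.P232.Unfold

/-! # P232, module A: perimeter and volume of a lifted down-set -/

namespace Vale.Agent.P232

open MeasureTheory Set Filter Topology
open scoped ENNReal

namespace Unfold

theorem sgn_sq (b : Bool) : sgn b ^ 2 = 1 := by cases b <;> simp [sgn]

/-- The flux density of a field. -/
noncomputable def pairing (D : Set V3) (X : V3 → V3) (z : V3) : ℝ :=
  ∑ i, wav (fun y => X y i) i z * dens D i z

theorem integrable_wav_dens (D : Set V3) {X : V3 → V3} (hX : IsField X) (i : Fin 3) :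
    Integrable (fun z => wav (fun y => X y i) i z * dens D i z) (surf D) := by
  refine Integrable.of_bound ((continuous_wav (hX.comp i).1.continuous i).measurable.mul
    (measurable_dens D i)).aestronglyMeasurable 2 ?_
  filter_upwards [dens_le_one D i] with z hz
  rw [norm_mul, Real.norm_eq_abs, Real.norm_eq_abs, abs_of_nonneg (dens_nonneg D i z)]
  exact (mul_le_of_le_one_right (abs_nonneg _) hz).trans
    (abs_wav_le (fun y => hX.abs_le y i) i z)

theorem integral_divg_lift {D : Set V3} (hD : IsDown D) {X : V3 → V3} (hX : IsField X) :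
    ∫ x in lift D ∩ cell, divg X x = ∫ z, pairing D X z ∂surf D := by
  simp only [Torus.divg_eq hX.1, pairing]
  rw [integral_finsetSum _ fun i _ =>
      ((Torus.integrableOn_cell (Torus.continuous_partial (hX.comp i).1 i)).mono_set
        inter_subset_right).integrable,
    integral_finsetSum _ fun i _ => integrable_wav_dens D hX i]
  refine Finset.sum_congr rfl fun i _ => ?_
  rw [flux hD (hX.comp i).1 (hX.comp i).2 (fun y => hX.abs_le y i) i,
    ← integral_rnDeriv_smul (sheet_ac_surf D i)]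
  simp only [smul_eq_mul, mul_comm (((sheet D i).rnDeriv (surf D) _).toReal)]
  rfl

theorem pairing_le (D : Set V3) {X : V3 → V3} (hX : IsField X) (z : V3) :
    pairing D X z ≤ 2 * dnorm D z := by
  have h : ∀ σ : Fin 3 → Bool, ∑ i, sgn (σ i) * X (bs σ z) i * dens D i z ≤ dnorm D z := by
    intro σ
    refine (Real.sum_mul_le_sqrt_mul_sqrt _ _ _).trans (mul_le_of_le_one_left (dnorm_nonneg D z) ?_)
    rw [Real.sqrt_le_one]
    simpa [mul_pow, sgn_sq] using hX.2.2 (bs σ z)
  have e : pairing D X z = (∑ σ : Fin 3 → Bool, ∑ i, sgn (σ i) * X (bs σ z) i * dens D i z) / 4 := by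
    rw [Finset.sum_comm, Finset.sum_div]
    refine Finset.sum_congr rfl fun i _ => ?_
    rw [wav, div_mul_eq_mul_div, Finset.sum_mul]
  rw [e, div_le_iff₀ four_pos]
  refine ((Finset.sum_le_card_nsmul _ _ _ fun σ _ => h σ).trans_eq ?_)
  simp [Finset.card_univ]
  ring

theorem perim_lift_le {D : Set V3} (hD : IsDown D) :
    perim (lift D) ≤ ENNReal.ofReal (2 * area D) := by
  refine iSup₂_le fun X hX => ENNReal.ofReal_le_ofReal ?_
  rw [integral_divg_lift hD hX, area, ← integral_const_mul]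
  refine integral_mono ?_ ((integrable_dnorm D).const_mul 2) fun z => pairing_le D hX z
  exact integrable_finsetSum _ fun i _ => integrable_wav_dens D hX i

/-! ### Odd extension of a field given in the cube -/

/-- Sign of the fractional part relative to one half. -/
noncomputable def sg (t : ℝ) : ℝ := if Int.fract t < 1 / 2 then 1 else -1

/-- Odd extension to all of space. -/
noncomputable def oddExt (Y : V3 → V3) (x : V3) : V3 := fun i => sg (x i) * Y (fold x) i

theorem sg_sq (t : ℝ) : sg t ^ 2 = 1 := by unfold sg; split_ifs <;> norm_num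

theorem fd_eq (t : ℝ) : fd t = 2 * min (Int.fract t) (1 - Int.fract t) := by
  rw [fd, abs_sub_round_eq_min]

theorem locally_affine {t : ℝ} (h : fd t ∈ Ioo (0 : ℝ) 1) :
    ∃ a b c : ℝ, ∀ᶠ s in 𝓝 t, fd s = a * s + b ∧ sg s = c := by
  rw [fd_eq] at h
  have hr0 := Int.fract_nonneg t
  have hr1 := Int.fract_lt_one t
  have ht := Int.floor_add_fract t
  have hf : ∀ s : ℝ, (⌊t⌋ : ℝ) ≤ s → s < ⌊t⌋ + 1 → Int.fract s = s - ⌊t⌋ := fun s h1 h2 =>
    Int.fract_eq_iff.2 ⟨by linarith, by linarith, ⌊t⌋, by ring⟩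
  rcases lt_trichotomy (Int.fract t) (1 / 2) with hlt | heq | hgt
  · have hpos : 0 < Int.fract t := by
      rw [min_eq_left (by linarith)] at h
      linarith [h.1]
    refine ⟨2, -(2 * ⌊t⌋), 1, ?_⟩
    filter_upwards [Ioo_mem_nhds (show (⌊t⌋ : ℝ) < t by linarith)
      (show t < ⌊t⌋ + 1 / 2 by linarith)] with s hs
    rw [fd_eq, sg, hf s hs.1.le (by linarith [hs.2]), min_eq_left (by linarith [hs.2]),
      if_pos (by linarith [hs.2])]
    exact ⟨by ring, rfl⟩
  · rw [heq] at h
    norm_num at h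
  · refine ⟨-2, 2 + 2 * ⌊t⌋, -1, ?_⟩
    filter_upwards [Ioo_mem_nhds (show (⌊t⌋ : ℝ) + 1 / 2 < t by linarith)
      (show t < ⌊t⌋ + 1 by linarith)] with s hs
    rw [fd_eq, sg, hf s (by linarith [hs.1]) hs.2, min_eq_right (by linarith [hs.1]),
      if_neg (by linarith [hs.1])]
    exact ⟨by ring, rfl⟩

theorem contDiff_oddExt {Y : V3 → V3} (hY : ContDiff ℝ 1 Y) {δ : ℝ} (hδ : 0 < δ)
    (hs : ∀ z, (∃ j, z j ∉ Icc δ (1 - δ)) → Y z = 0) : ContDiff ℝ 1 (oddExt Y) := by
  refine contDiff_iff_contDiffAt.2 fun x => ?_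
  by_cases hx : ∀ j, fd (x j) ∈ Ioo (0 : ℝ) 1
  · choose a b c hev using fun j => locally_affine (hx j)
    have h1 : ∀ᶠ y : V3 in 𝓝 x, ∀ j, fd (y j) = a j * y j + b j ∧ sg (y j) = c j :=
      eventually_all.2 fun j => ((continuous_apply j).tendsto x).eventually (hev j)
    have h2 : oddExt Y =ᶠ[𝓝 x] fun y i => c i * Y (fun j => a j * y j + b j) i := by
      filter_upwards [h1] with y hy
      funext i
      rw [oddExt, (hy i).2, show fold y = fun j => a j * y j + b j from funext fun j => (hy j).1]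
    refine (ContDiff.contDiffAt (contDiff_pi.2 fun i => ?_)).congr_of_eventuallyEq h2
    exact contDiff_const.mul ((contDiff_pi.1 hY i).comp (contDiff_pi.2 fun j =>
      (contDiff_const.mul (contDiff_apply ℝ ℝ j)).add contDiff_const))
  · obtain ⟨j, hj⟩ := not_forall.1 hx
    have hout : fold x j ∉ Icc δ (1 - δ) := fun hm =>
      hj ⟨hδ.trans_le hm.1, lt_of_le_of_lt hm.2 (by linarith)⟩
    have h1 : ∀ᶠ y : V3 in 𝓝 x, fold y j ∉ Icc δ (1 - δ) :=
      ((continuous_apply j).comp lipschitz_fold.continuous).continuousAt.eventually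
        (isClosed_Icc.isOpen_compl.mem_nhds hout)
    have h2 : oddExt Y =ᶠ[𝓝 x] fun _ => 0 := by
      filter_upwards [h1] with y hy
      funext i
      rw [oddExt, hs (fold y) ⟨j, hy⟩]
      simp
    exact contDiffAt_const.congr_of_eventuallyEq h2

theorem isField_oddExt {Y : V3 → V3} (hY : ContDiff ℝ 1 Y) (hn : ∀ z, ∑ i, Y z i ^ 2 ≤ 1)
    {δ : ℝ} (hδ : 0 < δ) (hs : ∀ z, (∃ j, z j ∉ Icc δ (1 - δ)) → Y z = 0) :
    IsField (oddExt Y) := by
  refine ⟨contDiff_oddExt hY hδ hs, fun x k => ?_, fun x => ?_⟩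
  · funext i
    simp only [oddExt, fold_periodic x k]
    congr 1
    simp [sg]
  · simpa [oddExt, mul_pow, sg_sq] using hn (fold x)

theorem sg_bb (b : Bool) {t : ℝ} (h : t ∈ Ioo (0 : ℝ) 1) : sg (bb b t) = sgn b := by
  obtain ⟨h0, h1⟩ := h
  cases b
  · rw [bb_false, sg, Int.fract_eq_self.2 ⟨by linarith, by linarith⟩, if_neg (by linarith)]
    simp [sgn]
  · rw [bb_true, sg, Int.fract_eq_self.2 ⟨by linarith, by linarith⟩, if_pos (by linarith)]
    simp [sgn]

theorem wav_oddExt (Y : V3 → V3) (i : Fin 3) {z : V3} (hz : z ∈ cube) :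
    wav (fun y => oddExt Y y i) i z = 2 * Y z i := by
  have hz' := mem_cube_iff.1 hz
  have e : ∀ σ : Fin 3 → Bool, sgn (σ i) * oddExt Y (bs σ z) i = Y z i := fun σ => by
    have h1 : fold (bs σ z) = z := funext fun j => fd_bb _ (Ioo_subset_Icc_self (hz' j))
    have h2 : sg (bs σ z i) = sgn (σ i) := sg_bb _ (hz' i)
    rw [oddExt, h1, h2, ← mul_assoc, ← sq, sgn_sq, one_mul]
  simp only [wav, e]
  simp [Finset.card_univ]
  ring

theorem ae_mem_cube {D : Set V3} (hD : MeasurableSet D) : ∀ᵐ z ∂surf D, z ∈ cube := by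
  have hc : MeasurableSet cube := MeasurableSet.univ_pi fun _ => measurableSet_Ioo
  rw [ae_iff, surf, Measure.finsetSum_apply]
  refine Finset.sum_eq_zero fun i _ => ?_
  rw [show {z : V3 | ¬ z ∈ cube} = cubeᶜ from rfl, sheet,
    Measure.map_apply (measurable_graph hD i) hc.compl,
    Measure.restrict_apply (measurable_graph hD i hc.compl),
    show _ ∩ _ = (∅ : Set (Fin 2 → ℝ)) from ?_, measure_empty]
  exact eq_empty_of_forall_notMem fun q hq => hq.1 (insertNth_mem_cube.2 ⟨hq.2.2, hq.2.1⟩)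

theorem le_perim_lift_of_field {D : Set V3} (hD : IsDown D) {Y : V3 → V3} (hY : ContDiff ℝ 1 Y)
    (hn : ∀ z, ∑ i, Y z i ^ 2 ≤ 1) {δ : ℝ} (hδ : 0 < δ)
    (hs : ∀ z, (∃ j, z j ∉ Icc δ (1 - δ)) → Y z = 0) :
    ENNReal.ofReal (∫ z, 2 * ∑ i, Y z i * dens D i z ∂surf D) ≤ perim (lift D) := by
  refine le_iSup₂_of_le (oddExt Y) (isField_oddExt hY hn hδ hs) (ENNReal.ofReal_le_ofReal ?_)
  rw [integral_divg_lift hD (isField_oddExt hY hn hδ hs)]
  refine le_of_eq (integral_congr_ae ?_)
  filter_upwards [ae_mem_cube hD.1] with z hz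
  rw [pairing, Finset.mul_sum]
  refine Finset.sum_congr rfl fun i _ => ?_
  rw [wav_oddExt Y i hz, mul_assoc]

/-! ### The lower bound -/

/-- Radial map of space into the unit ball, fixed on the unit sphere and at the origin. -/
noncomputable def shrink (w : V3) : V3 := (2 / (1 + ∑ i, w i ^ 2)) • w

theorem contDiff_shrink : ContDiff ℝ 1 shrink := by
  unfold shrink
  have h : ContDiff ℝ 1 fun w : V3 => 1 + ∑ i, w i ^ 2 := by fun_prop
  refine (contDiff_const.div h fun w => ?_).smul contDiff_id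
  positivity

theorem shrink_norm (w : V3) : ∑ i, shrink w i ^ 2 ≤ 1 := by
  simp only [shrink, Pi.smul_apply, smul_eq_mul, mul_pow, ← Finset.mul_sum, div_pow]
  rw [div_mul_eq_mul_div, div_le_one (by positivity)]
  nlinarith [sq_nonneg (1 - ∑ i, w i ^ 2)]

/-- Smooth cutoff of the cube. -/
noncomputable def chi (n : ℕ) (z : V3) : ℝ :=
  ∏ j, Real.smoothTransition (((n : ℝ) + 1) * z j - 1) *
    Real.smoothTransition (((n : ℝ) + 1) * (1 - z j) - 1)

theorem contDiff_chi (n : ℕ) : ContDiff ℝ 1 (chi n) := by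
  unfold chi
  exact contDiff_prod fun j _ => ((Real.smoothTransition.contDiff (n := 1)).comp (by fun_prop)).mul
    ((Real.smoothTransition.contDiff (n := 1)).comp (by fun_prop))

theorem chi_mem (n : ℕ) (z : V3) : chi n z ∈ Icc (0 : ℝ) 1 :=
  ⟨Finset.prod_nonneg fun _ _ =>
      mul_nonneg (Real.smoothTransition.nonneg _) (Real.smoothTransition.nonneg _),
    Finset.prod_le_one (fun _ _ =>
      mul_nonneg (Real.smoothTransition.nonneg _) (Real.smoothTransition.nonneg _)) fun _ _ =>
      mul_le_one₀ (Real.smoothTransition.le_one _) (Real.smoothTransition.nonneg _)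
        (Real.smoothTransition.le_one _)⟩

theorem chi_eq_zero (n : ℕ) {z : V3}
    (h : ∃ j, z j ∉ Icc (((n : ℝ) + 1)⁻¹) (1 - ((n : ℝ) + 1)⁻¹)) : chi n z = 0 := by
  obtain ⟨j, hj⟩ := h
  have hN : (0 : ℝ) < (n : ℝ) + 1 := by positivity
  refine Finset.prod_eq_zero (Finset.mem_univ j) ?_
  rw [mem_Icc, not_and_or, not_le, not_le] at hj
  rcases hj with hj | hj
  · rw [Real.smoothTransition.zero_of_nonpos, zero_mul]
    have := mul_lt_mul_of_pos_left hj hN
    rw [mul_inv_cancel₀ hN.ne'] at this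
    linarith
  · rw [Real.smoothTransition.zero_of_nonpos (x := _ * (1 - z j) - 1), mul_zero]
    have := mul_lt_mul_of_pos_left (show 1 - z j < ((n : ℝ) + 1)⁻¹ by linarith) hN
    rw [mul_inv_cancel₀ hN.ne'] at this
    linarith

theorem tendsto_chi {z : V3} (hz : z ∈ cube) :
    Tendsto (fun n : ℕ => chi n z) atTop (𝓝 1) := by
  have hz' := mem_cube_iff.1 hz
  refine tendsto_const_nhds.congr' ?_
  have h : ∀ j, ∀ᶠ n : ℕ in atTop, 1 ≤ ((n : ℝ) + 1) * z j - 1 ∧
      1 ≤ ((n : ℝ) + 1) * (1 - z j) - 1 := fun j => by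
    filter_upwards [(tendsto_natCast_atTop_atTop (R := ℝ)).eventually_ge_atTop (2 / z j),
      (tendsto_natCast_atTop_atTop (R := ℝ)).eventually_ge_atTop (2 / (1 - z j))] with n h1 h2
    rw [div_le_iff₀ (hz' j).1] at h1
    rw [div_le_iff₀ (sub_pos.2 (hz' j).2)] at h2
    constructor <;> linarith [(hz' j).1, (hz' j).2]
  filter_upwards [eventually_all.2 h] with n hn
  rw [chi, Finset.prod_eq_one]
  intro j _
  rw [Real.smoothTransition.one_of_one_le (hn j).1, Real.smoothTransition.one_of_one_le (hn j).2,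
    mul_one]

theorem le_perim_lift {D : Set V3} (hD : IsDown D) :
    ENNReal.ofReal (2 * area D) ≤ perim (lift D) := by
  set u : V3 → V3 := fun z i => dens D i z / dnorm D z with hu
  have hu1 : ∀ z, ∑ i, u z i ^ 2 ≤ 1 := fun z => by
    simp only [hu, div_pow, ← Finset.sum_div]
    rw [show ∑ i, dens D i z ^ 2 = dnorm D z ^ 2 from
      (Real.sq_sqrt (Finset.sum_nonneg fun i _ => sq_nonneg _)).symm]
    exact div_self_le_one _
  have hub : ∀ z, ‖u z‖ ≤ 1 := fun z => (pi_norm_le_iff_of_nonneg zero_le_one).2 fun i => by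
    rw [Real.norm_eq_abs, ← sq_le_one_iff_abs_le_one]
    exact (Finset.single_le_sum (fun j _ => sq_nonneg (u z j)) (Finset.mem_univ i)).trans (hu1 z)
  have hum : Measurable u :=
    measurable_pi_iff.2 fun i => (measurable_dens D i).div (measurable_dnorm D)
  have hmem : MemLp u 1 (surf D) :=
    MemLp.of_bound hum.aestronglyMeasurable 1 (ae_of_all _ hub)
  choose g _ hg hgl using fun n : ℕ =>
    hmem.exist_eLpNorm_sub_le ENNReal.one_ne_top le_rfl (ε := ((n : ℝ) + 1)⁻¹) (by positivity)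
  have hg1 : ∀ n, ContDiff ℝ 1 (g n) := fun n => (hg n).of_le (by simp)
  have hlim : Tendsto (fun n => eLpNorm (g n - u) 1 (surf D)) atTop (𝓝 0) := by
    refine tendsto_of_tendsto_of_tendsto_of_le_of_le tendsto_const_nhds ?_
      (fun n => zero_le) (fun n => (eLpNorm_sub_comm _ _ _ _).trans_le (hgl n))
    have h0 : Tendsto (fun n : ℕ => ((n : ℝ) + 1)⁻¹) atTop (𝓝 0) := by
      simpa [one_div] using tendsto_one_div_add_atTop_nhds_zero_nat (𝕜 := ℝ)
    simpa using ENNReal.tendsto_ofReal h0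
  obtain ⟨ns, _, hns⟩ := (tendstoInMeasure_of_tendsto_eLpNorm one_ne_zero
    (fun n => (hg1 n).continuous.aestronglyMeasurable) hum.aestronglyMeasurable
      hlim).exists_seq_tendsto_ae
  set Y : ℕ → V3 → V3 := fun n z => chi n z • shrink (g (ns n) z) with hY
  have hYn : ∀ n z, ∑ i, Y n z i ^ 2 ≤ 1 := fun n z => by
    simp only [hY, Pi.smul_apply, smul_eq_mul, mul_pow, ← Finset.mul_sum]
    exact mul_le_one₀ (pow_le_one₀ (chi_mem n z).1 (chi_mem n z).2)
      (Finset.sum_nonneg fun i _ => sq_nonneg _) (shrink_norm _)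
  have hY1 : ∀ n, ContDiff ℝ 1 (Y n) := fun n =>
    (contDiff_chi n).smul (contDiff_shrink.comp (hg1 _))
  have hle : ∀ n, ENNReal.ofReal (∫ z, 2 * ∑ i, Y n z i * dens D i z ∂surf D) ≤ perim (lift D) :=
    fun n => le_perim_lift_of_field hD (hY1 n) (hYn n)
      (δ := ((n : ℝ) + 1)⁻¹) (by positivity) fun z hz => by simp [hY, chi_eq_zero n hz]
  suffices hT : Tendsto (fun n => ∫ z, 2 * ∑ i, Y n z i * dens D i z ∂surf D) atTop
      (𝓝 (2 * area D)) from le_of_tendsto' (ENNReal.tendsto_ofReal hT) hle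
  rw [area, ← integral_const_mul]
  refine tendsto_integral_of_dominated_convergence (fun _ => 6) (fun n => ?_)
    (integrable_const _) (fun n => ?_) ?_
  · have := (hY1 n).continuous.measurable
    have hd := fun i => measurable_dens D i
    exact (Measurable.const_mul (Finset.measurable_sum _ fun i _ =>
      ((measurable_pi_apply i).comp this).mul (hd i)) 2).aestronglyMeasurable
  · filter_upwards [ae_all_iff.2 (dens_le_one D)] with z hz
    have hb : ∀ i, |Y n z i * dens D i z| ≤ 1 := fun i => by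
      rw [abs_mul, abs_of_nonneg (dens_nonneg D i z)]
      refine mul_le_one₀ ?_ (dens_nonneg D i z) (hz i)
      rw [← sq_le_one_iff_abs_le_one]
      exact (Finset.single_le_sum (fun j _ => sq_nonneg (Y n z j)) (Finset.mem_univ i)).trans
        (hYn n z)
    rw [Real.norm_eq_abs, abs_mul, abs_two]
    have := (Finset.abs_sum_le_sum_abs (fun i => Y n z i * dens D i z) Finset.univ).trans
      (Finset.sum_le_card_nsmul _ _ 1 fun i _ => hb i)
    simp at this
    linarith
  · filter_upwards [hns, ae_mem_cube hD.1] with z hz hzc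
    have h1 : Tendsto (fun n => Y n z) atTop (𝓝 ((1 : ℝ) • shrink (u z))) :=
      (tendsto_chi hzc).smul ((contDiff_shrink.continuous.tendsto _).comp hz)
    have h2 : (2 * ∑ i, ((1 : ℝ) • shrink (u z)) i * dens D i z) = 2 * dnorm D z := by
      have hsq : dnorm D z ^ 2 = ∑ i, dens D i z ^ 2 :=
        Real.sq_sqrt (Finset.sum_nonneg fun i _ => sq_nonneg _)
      simp only [one_smul, shrink, Pi.smul_apply, smul_eq_mul, hu, div_pow, ← Finset.sum_div,
        ← hsq, mul_assoc, div_mul_eq_mul_div, ← sq, ← Finset.mul_sum]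
      rcases eq_or_ne (dnorm D z) 0 with h | h
      · simp [h]
      · rw [div_self (pow_ne_zero 2 h), pow_two, mul_div_cancel_right₀ _ h]; ring
    rw [← h2]
    exact (tendsto_finsetSum _ fun i _ =>
      (tendsto_pi_nhds.1 h1 i).mul_const (dens D i z)).const_mul 2

end Unfold

open Unfold

/-- Perimeter and volume of the lift. -/
theorem liftArea : LiftArea := fun _ hD =>
  ⟨isTorusSet_lift hD.1, le_antisymm (perim_lift_le hD) (le_perim_lift hD), torusVol_lift hD⟩

end Vale.Agent.P232
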