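import Vale.Agent.P232.Unsteiner
import Vale.Agent.P232.Lift

/-! # P232, module C4: every minimiser is a translated ball, tube, slab or complement of one -/

namespace Vale.Agent.P232

open MeasureTheory Set Filter Topology
open scoped ENNReal

theorem J_nonneg {V : ℝ} (hV : V ∈ Icc (0 : ℝ) 1) : 0 ≤ J V := by
  have hm : 0 ≤ min V (1 - V) := le_min hV.1 (by linarith [hV.2])
  unfold J
  exact le_min (le_min (by positivity) (by positivity)) zero_le_two

theorem J_symm (V : ℝ) : J (1 - V) = J V := by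
  simp [J, min_comm V (1 - V)]

theorem perim_congr {A B : Set V3} (h : A =ᵐ[volume] B) : perim A = perim B := by
  have e : ∀ f : V3 → ℝ, ∫ x in A ∩ cell, f x = ∫ x in B ∩ cell, f x := fun f =>
    setIntegral_congr_set (h.inter (EventuallyEq.refl _ cell))
  simp only [perim, e]

theorem torusVol_congr {A B : Set V3} (h : A =ᵐ[volume] B) : torusVol A = torusVol B :=
  measureReal_congr (h.inter (EventuallyEq.refl _ cell))

/-- A set of volume at most one half with perimeter at most the profile is a translated shape. -/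
theorem shape_of_perim_le (hLow : ∀ D, IsDown D → jQ (dvol D) ≤ area D) (hEq : EqCases)
    (hSh : Shapes) {E : Set V3} {V : ℝ} (hV0 : 0 < V) (hV2 : V ≤ 1 / 2) (hE : IsTorusSet E)
    (hvol : torusVol E = V) (hper : perim E ≤ ENNReal.ofReal (J V)) :
    ∃ (S : Finset (Fin 3)) (R : ℝ) (a : V3), S.Nonempty ∧ 0 < R ∧ R < 1 / 2 ∧
      E =ᵐ[volume] canon S R a := by
  have hJ : 0 ≤ J V := J_nonneg ⟨hV0.le, by linarith⟩
  have hfin : perim E ≠ ⊤ := ne_top_of_le_ne_top ENNReal.ofReal_ne_top hper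
  obtain ⟨hT1, hp1, hv1⟩ := steinerLe E 0 hE hfin
  set E1 := steiner 0 E
  obtain ⟨hT2, hp2, hv2⟩ := steinerLe E1 1 hT1 (ne_top_of_le_ne_top hfin hp1)
  set E2 := steiner 1 E1
  obtain ⟨-, hp3, hv3⟩ := steinerLe E2 2 hT2 (ne_top_of_le_ne_top hfin (hp2.trans hp1))
  set E3 := steiner 2 E2
  obtain ⟨D, hD, hED⟩ := steinerDown E hE
  obtain ⟨-, hpD, hvD⟩ := liftArea D hD
  have hDV : dvol D = V := by
    rw [← hvD, ← torusVol_congr hED, hv3, hv2, hv1, hvol]
  have hA2 : 2 * area D ≤ J V := by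
    have h := hp3.trans (hp2.trans (hp1.trans hper))
    rw [perim_congr hED, hpD] at h
    exact (ENNReal.ofReal_le_ofReal_iff hJ).1 h
  have hjQ : jQ (dvol D) = J V / 2 := by rw [jQ, hDV]
  have hA : area D = jQ (dvol D) := le_antisymm (by rw [hjQ]; linarith) (hLow D hD)
  have hmin : IsMin0 D := ⟨hD, hDV ▸ hV0, hDV ▸ hV2, hA, hLow⟩
  obtain ⟨S, R, hS, hR, hR2, hlift, hJeq⟩ := hSh D hD (hDV ▸ hV0) (hDV ▸ hV2) hA (hEq D hmin)
  rw [hDV] at hJeq
  have h3 : E3 =ᵐ[volume] canon S R 0 := hED.trans hlift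
  have hv0 : torusVol (canon S R 0) = V := by rw [← torusVol_congr h3, hv3, hv2, hv1, hvol]
  obtain ⟨b2, h2⟩ := unsteiner E2 S R 0 2 hT2 hS hR hR2 h3
    (by rw [hv0, ← hJeq]; exact hp2.trans (hp1.trans hper))
  have hv2' : torusVol (canon S R (Function.update 0 2 b2)) = V := by
    rw [← torusVol_congr h2, hv2, hv1, hvol]
  obtain ⟨b1, h1⟩ := unsteiner E1 S R _ 1 hT1 hS hR hR2 h2
    (by rw [hv2', ← hJeq]; exact hp1.trans hper)
  have hv1' : torusVol (canon S R (Function.update (Function.update 0 2 b2) 1 b1)) = V := by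
    rw [← torusVol_congr h1, hv1, hvol]
  obtain ⟨b0, h0⟩ := unsteiner E S R _ 0 hE hS hR hR2 h1 (by rw [hv1', ← hJeq]; exact hper)
  exact ⟨S, R, _, hS, hR, hR2, h0⟩

/-- Classification, given the lower bound, the equality cases and the shapes. -/
theorem classification_of (hLow : ∀ D, IsDown D → jQ (dvol D) ≤ area D) (hEq : EqCases)
    (hSh : Shapes) : Classification := by
  intro E V hV hE hvol hper
  rcases le_or_gt V (1 / 2) with h | h
  · obtain ⟨S, R, a, hS, hR, hR2, hEa⟩ := shape_of_perim_le hLow hEq hSh hV.1 h hE hvol hper.le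
    exact ⟨S, R, a, hS, hR, hR2, Or.inl hEa⟩
  · obtain ⟨S, R, a, hS, hR, hR2, hEa⟩ := shape_of_perim_le hLow hEq hSh (V := 1 - V)
      (by linarith [hV.2]) (by linarith) (isTorusSet_compl hE) (by rw [torusVol_compl hE, hvol])
      (by rw [J_symm, ← hper]; exact perim_compl_le hE)
    refine ⟨S, R, a, hS, hR, hR2, Or.inr ?_⟩
    have := hEa.compl
    rwa [compl_compl] at this

end Vale.Agent.P232
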