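import Vale.Agent.P232.Interface

/-! # P232: interfaces for the classification of minimisers (statements only)

C1 `Steiner`, C2 `Unsteiner`, C3a `EqCases`, C3b `Shapes`, C4 assembly. Paper proof: notes/P232_CLASSIFY.md.
-/

namespace Vale.Agent.P232

open MeasureTheory Set Filter Topology
open scoped ENNReal

/-- Distance to the nearest integer. -/
noncomputable def tdist (t : ℝ) : ℝ := |t - round t|

/-- For `S` of size 3, 2, 1: the ball about `a`, the tube about the coordinate line through `a`, the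
slab about the coordinate plane through `a`; `R` is the radius (half width). -/
noncomputable def canon (S : Finset (Fin 3)) (R : ℝ) (a : V3) : Set V3 :=
  {x | ∑ j ∈ S, tdist (x j - a j) ^ 2 < R ^ 2}

/-- Length of the intersection with the closed line through `x` in direction `i`. -/
noncomputable def lineLen (E : Set V3) (i : Fin 3) (x : V3) : ℝ :=
  volume.real {t : ℝ | t ∈ Ico (0 : ℝ) 1 ∧ Function.update x i t ∈ E}

/-- Steiner symmetrisation in direction `i` about the plane `x i = 0`. -/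
noncomputable def steiner (i : Fin 3) (E : Set V3) : Set V3 :=
  {x | tdist (x i) < lineLen E i x / 2}

/-! ## C1. Steiner symmetrisation -/

def SteinerLe : Prop :=
  ∀ (E : Set V3) (i : Fin 3), IsTorusSet E → perim E ≠ ⊤ →
    IsTorusSet (steiner i E) ∧ perim (steiner i E) ≤ perim E ∧
      torusVol (steiner i E) = torusVol E

/-- The triple symmetrisation is a lifted down-set. -/
def SteinerDown : Prop :=
  ∀ E : Set V3, IsTorusSet E →
    ∃ D, IsDown D ∧ steiner 2 (steiner 1 (steiner 0 E)) =ᵐ[volume] lift D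

/-! ## C2. Equality in one symmetrisation -/

def Unsteiner : Prop :=
  ∀ (F : Set V3) (S : Finset (Fin 3)) (R : ℝ) (a : V3) (i : Fin 3),
    IsTorusSet F → S.Nonempty → 0 < R → R < 1 / 2 →
    steiner i F =ᵐ[volume] canon S R a →
    perim F ≤ ENNReal.ofReal (S.card * torusVol (canon S R a) / R) →
    ∃ b : ℝ, F =ᵐ[volume] canon S R (Function.update a i b)

/-! ## C3. Down-sets of least area -/

/-- Minimiser of `area - jQ` with value zero. -/
def IsMin0 (D : Set V3) : Prop :=
  IsDown D ∧ 0 < dvol D ∧ dvol D ≤ 1 / 2 ∧ area D = jQ (dvol D) ∧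
    ∀ D', IsDown D' → jQ (dvol D') ≤ area D'

/-- `Variation` at value zero. -/
def Variation0 : Prop :=
  ∀ D, IsMin0 D → ∃ (h : ℝ) (c : Fin 3 → ℝ),
    hLo (dvol D) ≤ h ∧ h ≤ hHi (dvol D) ∧ Stationary D h c

def BallCase (D : Set V3) : Prop :=
  ∃ (h : ℝ) (c : Fin 3 → ℝ), Stationary D h c ∧ (∀ i, c i = 0) ∧ (∀ i, endA1 D i = 0) ∧
    area D ^ 3 = 9 * Real.pi / 2 * dvol D ^ 2

def TubeCase (D : Set V3) : Prop :=
  ∃ i, endA1 D i = dvol D ∧ (∀ j, j ≠ i → endA1 D j = 0) ∧ area D = √(Real.pi * dvol D)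

def SlabCase (D : Set V3) : Prop :=
  ∃ i j, i ≠ j ∧ endA1 D i = dvol D ∧ endA1 D j = dvol D ∧ area D = 1

/-- C3a: the strict lemmas at value zero. -/
def EqCases : Prop := ∀ D, IsMin0 D → BallCase D ∨ TubeCase D ∨ SlabCase D

/-- C3b: the shape in each case. -/
def Shapes : Prop :=
  ∀ D, IsDown D → 0 < dvol D → dvol D ≤ 1 / 2 → area D = jQ (dvol D) →
    BallCase D ∨ TubeCase D ∨ SlabCase D →
    ∃ (S : Finset (Fin 3)) (R : ℝ), S.Nonempty ∧ 0 < R ∧ R < 1 / 2 ∧
      lift D =ᵐ[volume] canon S R 0 ∧ J (dvol D) = S.card * dvol D / R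

/-! ## C4. Final statement -/

/-- Every minimiser is a translate of a ball, tube or slab, or of the complement of one. -/
def Classification : Prop :=
  ∀ (E : Set V3) (V : ℝ), V ∈ Ioo (0 : ℝ) 1 → IsTorusSet E → torusVol E = V →
    perim E = ENNReal.ofReal (J V) →
    ∃ (S : Finset (Fin 3)) (R : ℝ) (a : V3), S.Nonempty ∧ 0 < R ∧ R < 1 / 2 ∧
      (E =ᵐ[volume] canon S R a ∨ E =ᵐ[volume] (canon S R a)ᶜ)

end Vale.Agent.P232
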