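import Mathlib

/-! # P232: perimeter on the cubic torus and monotone down-sets in the unit cube -/

namespace Vale.Agent.P232

open MeasureTheory Set
open scoped ENNReal

/-- Coordinate space. -/
abbrev V3 := Fin 3 → ℝ

/-- Invariance of a function under integer translations. -/
def ZPeriodic {α : Type} (f : V3 → α) : Prop :=
  ∀ (x : V3) (k : Fin 3 → ℤ), f (x + fun i => (k i : ℝ)) = f x

/-- Measurable subsets of the torus, as invariant subsets of space. -/
def IsTorusSet (E : Set V3) : Prop :=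
  MeasurableSet E ∧ ∀ (x : V3) (k : Fin 3 → ℤ), (x + fun i => (k i : ℝ)) ∈ E ↔ x ∈ E

/-- Fundamental cell. -/
def cell : Set V3 := univ.pi fun _ => Ico (0 : ℝ) 1

/-- Divergence. -/
noncomputable def divg (X : V3 → V3) (x : V3) : ℝ := ∑ i, fderiv ℝ X x (Pi.single i 1) i

/-- Periodic `C^1` fields of Euclidean length at most one. -/
def IsField (X : V3 → V3) : Prop :=
  ContDiff ℝ 1 X ∧ ZPeriodic X ∧ ∀ x, ∑ i, X x i ^ 2 ≤ 1

/-- Volume of a torus set. -/
noncomputable def torusVol (E : Set V3) : ℝ := volume.real (E ∩ cell)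

/-- De Giorgi perimeter on the torus. -/
noncomputable def perim (E : Set V3) : ℝ≥0∞ :=
  ⨆ (X : V3 → V3) (_ : IsField X), ENNReal.ofReal (∫ x in E ∩ cell, divg X x)

/-- The conjectured profile, the least of ball, tube and slab. -/
noncomputable def J (V : ℝ) : ℝ :=
  min (min ((36 * Real.pi) ^ (1 / 3 : ℝ) * min V (1 - V) ^ (2 / 3 : ℝ))
    (2 * √(Real.pi * min V (1 - V)))) 2

/-! ## Down-sets in the open unit cube (octant of a symmetrised torus set, scaled by 2) -/

/-- Open unit cube. -/
def cube : Set V3 := univ.pi fun _ => Ioo (0 : ℝ) 1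

/-- Open unit square. -/
def square : Set (Fin 2 → ℝ) := univ.pi fun _ => Ioo (0 : ℝ) 1

/-- Measurable down-sets of the open cube. -/
def IsDown (D : Set V3) : Prop :=
  MeasurableSet D ∧ D ⊆ cube ∧ ∀ x ∈ D, ∀ y ∈ cube, y ≤ x → y ∈ D

/-- The torus set made of the eight reflected copies. -/
def lift (D : Set V3) : Set V3 := {x | (fun i => 2 * |x i - round (x i)|) ∈ D}

/-- Volume in the cube. -/
noncomputable def dvol (D : Set V3) : ℝ := volume.real D

/-- Extent of `D` in direction `i` over the point `q` of the face. -/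
noncomputable def ext (D : Set V3) (i : Fin 3) (q : Fin 2 → ℝ) : ℝ :=
  volume.real {t : ℝ | i.insertNth t q ∈ D}

/-- The part of the boundary inside the cube, seen in direction `i`. -/
noncomputable def sheet (D : Set V3) (i : Fin 3) : Measure V3 :=
  (volume.restrict {q | q ∈ square ∧ ext D i q ∈ Ioo (0 : ℝ) 1}).map
    fun q => i.insertNth (ext D i q) q

/-- Sum of the three sheets. -/
noncomputable def surf (D : Set V3) : Measure V3 := ∑ i, sheet D i

/-- Density of a sheet. -/
noncomputable def dens (D : Set V3) (i : Fin 3) (x : V3) : ℝ :=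
  ((sheet D i).rnDeriv (surf D) x).toReal

/-- Length of the density vector. -/
noncomputable def dnorm (D : Set V3) (x : V3) : ℝ := √(∑ i, dens D i x ^ 2)

/-- Length of the part of the density vector normal to the axis `i`. -/
noncomputable def dtan (D : Set V3) (i : Fin 3) (x : V3) : ℝ :=
  √(∑ j ∈ Finset.univ.erase i, dens D j x ^ 2)

/-- Relative perimeter in the cube. -/
noncomputable def area (D : Set V3) : ℝ := ∫ x, dnorm D x ∂surf D

/-- Area of a slice. -/
noncomputable def sliceA (D : Set V3) (i : Fin 3) (t : ℝ) : ℝ :=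
  volume.real {q : Fin 2 → ℝ | i.insertNth t q ∈ D}

/-- Trace area on the face `x i = 0`. -/
noncomputable def endA0 (D : Set V3) (i : Fin 3) : ℝ :=
  volume.real {q | q ∈ square ∧ 0 < ext D i q}

/-- Trace area on the face `x i = 1`. -/
noncomputable def endA1 (D : Set V3) (i : Fin 3) : ℝ :=
  volume.real {q | q ∈ square ∧ ext D i q = 1}

/-- A point with coordinates `i`, `k` prescribed. -/
noncomputable def pt3 (i k : Fin 3) (t r : ℝ) : V3 :=
  Function.update (Function.update (fun _ => 0) i t) k r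

/-- Width in direction `k`, at height `t` on axis `i`, of the trace on the face `x j = 1`. -/
noncomputable def faceW (D : Set V3) (i j k : Fin 3) (t : ℝ) : ℝ :=
  volume.real {r : ℝ | r ∈ Ioo (0 : ℝ) 1 ∧ ext D j (j.removeNth (pt3 i k t r)) = 1}

/-- The profile in cube units. -/
noncomputable def jQ (v : ℝ) : ℝ := J v / 2

/-- Ball to tube transition volume. -/
noncomputable def vBT : ℝ := 4 * Real.pi / 81

/-- Right derivative of `jQ` on `(0,1/2]`. -/
noncomputable def hLo (v : ℝ) : ℝ :=
  if v < vBT then 2 * jQ v / (3 * v) else if v < 1 / Real.pi then jQ v / (2 * v) else 0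

/-- Left derivative of `jQ` on `(0,1/2]`. -/
noncomputable def hHi (v : ℝ) : ℝ :=
  if v ≤ vBT then 2 * jQ v / (3 * v) else if v ≤ 1 / Real.pi then jQ v / (2 * v) else 0

/-- Minimiser of `area - jQ` with negative value and volume at most one half. -/
def IsMin (D : Set V3) : Prop :=
  IsDown D ∧ 0 < dvol D ∧ dvol D ≤ 1 / 2 ∧ area D < jQ (dvol D) ∧
    ∀ D', IsDown D' → area D - jQ (dvol D) ≤ area D' - jQ (dvol D')

/-- `L t` bounds from below the length of the slice at height `t` in direction `i`. -/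
def LengthBound (D : Set V3) (i : Fin 3) (L : ℝ → ℝ) : Prop :=
  Measurable L ∧ ∀ g : ℝ → ℝ≥0∞, Measurable g →
    ∫⁻ t in Ioo (0 : ℝ) 1, g t * ENNReal.ofReal (L t) ≤
      ∫⁻ x, g (x i) * ENNReal.ofReal (dtan D i x) ∂surf D

/-- Consequences of stationarity under stretching each axis. -/
structure Stationary (D : Set V3) (h : ℝ) (c : Fin 3 → ℝ) : Prop where
  flux : ∀ (i : Fin 3) (g : ℝ → ℝ≥0∞), Measurable g →
    ∫⁻ x, g (x i) * ENNReal.ofReal (dtan D i x ^ 2 / dnorm D x) ∂surf D =
      ∫⁻ t in Ioo (0 : ℝ) 1, g t * ENNReal.ofReal (h * sliceA D i t + c i)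
  fluxNonneg : ∀ (i : Fin 3) (t : ℝ), t ∈ Ioo (0 : ℝ) 1 → 0 ≤ h * sliceA D i t + c i
  unspanned : ∀ i, endA1 D i = 0 → c i = 0
  end0 : ∀ (i : Fin 3) (L : ℝ → ℝ), LengthBound D i L → ∀ l : ℝ,
    (∀ᶠ t in nhdsWithin 0 (Ioi 0), l ≤ L t) → l ≤ h * endA0 D i + c i
  end1 : ∀ (i : Fin 3) (L : ℝ → ℝ), LengthBound D i L → ∀ l : ℝ,
    (∀ᶠ t in nhdsWithin 1 (Iio 1), l ≤ L t) → l ≤ h * endA1 D i + c i
  sum_eq : 2 * area D = 3 * h * dvol D + ∑ i, c i

/-- Two-dimensional length bound with no information on the slice. -/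
noncomputable def ell3 (a : ℝ) : ℝ := min 1 (min √(Real.pi * a) √(Real.pi * (1 - a)))

/-- `∫ √(1 - k² y²)` over the unit interval. -/
noncomputable def phiK (k : ℝ) : ℝ := ∫ y in (0 : ℝ)..1, √(1 - k ^ 2 * y ^ 2)

/-- The calibration weight for flux `F` and slice length `l`. -/
noncomputable def bfun (F l : ℝ) : ℝ := if F < l then √(1 - (F / l) ^ 2) else 0

end Vale.Agent.P232
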