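import Vale.Agent.P232.KinkAux

/-! # P232: no minimiser at the ball-tube transition volume -/

namespace Vale.Agent.P232

open MeasureTheory Set Filter Topology

lemma sqrt_sq_sub_moment {r : ℝ} (hr : 0 ≤ r) :
    (∫ x in (0:ℝ)..r, x ^ 2 * √(r ^ 2 - x ^ 2)) =
      r ^ 2 / 4 * ∫ x in (0:ℝ)..r, √(r ^ 2 - x ^ 2) := by
  have key : (∫ x in (0:ℝ)..r, (r ^ 2 - 4 * x ^ 2) * √(r ^ 2 - x ^ 2)) =
      r * ((r ^ 2 - r ^ 2) * √(r ^ 2 - r ^ 2)) - 0 * ((r ^ 2 - 0 ^ 2) * √(r ^ 2 - 0 ^ 2)) := by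
    refine intervalIntegral.integral_eq_sub_of_hasDerivAt_of_le
      (f := fun x => x * ((r ^ 2 - x ^ 2) * √(r ^ 2 - x ^ 2))) hr (by fun_prop) ?_
      (Continuous.intervalIntegrable (by fun_prop) _ _)
    intro x hx
    have hpos : 0 < r ^ 2 - x ^ 2 := by nlinarith [hx.1, hx.2]
    have hd : HasDerivAt (fun x : ℝ => r ^ 2 - x ^ 2) (-(2 * x)) x := by
      simpa using ((hasDerivAt_pow 2 x).const_sub (r ^ 2))
    have := (hasDerivAt_id x).mul (hd.mul (hd.sqrt hpos.ne'))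
    refine HasDerivAt.congr_deriv this ?_
    simp only [Pi.mul_apply, id_eq]
    field_simp
    rw [Real.sq_sqrt hpos.le]
    ring
  simp only [sub_self, zero_mul, mul_zero] at key
  have h1 : ∀ x, (r ^ 2 - 4 * x ^ 2) * √(r ^ 2 - x ^ 2) =
      r ^ 2 * √(r ^ 2 - x ^ 2) - 4 * (x ^ 2 * √(r ^ 2 - x ^ 2)) := fun x => by ring
  simp only [h1] at key
  rw [intervalIntegral.integral_sub (Continuous.intervalIntegrable (by fun_prop) _ _)
    (Continuous.intervalIntegrable (by fun_prop) _ _), intervalIntegral.integral_const_mul,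
    intervalIntegral.integral_const_mul] at key
  linarith

lemma half_disc {r : ℝ} (hr : 0 < r) :
    (∫ x in (0:ℝ)..r, √(r ^ 2 - x ^ 2)) = Real.pi * r ^ 2 / 4 := by
  have h := integral_sqrt_one_sub_sq
  rw [← intervalIntegral.integral_add_adjacent_intervals (b := 0)
    (Continuous.intervalIntegrable (by fun_prop) _ _)
    (Continuous.intervalIntegrable (by fun_prop) _ _)] at h
  have hneg := intervalIntegral.integral_comp_neg (a := (0:ℝ)) (b := 1)
    (fun x : ℝ => √(1 - x ^ 2))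
  simp only [neg_sq, neg_zero] at hneg
  rw [← hneg] at h
  have hs := intervalIntegral.mul_integral_comp_mul_left (a := (0:ℝ)) (b := 1) (c := r)
    (f := fun x => √(r ^ 2 - x ^ 2))
  simp only [mul_zero, mul_one] at hs
  rw [← hs]
  have : ∀ x : ℝ, √(r ^ 2 - (r * x) ^ 2) = r * √(1 - x ^ 2) := fun x => by
    rw [show r ^ 2 - (r * x) ^ 2 = r ^ 2 * (1 - x ^ 2) by ring, Real.sqrt_mul (sq_nonneg r),
      Real.sqrt_sq hr.le]
  simp only [this, intervalIntegral.integral_const_mul]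
  linear_combination (r ^ 2 / 2) * h

/-- The sum of the two reflected factors. -/
lemma pair_sum_ge {r x : ℝ} (hr0 : 0 ≤ r) (hr : r ≤ 1) (hx : x ^ 2 ≤ 1) :
    3.464 - 0.636 * x ^ 2 ≤ √((2 + x) ^ 2 - r ^ 2) + √((2 - x) ^ 2 - r ^ 2) := by
  have hx1 : |x| ≤ 1 := (sq_le_one_iff_abs_le_one x).mp hx
  obtain ⟨hl, hu⟩ := abs_le.mp hx1
  have hr2 : r ^ 2 ≤ 1 := by nlinarith
  have ha : 0 ≤ (2 + x) ^ 2 - r ^ 2 := by nlinarith
  have hb : 0 ≤ (2 - x) ^ 2 - r ^ 2 := by nlinarith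
  have hp : 3 * (1 - x ^ 2) ≤ √((2 + x) ^ 2 - r ^ 2) * √((2 - x) ^ 2 - r ^ 2) := by
    rw [← Real.sqrt_mul ha]
    apply Real.le_sqrt_of_sq_le
    have h1 : ((2 + x) ^ 2 - 1) * ((2 - x) ^ 2 - 1) ≤
        ((2 + x) ^ 2 - r ^ 2) * ((2 - x) ^ 2 - r ^ 2) := by
      apply mul_le_mul (by linarith) (by linarith) (by nlinarith) ha
    nlinarith [mul_nonneg (sq_nonneg x) (sub_nonneg.mpr hx)]
  have hx2 := sq_nonneg x
  nlinarith [Real.sqrt_nonneg ((2 + x) ^ 2 - r ^ 2), Real.sqrt_nonneg ((2 - x) ^ 2 - r ^ 2),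
    Real.sq_sqrt ha, Real.sq_sqrt hb, mul_nonneg hx2 (sub_nonneg.mpr hx)]

lemma cap_integral_ge {r : ℝ} (hr : 0 < r) (hr1 : r ≤ 1) :
    2.5955 * r ^ 2 ≤ ∫ x in -r..r, √((r ^ 2 - x ^ 2) * ((2 + x) ^ 2 - r ^ 2)) := by
  have hsplit : ∀ x ∈ Icc (0:ℝ) r, √(r ^ 2 - x ^ 2) * (3.464 - 0.636 * x ^ 2) ≤
      √((r ^ 2 - x ^ 2) * ((2 + -x) ^ 2 - r ^ 2)) + √((r ^ 2 - x ^ 2) * ((2 + x) ^ 2 - r ^ 2)) := by
    intro x hx
    have h0 : 0 ≤ r ^ 2 - x ^ 2 := by nlinarith [hx.1, hx.2]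
    rw [Real.sqrt_mul h0, Real.sqrt_mul h0, ← mul_add]
    refine mul_le_mul_of_nonneg_left ?_ (Real.sqrt_nonneg _)
    rw [← sub_eq_add_neg, add_comm]
    exact pair_sum_ge hr.le hr1 (by nlinarith [hx.1, hx.2])
  have hneg := intervalIntegral.integral_comp_neg (a := (0:ℝ)) (b := r)
    (fun x : ℝ => √((r ^ 2 - x ^ 2) * ((2 + x) ^ 2 - r ^ 2)))
  simp only [neg_sq, neg_zero] at hneg
  rw [← intervalIntegral.integral_add_adjacent_intervals (b := 0)
    (Continuous.intervalIntegrable (by fun_prop) _ _)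
    (Continuous.intervalIntegrable (by fun_prop) _ _), ← hneg,
    ← intervalIntegral.integral_add (Continuous.intervalIntegrable (by fun_prop) _ _)
    (Continuous.intervalIntegrable (by fun_prop) _ _)]
  refine le_trans ?_ (intervalIntegral.integral_mono_on hr.le
    (Continuous.intervalIntegrable (by fun_prop) _ _)
    (Continuous.intervalIntegrable (by fun_prop) _ _) hsplit)
  have h2 : ∀ x, √(r ^ 2 - x ^ 2) * (3.464 - 0.636 * x ^ 2) =
      3.464 * √(r ^ 2 - x ^ 2) - 0.636 * (x ^ 2 * √(r ^ 2 - x ^ 2)) := fun x => by ring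
  simp only [h2]
  rw [intervalIntegral.integral_sub (Continuous.intervalIntegrable (by fun_prop) _ _)
    (Continuous.intervalIntegrable (by fun_prop) _ _), intervalIntegral.integral_const_mul,
    intervalIntegral.integral_const_mul, sqrt_sq_sub_moment hr.le, half_disc hr]
  have h3 : r ^ 2 ≤ 1 := by nlinarith
  nlinarith [mul_nonneg (mul_nonneg Real.pi_pos.le (sq_nonneg r)) (sub_nonneg.mpr h3),
    mul_le_mul_of_nonneg_right Real.pi_gt_d6.le (sq_nonneg r)]

/-- The integral of the weight with the free slice bound, after scaling. -/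
lemma free_weight_eq {h c r : ℝ} (hh : 0 < h) (hc : 0 ≤ c) (hr : 0 < r) (hr1 : r ≤ 1)
    (hrc : r ^ 2 = 1 - 4 * h * c / Real.pi) :
    (∫ s in Real.pi / (4 * h ^ 2) * (1 - r) ^ 2..Real.pi / (4 * h ^ 2) * (1 + r) ^ 2,
      bfun (h * s + c) √(Real.pi * s)) =
      Real.pi / (4 * h ^ 2) *
        ∫ x in -r..r, √((r ^ 2 - x ^ 2) * ((2 + x) ^ 2 - r ^ 2)) := by
  have hpi := Real.pi_pos
  have hmain := intervalIntegral.integral_comp_mul_deriv_of_deriv_nonneg (a := -r) (b := r)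
    (f := fun x => Real.pi / (4 * h ^ 2) * (1 + x) ^ 2)
    (f' := fun x => Real.pi / (4 * h ^ 2) * (2 * (1 + x)))
    (g := fun s => bfun (h * s + c) √(Real.pi * s)) (by fun_prop) (fun x _ => by
      simpa using (((hasDerivAt_id x).const_add 1).pow 2).const_mul (Real.pi / (4 * h ^ 2)))
    (fun x hx => by
      rw [min_eq_left (by linarith)] at hx
      have : 0 ≤ 1 + x := by linarith [hx.1]
      positivity)
  rw [show (1:ℝ) + -r = 1 - r by ring] at hmain
  rw [← hmain, ← intervalIntegral.integral_const_mul]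
  apply intervalIntegral.integral_congr_ae
  have hne : ∀ᵐ x : ℝ, x ≠ r := Measure.ae_ne volume r
  filter_upwards [hne] with x hxr hx
  rw [uIoc_of_le (by linarith)] at hx
  have hlt : x < r := lt_of_le_of_ne hx.2 hxr
  have hx1 : 0 < 1 + x := by linarith [hx.1]
  have hq : 0 < (r ^ 2 - x ^ 2) * ((2 + x) ^ 2 - r ^ 2) :=
    mul_pos (by nlinarith [hx.1]) (by nlinarith [hx.1])
  have hc' : c = Real.pi * (1 - r ^ 2) / (4 * h) := by
    rw [hrc]; field_simp; ring
  have hl : √(Real.pi * (Real.pi / (4 * h ^ 2) * (1 + x) ^ 2)) =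
      Real.pi / (2 * h) * (1 + x) := by
    rw [show Real.pi * (Real.pi / (4 * h ^ 2) * (1 + x) ^ 2) =
      (Real.pi / (2 * h) * (1 + x)) ^ 2 by field_simp; ring, Real.sqrt_sq (by positivity)]
  have hF : h * (Real.pi / (4 * h ^ 2) * (1 + x) ^ 2) + c =
      Real.pi / (2 * h) * ((1 + x) ^ 2 / 2 + (1 - r ^ 2) / 2) := by
    rw [hc']; field_simp; ring
  have hlt2 : (1 + x) ^ 2 / 2 + (1 - r ^ 2) / 2 < 1 + x := by nlinarith [hx.1]
  simp only [Function.comp, hl, hF]
  rw [bfun, if_pos (mul_lt_mul_of_pos_left hlt2 (by positivity)),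
    mul_div_mul_left _ _ (by positivity : Real.pi / (2 * h) ≠ 0)]
  have : √(1 - (((1 + x) ^ 2 / 2 + (1 - r ^ 2) / 2) / (1 + x)) ^ 2) * (2 * (1 + x)) =
      √((r ^ 2 - x ^ 2) * ((2 + x) ^ 2 - r ^ 2)) := by
    rw [← Real.sqrt_sq (by positivity : (0:ℝ) ≤ 2 * (1 + x))]
    rw [← Real.sqrt_mul' _ (sq_nonneg _)]
    congr 1
    field_simp
    ring
  rw [← this]
  ring

/-- The full integral of the free weight with no constant. -/
lemma free_weight_zero {h : ℝ} (hh : 0 < h) :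
    (∫ s in (0:ℝ)..Real.pi / h ^ 2, √(1 - h ^ 2 * s / Real.pi)) =
      2 * Real.pi / (3 * h ^ 2) := by
  have hpi := Real.pi_pos
  have key := intervalIntegral.integral_eq_sub_of_hasDerivAt_of_le (a := (0:ℝ))
    (b := Real.pi / h ^ 2)
    (f := fun s => -(2 * Real.pi / (3 * h ^ 2)) *
      ((1 - h ^ 2 * s / Real.pi) * √(1 - h ^ 2 * s / Real.pi)))
    (f' := fun s => √(1 - h ^ 2 * s / Real.pi)) (by positivity) (by fun_prop) ?_
    (Continuous.intervalIntegrable (by fun_prop) _ _)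
  · rw [key]
    field_simp
    simp
  · intro s hs
    have hpos : 0 < 1 - h ^ 2 * s / Real.pi := by
      have := (lt_div_iff₀ (by positivity)).mp hs.2
      rw [sub_pos, div_lt_one hpi]; linarith
    have hd : HasDerivAt (fun s : ℝ => 1 - h ^ 2 * s / Real.pi) (-(h ^ 2 / Real.pi)) s := by
      simpa using (((hasDerivAt_id s).const_mul (h ^ 2)).div_const Real.pi).const_sub 1
    have := (hd.mul (hd.sqrt hpos.ne')).const_mul (-(2 * Real.pi / (3 * h ^ 2)))
    refine HasDerivAt.congr_deriv this ?_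
    have hS := Real.sq_sqrt hpos.le
    have hS0 := Real.sqrt_pos.mpr hpos
    generalize √(1 - h ^ 2 * s / Real.pi) = S at *
    rw [← hS]
    field_simp
    ring

/-- Basic facts at the transition volume. -/
lemma bt_basic (hV : Variation) (hCN : CoefNonneg) {D : Set V3} (hmin : IsMin D)
    (hv : dvol D = vBT) :
    ∃ (h : ℝ) (c : Fin 3 → ℝ), Stationary D h c ∧ 9 / 4 ≤ h ∧ h ≤ 3 ∧
      area D < 2 * Real.pi / 9 ∧ (∀ i, 0 ≤ c i) ∧
      ∑ i, c i < 3 * (4 * Real.pi / 81) * (3 - h) := by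
  obtain ⟨h, c, hl, hh, hS⟩ := hV D hmin
  obtain ⟨hD, -, -, hA, -⟩ := hmin
  have hp := Real.pi_pos
  have hp1 := Real.pi_lt_d6
  have hp0 := Real.pi_gt_d6
  have hT : jQ vBT = 2 * Real.pi / 9 := by
    rw [jQ_eq_min (by unfold vBT; linarith)]
    have h1 : √(Real.pi * vBT) = 2 * Real.pi / 9 := by
      rw [show Real.pi * vBT = (2 * Real.pi / 9) ^ 2 by unfold vBT; ring,
        Real.sqrt_sq (by positivity)]
    have h2 : (36 * Real.pi) ^ (1 / 3 : ℝ) * vBT ^ (2 / 3 : ℝ) = 4 * Real.pi / 9 := by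
      unfold vBT
      rw [show (2 / 3 : ℝ) = (2:ℕ) * (1 / 3 : ℝ) by norm_num,
        Real.rpow_natCast_mul (by positivity), ← Real.mul_rpow (by positivity) (by positivity),
        show 36 * Real.pi * (4 * Real.pi / 81) ^ 2 = (4 * Real.pi / 9) ^ 3 by ring,
        show (1 / 3 : ℝ) = ((3:ℕ) : ℝ)⁻¹ by norm_num,
        Real.pow_rpow_inv_natCast (by positivity) (by norm_num)]
    rw [h1, h2, min_eq_left (by linarith : 4 * Real.pi / 9 / 2 ≤ 2 * Real.pi / 9),
      min_eq_left (by linarith : 4 * Real.pi / 9 / 2 ≤ 1)]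
    ring
  have hv' : dvol D = 4 * Real.pi / 81 := by rw [hv]; rfl
  have hlt : vBT < 1 / Real.pi := by
    unfold vBT; rw [lt_div_iff₀ hp]; nlinarith
  rw [hv, hT] at hA
  rw [hv] at hl hh
  have hl' : 9 / 4 ≤ h := by
    rw [hLo, if_neg (lt_irrefl _), if_pos hlt, hT] at hl
    refine le_trans (le_of_eq ?_) hl
    unfold vBT; field_simp; ring
  have hh' : h ≤ 3 := by
    rw [hHi, if_pos le_rfl, hT] at hh
    refine le_trans hh (le_of_eq ?_)
    unfold vBT; field_simp; ring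
  refine ⟨h, c, hS, hl', hh', hA, ?_, ?_⟩
  · refine hCN D h c hD hS (by linarith) (by linarith) ?_ ?_
    · rw [hv']; nlinarith [mul_le_mul hh' hh' (by linarith) (by norm_num : (0:ℝ) ≤ 3)]
    · rw [hv']; nlinarith
  · have := hS.sum_eq
    rw [hv'] at this
    linarith

/-- At the transition volume a spanned axis has a tiny full trace. -/
lemma bt_trace_small (hB : SliceBasics) (h3 : Slice3) {D : Set V3} (hD : IsDown D)
    (hv : dvol D = 4 * Real.pi / 81) {h : ℝ} {c : Fin 3 → ℝ} (hS : Stationary D h c) (i : Fin 3)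
    :
    √(Real.pi * endA1 D i) ≤ h * endA1 D i + c i := by
  obtain ⟨-, -, -, -, -, -, h0, h1, -, -⟩ := hB D hD i
  have := end1_continuous hB hD hS i continuous_ell3 _ (h3 D hD i)
    (Eventually.of_forall fun _ => le_rfl)
  have hp0 := Real.pi_gt_d6
  have hp1 := Real.pi_lt_d6
  have e1 : √(Real.pi * endA1 D i) ≤ 1 := Real.sqrt_le_one.mpr (by nlinarith)
  have e2 : √(Real.pi * endA1 D i) ≤ √(Real.pi * (1 - endA1 D i)) :=
    Real.sqrt_le_sqrt (by nlinarith)
  unfold ell3 at this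
  rwa [min_eq_left e2, min_eq_right e1] at this

lemma bt_two (hB : SliceBasics) (hF : FaceBasics) (hG : SliceGen) (hQ : QuadIneq) {D : Set V3}
    (hD : IsDown D) (hv : dvol D = 4 * Real.pi / 81) {h : ℝ} {c : Fin 3 → ℝ}
    (hS : Stationary D h c) (hl : 9 / 4 ≤ h) (hh : h ≤ 3) (hA : area D ≤ 2 * Real.pi / 9)
    {i j k : Fin 3} (hij : i ≠ j) (hik : i ≠ k) (hjk : j ≠ k) (hi : endA1 D i = 0)
    (hj : 0 < endA1 D j) (hk : 0 < endA1 D k) : False := by
  obtain ⟨-, -, -, -, -, -, -, -, hva, ha1⟩ := hB D hD i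
  have he := end0_both hB hF hG hD hS hij hik hjk hj hk
  rw [hS.unspanned i hi, add_zero] at he
  have hp := Real.pi_pos
  have hp0 := Real.pi_gt_d6
  have hp1 := Real.pi_lt_d6
  have hh0 : (0:ℝ) < h := by linarith
  rw [hv] at hva
  have hP0 := hQ D h c hD hS i 0 le_rfl
  rw [hS.unspanned i hi, hv] at hP0
  have hPpos : 0 < area D := by nlinarith
  have hq := hQ D h c hD hS i (endA0 D i / area D) (div_nonneg (by linarith [show 0 ≤ 4 * Real.pi / 81 by positivity]) hPpos.le)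
  rw [hS.unspanned i hi, hi, hv] at hq
  generalize endA0 D i = a at *
  have hPa : 0 ≤ a := by linarith [show 0 ≤ 4 * Real.pi / 81 by positivity]
  have he2 : Real.pi * (1 - a) ≤ (h * a) ^ 2 := (Real.sqrt_le_iff.mp he).2
  generalize area D = P at *
  have hsq : a ^ 2 ≤ P * (P - h * (4 * Real.pi / 81)) := by
    rw [sub_zero] at hq
    field_simp at hq
    nlinarith
  have hv3 : h * (4 * Real.pi / 81) ≤ 4 * Real.pi / 27 := by nlinarith
  have hT : a ^ 2 ≤ 2 * Real.pi / 9 * (2 * Real.pi / 9 - h * (4 * Real.pi / 81)) := by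
    nlinarith [mul_nonneg (sub_nonneg.mpr hA)
      (show 0 ≤ 2 * Real.pi / 9 + P - h * (4 * Real.pi / 81) by nlinarith)]
  have hpi2 : Real.pi ^ 2 < 9.8697 := by nlinarith
  have hR : a ^ 2 ≤ 4 * Real.pi ^ 2 / 81 * (1 - 2 * h / 9) := by linear_combination hT
  have ha : a < 0.495 := by nlinarith [mul_le_mul_of_nonneg_left hl (sq_nonneg Real.pi)]
  have hha : (h * a) ^ 2 ≤ 4 * Real.pi ^ 2 / 27 := by
    have h27 : h ^ 2 * (1 - 2 * h / 9) ≤ 3 := by
      nlinarith [mul_nonneg (sq_nonneg (h - 3)) (show (0:ℝ) ≤ 2 * h + 3 by linarith)]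
    nlinarith [mul_le_mul_of_nonneg_left hR (sq_nonneg h),
      mul_le_mul_of_nonneg_left h27 (sq_nonneg Real.pi)]
  nlinarith

/-- Square-root bound for a small full trace. -/
lemma small_trace {h a c : ℝ} (hh : h ≤ 3) (ha : 0 ≤ a)
    (hav : a ≤ 4 * Real.pi / 81) (hc : 0 ≤ c) (he : √(Real.pi * a) ≤ h * a + c) :
    √a * (1.772 - 3 * √a) ≤ c ∧ √a ≤ 0.394 := by
  have hq : √a ≤ 0.394 := Real.sqrt_le_iff.mpr ⟨by norm_num, by nlinarith [Real.pi_lt_d6]⟩
  have hsp : (1.772:ℝ) ≤ √Real.pi := Real.le_sqrt_of_sq_le (by nlinarith [Real.pi_gt_d6])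
  rw [Real.sqrt_mul Real.pi_pos.le] at he
  refine ⟨?_, hq⟩
  nlinarith [Real.sq_sqrt ha, mul_le_mul_of_nonneg_right hsp (Real.sqrt_nonneg a),
    mul_le_mul_of_nonneg_right hh ha]

lemma bt_three_num {h x a a1 : ℝ} (hl : 9 / 4 ≤ h) (hh : h ≤ 3) (hc0 : 0 ≤ x)
    (hx : x ≤ 0.1164) (hn : 0 ≤ a1) (hq : √a1 * (1.772 - 3 * √a1) ≤ x) (hq1 : √a1 ≤ 0.394)
    (hlin : a - a1 ≤ 0.767 - 0.12 * h - 0.77 * x)
    (he : √(Real.pi * (1 - a)) ≤ h * a + x) : False := by
  have hp := Real.pi_pos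
  have hp0 := Real.pi_gt_d6
  have hq0 := Real.sqrt_nonneg a1
  have hq2 : √a1 ≤ x / 0.59 := by
    rw [le_div_iff₀ (by norm_num)]
    nlinarith
  have ha1 : a1 ≤ 0.335 * x := by
    have hq3 : √a1 ≤ 0.1973 := by
      rw [le_div_iff₀ (by norm_num)] at hq2; linarith
    have hq4 : √a1 * √a1 ≤ x / 0.59 * 0.1973 := mul_le_mul hq2 hq3 hq0 (by positivity)
    rw [Real.mul_self_sqrt hn] at hq4
    norm_num at hq4 ⊢
    linarith
  have hb : a ≤ 0.767 - 0.12 * h - 0.435 * x := by linarith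
  have hs : h * a + x ≤ 1.225 := by
    have hh0 : (0:ℝ) ≤ h := by linarith
    have e1 := mul_le_mul_of_nonneg_left hb hh0
    have e2 := mul_nonneg (sub_nonneg.mpr hh) (show (0:ℝ) ≤ 0.407 - 0.12 * h by linarith)
    have e3 := mul_le_mul_of_nonneg_right hl hc0
    linarith
  have := Real.sqrt_le_iff.mp he
  have e4 := mul_le_mul hs hs this.1 (by norm_num : (0:ℝ) ≤ 1.225)
  have e5 : Real.pi * (1 - a) ≤ (h * a + x) * (h * a + x) := by rw [← sq]; exact this.2
  have e6 : 0.5025 ≤ 1 - a := by linarith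
  have e7 := mul_le_mul hp0.le e6 (by norm_num) hp.le
  linarith

lemma bt_three (hB : SliceBasics) (hF : FaceBasics) (hG : SliceGen) (h3 : Slice3) (hQ : QuadIneq)
    {D : Set V3} (hD : IsDown D) (hv : dvol D = 4 * Real.pi / 81) {h : ℝ} {c : Fin 3 → ℝ}
    (hS : Stationary D h c) (hl : 9 / 4 ≤ h) (hh : h ≤ 3) (hA : area D ≤ 2 * Real.pi / 9)
    {i j k : Fin 3} (hij : i ≠ j) (hik : i ≠ k) (hjk : j ≠ k) (hj : 0 < endA1 D j)
    (hk : 0 < endA1 D k) (hc0 : 0 ≤ c i) (hc : c i ≤ 4 * Real.pi / 81 * (3 - h)) : False := by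
  obtain ⟨-, -, -, -, -, -, hn, h1v, hva, ha1⟩ := hB D hD i
  have he := end0_both hB hF hG hD hS hij hik hjk hj hk
  have he1 := bt_trace_small hB h3 hD hv hS i
  rw [hv] at h1v hva
  have hp := Real.pi_pos
  have hp0 := Real.pi_gt_d6
  have hp1 := Real.pi_lt_d6
  generalize hcd : c i = x at *
  have hx : x ≤ 0.1164 := by nlinarith
  obtain ⟨hq, hq1⟩ := small_trace hh hn h1v hc0 he1
  have hP0 := hQ D h c hD hS i 0 le_rfl
  have hd0 : 0 ≤ endA0 D i - endA1 D i := by linarith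
  have hP0' : h * (4 * Real.pi / 81) ≤ area D := by rw [hcd, hv] at hP0; linarith
  have hPpos : 0 < area D := by nlinarith
  have hqd := hQ D h c hD hS i ((endA0 D i - endA1 D i) / area D) (by positivity)
  rw [hcd, hv] at hqd
  generalize area D = P at *
  generalize endA1 D i = a1 at *
  generalize endA0 D i = a at *
  have hsq : (a - a1) ^ 2 ≤ P * (P - h * (4 * Real.pi / 81) - x) := by
    field_simp at hqd
    nlinarith
  have hsum : h * (4 * Real.pi / 81) + x ≤ 4 * Real.pi / 27 := by linarith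
  have hT : (a - a1) ^ 2 ≤
      2 * Real.pi / 9 * (2 * Real.pi / 9 - h * (4 * Real.pi / 81) - x) := by
    nlinarith [mul_nonneg (sub_nonneg.mpr hA)
      (show 0 ≤ 2 * Real.pi / 9 + P - h * (4 * Real.pi / 81) - x by linarith)]
  have hlin : a - a1 ≤ 0.767 - 0.12 * h - 0.77 * x := by
    have hpl : (9.8696:ℝ) ≤ Real.pi ^ 2 := by nlinarith
    have hpu : Real.pi ^ 2 ≤ 9.8697 := by nlinarith
    have hh0 : (0:ℝ) ≤ h := by linarith
    nlinarith [sq_nonneg (a - a1 - 0.45), mul_le_mul_of_nonneg_right hpl hh0,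
      mul_le_mul_of_nonneg_right hp0.le hc0]
  exact bt_three_num hl hh hc0 hx hn hq hq1 hlin he

lemma bt_one_low_num {h x r : ℝ} (hl : 9 / 4 ≤ h) (hh : h ≤ 2.85)
    (hr2 : r ^ 2 = 1 - 4 * h * x / Real.pi)
    (hclt : x ≤ 3 * (4 * Real.pi / 81) * (3 - h)) (hr : 0 < r ^ 2)
    (hmain : Real.pi / (4 * h ^ 2) * (2.5955 * r ^ 2) ≤
      (h * (4 * Real.pi / 81) - Real.pi * (1 - r ^ 2) / (4 * h)) / 2) : False := by
  have hp := Real.pi_pos
  have hh0 : 0 < h := by linarith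
  have hineq : 2.5955 * r ^ 2 ≤ 8 * h ^ 3 / 81 - h * (1 - r ^ 2) / 2 := by
    have := mul_le_mul_of_nonneg_left hmain (show 0 ≤ 4 * h ^ 2 / Real.pi by positivity)
    field_simp at this ⊢
    linarith
  have hrlow : 1 - 16 / 27 * h * (3 - h) ≤ r ^ 2 := by
    rw [hr2]
    have : 4 * h * x / Real.pi ≤ 16 / 27 * h * (3 - h) := by
      rw [div_le_iff₀ hp]
      nlinarith [mul_le_mul_of_nonneg_left hclt hh0.le]
    linarith
  have hco : 0 < 2.5955 - h / 2 := by linarith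
  have e1 := mul_le_mul_of_nonneg_left hrlow hco.le
  rcases hl.eq_or_lt with he | hlt
  · subst he
    nlinarith [mul_pos hco hr]
  have hQ1 : 0 < -4 * h ^ 2 + 15.573 * h - 11.67975 := by
    linarith [mul_nonneg (sub_nonneg.mpr hl) (sub_nonneg.mpr hh)]
  have e2 := mul_pos (sub_pos.mpr hlt) hQ1
  linarith

lemma bt_one_low (hB : SliceBasics) (h3 : Slice3) (hSF : SliceFree) (hM : MainIneq) {D : Set V3}
    (hD : IsDown D) (hv : dvol D = 4 * Real.pi / 81) {h : ℝ} {c : Fin 3 → ℝ}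
    (hS : Stationary D h c) (hl : 9 / 4 ≤ h) (hh : h ≤ 2.85) {i : Fin 3}
    (hoth : ∀ j, j ≠ i → endA1 D j = 0) (hc0 : 0 ≤ c i) (hc : ∑ l, c l = c i)
    (hclt : c i ≤ 3 * (4 * Real.pi / 81) * (3 - h))
    (hne : 9 / 4 < h ∨ c i < 3 * (4 * Real.pi / 81) * (3 - h)) : False := by
  have hL := hSF D hD i hoth
  obtain ⟨-, -, -, -, -, -, hn, h1v, hva, ha1⟩ := hB D hD i
  have hh0 : 0 < h := by linarith
  have he0 := end0_continuous hB hD hS i (ell := fun a => √(Real.pi * a)) (by fun_prop) _ hL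
    (Eventually.of_forall fun _ => le_rfl)
  have he1 := bt_trace_small hB h3 hD hv hS i
  have hm := hM D h c hD hS i (fun a => √(Real.pi * a)) (by fun_prop) hL
  have hsum := hS.sum_eq
  rw [hv, hc] at hsum
  rw [hv] at h1v hva hm
  have hp := Real.pi_pos
  have hp0 := Real.pi_gt_d6
  have hp1 := Real.pi_lt_d6
  generalize c i = x at *
  have hr2pos : 0 < 1 - 4 * h * x / Real.pi := by
    rw [sub_pos, div_lt_one hp]
    rcases hne with hne | hne
    · nlinarith [mul_le_mul_of_nonneg_left hclt hh0.le,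
        mul_pos hp (mul_pos (sub_pos.mpr hne) (show (0:ℝ) < h - 3 / 4 by linarith))]
    · nlinarith [mul_lt_mul_of_pos_left hne hh0,
        mul_nonneg hp.le (mul_nonneg (sub_nonneg.mpr hl) (show (0:ℝ) ≤ h - 3 / 4 by linarith))]
  set r := √(1 - 4 * h * x / Real.pi) with hrdef
  have hr2 : r ^ 2 = 1 - 4 * h * x / Real.pi := Real.sq_sqrt hr2pos.le
  have hr : 0 < r := Real.sqrt_pos.mpr hr2pos
  have hr1 : r ≤ 1 := Real.sqrt_le_one.mpr (by
    have : 0 ≤ 4 * h * x / Real.pi := by positivity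
    linarith)
  set m := Real.pi / (4 * h ^ 2) * (1 - r) ^ 2 with hm'
  set M := Real.pi / (4 * h ^ 2) * (1 + r) ^ 2 with hM'
  have hx : x = Real.pi * (1 - r ^ 2) / (4 * h) := by rw [hr2]; field_simp; ring
  have hfac : ∀ s, (h * s + x) ^ 2 - Real.pi * s = h ^ 2 * ((s - m) * (s - M)) := by
    intro s; rw [hx, hm', hM']; field_simp; ring
  have hmM : m ≤ M :=
    mul_le_mul_of_nonneg_left (pow_le_pow_left₀ (by linarith) (by linarith) 2) (by positivity)
  have hlt : (h * (4 * Real.pi / 81) + x) ^ 2 < Real.pi * (4 * Real.pi / 81) := by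
    have : h * (4 * Real.pi / 81) + x < 2 * Real.pi / 9 := by rcases hne with hne | hne <;> nlinarith
    have h0 : 0 ≤ h * (4 * Real.pi / 81) + x := by positivity
    nlinarith [mul_lt_mul'' this this h0 h0]
  have hvm : m < 4 * Real.pi / 81 ∧ 4 * Real.pi / 81 < M := by
    have hprod : (4 * Real.pi / 81 - m) * (4 * Real.pi / 81 - M) < 0 := by
      rcases le_or_gt 0 ((4 * Real.pi / 81 - m) * (4 * Real.pi / 81 - M)) with h' | h'
      · nlinarith [hfac (4 * Real.pi / 81), mul_nonneg (sq_nonneg h) h']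
      · exact h'
    rcases mul_neg_iff.mp hprod with ⟨a, b⟩ | ⟨a, b⟩ <;> constructor <;> linarith
  have hin : ∀ a, 0 ≤ a → √(Real.pi * a) ≤ h * a + x → a ≤ m ∨ M ≤ a := by
    intro a ha he
    by_contra hcon
    rw [not_or, not_le, not_le] at hcon
    have := (Real.sqrt_le_iff.mp he).2
    have := mul_neg_of_pos_of_neg (sq_pos_of_pos hh0)
      (mul_neg_of_pos_of_neg (sub_pos.mpr hcon.1) (sub_neg.mpr hcon.2))
    linarith [hfac a]
  have hA1 : endA1 D i ≤ m := (hin _ hn he1).resolve_right (by linarith)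
  have hA0 : M ≤ endA0 D i := (hin _ (by linarith) he0).resolve_left (by linarith)
  have hint := intervalIntegral.integral_mono_interval (μ := volume) hA1 hmM hA0
    (f := fun s => bfun (h * s + x) √(Real.pi * s))
    (Eventually.of_forall fun _ => bfun_nonneg _ _)
    (intervalIntegrable_bfun (by fun_prop) (by fun_prop) _ _)
  rw [hm', hM', free_weight_eq hh0 hc0 hr hr1 hr2] at hint
  have hK := mul_le_mul_of_nonneg_left (cap_integral_ge hr hr1)
    (show 0 ≤ Real.pi / (4 * h ^ 2) by positivity)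
  have hmain : Real.pi / (4 * h ^ 2) * (2.5955 * r ^ 2) ≤
      (h * (4 * Real.pi / 81) - x) / 2 := by linarith
  rw [hx] at hmain
  exact bt_one_low_num hl hh hr2 hclt (pow_pos hr 2) hmain

/-- The bound on a slice meeting one spanned face, near the ball. -/
lemma sqrt_le_linear {s : ℝ} (h0 : 0 ≤ s) (h1 : s ≤ 0.3869) :
    √(Real.pi * s) ≤ max 1 (0.8943 + 0.7 * (s - 0.078)) := by
  have hp1 := Real.pi_lt_d6
  rcases le_or_gt (Real.pi * s) 1 with h | h
  · exact le_max_of_le_left (Real.sqrt_le_one.mpr h)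
  · refine le_max_of_le_right (Real.sqrt_le_iff.mpr ⟨by linarith, ?_⟩)
    have hs : 0.318 ≤ s := by nlinarith
    nlinarith [mul_nonneg (sub_nonneg.mpr hs) (sub_nonneg.mpr h1),
      mul_le_mul_of_nonneg_right hp1.le h0]

lemma bt_one_high (hB : SliceBasics) (hF : FaceBasics) (hG : SliceGen) (h3 : Slice3)
    (hE : SliceExtent) (hM : MainIneq) {D : Set V3} (hD : IsDown D)
    (hv : dvol D = 4 * Real.pi / 81) {h : ℝ} {c : Fin 3 → ℝ} (hS : Stationary D h c)
    (hl : 2.85 ≤ h) (hh3 : h < 3) (hA : area D ≤ 2 * Real.pi / 9)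
    {i j k : Fin 3} (hij : i ≠ j) (hik : i ≠ k) (hjk : j ≠ k) (hj : endA1 D j = 0)
    (hk : endA1 D k = 0) (hc0 : 0 ≤ c i)
    (hclt : c i ≤ 3 * (4 * Real.pi / 81) * (3 - h)) : False := by
  have hh : h ≤ 3 := hh3.le
  have hp := Real.pi_pos
  have hp0 := Real.pi_gt_d6
  have hp1 := Real.pi_lt_d6
  have hh0 : 0 < h := by linarith
  obtain ⟨-, -, -, -, -, -, hn, h1v, -, -⟩ := hB D hD i
  obtain ⟨-, hAm, -, -, -, -, -, -, hva, hA0le⟩ := hB D hD j
  rw [hv] at h1v hva
  have hWbound : h * endA1 D i + c i ≤ 0.078 := by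
    obtain ⟨hq, hq1⟩ := small_trace hh hn h1v hc0 (bt_trace_small hB h3 hD hv hS i)
    have hq0 := Real.sqrt_nonneg (endA1 D i)
    have hx : c i ≤ 0.0699 := by nlinarith
    have hq2 : √(endA1 D i) ≤ 0.119 := by nlinarith
    have hq3 : √(endA1 D i) ≤ 0.05 := by nlinarith
    nlinarith [Real.sq_sqrt hn]
  let ell : ℝ → ℝ := fun a => min √(Real.pi * a) (max 1 (0.8943 + 0.7 * (a - 0.078)))
  have hlc : Continuous ell := by fun_prop
  have hphi : (0.8943:ℝ) ≤ phiK 0.7 :=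
    le_trans (by norm_num) (phiK_ge (k := 0.7) (by norm_num) (by norm_num))
  have hL : LengthBound D j (fun t => ell (sliceA D j t)) := by
    refine hG D hD j i k hij.symm hjk hik _ (fun _ => 0.7) (hlc.measurable.comp hAm)
      measurable_const (fun _ => ⟨by norm_num, by norm_num⟩) fun t ht => ⟨?_, ?_, ?_, ?_⟩
    · exact fun _ _ => min_le_left _ _
    · intro _ hpos
      rw [faceW_eq_zero hF hD hjk hij.symm hik.symm hk t ht] at hpos
      exact absurd hpos (lt_irrefl _)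
    · intro _ _
      have hw : faceW D j i k t ≤ 0.078 :=
        le_trans (hS.end1 i _ (hE D hD i j k hij hik hjk hj t ht) _
          (Eventually.of_forall fun _ => le_rfl)) hWbound
      refine le_trans (min_le_right _ _) (max_le_max le_rfl ?_)
      linarith
    · intro _ hpos
      rw [faceW_eq_zero hF hD hjk hij.symm hik.symm hk t ht] at hpos
      exact absurd hpos (lt_irrefl _)
  have hN : Real.pi / h ^ 2 ≤ 0.3869 := by
    rw [div_le_iff₀ (by positivity)]; nlinarith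
  have hell : ∀ s, 0 ≤ s → s ≤ Real.pi / h ^ 2 → ell s = √(Real.pi * s) := fun s a b =>
    min_eq_left (sqrt_le_linear a (b.trans hN))
  have he0 := end0_continuous hB hD hS j hlc _ hL (Eventually.of_forall fun _ => le_rfl)
  rw [hS.unspanned j hj, add_zero] at he0
  have hapos : 0 < endA0 D j := by linarith [show 0 < 4 * Real.pi / 81 by positivity]
  have hbig : Real.pi / h ^ 2 ≤ endA0 D j := by
    by_contra hcon
    rw [not_le] at hcon
    rw [hell _ hapos.le hcon.le] at he0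
    have h2 := (Real.sqrt_le_iff.mp he0).2
    rw [lt_div_iff₀ (by positivity)] at hcon
    nlinarith [mul_lt_mul_of_pos_left hcon hapos]
  have hm := hM D h c hD hS j ell hlc hL
  rw [hS.unspanned j hj, hj, hv] at hm
  simp only [add_zero] at hm
  have hint := intervalIntegral.integral_mono_interval (μ := volume) le_rfl
    (show (0:ℝ) ≤ Real.pi / h ^ 2 by positivity) hbig
    (f := fun s => bfun (h * s) (ell s)) (Eventually.of_forall fun _ => bfun_nonneg _ _)
    (intervalIntegrable_bfun (by fun_prop) hlc.measurable _ _)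
  have heq : (∫ s in (0:ℝ)..Real.pi / h ^ 2, bfun (h * s) (ell s)) =
      2 * Real.pi / (3 * h ^ 2) := by
    rw [← free_weight_zero hh0]
    apply intervalIntegral.integral_congr_ae
    filter_upwards [Measure.ae_ne volume (Real.pi / h ^ 2)] with s hne hs
    rw [uIoc_of_le (by positivity)] at hs
    have hlt := (lt_div_iff₀ (by positivity)).mp (lt_of_le_of_ne hs.2 hne)
    have hF : h * s < √(Real.pi * s) := by
      rw [Real.lt_sqrt (by nlinarith [hs.1])]
      nlinarith [mul_lt_mul_of_pos_left hlt hs.1]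
    rw [hell s hs.1.le hs.2, bfun, if_pos hF, div_pow, Real.sq_sqrt (by nlinarith [hs.1])]
    have : s ≠ 0 := hs.1.ne'
    congr 2
    field_simp
  have hmain : 2 * Real.pi / (3 * h ^ 2) ≤ 2 * Real.pi / 9 - h * (4 * Real.pi / 81) := by linarith
  rw [div_le_iff₀ (by positivity)] at hmain
  have h27 : h ^ 2 * (1 - 2 * h / 9) < 3 := by
    nlinarith [mul_pos (pow_pos (sub_pos.mpr hh3) 2) (show (0:ℝ) < 2 * h + 3 by linarith)]
  nlinarith [mul_lt_mul_of_pos_left h27 hp]

theorem noMinBT (hV : Variation) (hCN : CoefNonneg) (hN : NoSpanBound) (hB : SliceBasics)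
    (hF : FaceBasics) (hG : SliceGen) (h3 : Slice3) (hSF : SliceFree) (hE : SliceExtent)
    (hM : MainIneq) (hQ : QuadIneq) : NoMinBT := by
  intro D hmin hvol
  obtain ⟨h, c, hS, hl, hh, hA, hc0, hsum⟩ := bt_basic hV hCN hmin hvol
  have hv : dvol D = 4 * Real.pi / 81 := hvol.trans rfl
  have hD := hmin.1
  have hn : ∀ l, 0 ≤ endA1 D l := fun l => by
    obtain ⟨-, -, -, -, -, -, h', -⟩ := hB D hD l
    exact h'
  have hle : ∀ l, c l ≤ ∑ m, c m := fun l =>
    Finset.single_le_sum (fun m _ => hc0 m) (Finset.mem_univ l)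
  by_cases h0 : ∀ l, endA1 D l = 0
  · have hb := hN D h c hD hS (by linarith) h0
    rw [hv] at hb
    have hP : area D ^ 3 < (2 * Real.pi / 9) ^ 3 := by
      rcases le_or_gt (area D) 0 with hneg | hpos
      · have : area D ^ 3 ≤ 0 := by nlinarith [sq_nonneg (area D)]
        have : 0 < (2 * Real.pi / 9) ^ 3 := by positivity
        linarith
      · exact pow_lt_pow_left₀ hA hpos.le (by norm_num)
    nlinarith
  obtain ⟨i, hi'⟩ := not_forall.mp h0
  have hi : 0 < endA1 D i := lt_of_le_of_ne (hn i) (Ne.symm hi')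
  obtain ⟨j, k, hij, hik, hjk, hall, hsum3⟩ := three_axes i
  rcases (hn j).eq_or_lt' with hj | hj <;> rcases (hn k).eq_or_lt' with hk | hk
  · have hoth : ∀ l, l ≠ i → endA1 D l = 0 := fun l hl' => by
      rcases hall l with rfl | rfl | rfl
      · exact absurd rfl hl'
      · exact hj
      · exact hk
    have hci : ∑ l, c l = c i := by
      rw [hsum3 c, hS.unspanned j hj, hS.unspanned k hk]; ring
    rw [hci] at hsum
    rcases le_or_gt h 2.85 with hlow | hhigh
    · exact bt_one_low hB h3 hSF hM hD hv hS hl hlow hoth (hc0 i) hci hsum.le (Or.inr hsum)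
    · exact bt_one_high hB hF hG h3 hE hM hD hv hS hhigh.le (by nlinarith [hc0 i, Real.pi_pos])
        hA.le hij hik hjk hj hk (hc0 i) hsum.le
  · exact bt_two hB hF hG hQ hD hv hS hl hh hA.le hij.symm hjk hik hj hi hk
  · exact bt_two hB hF hG hQ hD hv hS hl hh hA.le hik.symm hjk.symm hij hk hi hj
  · rw [hsum3 c] at hsum
    rcases le_total (c i) (c j) with h1 | h1 <;> rcases le_total (c i) (c k) with h2 | h2 <;>
      rcases le_total (c j) (c k) with h4 | h4
    all_goals first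
      | exact bt_three hB hF hG h3 hQ hD hv hS hl hh hA.le hij hik hjk hj hk (hc0 i) (by linarith)
      | exact bt_three hB hF hG h3 hQ hD hv hS hl hh hA.le hij.symm hjk hik hi hk (hc0 j)
          (by linarith)
      | exact bt_three hB hF hG h3 hQ hD hv hS hl hh hA.le hik.symm hjk.symm hij hi hj (hc0 k)
          (by linarith)

end Vale.Agent.P232
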