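import Vale.Agent.P232.KinkAux

/-! # P232: the tube-slab transition volume, all cases but two spanned axes -/

namespace Vale.Agent.P232

open MeasureTheory Set Filter Topology

lemma slab_three_low {S k u : ℝ} (hk0 : 0 ≤ k) (hk : k ≤ 1 / 2) (hu0 : 0 ≤ u) (hS : S ≤ 2 / 3)
    (hc : u + k * (1 - u ^ 2) ≤ S) (hu2 : u ≤ 2 / 3) :
    (1.309 + 3.1416 * k) * (2.721 * S - 1 + u ^ 2) < 3.14159 * (1.4634 - S) := by
  rcases le_or_gt u 0.2 with hu1 | hu1
  · nlinarith [mul_nonneg hk0 hu0, sub_nonneg.2 hS, sub_nonneg.2 hk,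
      mul_nonneg (sub_nonneg.2 hk) hu0]
  · nlinarith [mul_nonneg hk0 (sub_nonneg.2 hu1.le), sub_nonneg.2 hS,
      mul_nonneg hk0 (sub_nonneg.2 hS), mul_nonneg (sub_nonneg.2 hu1.le) (sub_nonneg.2 hu2),
      mul_nonneg (sub_nonneg.2 hk) (sub_nonneg.2 hu1.le)]

lemma slab_three_mid {S k u : ℝ} (hk0 : 0 ≤ k) (hk : k ≤ 1 / 2) (hu0 : 0 ≤ u) (hu1 : u ≤ 1)
    (hS0 : 2 / 3 ≤ S) (hS : S ≤ 0.8) (hc : u + k * (1 - u ^ 2) ≤ S) :
    (1.309 + 3.1416 * k) * (3.1416 * (1.1548 - 0.866 * S) - 1 + u ^ 2) <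
      3.14159 * (1.4634 - S) := by
  rcases le_or_gt u 0.2 with h | h
  · nlinarith [mul_nonneg hk0 hu0, sub_nonneg.2 hS, sub_nonneg.2 hk,
      mul_nonneg (sub_nonneg.2 hk) hu0]
  rcases le_or_gt u 0.45 with h' | h'
  · nlinarith [mul_nonneg hk0 (sub_nonneg.2 h.le), mul_nonneg hk0 (sub_nonneg.2 h'),
      mul_nonneg hk0 (sub_nonneg.2 hS0), mul_nonneg hk0 (sub_nonneg.2 hS),
      mul_nonneg (sub_nonneg.2 h.le) (sub_nonneg.2 h'),
      mul_nonneg (sub_nonneg.2 hk) (sub_nonneg.2 h.le),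
      mul_nonneg (sub_nonneg.2 hk) (sub_nonneg.2 hS0)]
  have huS : u ≤ S := by nlinarith [mul_nonneg hk0 (sub_nonneg.2 hu1)]
  have hk2 : k * 1.45 ≤ (S - 0.45) / 0.55 := by
    rw [le_div_iff₀ (by norm_num)]
    refine le_of_mul_le_mul_right ?_ (show (0:ℝ) < 1 - u by linarith)
    nlinarith [mul_nonneg (sub_nonneg.2 h'.le) (show (0:ℝ) ≤ 1 - S by linarith),
      mul_nonneg (mul_nonneg hk0 (sub_nonneg.2 hu1)) (sub_nonneg.2 h'.le)]
  nlinarith [mul_nonneg hk0 (sub_nonneg.2 h'.le), mul_nonneg hk0 (sub_nonneg.2 huS),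
    mul_nonneg hk0 (sub_nonneg.2 hS0), mul_nonneg hk0 (sub_nonneg.2 hS),
    mul_nonneg (sub_nonneg.2 h'.le) (sub_nonneg.2 huS),
    mul_nonneg (sub_nonneg.2 hk2) (sub_nonneg.2 h'.le),
    mul_nonneg (sub_nonneg.2 hk2) (sub_nonneg.2 hS),
    mul_nonneg (sub_nonneg.2 hc) (sub_nonneg.2 h'.le)]

lemma slab_three_high {S k u : ℝ} (hk0 : 0 ≤ k) (hk : k ≤ 1 / 2) (hu0 : 0 ≤ u) (hu1 : u ≤ 1)
    (hS0 : 0.8 ≤ S) (hS : S ≤ 0.94) (hc : u + k * (1 - u ^ 2) ≤ S) :
    (1.309 + 3.1416 * k) * (3.1416 * (1.7393 - 1.5811 * S) - 1 + u ^ 2) <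
      3.14159 * (1.4634 - S) := by
  rcases le_or_gt u 0.55 with h | h
  · nlinarith [mul_nonneg hk0 hu0, mul_nonneg hk0 (sub_nonneg.2 h),
      mul_nonneg hk0 (sub_nonneg.2 hS0), mul_nonneg hk0 (sub_nonneg.2 hS),
      mul_nonneg hu0 (sub_nonneg.2 h), mul_nonneg (sub_nonneg.2 hk) hu0,
      mul_nonneg (sub_nonneg.2 hk) (sub_nonneg.2 hS0)]
  have huS : u ≤ S := by nlinarith [mul_nonneg hk0 (sub_nonneg.2 hu1)]
  have hk2 : k * 1.55 ≤ (S - 0.55) / 0.45 := by
    rw [le_div_iff₀ (by norm_num)]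
    refine le_of_mul_le_mul_right ?_ (show (0:ℝ) < 1 - u by linarith)
    nlinarith [mul_nonneg (sub_nonneg.2 h.le) (show (0:ℝ) ≤ 1 - S by linarith),
      mul_nonneg (mul_nonneg hk0 (sub_nonneg.2 hu1)) (sub_nonneg.2 h.le)]
  nlinarith [mul_nonneg hk0 (sub_nonneg.2 h.le), mul_nonneg hk0 (sub_nonneg.2 huS),
    mul_nonneg hk0 (sub_nonneg.2 hS0), mul_nonneg hk0 (sub_nonneg.2 hS),
    mul_nonneg (sub_nonneg.2 h.le) (sub_nonneg.2 huS),
    mul_nonneg (sub_nonneg.2 hk) (sub_nonneg.2 h.le),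
    mul_nonneg (sub_nonneg.2 hk) (sub_nonneg.2 hS),
    mul_nonneg (sub_nonneg.2 hc) (sub_nonneg.2 h.le)]

lemma slab_three_top {S k u : ℝ} (hk0 : 0 ≤ k) (hk : k ≤ 1 / 2) (hu0 : 0 ≤ u) (hu1 : u ≤ 1)
    (hS0 : 0.94 ≤ S) (hc : u + k * (1 - u ^ 2) ≤ S) :
    (1.309 + 3.1416 * k) * (3.1416 * (2.9737 - 2.8867 * S) - 1 + u ^ 2) <
      3.14159 * (1.4634 - S) := by
  nlinarith [mul_nonneg hk0 hu0, mul_nonneg hk0 (sub_nonneg.2 hS0),
    mul_nonneg hu0 (sub_nonneg.2 hu1),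
    mul_nonneg (sub_nonneg.2 hk) hu0, mul_nonneg (sub_nonneg.2 hk) (sub_nonneg.2 hS0)]

/-- The final comparison, for any linear bound `B` on the gap between the end areas. -/
lemma slab_three_close {h x a b S k u B : ℝ} (hk0 : 0 ≤ k) (hkh : h = Real.pi * k)
    (hS : S = h / Real.pi + x) (hu : u ^ 2 = Real.pi * b) (hva : 1 / Real.pi ≤ a)
    (ha : a - b ≤ B) (hU : u ^ 2 + 3.14159 * B ≤ 2.26) (hB : 0 ≤ B)
    (hnum : (1.309 + 3.1416 * k) * (3.1416 * B - 1 + u ^ 2) < 3.14159 * (1.4634 - S))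
    (hS1 : S ≤ 1) (he : √(Real.pi * (1 - a)) ≤ h * a + x) : False := by
  have hp := Real.pi_pos
  have hp0 := Real.pi_gt_d6
  have hp1 := Real.pi_lt_d6
  set X := Real.pi * a - 1 with hX
  have hX0 : 0 ≤ X := by
    have := (div_le_iff₀ hp).1 hva
    linarith
  have hXB : X ≤ 3.1416 * B - 1 + u ^ 2 := by
    have := mul_le_mul_of_nonneg_left ha hp.le
    have := mul_le_mul_of_nonneg_right hp1.le hB
    nlinarith
  have hXlo : X ≤ 1.261938 := by
    have h1 := mul_le_mul_of_nonneg_left ha hp.le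
    have h2 := mul_le_mul_of_nonneg_right hp1.le hB
    have hB1 : B ≤ 0.8 := by nlinarith [sq_nonneg u]
    nlinarith
  have hchord : 1.4634 - 1.309 * (X / Real.pi) ≤ √(Real.pi * (1 - a)) := by
    apply Real.le_sqrt_of_sq_le
    set y := X / Real.pi with hy
    have hy0 : 0 ≤ y := by positivity
    have hy1 : y ≤ 0.40169 := by rw [hy, div_le_iff₀ hp]; linarith
    have e : Real.pi * (1 - a) = Real.pi - 1 - Real.pi * y := by
      rw [hy]; field_simp; rw [hX]; ring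
    rw [e]
    nlinarith [mul_nonneg hy0 (sub_nonneg.2 hy1)]
  have e2 : h * a + x = S + k * X := by
    rw [hS, hkh, hX]; field_simp; ring
  rw [e2] at he
  have hmain : Real.pi * (1.4634 - S) ≤ (1.309 + Real.pi * k) * X := by
    have := mul_le_mul_of_nonneg_left (hchord.trans he) hp.le
    field_simp at this
    linarith
  have h1 : (1.309 + Real.pi * k) * X ≤ (1.309 + 3.1416 * k) * (3.1416 * B - 1 + u ^ 2) :=
    mul_le_mul (by nlinarith) hXB hX0 (by positivity)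
  have h2 : 3.14159 * (1.4634 - S) ≤ Real.pi * (1.4634 - S) :=
    mul_le_mul_of_nonneg_right (by linarith) (by linarith)
  linarith

/-- The gap allowed by the quadratic inequality. -/
lemma gap_le {d B Q : ℝ} (hd : d ^ 2 ≤ Q) (hQ : Q ≤ B ^ 2) (hB : 0 ≤ B) : d ≤ B :=
  (le_abs_self d).trans (abs_le_of_sq_le_sq (hd.trans hQ) hB)

lemma quad_le_one_sub {P S : ℝ} (hP : P ≤ 1) (hS : S ≤ P) :
    P * (P - S) ≤ 1 - S := by
  nlinarith [mul_nonneg (sub_nonneg.2 hP) (sub_nonneg.2 hS)]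

lemma quad_le_sq {P S : ℝ} (hP0 : 0 ≤ P) (h2 : 2 * P ≤ 3 * S) :
    P * (P - S) ≤ 3 / 4 * S ^ 2 := by
  nlinarith [mul_le_mul_of_nonneg_left (show P - S ≤ S / 2 by linarith) hP0]

lemma tangent1 {S : ℝ} (h : S ≤ 1) : 1 - S ≤ (1.1548 - 0.866 * S) ^ 2 := by
  nlinarith [sq_nonneg (S - 2 / 3)]

lemma tangent2 {S : ℝ} (h : S ≤ 1) : 1 - S ≤ (1.7393 - 1.5811 * S) ^ 2 := by
  nlinarith [sq_nonneg (S - 0.9)]

lemma tangent3 {S : ℝ} (h : S ≤ 1) : 1 - S ≤ (2.9737 - 2.8867 * S) ^ 2 := by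
  nlinarith [sq_nonneg (S - 0.97)]

lemma hull_bounds {S u : ℝ} (hu0 : 0 ≤ u) (hu : u ≤ S) (hS : S ≤ 1) :
    (S ≤ 2 / 3 → u ^ 2 + 3.14159 * (0.8661 * S) ≤ 2.26) ∧
      (2 / 3 ≤ S → S ≤ 0.8 → u ^ 2 + 3.14159 * (1.1548 - 0.866 * S) ≤ 2.26) ∧
      (0.8 ≤ S → S ≤ 0.94 → u ^ 2 + 3.14159 * (1.7393 - 1.5811 * S) ≤ 2.26) ∧
      (0.94 ≤ S → u ^ 2 + 3.14159 * (2.9737 - 2.8867 * S) ≤ 2.26) := by
  have h0 : u ^ 2 ≤ S ^ 2 := pow_le_pow_left₀ hu0 hu 2
  refine ⟨fun a => ?_, fun a b => ?_, fun a b => ?_, fun a => ?_⟩ <;> nlinarith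

/-- All three axes spanned: the numerical contradiction. -/
lemma slab_three_num {h x a b P : ℝ} (hh0 : 0 ≤ h) (hh : h ≤ Real.pi / 2)
    (hP : 0 < P) (hP1 : P ≤ 1) (hSP : h / Real.pi + x ≤ P)
    (h2P : 2 * P ≤ 3 * (h / Real.pi + x)) (hb : 0 ≤ b) (hbv : b ≤ 1 / Real.pi)
    (hva : 1 / Real.pi ≤ a) (hD : (a - b) ^ 2 ≤ P * (P - (h / Real.pi + x)))
    (he1 : √(Real.pi * b) ≤ h * b + x) (he0 : √(Real.pi * (1 - a)) ≤ h * a + x) : False := by
  have hp := Real.pi_pos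
  set S := h / Real.pi + x with hS
  set k := h / Real.pi with hkd
  set u := √(Real.pi * b) with hud
  have hk0 : 0 ≤ k := by positivity
  have hk : k ≤ 1 / 2 := by rw [hkd, div_le_iff₀ hp]; linarith
  have hkh : h = Real.pi * k := by rw [hkd]; field_simp
  have hu0 : 0 ≤ u := Real.sqrt_nonneg _
  have hu2 : u ^ 2 = Real.pi * b := Real.sq_sqrt (by positivity)
  have hu1 : u ≤ 1 := Real.sqrt_le_one.2 (by rw [mul_comm]; exact (le_div_iff₀ hp).1 hbv)
  have hc : u + k * (1 - u ^ 2) ≤ S := by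
    have : k * (1 - u ^ 2) = k - h * b := by rw [hu2, hkh]; ring
    rw [this, hS]; linarith
  have huS : u ≤ S := by
    linarith [mul_nonneg hk0 (sub_nonneg.2 (pow_le_one₀ (n := 2) hu0 hu1))]
  have hS1 : S ≤ 1 := by linarith
  obtain ⟨g1, g2, g3, g4⟩ := hull_bounds hu0 huS hS1
  have hQ1 := hD.trans (quad_le_one_sub hP1 hSP)
  rcases le_or_gt S (2 / 3) with h1 | h1
  · have hDB : a - b ≤ 0.8661 * S :=
      gap_le (hD.trans (quad_le_sq hP.le h2P)) (by nlinarith [sq_nonneg S]) (by linarith)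
    refine slab_three_close (S := S) (u := u) hk0 hkh rfl hu2 hva hDB (g1 h1) (by linarith)
      ?_ hS1 he0
    refine lt_of_le_of_lt ?_ (slab_three_low hk0 hk hu0 h1 hc (by linarith))
    exact mul_le_mul_of_nonneg_left (by linarith) (by positivity)
  rcases le_or_gt S 0.8 with h2 | h2
  · have hDB := gap_le hQ1 (tangent1 hS1) (by linarith)
    exact slab_three_close (S := S) (u := u) hk0 hkh rfl hu2 hva hDB (g2 h1.le h2) (by linarith)
      (slab_three_mid hk0 hk hu0 hu1 h1.le h2 hc) hS1 he0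
  rcases le_or_gt S 0.94 with h3 | h3
  · have hDB := gap_le hQ1 (tangent2 hS1) (by linarith)
    exact slab_three_close (S := S) (u := u) hk0 hkh rfl hu2 hva hDB (g3 h2.le h3) (by linarith)
      (slab_three_high hk0 hk hu0 hu1 h2.le h3 hc) hS1 he0
  · have hDB := gap_le hQ1 (tangent3 hS1) (by linarith)
    exact slab_three_close (S := S) (u := u) hk0 hkh rfl hu2 hva hDB (g4 h3.le) (by linarith)
      (slab_three_top hk0 hk hu0 hu1 h3.le hc) hS1 he0

theorem noMinSlabKink_of (hV : Variation) (hCN : CoefNonneg) (hN : NoSpanBound)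
    (hB : SliceBasics) (hF : FaceBasics) (hG : SliceGen) (h3 : Slice3) (hSF : SliceFree)
    (hM : MainIneq) (hQ : QuadIneq) (hT : TubeLemma)
    (hTwo : ∀ D h c, IsDown D → Stationary D h c → dvol D = 1 / Real.pi → 0 ≤ h →
      h ≤ Real.pi / 2 → area D < 1 → (∀ i, 0 ≤ c i) → ∀ i j k : Fin 3, i ≠ j → i ≠ k → j ≠ k →
      endA1 D i = 0 → 0 < endA1 D j → 0 < endA1 D k → False) : NoMinSlabKink := by
  intro D hmin hv
  obtain ⟨h, c, hl, hh, hS⟩ := hV D hmin
  obtain ⟨hD, -, -, hA, -⟩ := hmin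
  have hp := Real.pi_pos
  have hp0 := Real.pi_gt_d6
  have hp1 := Real.pi_lt_d6
  have hv3 : 1 / Real.pi ≤ 0.32 := by rw [div_le_iff₀ hp]; linarith
  have hBT : vBT < 1 / Real.pi := by
    unfold vBT; rw [lt_div_iff₀ hp]; nlinarith
  rw [hv] at hA hl hh
  have hj1 : jQ (1 / Real.pi) ≤ 1 := by
    rw [jQ_eq_min (by linarith)]
    exact min_le_right _ _
  have hP1 : area D < 1 := hA.trans_le hj1
  have hh0 : 0 ≤ h := by
    rwa [hLo, if_neg hBT.not_gt, if_neg (lt_irrefl _)] at hl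
  have hh2 : h ≤ Real.pi / 2 := by
    rw [hHi, if_neg hBT.not_ge, if_pos le_rfl] at hh
    refine hh.trans ?_
    rw [div_le_div_iff₀ (by positivity) two_pos]
    have : Real.pi * (2 * (1 / Real.pi)) = 2 := by field_simp
    rw [this]
    linarith
  have hhv : h * (1 / Real.pi) ≤ 1 / 2 := by
    rw [mul_one_div, div_le_iff₀ hp]; linarith
  have hc0 : ∀ i, 0 ≤ c i := by
    refine hCN D h c hD hS (by rw [hv]; linarith) hh0 ?_ (by rw [hv]; linarith)
    rw [hv, mul_one_div, div_le_iff₀ hp]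
    nlinarith
  have hn : ∀ l, 0 ≤ endA1 D l := fun l => by
    obtain ⟨-, -, -, -, -, -, h', -⟩ := hB D hD l
    exact h'
  by_cases h0 : ∀ l, endA1 D l = 0
  · rcases hh0.lt_or_eq with hpos | hzero
    · have hb := hN D h c hD hS hpos h0
      rw [hv] at hb
      have hP0 : 0 ≤ area D := MeasureTheory.integral_nonneg fun x => Real.sqrt_nonneg _
      have : area D ^ 3 ≤ 1 := pow_le_one₀ hP0 hP1.le
      have e : 9 * Real.pi / 2 * (1 / Real.pi) ^ 2 = 9 / (2 * Real.pi) := by field_simp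
      rw [e, div_le_iff₀ (by positivity)] at hb
      nlinarith
    · obtain ⟨-, -, -, -, -, -, -, -, hva, -⟩ := hB D hD 0
      have he := end0_continuous hB hD hS 0 (ell := fun a => √(Real.pi * a)) (by fun_prop) _
        (hSF D hD 0 fun j _ => h0 j) (Eventually.of_forall fun _ => le_rfl)
      rw [hS.unspanned 0 (h0 0), ← hzero, zero_mul, add_zero] at he
      rw [hv] at hva
      have : 0 < √(Real.pi * endA0 D 0) :=
        Real.sqrt_pos.2 (mul_pos hp (lt_of_lt_of_le (by positivity) hva))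
      linarith
  obtain ⟨i, hi'⟩ := not_forall.mp h0
  have hi : 0 < endA1 D i := lt_of_le_of_ne (hn i) (Ne.symm hi')
  obtain ⟨j, k, hij, hik, hjk, hall, hsum3⟩ := three_axes i
  rcases (hn j).eq_or_lt' with hj | hj <;> rcases (hn k).eq_or_lt' with hk | hk
  · -- one spanned axis
    obtain ⟨-, -, -, -, -, -, hb, hbv, hva, ha⟩ := hB D hD i
    obtain ⟨he1, he0⟩ := ends_ell3 h3 hB hD hS i
    have hm := hM D h c hD hS i ell3 continuous_ell3 (h3 D hD i)
    have hsum := hS.sum_eq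
    rw [hsum3 c, hS.unspanned j hj, hS.unspanned k hk, hv] at hsum
    rw [hv] at hm hbv hva
    have hint : 0 ≤ ∫ s in endA1 D i..endA0 D i, bfun (h * s + c i) (ell3 s) :=
      intervalIntegral.integral_nonneg (hbv.trans hva) fun s _ => bfun_nonneg _ _
    have h1 : √(Real.pi * (1 / Real.pi)) = 1 := by
      rw [show Real.pi * (1 / Real.pi) = 1 by field_simp, Real.sqrt_one]
    have hci : c i < 1 / 2 := by
      by_contra hcon
      rw [not_lt] at hcon
      nlinarith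
    have hh' : h ≤ √(Real.pi * (1 / Real.pi)) / (2 * (1 / Real.pi)) := by
      rw [h1]
      refine hh2.trans (le_of_eq ?_)
      field_simp
    have htube := hT (1 / Real.pi) h (c i) _ _ hBT.le le_rfl hh0 hh' (hc0 i)
      (by rw [h1]; linarith) hb hbv hva ha he1 he0
    rw [h1] at htube
    rcases min_lt_iff.1 htube with hk' | hk' <;> linarith [hc0 i]
  · exact hTwo D h c hD hS hv hh0 hh2 hP1 hc0 j i k hij.symm hjk hik hj hi hk
  · exact hTwo D h c hD hS hv hh0 hh2 hP1 hc0 k i j hik.symm hjk.symm hij hk hi hj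
  · -- three spanned axes
    have key : ∀ i j k : Fin 3, i ≠ j → i ≠ k → j ≠ k → 0 < endA1 D j → 0 < endA1 D k →
        ∑ l, c l ≤ 3 * c i → False := by
      intro i j k hij hik hjk hj hk hmax
      obtain ⟨-, -, -, -, -, -, hb, hbv, hva, -⟩ := hB D hD i
      have he0 := end0_both hB hF hG hD hS hij hik hjk hj hk
      have he1 := (ends_ell3 h3 hB hD hS i).1
      have hsum := hS.sum_eq
      rw [hv] at hbv hva hsum
      have hbp : Real.pi * endA1 D i ≤ 1 := by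
        rw [mul_comm]; exact (le_div_iff₀ hp).1 hbv
      rw [ell3_eq (by linarith), min_eq_right (Real.sqrt_le_one.2 hbp)] at he1
      have hq0 := hQ D h c hD hS i 0 le_rfl
      rw [hv, mul_one_div] at hq0
      rw [mul_assoc, mul_one_div] at hsum
      have hP : 0 < area D := by
        by_contra hcon
        rw [not_lt] at hcon
        have hq := hQ D h c hD hS i 1 zero_le_one
        rw [hv, mul_one_div] at hq
        have hx : c i = 0 := by linarith [hc0 i, show 0 ≤ h / Real.pi by positivity]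
        have hz : h = 0 := by
          have : h / Real.pi = 0 := by linarith [show 0 ≤ h / Real.pi by positivity]
          simpa [hp.ne'] using this
        rw [hx, hz, zero_mul, add_zero] at he0
        rw [hx, hz, zero_div] at hq
        have : 0 < √(Real.pi * (1 - endA0 D i)) := Real.sqrt_pos.2 (mul_pos hp (by linarith))
        linarith
      have hd : 0 ≤ endA0 D i - endA1 D i := by linarith
      have hq := hQ D h c hD hS i ((endA0 D i - endA1 D i) / area D) (by positivity)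
      rw [hv, mul_one_div] at hq
      refine slab_three_num hh0 hh2 hP hP1.le (by linarith) (by linarith) hb hbv hva ?_ he1 he0
      generalize endA0 D i - endA1 D i = d at hq hd ⊢
      have h1 : d ^ 2 / area D ≤ area D - (h / Real.pi + c i) := by
        refine le_trans (le_of_eq ?_) (show 2 * (d / area D) * d - (d / area D) ^ 2 * area D ≤ _ by
          linarith)
        field_simp
        ring
      rw [div_le_iff₀ hP] at h1
      linarith
    obtain ⟨m, -, hm⟩ := Finset.exists_max_image Finset.univ c Finset.univ_nonempty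
    have hmax : ∑ l, c l ≤ 3 * c m := by
      simpa using Finset.sum_le_card_nsmul Finset.univ c (c m) hm
    rcases hall m with rfl | rfl | rfl
    · exact key _ j k hij hik hjk hj hk hmax
    · exact key _ i k hij.symm hjk hik hi hk hmax
    · exact key _ i j hik.symm hjk.symm hij hi hj hmax

end Vale.Agent.P232
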