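import Vale.Agent.P232.KinkSlabLowAux

/-! # P232: numerical cells for two spanned axes and small slope -/

namespace Vale.Agent.P232

lemma lowCell1 {h a0 : ℝ} (h1 : (59 / 100) ≤ h) (h2 : h ≤ (3 / 4))
    (he : Real.pi * (1 - a0) ≤ (h * a0) ^ 2) (hv : 0 ≤ a0) :
    1 - h / Real.pi < ∫ s in (0 : ℝ)..a0, bfun (h * s) (ell3 s) := by
  refine cell_finish (a := (59 / 100)) (b := (3 / 4)) (u := (43289 / 50000)) h1 h2 (by norm_num) (by norm_num)
    (by norm_num) hv (by norm_num) he fun θ t0 t1 => ?_
  have s0 := low_start (59 / 100) (3 / 4) θ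
  have s1 := low_step1 t0 t1 (w := (1061 / 10000)) (ya := 1) (za := (9941 / 10000)) (yb := 1)
    (zb := (19809 / 20000)) s0 (by norm_num) (by norm_num)
  have s2 := low_step1 t0 t1 (w := (1061 / 5000)) (ya := (9941 / 10000)) (za := (98817 / 100000)) (yb := (19809 / 20000))
    (zb := (98081 / 100000)) s1 (by norm_num) (by norm_num)
  have s3 := low_step1 t0 t1 (w := (3183 / 10000)) (ya := (98817 / 100000)) (za := (4911 / 5000)) (yb := (98081 / 100000))
    (zb := (24277 / 25000)) s2 (by norm_num) (by norm_num)
  have s4 := low_skip (w := (3979 / 12500)) s3 (by norm_num)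
  have s5 := low_step2 t0 t1 (w := (1941 / 5000)) (ya := (4911 / 5000)) (za := (97341 / 100000)) (yb := (24277 / 25000))
    (zb := (95667 / 100000)) s4 (by norm_num) (by norm_num)
  have s6 := low_step2 t0 t1 (w := (4523 / 10000)) (ya := (97341 / 100000)) (za := (96373 / 100000)) (yb := (95667 / 100000))
    (zb := (9407 / 10000)) s5 (by norm_num) (by norm_num)
  have s7 := low_step2 t0 t1 (w := (5103 / 10000)) (ya := (96373 / 100000)) (za := (95359 / 100000)) (yb := (9407 / 10000))
    (zb := (46193 / 50000)) s6 (by norm_num) (by norm_num)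
  have s8 := low_step2 t0 t1 (w := (2809 / 5000)) (ya := (95359 / 100000)) (za := (47173 / 50000)) (yb := (46193 / 50000))
    (zb := (90689 / 100000)) s7 (by norm_num) (by norm_num)
  have s9 := low_step2 t0 t1 (w := (303 / 500)) (ya := (47173 / 50000)) (za := (93389 / 100000)) (yb := (90689 / 100000))
    (zb := (44537 / 50000)) s8 (by norm_num) (by norm_num)
  have s10 := low_step2 t0 t1 (w := (6421 / 10000)) (ya := (93389 / 100000)) (za := (46273 / 50000)) (yb := (44537 / 50000))
    (zb := (2191 / 2500)) s9 (by norm_num) (by norm_num)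
  have s11 := low_step2 t0 t1 (w := (3343 / 5000)) (ya := (46273 / 50000)) (za := (9189 / 10000)) (yb := (2191 / 2500))
    (zb := (43259 / 50000)) s10 (by norm_num) (by norm_num)
  have s12 := low_step2 t0 t1 (w := (8521 / 12500)) (ya := (9189 / 10000)) (za := (18311 / 20000)) (yb := (43259 / 50000))
    (zb := (42971 / 50000)) s11 (by norm_num) (by norm_num)
  have s13 := low_skip (w := (6817 / 10000)) s12 (by norm_num)
  have s14 := low_step3 t0 t1 (w := (18121 / 25000)) (ya := (45777 / 50000)) (za := (88793 / 100000)) (yb := (85941 / 100000))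
    (zb := (20281 / 25000)) s13 (by norm_num) (by norm_num)
  have s15 := low_step3 t0 t1 (w := (76223 / 100000)) (ya := (88793 / 100000)) (za := (21349 / 25000)) (yb := (20281 / 25000))
    (zb := (74999 / 100000)) s14 (by norm_num) (by norm_num)
  have s16 := low_step3 t0 t1 (w := (79387 / 100000)) (ya := (21349 / 25000)) (za := (16263 / 20000)) (yb := (74999 / 100000))
    (zb := (67273 / 100000)) s15 (by norm_num) (by norm_num)
  have s17 := low_step3 t0 t1 (w := (10247 / 12500)) (ya := (16263 / 20000)) (za := (2394 / 3125)) (yb := (67273 / 100000))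
    (zb := (7207 / 12500)) s16 (by norm_num) (by norm_num)
  have s18 := low_step3 t0 t1 (w := (83989 / 100000)) (ya := (2394 / 3125)) (za := (71541 / 100000)) (yb := (7207 / 12500))
    (zb := (919 / 2000)) s17 (by norm_num) (by norm_num)
  have s19 := low_step3 t0 t1 (w := (85427 / 100000)) (ya := (71541 / 100000)) (za := (66717 / 100000)) (yb := (919 / 2000))
    (zb := (643 / 2000)) s18 (by norm_num) (by norm_num)
  have s20 := low_step3 t0 t1 (w := (8629 / 10000)) (ya := (66717 / 100000)) (za := (1972 / 3125)) (yb := (643 / 2000))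
    (zb := (3321 / 20000)) s19 (by norm_num) (by norm_num)
  have s21 := low_step3 t0 t1 (w := (43289 / 50000)) (ya := (1972 / 3125)) (za := (61741 / 100000)) (yb := (3321 / 20000))
    (zb := (409 / 50000)) s20 (by norm_num) (by norm_num)
  exact low_finish t0 t1 s21 (by norm_num) (by norm_num)

lemma lowCell2 {h a0 : ℝ} (h1 : (3 / 4) ≤ h) (h2 : h ≤ (43 / 50))
    (he : Real.pi * (1 - a0) ≤ (h * a0) ^ 2) (hv : 0 ≤ a0) :
    1 - h / Real.pi < ∫ s in (0 : ℝ)..a0, bfun (h * s) (ell3 s) := by
  refine cell_finish (a := (3 / 4)) (b := (43 / 50)) (u := (83561 / 100000)) h1 h2 (by norm_num) (by norm_num)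
    (by norm_num) hv (by norm_num) he fun θ t0 t1 => ?_
  have s0 := low_start (3 / 4) (43 / 50) θ
  have s1 := low_step1 t0 t1 (w := (1591 / 10000)) (ya := 1) (za := (19713 / 20000)) (yb := 1)
    (zb := (98109 / 100000)) s0 (by norm_num) (by norm_num)
  have s2 := low_step1 t0 t1 (w := (3183 / 10000)) (ya := (19713 / 20000)) (za := (24277 / 25000)) (yb := (98109 / 100000))
    (zb := (4809 / 5000)) s1 (by norm_num) (by norm_num)
  have s3 := low_skip (w := (3979 / 12500)) s2 (by norm_num)
  have s4 := low_step2 t0 t1 (w := (2051 / 5000)) (ya := (24277 / 25000)) (za := (95149 / 100000)) (yb := (96179 / 100000))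
    (zb := (9357 / 10000)) s3 (by norm_num) (by norm_num)
  have s5 := low_step2 t0 t1 (w := (4917 / 10000)) (ya := (95149 / 100000)) (za := (92951 / 100000)) (yb := (9357 / 10000))
    (zb := (90619 / 100000)) s4 (by norm_num) (by norm_num)
  have s6 := low_step2 t0 t1 (w := (2809 / 5000)) (ya := (92951 / 100000)) (za := (90689 / 100000)) (yb := (90619 / 100000))
    (zb := (87553 / 100000)) s5 (by norm_num) (by norm_num)
  have s7 := low_step2 t0 t1 (w := (619 / 1000)) (ya := (90689 / 100000)) (za := (8857 / 10000)) (yb := (87553 / 100000))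
    (zb := (84653 / 100000)) s6 (by norm_num) (by norm_num)
  have s8 := low_step2 t0 t1 (w := (661 / 1000)) (ya := (8857 / 10000)) (za := (43423 / 50000)) (yb := (84653 / 100000))
    (zb := (82271 / 100000)) s7 (by norm_num) (by norm_num)
  have s9 := low_step2 t0 t1 (w := (8521 / 12500)) (ya := (43423 / 50000)) (za := (42971 / 50000)) (yb := (82271 / 100000))
    (zb := (81013 / 100000)) s8 (by norm_num) (by norm_num)
  have s10 := low_skip (w := (6817 / 10000)) s9 (by norm_num)
  have s11 := low_step3 t0 t1 (w := (9109 / 12500)) (ya := (85941 / 100000)) (za := (5037 / 6250)) (yb := (81011 / 100000))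
    (zb := (73427 / 100000)) s10 (by norm_num) (by norm_num)
  have s12 := low_step3 t0 t1 (w := (959 / 1250)) (ya := (5037 / 6250)) (za := (73979 / 100000)) (yb := (73427 / 100000))
    (zb := (63621 / 100000)) s11 (by norm_num) (by norm_num)
  have s13 := low_step3 t0 t1 (w := (79713 / 100000)) (ya := (73979 / 100000)) (za := (66271 / 100000)) (yb := (63621 / 100000))
    (zb := (51247 / 100000)) s12 (by norm_num) (by norm_num)
  have s14 := low_step3 t0 t1 (w := (1637 / 2000)) (ya := (66271 / 100000)) (za := (7279 / 12500)) (yb := (51247 / 100000))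
    (zb := (36197 / 100000)) s13 (by norm_num) (by norm_num)
  have s15 := low_step3 t0 t1 (w := (83133 / 100000)) (ya := (7279 / 12500)) (za := (5161 / 10000)) (yb := (36197 / 100000))
    (zb := (18809 / 100000)) s14 (by norm_num) (by norm_num)
  have s16 := low_step3 t0 t1 (w := (83561 / 100000)) (ya := (5161 / 10000)) (za := (48937 / 100000)) (yb := (18809 / 100000))
    (zb := (691 / 100000)) s15 (by norm_num) (by norm_num)
  exact low_finish t0 t1 s16 (by norm_num) (by norm_num)

lemma lowCell3 {h a0 : ℝ} (h1 : (43 / 50) ≤ h) (h2 : h ≤ (187 / 200))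
    (he : Real.pi * (1 - a0) ≤ (h * a0) ^ 2) (hv : 0 ≤ a0) :
    1 - h / Real.pi < ∫ s in (0 : ℝ)..a0, bfun (h * s) (ell3 s) := by
  refine cell_finish (a := (43 / 50)) (b := (187 / 200)) (u := (81511 / 100000)) h1 h2 (by norm_num) (by norm_num)
    (by norm_num) hv (by norm_num) he fun θ t0 t1 => ?_
  have s0 := low_start (43 / 50) (187 / 200) θ
  have s1 := low_step1 t0 t1 (w := (1061 / 10000)) (ya := 1) (za := (98743 / 100000)) (yb := 1)
    (zb := (6157 / 6250)) s0 (by norm_num) (by norm_num)
  have s2 := low_step1 t0 t1 (w := (1061 / 5000)) (ya := (98743 / 100000)) (za := (9747 / 10000)) (yb := (6157 / 6250))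
    (zb := (48501 / 50000)) s1 (by norm_num) (by norm_num)
  have s3 := low_step1 t0 t1 (w := (3183 / 10000)) (ya := (9747 / 10000)) (za := (4809 / 5000)) (yb := (48501 / 50000))
    (zb := (23867 / 25000)) s2 (by norm_num) (by norm_num)
  have s4 := low_skip (w := (3979 / 12500)) s3 (by norm_num)
  have s5 := low_step2 t0 t1 (w := (1941 / 5000)) (ya := (96179 / 100000)) (za := (47131 / 50000)) (yb := (23867 / 25000))
    (zb := (4659 / 5000)) s4 (by norm_num) (by norm_num)
  have s6 := low_step2 t0 t1 (w := (4523 / 10000)) (ya := (47131 / 50000)) (za := (23031 / 25000)) (yb := (4659 / 5000))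
    (zb := (90617 / 100000)) s5 (by norm_num) (by norm_num)
  have s7 := low_step2 t0 t1 (w := (5103 / 10000)) (ya := (23031 / 25000)) (za := (17971 / 20000)) (yb := (90617 / 100000))
    (zb := (87883 / 100000)) s6 (by norm_num) (by norm_num)
  have s8 := low_step2 t0 t1 (w := (2809 / 5000)) (ya := (17971 / 20000)) (za := (87553 / 100000)) (yb := (87883 / 100000))
    (zb := (21273 / 25000)) s7 (by norm_num) (by norm_num)
  have s9 := low_step2 t0 t1 (w := (303 / 500)) (ya := (87553 / 100000)) (za := (17069 / 20000)) (yb := (21273 / 25000))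
    (zb := (41199 / 50000)) s8 (by norm_num) (by norm_num)
  have s10 := low_step2 t0 t1 (w := (6421 / 10000)) (ya := (17069 / 20000)) (za := (8337 / 10000)) (yb := (41199 / 50000))
    (zb := (19993 / 25000)) s9 (by norm_num) (by norm_num)
  have s11 := low_step2 t0 t1 (w := (3343 / 5000)) (ya := (8337 / 10000)) (za := (16363 / 20000)) (yb := (19993 / 25000))
    (zb := (78051 / 100000)) s10 (by norm_num) (by norm_num)
  have s12 := low_step2 t0 t1 (w := (8521 / 12500)) (ya := (16363 / 20000)) (za := (81013 / 100000)) (yb := (78051 / 100000))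
    (zb := (15411 / 20000)) s11 (by norm_num) (by norm_num)
  have s13 := low_skip (w := (6817 / 10000)) s12 (by norm_num)
  have s14 := low_step3 t0 t1 (w := (2228 / 3125)) (ya := (81011 / 100000)) (za := (1909 / 2500)) (yb := (77053 / 100000))
    (zb := (35609 / 50000)) s13 (by norm_num) (by norm_num)
  have s15 := low_step3 t0 t1 (w := (37003 / 50000)) (ya := (1909 / 2500)) (za := (7099 / 10000)) (yb := (35609 / 50000))
    (zb := (64317 / 100000)) s14 (by norm_num) (by norm_num)
  have s16 := low_step3 t0 t1 (w := (76299 / 100000)) (ya := (7099 / 10000)) (za := (64941 / 100000)) (yb := (64317 / 100000))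
    (zb := (56257 / 100000)) s15 (by norm_num) (by norm_num)
  have s17 := low_step3 t0 t1 (w := (3127 / 4000)) (ya := (64941 / 100000)) (za := (7297 / 12500)) (yb := (56257 / 100000))
    (zb := (11747 / 25000)) s16 (by norm_num) (by norm_num)
  have s18 := low_step3 t0 t1 (w := (39817 / 50000)) (ya := (7297 / 12500)) (za := (25833 / 50000)) (yb := (11747 / 25000))
    (zb := (18269 / 50000)) s17 (by norm_num) (by norm_num)
  have s19 := low_step3 t0 t1 (w := (80677 / 100000)) (ya := (25833 / 50000)) (za := (45497 / 100000)) (yb := (18269 / 50000))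
    (zb := (25031 / 100000)) s18 (by norm_num) (by norm_num)
  have s20 := low_step3 t0 t1 (w := (40651 / 50000)) (ya := (45497 / 100000)) (za := (40957 / 100000)) (yb := (25031 / 100000))
    (zb := (51 / 400)) s19 (by norm_num) (by norm_num)
  have s21 := low_step3 t0 t1 (w := (81511 / 100000)) (ya := (40957 / 100000)) (za := (39243 / 100000)) (yb := (51 / 400))
    (zb := (51 / 12500)) s20 (by norm_num) (by norm_num)
  exact low_finish t0 t1 s21 (by norm_num) (by norm_num)

lemma lowCell4 {h a0 : ℝ} (h1 : (187 / 200) ≤ h) (h2 : h ≤ (197 / 200))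
    (he : Real.pi * (1 - a0) ≤ (h * a0) ^ 2) (hv : 0 ≤ a0) :
    1 - h / Real.pi < ∫ s in (0 : ℝ)..a0, bfun (h * s) (ell3 s) := by
  refine cell_finish (a := (187 / 200)) (b := (197 / 200)) (u := (80157 / 100000)) h1 h2 (by norm_num) (by norm_num)
    (by norm_num) hv (by norm_num) he fun θ t0 t1 => ?_
  have s0 := low_start (187 / 200) (197 / 200) θ
  have s1 := low_step1 t0 t1 (w := (1061 / 10000)) (ya := 1) (za := (6157 / 6250)) (yb := 1)
    (zb := (98347 / 100000)) s0 (by norm_num) (by norm_num)
  have s2 := low_step1 t0 t1 (w := (1061 / 5000)) (ya := (6157 / 6250)) (za := (48501 / 50000)) (yb := (98347 / 100000))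
    (zb := (96667 / 100000)) s1 (by norm_num) (by norm_num)
  have s3 := low_step1 t0 t1 (w := (3183 / 10000)) (ya := (48501 / 50000)) (za := (23867 / 25000)) (yb := (96667 / 100000))
    (zb := (94957 / 100000)) s2 (by norm_num) (by norm_num)
  have s4 := low_skip (w := (3979 / 12500)) s3 (by norm_num)
  have s5 := low_step2 t0 t1 (w := (1941 / 5000)) (ya := (23867 / 25000)) (za := (4659 / 5000)) (yb := (94957 / 100000))
    (zb := (231 / 250)) s4 (by norm_num) (by norm_num)
  have s6 := low_step2 t0 t1 (w := (4523 / 10000)) (ya := (4659 / 5000)) (za := (90617 / 100000)) (yb := (231 / 250))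
    (zb := (89527 / 100000)) s5 (by norm_num) (by norm_num)
  have s7 := low_step2 t0 t1 (w := (5103 / 10000)) (ya := (90617 / 100000)) (za := (87883 / 100000)) (yb := (89527 / 100000))
    (zb := (86449 / 100000)) s6 (by norm_num) (by norm_num)
  have s8 := low_step2 t0 t1 (w := (2809 / 5000)) (ya := (87883 / 100000)) (za := (21273 / 25000)) (yb := (86449 / 100000))
    (zb := (83293 / 100000)) s7 (by norm_num) (by norm_num)
  have s9 := low_step2 t0 t1 (w := (303 / 500)) (ya := (21273 / 25000)) (za := (41199 / 50000)) (yb := (83293 / 100000))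
    (zb := (8023 / 10000)) s8 (by norm_num) (by norm_num)
  have s10 := low_step2 t0 t1 (w := (6421 / 10000)) (ya := (41199 / 50000)) (za := (19993 / 25000)) (yb := (8023 / 10000))
    (zb := (38729 / 50000)) s9 (by norm_num) (by norm_num)
  have s11 := low_step2 t0 t1 (w := (3343 / 5000)) (ya := (19993 / 25000)) (za := (78051 / 100000)) (yb := (38729 / 50000))
    (zb := (75251 / 100000)) s10 (by norm_num) (by norm_num)
  have s12 := low_step2 t0 t1 (w := (8521 / 12500)) (ya := (78051 / 100000)) (za := (15411 / 20000)) (yb := (75251 / 100000))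
    (zb := (9263 / 12500)) s11 (by norm_num) (by norm_num)
  have s13 := low_skip (w := (6817 / 10000)) s12 (by norm_num)
  have s14 := low_step3 t0 t1 (w := (70979 / 100000)) (ya := (77053 / 100000)) (za := (8987 / 12500)) (yb := (74101 / 100000))
    (zb := (68107 / 100000)) s13 (by norm_num) (by norm_num)
  have s15 := low_step3 t0 t1 (w := (36707 / 50000)) (ya := (8987 / 12500)) (za := (3301 / 5000)) (yb := (68107 / 100000))
    (zb := (61149 / 100000)) s14 (by norm_num) (by norm_num)
  have s16 := low_step3 t0 t1 (w := (37737 / 50000)) (ya := (3301 / 5000)) (za := (59471 / 100000)) (yb := (61149 / 100000))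
    (zb := (53171 / 100000)) s15 (by norm_num) (by norm_num)
  have s17 := low_step3 t0 t1 (w := (1929 / 2500)) (ya := (59471 / 100000)) (za := (13101 / 25000)) (yb := (53171 / 100000))
    (zb := (8831 / 20000)) s16 (by norm_num) (by norm_num)
  have s18 := low_step3 t0 t1 (w := (78471 / 100000)) (ya := (13101 / 25000)) (za := (1807 / 4000)) (yb := (8831 / 20000))
    (zb := (17079 / 50000)) s17 (by norm_num) (by norm_num)
  have s19 := low_step3 t0 t1 (w := (79407 / 100000)) (ya := (1807 / 4000)) (za := (19231 / 50000)) (yb := (17079 / 50000))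
    (zb := (23317 / 100000)) s18 (by norm_num) (by norm_num)
  have s20 := low_step3 t0 t1 (w := (79969 / 100000)) (ya := (19231 / 50000)) (za := (8351 / 25000)) (yb := (23317 / 100000))
    (zb := (2961 / 25000)) s19 (by norm_num) (by norm_num)
  have s21 := low_step3 t0 t1 (w := (80157 / 100000)) (ya := (8351 / 25000)) (za := (983 / 3125)) (yb := (2961 / 25000))
    (zb := (183 / 100000)) s20 (by norm_num) (by norm_num)
  exact low_finish t0 t1 s21 (by norm_num) (by norm_num)

lemma lowCell5 {h a0 : ℝ} (h1 : (197 / 200) ≤ h) (h2 : h ≤ (51 / 50))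
    (he : Real.pi * (1 - a0) ≤ (h * a0) ^ 2) (hv : 0 ≤ a0) :
    1 - h / Real.pi < ∫ s in (0 : ℝ)..a0, bfun (h * s) (ell3 s) := by
  refine cell_finish (a := (197 / 200)) (b := (51 / 50)) (u := (79217 / 100000)) h1 h2 (by norm_num) (by norm_num)
    (by norm_num) hv (by norm_num) he fun θ t0 t1 => ?_
  have s0 := low_start (197 / 200) (51 / 50) θ
  have s1 := low_step1 t0 t1 (w := (1061 / 10000)) (ya := 1) (za := (98347 / 100000)) (yb := 1)
    (zb := (98227 / 100000)) s0 (by norm_num) (by norm_num)
  have s2 := low_step1 t0 t1 (w := (1061 / 5000)) (ya := (98347 / 100000)) (za := (96667 / 100000)) (yb := (98227 / 100000))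
    (zb := (48211 / 50000)) s1 (by norm_num) (by norm_num)
  have s3 := low_step1 t0 t1 (w := (3183 / 10000)) (ya := (96667 / 100000)) (za := (94957 / 100000)) (yb := (48211 / 50000))
    (zb := (47291 / 50000)) s2 (by norm_num) (by norm_num)
  have s4 := low_skip (w := (3979 / 12500)) s3 (by norm_num)
  have s5 := low_step2 t0 t1 (w := (1941 / 5000)) (ya := (94957 / 100000)) (za := (231 / 250)) (yb := (47291 / 50000))
    (zb := (45913 / 50000)) s4 (by norm_num) (by norm_num)
  have s6 := low_step2 t0 t1 (w := (4523 / 10000)) (ya := (231 / 250)) (za := (89527 / 100000)) (yb := (45913 / 50000))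
    (zb := (44361 / 50000)) s5 (by norm_num) (by norm_num)
  have s7 := low_step2 t0 t1 (w := (5103 / 10000)) (ya := (89527 / 100000)) (za := (86449 / 100000)) (yb := (44361 / 50000))
    (zb := (17077 / 20000)) s6 (by norm_num) (by norm_num)
  have s8 := low_step2 t0 t1 (w := (2809 / 5000)) (ya := (86449 / 100000)) (za := (83293 / 100000)) (yb := (17077 / 20000))
    (zb := (81953 / 100000)) s7 (by norm_num) (by norm_num)
  have s9 := low_step2 t0 t1 (w := (303 / 500)) (ya := (83293 / 100000)) (za := (8023 / 10000)) (yb := (81953 / 100000))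
    (zb := (4913 / 6250)) s8 (by norm_num) (by norm_num)
  have s10 := low_step2 t0 t1 (w := (6421 / 10000)) (ya := (8023 / 10000)) (za := (38729 / 50000)) (yb := (4913 / 6250))
    (zb := (75567 / 100000)) s9 (by norm_num) (by norm_num)
  have s11 := low_step2 t0 t1 (w := (3343 / 5000)) (ya := (38729 / 50000)) (za := (75251 / 100000)) (yb := (75567 / 100000))
    (zb := (73137 / 100000)) s10 (by norm_num) (by norm_num)
  have s12 := low_step2 t0 t1 (w := (8521 / 12500)) (ya := (75251 / 100000)) (za := (9263 / 12500)) (yb := (73137 / 100000))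
    (zb := (7187 / 10000)) s11 (by norm_num) (by norm_num)
  have s13 := low_skip (w := (6817 / 10000)) s12 (by norm_num)
  have s14 := low_step3 t0 t1 (w := (70759 / 100000)) (ya := (74101 / 100000)) (za := (68643 / 100000)) (yb := (71867 / 100000))
    (zb := (32899 / 50000)) s13 (by norm_num) (by norm_num)
  have s15 := low_step3 t0 t1 (w := (73003 / 100000)) (ya := (68643 / 100000)) (za := (62477 / 100000)) (yb := (32899 / 50000))
    (zb := (29421 / 50000)) s14 (by norm_num) (by norm_num)
  have s16 := low_step3 t0 t1 (w := (74901 / 100000)) (ya := (62477 / 100000)) (za := (1113 / 2000)) (yb := (29421 / 50000))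
    (zb := (50967 / 100000)) s15 (by norm_num) (by norm_num)
  have s17 := low_step3 t0 t1 (w := (15291 / 20000)) (ya := (1113 / 2000)) (za := (48299 / 100000)) (yb := (50967 / 100000))
    (zb := (42169 / 100000)) s16 (by norm_num) (by norm_num)
  have s18 := low_step3 t0 t1 (w := (77663 / 100000)) (ya := (48299 / 100000)) (za := (2547 / 6250)) (yb := (42169 / 100000))
    (zb := (813 / 2500)) s17 (by norm_num) (by norm_num)
  have s19 := low_step3 t0 t1 (w := (39263 / 50000)) (ya := (2547 / 6250)) (za := (33641 / 100000)) (yb := (813 / 2500))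
    (zb := (22143 / 100000)) s18 (by norm_num) (by norm_num)
  have s20 := low_step3 t0 t1 (w := (19761 / 25000)) (ya := (33641 / 100000)) (za := (28147 / 100000)) (yb := (22143 / 100000))
    (zb := (11237 / 100000)) s19 (by norm_num) (by norm_num)
  have s21 := low_step3 t0 t1 (w := (79217 / 100000)) (ya := (28147 / 100000)) (za := (25979 / 100000)) (yb := (11237 / 100000))
    (zb := (43 / 6250)) s20 (by norm_num) (by norm_num)
  exact low_finish t0 t1 s21 (by norm_num) (by norm_num)

end Vale.Agent.P232
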