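import Vale.Agent.P232.KinkAux
import Vale.Agent.P232.KinkSlabLowCert

/-! # P232: two spanned axes at the slab kink, small slope -/

namespace Vale.Agent.P232

open MeasureTheory Set Filter Topology

/-- The end trace is large when the slope is small. -/
lemma low_quad {h a : ℝ} (h0 : 0 < h) (h1 : h ≤ 0.59)
    (he : Real.pi * (1 - a) ≤ (h * a) ^ 2) : 1 - h / Real.pi < a ^ 2 := by
  have hp := Real.pi_pos
  have hp3 := Real.pi_gt_d6
  have hp4 := Real.pi_lt_d6
  by_contra hcon
  rw [not_lt] at hcon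
  set x := h / Real.pi with hx
  have hxh : x * Real.pi = h := div_mul_cancel₀ h hp.ne'
  have hx0 : 0 < x := div_pos h0 hp
  have hx1 : x ≤ 0.1879 := by rw [hx, div_le_iff₀ hp]; norm_num at hp3 h1 ⊢; linarith
  have hsq : 1 - x ≤ (1 - x / 2 - x ^ 2 / 8) ^ 2 + x ^ 2 / 10 * x := by
    have := mul_nonneg (pow_nonneg hx0.le 3) (show 0 ≤ 1 / 10 - 1 / 8 + 1 / 4 + x / 64 by positivity)
    linarith [pow_nonneg hx0.le 3, pow_nonneg hx0.le 4,
      show (1 - x / 2 - x ^ 2 / 8) ^ 2 = 1 - x + x ^ 3 / 8 + x ^ 4 / 64 by ring]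
  have hlt : a < 1 - x / 2 := by
    refine lt_of_pow_lt_pow_left₀ 2 (by linarith) ?_
    linarith [pow_pos hx0 2, show (1 - x / 2) ^ 2 = 1 - x + x ^ 2 / 4 by ring]
  have h5 : Real.pi * (x / 2) < Real.pi * (1 - a) := mul_lt_mul_of_pos_left (by linarith) hp
  have h6 : (h * a) ^ 2 ≤ h ^ 2 * (1 - x) := by
    rw [mul_pow]; exact mul_le_mul_of_nonneg_left hcon (sq_nonneg h)
  have h7 : h * (1 - x) ≤ 1 / 2 := by
    have e : 0.187 * h / 0.59 ≤ x := by
      rw [hx, div_le_div_iff₀ (by norm_num) hp]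
      have := mul_le_mul_of_nonneg_left hp4.le h0.le
      norm_num at this ⊢
      linarith
    have := mul_le_mul_of_nonneg_left e h0.le
    nlinarith
  have h8 := mul_le_mul_of_nonneg_left h7 h0.le
  linarith

/-- Two spanned axes at the slab kink with positive slope at most `1.02`. -/
theorem slabTwoLowLe (hB : SliceBasics) (hF : FaceBasics) (hG : SliceGen) (h3 : Slice3)
    (hM : MainIneq) (hQ : QuadIneq) :
    ∀ D h c, IsDown D → Stationary D h c → dvol D = 1 / Real.pi → 0 < h → h ≤ 1.02 →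
      area D ≤ 1 → ∀ i j k : Fin 3, i ≠ j → i ≠ k → j ≠ k → endA1 D i = 0 →
      0 < endA1 D j → 0 < endA1 D k → False := by
  intro D h c hD hS hv h00 hh hA i j k hij hik hjk hi hj hk
  have hp := Real.pi_pos
  have hci : c i = 0 := hS.unspanned i hi
  obtain ⟨-, -, -, -, -, -, -, -, hva, -⟩ := hB D hD i
  have ha : 0 ≤ endA0 D i := le_trans measureReal_nonneg hva
  have hroot := end0_both hB hF hG hD hS hij hik hjk hj hk
  rw [hci, add_zero, Real.sqrt_le_iff] at hroot
  have he : Real.pi * (1 - endA0 D i) ≤ (h * endA0 D i) ^ 2 := hroot.2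
  set a := endA0 D i with had
  rcases le_or_gt h 0.59 with hlow | hhi
  · have hsq := low_quad h00 hlow he
    have hq := hQ D h c hD hS i a ha
    rw [hci, hi, ← had, hv] at hq
    have hPa := mul_le_mul_of_nonneg_right hA (show 0 ≤ 1 + a ^ 2 by positivity)
    linarith [show h * (1 / Real.pi) = h / Real.pi by ring]
  have hm := hM D h c hD hS i ell3 continuous_ell3 (h3 D hD i)
  rw [hci, hi, ← had, hv] at hm
  simp only [add_zero] at hm
  have hneed : 1 - h / Real.pi < ∫ s in (0 : ℝ)..a, bfun (h * s) (ell3 s) := by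
    norm_num at hhi hh
    rcases le_or_gt h (3 / 4) with g1 | g1
    · exact lowCell1 (by linarith) g1 he ha
    rcases le_or_gt h (43 / 50) with g2 | g2
    · exact lowCell2 g1.le g2 he ha
    rcases le_or_gt h (187 / 200) with g3 | g3
    · exact lowCell3 g2.le g3 he ha
    rcases le_or_gt h (197 / 200) with g4 | g4
    · exact lowCell4 g3.le g4 he ha
    · exact lowCell5 g4.le (by linarith) he ha
  linarith [show h * (1 / Real.pi) = h / Real.pi by ring]

/-- No minimiser at the slab kink with two spanned axes and slope at most `1.02`. -/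
theorem slabTwoLow (hB : SliceBasics) (hF : FaceBasics) (hG : SliceGen) (h3 : Slice3)
    (hM : MainIneq) (hQ : QuadIneq) :
    ∀ D h c, IsDown D → Stationary D h c → dvol D = 1 / Real.pi → 0 ≤ h → h ≤ 1.02 →
      area D < 1 → (∀ i, 0 ≤ c i) → ∀ i j k : Fin 3, i ≠ j → i ≠ k → j ≠ k → endA1 D i = 0 →
      0 < endA1 D j → 0 < endA1 D k → False := by
  intro D h c hD hS hv hh0 hh hA _ i j k hij hik hjk hi hj hk
  rcases hh0.eq_or_lt with h00 | h00
  · obtain ⟨-, -, -, -, -, -, -, -, hva, -⟩ := hB D hD i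
    have ha : 0 ≤ endA0 D i := le_trans measureReal_nonneg hva
    have hroot := end0_both hB hF hG hD hS hij hik hjk hj hk
    rw [hS.unspanned i hi, ← h00, zero_mul, add_zero, Real.sqrt_le_iff] at hroot
    have ha' : 1 ≤ endA0 D i := by nlinarith [Real.pi_pos, hroot.2]
    have hq := hQ D h c hD hS i 1 zero_le_one
    rw [hS.unspanned i hi, hi, ← h00] at hq
    linarith
  · exact slabTwoLowLe hB hF hG h3 hM hQ D h c hD hS hv h00 hh hA.le i j k hij hik hjk hi hj hk

end Vale.Agent.P232
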