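import Vale.Agent.P232.ClassifyDefs
import Vale.Agent.P232.KinkBT
import Vale.Agent.P232.KinkSlabEasy
import Vale.Agent.P232.KinkSlabLow

/-! # P232: down-sets of least area have the parameters of a ball, a tube or a slab -/

namespace Vale.Agent.P232

open MeasureTheory Set Filter Topology

/-- The remaining certificate: two spanned axes at the slab kink with large slope. -/
def TwoHighLe : Prop :=
  ∀ D h c, IsDown D → Stationary D h c → dvol D = 1 / Real.pi → 1.02 ≤ h → h ≤ Real.pi / 2 →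
    area D ≤ 1 → (∀ i, 0 ≤ c i) → ∀ i j k : Fin 3, i ≠ j → i ≠ k → j ≠ k → endA1 D i = 0 →
    0 < endA1 D j → 0 < endA1 D k → False

lemma ball_branch_cube {v : ℝ} (hv : 0 ≤ v) :
    ((36 * Real.pi) ^ (1 / 3 : ℝ) * v ^ (2 / 3 : ℝ) / 2) ^ 3 = 9 * Real.pi / 2 * v ^ 2 := by
  have e1 : ((36 * Real.pi) ^ (1 / 3 : ℝ)) ^ 3 = 36 * Real.pi := by
    rw [show (1 / 3 : ℝ) = ((3 : ℕ) : ℝ)⁻¹ by norm_num,
      Real.rpow_inv_natCast_pow (by positivity) (by norm_num)]
  have e2 : (v ^ (2 / 3 : ℝ)) ^ 3 = v ^ 2 := by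
    rw [← Real.rpow_natCast (v ^ (2 / 3 : ℝ)) 3, ← Real.rpow_mul hv]
    norm_num
  rw [div_pow, mul_pow, e1, e2]
  ring

lemma jQ_cube_le {v : ℝ} (hv : 0 ≤ v) (hv2 : v ≤ 1 / 2) :
    jQ v ^ 3 ≤ 9 * Real.pi / 2 * v ^ 2 := by
  rw [← ball_branch_cube hv, jQ_eq_min hv2]
  refine pow_le_pow_left₀ ?_ ((min_le_left _ _).trans (min_le_left _ _)) 3
  exact le_min (le_min (by positivity) (Real.sqrt_nonneg _)) zero_le_one

lemma jQ_eq_tube {v : ℝ} (h1 : vBT ≤ v) (h2 : v ≤ 1 / Real.pi) : jQ v = √(Real.pi * v) := by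
  have hp := Real.pi_pos
  have hp3 := Real.pi_gt_three
  have hv0 : 0 < v := lt_of_lt_of_le (by unfold vBT; positivity) h1
  have hpv : Real.pi * v ≤ 1 := by rw [mul_comm]; exact (le_div_iff₀ hp).1 h2
  rw [jQ_eq_min (by nlinarith), min_eq_right
    (?_ : √(Real.pi * v) ≤ (36 * Real.pi) ^ (1 / 3 : ℝ) * v ^ (2 / 3 : ℝ) / 2),
    min_eq_left (Real.sqrt_le_one.2 hpv)]
  refine (pow_le_pow_iff_left₀ (Real.sqrt_nonneg _) (by positivity) (by norm_num : 6 ≠ 0)).1 ?_
  rw [show (6 : ℕ) = 2 * 3 by norm_num, pow_mul, Real.sq_sqrt (by positivity),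
    show 2 * 3 = 3 * 2 by norm_num, pow_mul, ball_branch_cube hv0.le]
  have h81 : Real.pi ≤ 81 / 4 * v := by
    unfold vBT at h1; linarith
  have := mul_le_mul_of_nonneg_left h81 (show 0 ≤ Real.pi ^ 2 * v ^ 3 by positivity)
  linarith

lemma jQ_eq_one {v : ℝ} (h1 : 1 / Real.pi ≤ v) (h2 : v ≤ 1 / 2) : jQ v = 1 := by
  have hp := Real.pi_pos
  have hp4 := Real.pi_lt_d6
  have hpv : 1 ≤ Real.pi * v := by rw [mul_comm]; exact (div_le_iff₀ hp).1 h1
  have hv0 : 0 ≤ v := le_trans (by positivity) h1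
  rw [jQ_eq_min h2, min_eq_right]
  refine le_min ?_ (Real.one_le_sqrt.2 hpv)
  refine (pow_le_pow_iff_left₀ zero_le_one (by positivity) (by norm_num : 3 ≠ 0)).1 ?_
  rw [ball_branch_cube hv0, one_pow]
  nlinarith [mul_le_mul_of_nonneg_right hpv hv0]

/-- Equality in the quadratic inequality makes a cylinder. -/
lemma cylinder_of_le (hB : SliceBasics) (hQ : QuadIneq) {D : Set V3} {h : ℝ} {c : Fin 3 → ℝ}
    (hD : IsDown D) (hS : Stationary D h c) (i : Fin 3) (hP : 0 < area D)
    (hle : area D ≤ h * dvol D + c i) : endA1 D i = dvol D := by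
  obtain ⟨-, -, -, -, -, -, -, h1v, hva, -⟩ := hB D hD i
  set d := endA0 D i - endA1 D i with hd
  have hd0 : 0 ≤ d := by linarith
  have hq := hQ D h c hD hS i (d / area D) (by positivity)
  have e : 2 * (d / area D) * d - (d / area D) ^ 2 * area D = d ^ 2 / area D := by
    field_simp; ring
  have h2 : d ^ 2 / area D ≤ 0 := by rw [← e]; linarith
  rw [div_le_iff₀ hP, zero_mul] at h2
  have : d = 0 := pow_eq_zero_iff two_ne_zero |>.1 (le_antisymm h2 (sq_nonneg d))
  linarith

/-- A spanned axis has a positive coefficient. -/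
lemma coef_pos (h3 : Slice3) (hB : SliceBasics) {D : Set V3} {h : ℝ} {c : Fin 3 → ℝ}
    (hD : IsDown D) (hS : Stationary D h c) (hv : dvol D ≤ 1 / 2) (hh : 0 ≤ h)
    (h2 : h ^ 2 * dvol D < Real.pi) (h1 : h * dvol D < 1) {i : Fin 3} (hi : 0 < endA1 D i) :
    0 < c i := by
  obtain ⟨-, -, -, -, -, -, -, hav, -, -⟩ := hB D hD i
  have hlt : h * endA1 D i < ell3 (endA1 D i) := by
    have hha : h * endA1 D i < 1 := (mul_le_mul_of_nonneg_left hav hh).trans_lt h1
    unfold ell3
    refine lt_min hha (lt_min ?_ (hha.trans_le (Real.one_le_sqrt.2 ?_)))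
    · rw [Real.lt_sqrt (by positivity)]
      calc (h * endA1 D i) ^ 2 = h ^ 2 * endA1 D i * endA1 D i := by ring
        _ < Real.pi * endA1 D i :=
          mul_lt_mul_of_pos_right ((mul_le_mul_of_nonneg_left hav (sq_nonneg h)).trans_lt h2) hi
    · nlinarith [Real.pi_gt_three]
  linarith [(ends_ell3 h3 hB hD hS i).1]

lemma ball_of_no_span (hB : SliceBasics) (hSF : SliceFree) (hN : NoSpanBound) {D : Set V3}
    {h : ℝ} {c : Fin 3 → ℝ} (hD : IsDown D) (hS : Stationary D h c) (hv : 0 < dvol D)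
    (hv2 : dvol D ≤ 1 / 2) (hP : area D = jQ (dvol D)) (hh : 0 ≤ h)
    (hno : ∀ i, endA1 D i = 0) : BallCase D := by
  have hc : ∀ i, c i = 0 := fun i => hS.unspanned i (hno i)
  rcases hh.eq_or_lt with h0 | h0
  · obtain ⟨-, -, -, -, -, -, -, -, hva, -⟩ := hB D hD 0
    have he := end0_continuous hB hD hS 0 (ell := fun a => √(Real.pi * a)) (by fun_prop) _
      (hSF D hD 0 fun j _ => hno j) (Eventually.of_forall fun _ => le_rfl)
    rw [hc 0, ← h0, zero_mul, add_zero] at he
    have : 0 < √(Real.pi * endA0 D 0) :=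
      Real.sqrt_pos.2 (mul_pos Real.pi_pos (hv.trans_le hva))
    linarith
  · refine ⟨h, c, hS, hc, hno, le_antisymm ?_ (hN D h c hD hS h0 hno)⟩
    rw [hP]
    exact jQ_cube_le hv.le hv2

/-- Slab volumes with zero multiplier. -/
lemma eq_slab (hB : SliceBasics) (hF : FaceBasics) (hG : SliceGen) (h3 : Slice3)
    (hSF : SliceFree) (hN : NoSpanBound) (hQ : QuadIneq) {D : Set V3} {c : Fin 3 → ℝ}
    (hD : IsDown D) (hS : Stationary D 0 c) (hv : 1 / Real.pi ≤ dvol D)
    (hv2 : dvol D ≤ 1 / 2) (hP : area D = jQ (dvol D)) : BallCase D ∨ SlabCase D := by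
  have hp := Real.pi_pos
  have hp3 := Real.pi_gt_three
  have hP1 : area D = 1 := by rw [hP, jQ_eq_one hv hv2]
  have hv0 : 0 < dvol D := lt_of_lt_of_le (by positivity) hv
  have hn : ∀ l, 0 ≤ endA1 D l := fun l => (hB D hD l).2.2.2.2.2.2.1
  by_cases h0 : ∀ l, endA1 D l = 0
  · exact Or.inl (ball_of_no_span hB hSF hN hD hS hv0 hv2 hP le_rfl h0)
  have hle : ∀ l, c l ≤ 1 := fun l => by
    have := hQ D 0 c hD hS l 0 le_rfl
    rw [hP1] at this
    linarith
  have hsum := hS.sum_eq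
  rw [hP1] at hsum
  obtain ⟨i, hi'⟩ := not_forall.mp h0
  have hi : 0 < endA1 D i := lt_of_le_of_ne (hn i) (Ne.symm hi')
  obtain ⟨j, k, hij, hik, hjk, hall, hsum3⟩ := three_axes i
  rw [hsum3 c] at hsum
  have hcyl : ∀ l, c l = 1 → endA1 D l = dvol D := fun l hl =>
    cylinder_of_le hB hQ hD hS l (by rw [hP1]; exact one_pos) (by rw [hP1, hl]; simp)
  rcases (hn j).eq_or_lt' with hj | hj <;> rcases (hn k).eq_or_lt' with hk | hk
  · have := hS.unspanned j hj
    have := hS.unspanned k hk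
    have := hle i
    linarith
  · have := hS.unspanned j hj
    exact Or.inr ⟨i, k, hik, hcyl i (by linarith [hle i, hle k]),
      hcyl k (by linarith [hle i, hle k]), hP1⟩
  · have := hS.unspanned k hk
    exact Or.inr ⟨i, j, hij, hcyl i (by linarith [hle i, hle j]),
      hcyl j (by linarith [hle i, hle j]), hP1⟩
  · exfalso
    have key : ∀ m a b : Fin 3, m ≠ a → m ≠ b → a ≠ b → 0 < endA1 D m → 0 < endA1 D a →
        0 < endA1 D b → c m ≤ 2 / 3 → False := by
      intro m a b hma hmb hab hm ha hb hx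
      obtain ⟨-, -, -, -, -, -, h10, h1v, hva, -⟩ := hB D hD m
      have hxp : 0 < c m := coef_pos h3 hB hD hS hv2 le_rfl (by simp [hp]) (by simp) hm
      have he0 := end0_both hB hF hG hD hS hma hmb hab ha hb
      have he1 := (ends_ell3 h3 hB hD hS m).1
      rw [zero_mul, zero_add] at he0 he1
      have ha1 : Real.pi * endA1 D m ≤ c m ^ 2 := by
        rw [ell3_eq (by nlinarith), min_le_iff] at he1
        rcases he1 with h' | h'
        · linarith
        · exact (Real.sqrt_le_iff.1 h').2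
      have ha0 : Real.pi * (1 - endA0 D m) ≤ c m ^ 2 := (Real.sqrt_le_iff.1 he0).2
      have hd : 0 ≤ endA0 D m - endA1 D m := by linarith
      have hq := hQ D 0 c hD hS m _ hd
      rw [hP1] at hq
      set d := endA0 D m - endA1 D m with hdd
      have hl : Real.pi - 2 * c m ^ 2 ≤ Real.pi * d := by rw [hdd]; linarith
      have hx2 : 0 ≤ Real.pi - 2 * c m ^ 2 := by nlinarith
      have hsq := pow_le_pow_left₀ hx2 hl 2
      have hd2 : d ^ 2 ≤ 1 - c m := by linarith
      have := mul_le_mul_of_nonneg_left hd2 (sq_nonneg Real.pi)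
      nlinarith [mul_pos hxp hp, mul_pos (mul_pos hxp hp) (show 0 < Real.pi - 4 * c m by linarith),
        pow_nonneg hxp.le 4]
    rcases le_or_gt (c i) (2 / 3) with hxi | hxi
    · exact key i j k hij hik hjk hi hj hk hxi
    rcases le_or_gt (c j) (2 / 3) with hxj | hxj
    · exact key j i k hij.symm hjk hik hj hi hk hxj
    · exact key k i j hik.symm hjk.symm hij hk hi hj (by linarith)

/-- Tube volumes strictly between the transitions. -/
lemma eq_tube (hB : SliceBasics) (h3 : Slice3) (hM : MainIneq) (hQ : QuadIneq) {D : Set V3}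
    {c : Fin 3 → ℝ} (hD : IsDown D) (h1 : vBT < dvol D) (h2 : dvol D < 1 / Real.pi)
    (hP : area D = jQ (dvol D))
    (hS : Stationary D (jQ (dvol D) / (2 * dvol D)) c) : TubeCase D := by
  have hp := Real.pi_pos
  have hp3 := Real.pi_gt_three
  set v := dvol D with hv
  have hv0 : 0 < v := lt_trans (by unfold vBT; positivity) h1
  have hpv : Real.pi * v ≤ 1 := by rw [mul_comm]; exact (le_div_iff₀ hp).1 h2.le
  have hv2 : v ≤ 1 / 2 := by nlinarith
  rw [jQ_eq_tube h1.le h2.le] at hP hS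
  set T := √(Real.pi * v) with hT
  have hT0 : 0 < T := Real.sqrt_pos.2 (by positivity)
  have hT1 : T ≤ 1 := Real.sqrt_le_one.2 hpv
  have hT2 : T ^ 2 = Real.pi * v := Real.sq_sqrt (by positivity)
  set h := T / (2 * v) with hh
  have hhv : h * v = T / 2 := by rw [hh]; field_simp
  have hh0 : 0 ≤ h := by positivity
  have hh2 : h ^ 2 * v < Real.pi := by
    refine lt_of_mul_lt_mul_right ?_ hv0.le
    calc h ^ 2 * v * v = (h * v) ^ 2 := by ring
      _ < Real.pi * v := by rw [hhv, div_pow, hT2]; linarith [mul_pos hp hv0]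
  have hcn := coefNonneg h3 hB D h c hD hS hv2 hh0 hh2.le (by rw [← hv]; linarith)
  have hsum := hS.sum_eq
  rw [← hv, hP, mul_assoc, hhv] at hsum
  obtain ⟨i, -, hi⟩ := Finset.exists_max_image Finset.univ c Finset.univ_nonempty
  have hmax : ∑ l, c l ≤ 3 * c i := by
    simpa using Finset.sum_le_card_nsmul Finset.univ c (c i) hi
  have hci : c i ≤ ∑ l, c l := Finset.single_le_sum (fun l _ => hcn l) (Finset.mem_univ i)
  obtain ⟨-, -, -, -, -, -, ha1, h1v, hva, ha0⟩ := hB D hD i
  obtain ⟨he1, he0⟩ := ends_ell3 h3 hB hD hS i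
  rcases lt_or_ge (c i) (T / 2) with hlt | hge
  · have htube := tubeLemma v h (c i) _ _ h1.le h2.le hh0 le_rfl (hcn i) hlt ha1 h1v hva ha0 he1 he0
    have hm := hM D h c hD hS i ell3 continuous_ell3 (h3 D hD i)
    rw [hP, ← hv, hhv] at hm
    rcases min_lt_iff.1 htube with hk | hk <;> linarith
  refine ⟨i, cylinder_of_le hB hQ hD hS i (by rw [hP]; exact hT0) ?_, fun j hji => ?_, hP⟩
  · rw [← hv, hP, hhv]; linarith
  · by_contra hne
    have hjp := coef_pos h3 hB hD hS hv2 hh0 hh2 (by rw [← hv]; linarith)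
      (lt_of_le_of_ne (hB D hD j).2.2.2.2.2.2.1 (Ne.symm hne))
    have : c i + c j ≤ ∑ l, c l := by
      rw [← Finset.sum_pair hji.symm]
      exact Finset.sum_le_sum_of_subset_of_nonneg (Finset.subset_univ _) fun l _ _ => hcn l
    linarith

/-- The ball-tube transition volume. -/
lemma eq_bt (hB : SliceBasics) (hF : FaceBasics) (hG : SliceGen) (h3 : Slice3) (hSF : SliceFree)
    (hE : SliceExtent) (hM : MainIneq) (hQ : QuadIneq) (hN : NoSpanBound) {D : Set V3} {h : ℝ}
    {c : Fin 3 → ℝ} (hD : IsDown D) (hv : dvol D = 4 * Real.pi / 81)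
    (hP : area D = jQ (dvol D)) (hl : hLo (dvol D) ≤ h) (hh : h ≤ hHi (dvol D))
    (hS : Stationary D h c) : BallCase D ∨ TubeCase D := by
  have hp := Real.pi_pos
  have hp0 := Real.pi_gt_d6
  have hp1 := Real.pi_lt_d6
  have hvB : dvol D = vBT := hv
  have hlt : vBT < 1 / Real.pi := by
    unfold vBT; rw [lt_div_iff₀ hp]; nlinarith
  have hv0 : 0 < dvol D := by rw [hv]; positivity
  have hv2 : dvol D ≤ 1 / 2 := by rw [hv]; linarith
  have hJ : jQ (dvol D) = √(Real.pi * dvol D) := jQ_eq_tube hvB.ge (hvB ▸ hlt.le)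
  have hT : √(Real.pi * dvol D) = 2 * Real.pi / 9 := by
    rw [hv, show Real.pi * (4 * Real.pi / 81) = (2 * Real.pi / 9) ^ 2 by ring,
      Real.sqrt_sq (by positivity)]
  have hA : area D = 2 * Real.pi / 9 := by rw [hP, hJ, hT]
  rw [hLo, hvB, if_neg (lt_irrefl _), if_pos hlt, ← hvB, hJ, hT, hv] at hl
  rw [hHi, hvB, if_pos le_rfl, ← hvB, hJ, hT, hv] at hh
  have hl' : 9 / 4 ≤ h := by
    refine le_trans (le_of_eq ?_) hl
    field_simp; ring
  have hh' : h ≤ 3 := by
    refine le_trans hh (le_of_eq ?_)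
    field_simp; ring
  have h2v : h ^ 2 * dvol D < Real.pi := by
    rw [hv]; nlinarith [mul_le_mul hh' hh' (by linarith) (by norm_num : (0:ℝ) ≤ 3)]
  have h1v : h * dvol D < 1 := by rw [hv]; nlinarith
  have hc0 := coefNonneg h3 hB D h c hD hS hv2 (by linarith) h2v.le h1v.le
  have hsum : ∑ l, c l = 3 * (4 * Real.pi / 81) * (3 - h) := by
    have := hS.sum_eq
    rw [hA, hv] at this
    linarith
  have hn : ∀ l, 0 ≤ endA1 D l := fun l => (hB D hD l).2.2.2.2.2.2.1
  have hpos : ∀ l, 0 < endA1 D l → 0 < c l := fun l hl =>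
    coef_pos h3 hB hD hS hv2 (by linarith) h2v h1v hl
  by_cases h0 : ∀ l, endA1 D l = 0
  · exact Or.inl (ball_of_no_span hB hSF hN hD hS hv0 hv2 hP (by linarith) h0)
  obtain ⟨i, hi'⟩ := not_forall.mp h0
  have hi : 0 < endA1 D i := lt_of_le_of_ne (hn i) (Ne.symm hi')
  obtain ⟨j, k, hij, hik, hjk, hall, hsum3⟩ := three_axes i
  rcases (hn j).eq_or_lt' with hj | hj <;> rcases (hn k).eq_or_lt' with hk | hk
  · have hoth : ∀ l, l ≠ i → endA1 D l = 0 := fun l hl' => by
      rcases hall l with rfl | rfl | rfl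
      · exact absurd rfl hl'
      · exact hj
      · exact hk
    have hci : ∑ l, c l = c i := by
      rw [hsum3 c, hS.unspanned j hj, hS.unspanned k hk]; ring
    rw [hci] at hsum
    rcases hl'.eq_or_lt with heq | hgt
    · refine Or.inr ⟨i, cylinder_of_le hB hQ hD hS i (by rw [hA]; positivity) ?_, hoth,
        by rw [hP, hJ]⟩
      rw [hA, hv, hsum, ← heq]; linarith
    rcases le_or_gt h 2.85 with hlow | hhigh
    · exact (bt_one_low hB h3 hSF hM hD hv hS hl' hlow hoth (hc0 i) hci hsum.le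
        (Or.inl hgt)).elim
    · have h3' : h < 3 := by
        rcases hh'.eq_or_lt with he | he
        · rw [he] at hsum
          linarith [hpos i hi]
        · exact he
      exact (bt_one_high hB hF hG h3 hE hM hD hv hS hhigh.le h3' hA.le hij hik hjk hj hk (hc0 i)
        hsum.le).elim
  · exact (bt_two hB hF hG hQ hD hv hS hl' hh' hA.le hij.symm hjk hik hj hi hk).elim
  · exact (bt_two hB hF hG hQ hD hv hS hl' hh' hA.le hik.symm hjk.symm hij hk hi hj).elim
  · exfalso
    rw [hsum3 c] at hsum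
    rcases le_or_gt (c i) (4 * Real.pi / 81 * (3 - h)) with hx | hx
    · exact bt_three hB hF hG h3 hQ hD hv hS hl' hh' hA.le hij hik hjk hj hk (hc0 i) hx
    rcases le_or_gt (c j) (4 * Real.pi / 81 * (3 - h)) with hy | hy
    · exact bt_three hB hF hG h3 hQ hD hv hS hl' hh' hA.le hij.symm hjk hik hi hk (hc0 j) hy
    · exact bt_three hB hF hG h3 hQ hD hv hS hl' hh' hA.le hik.symm hjk.symm hij hi hj (hc0 k)
        (by linarith)

/-- The tube-slab transition volume with positive multiplier. -/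
lemma eq_kink (hB : SliceBasics) (hF : FaceBasics) (hG : SliceGen) (h3 : Slice3)
    (hSF : SliceFree) (hM : MainIneq) (hQ : QuadIneq) (hN : NoSpanBound) (hHigh : TwoHighLe)
    {D : Set V3} {h : ℝ} {c : Fin 3 → ℝ} (hD : IsDown D) (hv : dvol D = 1 / Real.pi)
    (hP : area D = jQ (dvol D)) (hh0 : 0 < h) (hh2 : h ≤ Real.pi / 2)
    (hS : Stationary D h c) : BallCase D ∨ TubeCase D := by
  have hp := Real.pi_pos
  have hp0 := Real.pi_gt_d6
  have hp1 := Real.pi_lt_d6
  have hv0 : 0 < dvol D := by rw [hv]; positivity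
  have hv3 : 1 / Real.pi ≤ 0.32 := by rw [div_le_iff₀ hp]; linarith
  have hv2 : dvol D ≤ 1 / 2 := by rw [hv]; linarith
  have hA : area D = 1 := by rw [hP, jQ_eq_one hv.ge hv2]
  have hhv : h * dvol D ≤ 1 / 2 := by
    rw [hv, mul_one_div, div_le_iff₀ hp]; linarith
  have h2v : h ^ 2 * dvol D < Real.pi := by
    have := mul_le_mul hh2 hhv (by positivity) (by positivity)
    rw [← mul_assoc, ← sq] at this
    linarith
  have hc0 := coefNonneg h3 hB D h c hD hS hv2 hh0.le h2v.le (by linarith)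
  have hsum := hS.sum_eq
  rw [hA] at hsum
  have hn : ∀ l, 0 ≤ endA1 D l := fun l => (hB D hD l).2.2.2.2.2.2.1
  by_cases h0 : ∀ l, endA1 D l = 0
  · exact Or.inl (ball_of_no_span hB hSF hN hD hS hv0 hv2 hP hh0.le h0)
  obtain ⟨i, hi'⟩ := not_forall.mp h0
  have hi : 0 < endA1 D i := lt_of_le_of_ne (hn i) (Ne.symm hi')
  obtain ⟨j, k, hij, hik, hjk, hall, hsum3⟩ := three_axes i
  rw [hsum3 c] at hsum
  have htwo : ∀ a b d : Fin 3, a ≠ b → a ≠ d → b ≠ d → endA1 D a = 0 → 0 < endA1 D b →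
      0 < endA1 D d → False := fun a b d e1 e2 e3 ga gb gd => by
    rcases le_or_gt h 1.02 with hlo | hhi
    · exact slabTwoLowLe hB hF hG h3 hM hQ D h c hD hS hv hh0 hlo hA.le a b d e1 e2 e3 ga gb gd
    · exact hHigh D h c hD hS hv hhi.le hh2 hA.le hc0 a b d e1 e2 e3 ga gb gd
  rcases (hn j).eq_or_lt' with hj | hj <;> rcases (hn k).eq_or_lt' with hk | hk
  · rw [hS.unspanned j hj, hS.unspanned k hk] at hsum
    obtain ⟨-, -, -, -, -, -, hb, hbv, hva, ha⟩ := hB D hD i
    obtain ⟨he1, he0⟩ := ends_ell3 h3 hB hD hS i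
    have hm := hM D h c hD hS i ell3 continuous_ell3 (h3 D hD i)
    have hint : 0 ≤ ∫ s in endA1 D i..endA0 D i, bfun (h * s + c i) (ell3 s) :=
      intervalIntegral.integral_nonneg (hbv.trans hva) fun s _ => bfun_nonneg _ _
    have h1 : √(Real.pi * dvol D) = 1 := by
      rw [hv, show Real.pi * (1 / Real.pi) = 1 by field_simp, Real.sqrt_one]
    rw [hA] at hm
    rcases lt_or_ge (c i) (1 / 2) with hlt | hge
    · have hh' : h ≤ √(Real.pi * dvol D) / (2 * dvol D) := by
        rw [h1, hv]; refine hh2.trans (le_of_eq ?_); field_simp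
      have hBT : vBT ≤ dvol D := by
        rw [hv]; unfold vBT; rw [le_div_iff₀ hp]; nlinarith
      have htube := tubeLemma (dvol D) h (c i) _ _ hBT hv.le hh0.le hh' (hc0 i)
        (by rw [h1]; exact hlt) hb hbv hva ha he1 he0
      rw [h1] at htube
      rcases min_lt_iff.1 htube with hk' | hk' <;> linarith [hc0 i]
    · refine Or.inr ⟨i, cylinder_of_le hB hQ hD hS i (by rw [hA]; exact one_pos)
        (by rw [hA]; linarith), fun l hl => ?_, by rw [hA, h1]⟩
      rcases hall l with rfl | rfl | rfl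
      · exact absurd rfl hl
      · exact hj
      · exact hk
  · exact (htwo j i k hij.symm hjk hik hj hi hk).elim
  · exact (htwo k i j hik.symm hjk.symm hij hk hi hj).elim
  · exfalso
    have key : ∀ i j k : Fin 3, i ≠ j → i ≠ k → j ≠ k → 0 < endA1 D j → 0 < endA1 D k →
        ∑ l, c l ≤ 3 * c i → False := by
      intro i j k hij hik hjk hj hk hmax
      obtain ⟨-, -, -, -, -, -, hb, hbv, hva, -⟩ := hB D hD i
      have he0 := end0_both hB hF hG hD hS hij hik hjk hj hk
      have he1 := (ends_ell3 h3 hB hD hS i).1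
      have hsum := hS.sum_eq
      have hq0 := hQ D h c hD hS i 0 le_rfl
      have hd : 0 ≤ endA0 D i - endA1 D i := by linarith
      have hq := hQ D h c hD hS i _ hd
      rw [hv, mul_one_div] at hq0 hq
      rw [hv] at hbv hva
      rw [hA, mul_assoc, hv, mul_one_div] at hsum
      rw [hA] at hq0 hq
      have hbp : Real.pi * endA1 D i ≤ 1 := by
        rw [mul_comm]; exact (le_div_iff₀ hp).1 hbv
      rw [ell3_eq (by linarith), min_eq_right (Real.sqrt_le_one.2 hbp)] at he1
      exact slab_three_num (P := 1) hh0.le hh2 one_pos le_rfl (by linarith) (by linarith) hb hbv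
        hva (by linarith) he1 he0
    obtain ⟨m, -, hm⟩ := Finset.exists_max_image Finset.univ c Finset.univ_nonempty
    have hmax : ∑ l, c l ≤ 3 * c m := by
      simpa using Finset.sum_le_card_nsmul Finset.univ c (c m) hm
    rcases hall m with rfl | rfl | rfl
    · exact key _ j k hij hik hjk hj hk hmax
    · exact key _ i k hij.symm hjk hik hi hk hmax
    · exact key _ i j hik.symm hjk.symm hij hi hj hmax

theorem eqCases (hV : Variation0) (hB : SliceBasics) (hF : FaceBasics) (hG : SliceGen)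
    (h3 : Slice3) (hSF : SliceFree) (hE : SliceExtent) (hM : MainIneq) (hQ : QuadIneq)
    (hHigh : TwoHighLe) : EqCases := by
  intro D hmin
  obtain ⟨h, c, hl, hh, hS⟩ := hV D hmin
  obtain ⟨hD, hv0, hv2, hP, -⟩ := hmin
  have hN := noSpanBound hSF hB hM
  have hp := Real.pi_pos
  have hp0 := Real.pi_gt_d6
  have hp1 := Real.pi_lt_d6
  have hlt : vBT < 1 / Real.pi := by
    unfold vBT; rw [lt_div_iff₀ hp]; nlinarith
  rcases lt_trichotomy (dvol D) vBT with hb | hb | hb
  · simp only [hLo, hHi, if_pos hb, if_pos hb.le] at hl hh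
    have he : h = 2 * jQ (dvol D) / (3 * dvol D) := le_antisymm hh hl
    have hhv : h * dvol D = 2 / 3 * area D := by rw [he, hP]; field_simp
    have hA0 : 0 ≤ area D := MeasureTheory.integral_nonneg fun x => Real.sqrt_nonneg _
    have h0 : 0 ≤ h := by rw [he, ← hP]; positivity
    have hpv : Real.pi * dvol D ≤ 1 := by
      unfold vBT at hb; nlinarith
    have hA1 : area D ^ 2 ≤ Real.pi * dvol D := by
      have hJT : jQ (dvol D) ≤ √(Real.pi * dvol D) := by
        rw [jQ_eq_min hv2]; exact (min_le_left _ _).trans (min_le_right _ _)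
      rw [hP] at hA0 ⊢
      have := pow_le_pow_left₀ hA0 hJT 2
      rwa [Real.sq_sqrt (by positivity)] at this
    have h2v : h ^ 2 * dvol D < Real.pi := by
      refine lt_of_mul_lt_mul_right ?_ hv0.le
      calc h ^ 2 * dvol D * dvol D = (h * dvol D) ^ 2 := by ring
        _ < Real.pi * dvol D := by
          rw [hhv, mul_pow]; linarith [mul_pos hp hv0]
    have h1v : h * dvol D < 1 := by
      have : area D ≤ 1 := by
        nlinarith [sq_nonneg (area D - 1)]
      linarith
    have hc0 := coefNonneg h3 hB D h c hD hS hv2 h0 h2v.le h1v.le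
    have hs : ∑ l, c l = 0 := by
      have := hS.sum_eq
      linarith
    have hz := (Finset.sum_eq_zero_iff_of_nonneg fun l _ => hc0 l).1 hs
    refine Or.inl (ball_of_no_span hB hSF hN hD hS hv0 hv2 hP h0 fun l => ?_)
    by_contra hne
    have := coef_pos h3 hB hD hS hv2 h0 h2v h1v
      (lt_of_le_of_ne (hB D hD l).2.2.2.2.2.2.1 (Ne.symm hne))
    linarith [hz l (Finset.mem_univ l)]
  · rcases eq_bt hB hF hG h3 hSF hE hM hQ hN hD (hb.trans rfl) hP hl hh hS with g | g
    · exact Or.inl g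
    · exact Or.inr (Or.inl g)
  rcases lt_trichotomy (dvol D) (1 / Real.pi) with hk | hk | hk
  · simp only [hLo, hHi, if_neg hb.le.not_gt, if_neg hb.not_ge, if_pos hk, if_pos hk.le] at hl hh
    have he : h = jQ (dvol D) / (2 * dvol D) := le_antisymm hh hl
    rw [he] at hS
    exact Or.inr (Or.inl (eq_tube hB h3 hM hQ hD hb hk hP hS))
  · have hl' : 0 ≤ h := by
      rw [hk, hLo, if_neg hlt.not_gt, if_neg (lt_irrefl _)] at hl
      exact hl
    have hh' : h ≤ Real.pi / 2 := by
      rw [hk, hHi, if_neg hlt.not_ge, if_pos le_rfl, jQ_eq_one le_rfl (hk ▸ hv2)] at hh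
      refine hh.trans (le_of_eq ?_)
      field_simp
    rcases hl'.eq_or_lt with h0 | h0
    · rw [← h0] at hS
      rcases eq_slab hB hF hG h3 hSF hN hQ hD hS hk.ge hv2 hP with g | g
      · exact Or.inl g
      · exact Or.inr (Or.inr g)
    · rcases eq_kink hB hF hG h3 hSF hM hQ hN hHigh hD hk hP h0 hh' hS with g | g
      · exact Or.inl g
      · exact Or.inr (Or.inl g)
  · simp only [hLo, hHi, if_neg hb.le.not_gt, if_neg hb.not_ge, if_neg hk.le.not_gt,
      if_neg hk.not_ge] at hl hh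
    have he : h = 0 := le_antisymm hh hl
    rw [he] at hS
    rcases eq_slab hB hF hG h3 hSF hN hQ hD hS hk.le hv2 hP with g | g
    · exact Or.inl g
    · exact Or.inr (Or.inr g)

end Vale.Agent.P232
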