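import Vale.Agent.P232.Periodic

/-! # P232: Helly selection for antitone functions of three variables -/

namespace Vale.Agent.P232

open MeasureTheory Set Filter Topology
open scoped ENNReal NNReal

/-- A rational point. -/
def qPt (q : Fin 3 → ℚ) : V3 := fun i => (q i : ℝ)

/-- Strictly below in every coordinate. -/
def SLt (z z' : V3) : Prop := ∀ i, z i < z' i

theorem SLt.exists_qPt {z z' : V3} (h : SLt z z') : ∃ q, SLt z (qPt q) ∧ SLt (qPt q) z' := by
  choose q hq using fun i => exists_rat_btwn (h i)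
  exact ⟨q, fun i => (hq i).1, fun i => (hq i).2⟩

theorem isOpen_slt_left (z' : V3) : IsOpen {z : V3 | SLt z z'} := by
  simp only [SLt, ofPred_forall]
  exact isOpen_iInter_of_finite fun i => isOpen_lt (continuous_apply i) continuous_const

theorem exists_subseq_antitone_tendsto (h : ℕ → V3 → ℝ) (hm : ∀ n, Antitone (h n))
    (hb : ∀ n z, h n z ∈ Icc (0 : ℝ) 1) :
    ∃ φ : ℕ → ℕ, StrictMono φ ∧ ∃ H : V3 → ℝ, Measurable H ∧ Antitone H ∧
      (∀ z, H z ∈ Icc (0 : ℝ) 1) ∧ ∀ᵐ z, Tendsto (fun n => h (φ n) z) atTop (𝓝 (H z)) := by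
  obtain ⟨Hq, hHq, φ, hφ, hlim⟩ :=
    (isCompact_univ_pi fun _ : Fin 3 → ℚ => isCompact_Icc (a := (0 : ℝ)) (b := 1)).tendsto_subseq
      (x := fun n q => h n (qPt q)) fun n q _ => hb n (qPt q)
  have hq : ∀ q, Tendsto (fun n => h (φ n) (qPt q)) atTop (𝓝 (Hq q)) := tendsto_pi_nhds.1 hlim
  set F : V3 → (Fin 3 → ℚ) → ℝ := fun z q =>
    ({z : V3 | SLt z (qPt q)} : Set V3).indicator (fun _ => Hq q) z with hF
  set L : V3 → ℝ := fun z => ⨆ q, F z q with hL
  have hFb : ∀ z q, F z q ∈ Icc (0 : ℝ) 1 := fun z q => by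
    by_cases hz : SLt z (qPt q)
    · simp [hF, hz, (hHq q trivial).1, (hHq q trivial).2]
    · simp [hF, hz]
  have hbdd : ∀ z, BddAbove (range (F z)) := fun z =>
    ⟨1, by rintro _ ⟨q, rfl⟩; exact (hFb z q).2⟩
  have hle : ∀ z q, SLt z (qPt q) → Hq q ≤ L z := fun z q hz => by
    have := le_ciSup (hbdd z) q
    simpa [hF, hz] using this
  have hanti : Antitone L := fun z z' hzz' => by
    refine ciSup_mono (hbdd z) fun q => ?_
    by_cases hz : SLt z' (qPt q)
    · have : SLt z (qPt q) := fun i => (hzz' i).trans_lt (hz i)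
      simp [hF, hz, this]
    · simp only [hF, indicator_of_notMem (show z' ∉ {z : V3 | SLt z (qPt q)} from hz)]
      exact (hFb z q).1
  have hmeas : Measurable L := by
    refine Measurable.iSup fun q => ?_
    exact measurable_const.indicator (isOpen_slt_left _).measurableSet
  refine ⟨φ, hφ, L, hmeas, hanti, fun z => ?_, ?_⟩
  · refine ⟨(hFb z 0).1.trans (le_ciSup (hbdd z) 0), ciSup_le fun q => (hFb z q).2⟩
  · -- outside countably many null frontiers the sequence converges to `L`
    let S : ℚ → Set V3 := fun r => {z | ∀ q, SLt (qPt q) z → (r : ℝ) ≤ Hq q}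
    have hlow : ∀ r, IsLowerSet (S r) := fun r a b hba ha q hq' =>
      ha q fun i => (hq' i).trans_le (hba i)
    have hnull : ∀ᵐ z : V3, ∀ r : ℚ, z ∉ frontier (S r) :=
      ae_all_iff.2 fun r => measure_eq_zero_iff_ae_notMem.1 (hlow r).null_frontier
    filter_upwards [hnull] with z hz
    refine tendsto_order.2 ⟨fun a ha => ?_, fun a ha => ?_⟩
    · obtain ⟨q, hqa⟩ := exists_lt_of_lt_ciSup ha
      by_cases hzq : SLt z (qPt q)
      · simp only [hF, indicator_of_mem (show z ∈ {z : V3 | SLt z (qPt q)} from hzq)] at hqa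
        filter_upwards [(hq q).eventually_const_lt hqa] with n hn
        exact hn.trans_le (hm _ fun i => (hzq i).le)
      · simp only [hF, indicator_of_notMem (show z ∉ {z : V3 | SLt z (qPt q)} from hzq)] at hqa
        exact Eventually.of_forall fun n => hqa.trans_le (hb _ z).1
    · obtain ⟨r, hr1, hr2⟩ := exists_rat_btwn ha
      by_cases hzS : z ∈ S r
      · refine absurd ?_ (hz r)
        refine ⟨subset_closure hzS, fun hint => ?_⟩
        have ht : Tendsto (fun t : ℝ => fun i => z i + t) (𝓝[>] 0) (𝓝 z) := by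
          have : Continuous fun t : ℝ => (fun i => z i + t : V3) := by fun_prop
          simpa using (this.tendsto 0).mono_left nhdsWithin_le_nhds
        obtain ⟨t, htS, htpos⟩ :=
          ((ht.eventually (mem_interior_iff_mem_nhds.1 hint)).and self_mem_nhdsWithin).exists
        have hlt : SLt z (fun i => z i + t) := fun i => lt_add_of_pos_right _ htpos
        obtain ⟨q, hq1, hq2⟩ := hlt.exists_qPt
        exact absurd ((htS : (fun i => z i + t) ∈ S r) q hq2)
          (not_le.2 ((hle z q hq1).trans_lt hr1))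
      · simp only [S, mem_ofPred_eq, not_forall, not_le] at hzS
        obtain ⟨q, hq1, hq2⟩ := hzS
        filter_upwards [(hq q).eventually_lt_const hq2] with n hn
        exact ((hm _ fun i => (hq1 i).le).trans_lt hn).trans hr2

end Vale.Agent.P232
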