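import Vale.Agent.P232.Defs

/-! # P232: interfaces between the modules (statements only; proofs live in the module files)

A `Reduction`, `Lift`, `Attain`; B `Variation`; C `Slices`, `Calibration`; D `Interior` (with the
analytic lemmas); E `KinkBT`, `KinkSlab`; F final assembly.
-/

namespace Vale.Agent.P232

open MeasureTheory Set Filter Topology
open scoped ENNReal

/-! ## A. Reduction -/

/-- Polarisation in the coordinate hyperplanes and compactness. -/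
def SymReduce : Prop :=
  ∀ E, IsTorusSet E → perim E ≠ ⊤ →
    ∃ D, IsDown D ∧ perim (lift D) ≤ perim E ∧ torusVol (lift D) = torusVol E

def LiftArea : Prop :=
  ∀ D, IsDown D → IsTorusSet (lift D) ∧ perim (lift D) = ENNReal.ofReal (2 * area D) ∧
    torusVol (lift D) = dvol D

/-- Helly compactness, lower semicontinuity and the complement symmetry. -/
def MinExists : Prop :=
  (∃ D, IsDown D ∧ area D < jQ (dvol D)) → ∃ D, IsMin D

/-- Ball, tube, slab and their complements. -/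
def Attain : Prop :=
  ∀ V ∈ Ioo (0 : ℝ) 1, ∃ E, IsTorusSet E ∧ torusVol E = V ∧ perim E ≤ ENNReal.ofReal (J V)

/-! ## B. Variation -/

def Variation : Prop :=
  ∀ D, IsMin D → ∃ (h : ℝ) (c : Fin 3 → ℝ),
    hLo (dvol D) ≤ h ∧ h ≤ hHi (dvol D) ∧ Stationary D h c

/-! ## C. Slices and calibrations -/

def SliceBasics : Prop :=
  ∀ D, IsDown D → ∀ i : Fin 3,
    AntitoneOn (sliceA D i) (Ioo 0 1) ∧ Measurable (sliceA D i) ∧
    (∀ t, 0 ≤ sliceA D i t ∧ sliceA D i t ≤ 1) ∧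
    Tendsto (sliceA D i) (𝓝[>] 0) (𝓝 (endA0 D i)) ∧
    Tendsto (sliceA D i) (𝓝[<] 1) (𝓝 (endA1 D i)) ∧
    (∫ t in (0 : ℝ)..1, sliceA D i t) = dvol D ∧
    0 ≤ endA1 D i ∧ endA1 D i ≤ dvol D ∧ dvol D ≤ endA0 D i ∧ endA0 D i ≤ 1

def FaceBasics : Prop :=
  ∀ D, IsDown D → ∀ i j k : Fin 3, i ≠ j → i ≠ k → j ≠ k →
    AntitoneOn (faceW D i j k) (Ioo 0 1) ∧ Measurable (faceW D i j k) ∧
    (∀ t, 0 ≤ faceW D i j k t ∧ faceW D i j k t ≤ 1) ∧
    (∫ t in (0 : ℝ)..1, faceW D i j k t) = endA1 D j ∧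
    (∀ t ∈ Ioo (0 : ℝ) 1, faceW D i j k t ≤ sliceA D i t)

/-- The slice bounds: no full line, full lines in one direction, full lines in both. -/
def SliceGen : Prop :=
  ∀ D, IsDown D → ∀ i j k : Fin 3, i ≠ j → i ≠ k → j ≠ k →
  ∀ (L κ : ℝ → ℝ), Measurable L → Measurable κ → (∀ t, 0 ≤ κ t ∧ κ t ≤ 1) →
  (∀ t ∈ Ioo (0 : ℝ) 1,
    (faceW D i j k t = 0 → faceW D i k j t = 0 → L t ≤ √(Real.pi * sliceA D i t)) ∧
    (0 < faceW D i j k t → 0 < faceW D i k j t → L t ≤ √(Real.pi * (1 - sliceA D i t))) ∧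
    (0 < faceW D i j k t → faceW D i k j t = 0 →
      L t ≤ max 1 (phiK (κ t) + κ t * (sliceA D i t - faceW D i j k t))) ∧
    (faceW D i j k t = 0 → 0 < faceW D i k j t →
      L t ≤ max 1 (phiK (κ t) + κ t * (sliceA D i t - faceW D i k j t)))) →
  LengthBound D i L

def Slice3 : Prop :=
  ∀ D, IsDown D → ∀ i : Fin 3, LengthBound D i fun t => ell3 (sliceA D i t)

def SliceFree : Prop :=
  ∀ D, IsDown D → ∀ i : Fin 3, (∀ j, j ≠ i → endA1 D j = 0) →
    LengthBound D i fun t => √(Real.pi * sliceA D i t)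

/-- The trace on a spanned face bounds every slice parallel to it. -/
def SliceExtent : Prop :=
  ∀ D, IsDown D → ∀ i j k : Fin 3, i ≠ j → i ≠ k → j ≠ k → endA1 D j = 0 →
    ∀ s ∈ Ioo (0 : ℝ) 1, LengthBound D i fun _ => faceW D j i k s

/-- Distribution of the coordinate `i` under the sheet of direction `i`. -/
def SheetLaw : Prop :=
  ∀ D, IsDown D → ∀ (i : Fin 3) (g : ℝ → ℝ≥0∞), Measurable g →
    ∫⁻ x, g (x i) ∂sheet D i = ∫⁻ s in Ioo (endA1 D i) (endA0 D i),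
      g (volume.real {t : ℝ | t ∈ Ioo (0 : ℝ) 1 ∧ s < sliceA D i t})

/-- General slicing calibration, with the flux identity used on the set `Z`. -/
def CalibGen : Prop :=
  ∀ D h c, IsDown D → Stationary D h c → ∀ (i : Fin 3) (L B w : ℝ → ℝ) (Z : Set ℝ),
    LengthBound D i L → Measurable B → Measurable w → MeasurableSet Z →
    (∀ t, 0 ≤ B t ∧ 0 ≤ w t ∧ B t ^ 2 + w t ^ 2 ≤ 1) → (∀ t ∈ Z, B t = 0) →
    ∫⁻ x, ENNReal.ofReal (B (x i)) ∂sheet D i
      + ∫⁻ t in Ioo (0 : ℝ) 1 \ Z, ENNReal.ofReal (w t * L t)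
      + ∫⁻ t in Ioo (0 : ℝ) 1 ∩ Z, ENNReal.ofReal (h * sliceA D i t + c i)
      ≤ ENNReal.ofReal (area D)

/-- The master inequality. -/
def MainIneq : Prop :=
  ∀ D h c, IsDown D → Stationary D h c → ∀ (i : Fin 3) (ell : ℝ → ℝ), Continuous ell →
    LengthBound D i (fun t => ell (sliceA D i t)) →
    h * dvol D + c i + (∫ s in endA1 D i..endA0 D i, bfun (h * s + c i) (ell s)) ≤ area D

/-- Cauchy–Schwarz against a constant normal component. -/
def QuadIneq : Prop :=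
  ∀ D h c, IsDown D → Stationary D h c → ∀ (i : Fin 3) (β : ℝ), 0 ≤ β →
    h * dvol D + c i + 2 * β * (endA0 D i - endA1 D i) - β ^ 2 * area D ≤ area D

/-! ## D. Interior volumes -/

def CoefNonneg : Prop :=
  ∀ D h c, IsDown D → Stationary D h c → dvol D ≤ 1 / 2 → 0 ≤ h →
    h ^ 2 * dvol D ≤ Real.pi → h * dvol D ≤ 1 → ∀ i, 0 ≤ c i

/-- The analytic lemma at tube volumes. -/
def TubeLemma : Prop :=
  ∀ v h c a1 a0 : ℝ, vBT ≤ v → v ≤ 1 / Real.pi → 0 ≤ h → h ≤ √(Real.pi * v) / (2 * v) →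
    0 ≤ c → c < √(Real.pi * v) / 2 → 0 ≤ a1 → a1 ≤ v → v ≤ a0 → a0 ≤ 1 →
    ell3 a1 ≤ h * a1 + c → ell3 a0 ≤ h * a0 + c →
    min (√(Real.pi * v) / 2 - c) (√(Real.pi * v) / 3)
      < ∫ s in a1..a0, bfun (h * s + c) (ell3 s)

/-- The analytic lemma at slab volumes. -/
def SlabLemma : Prop :=
  ∀ v P c a1 a0 : ℝ, 1 / Real.pi ≤ v → v ≤ 1 / 2 → 0 ≤ c → c ≤ P → P < 1 → 2 * P ≤ 3 * c →
    0 ≤ a1 → a1 ≤ v → v ≤ a0 → a0 ≤ 1 → ell3 a1 ≤ c → ell3 a0 ≤ c →
    P - c < ∫ s in a1..a0, bfun c (ell3 s)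

/-- The isoperimetric inequality for sets spanning no axis. -/
def NoSpanBound : Prop :=
  ∀ D h c, IsDown D → Stationary D h c → 0 < h → (∀ i, endA1 D i = 0) →
    9 * Real.pi / 2 * dvol D ^ 2 ≤ area D ^ 3

def NoMinInterior : Prop :=
  ∀ D, IsMin D → dvol D = vBT ∨ dvol D = 1 / Real.pi

/-! ## E. The two transition volumes -/

def NoMinBT : Prop := ∀ D, IsMin D → dvol D ≠ vBT

def NoMinSlabKink : Prop := ∀ D, IsMin D → dvol D ≠ 1 / Real.pi

/-! ## F. Final statement -/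

def Profile : Prop :=
  ∀ V ∈ Ioo (0 : ℝ) 1,
    IsLeast {p : ℝ≥0∞ | ∃ E : Set V3, IsTorusSet E ∧ torusVol E = V ∧ perim E = p}
      (ENNReal.ofReal (J V))

end Vale.Agent.P232
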