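import Vale.Agent.P232.TubeCore

/-! # P232: no minimisers at interior volumes -/

namespace Vale.Agent.P232

open MeasureTheory Set Real intervalIntegral Filter Topology

lemma bfun_nonneg (F l : ℝ) : 0 ≤ bfun F l := by
  unfold bfun
  split_ifs
  · exact Real.sqrt_nonneg _
  · exact le_rfl

lemma bfun_le_one (F l : ℝ) : bfun F l ≤ 1 := by
  unfold bfun
  split_ifs
  · exact Real.sqrt_le_one.2 (by nlinarith [sq_nonneg (F / l)])
  · exact zero_le_one

lemma bfun_eq_sqrt {F l : ℝ} (hl : 0 < l) : bfun F l = √(1 - (F / l) ^ 2) := by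
  unfold bfun
  split_ifs with h
  · rfl
  · have : 1 ≤ F / l := (one_le_div hl).2 (not_lt.1 h)
    exact (Real.sqrt_eq_zero_of_nonpos (by nlinarith)).symm

lemma bfun_anti {F F' l : ℝ} (hF : 0 ≤ F) (h : F ≤ F') : bfun F' l ≤ bfun F l := by
  rcases lt_or_ge F' l with h1 | h1
  · have hl : 0 < l := by linarith
    rw [bfun_eq_sqrt hl, bfun_eq_sqrt hl]
    have := pow_le_pow_left₀ (by positivity) (div_le_div_of_nonneg_right h hl.le) 2
    exact Real.sqrt_le_sqrt (by linarith)
  · simp only [bfun, not_lt.2 h1, if_false]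
    exact bfun_nonneg F l

lemma bfun_mono {F l l' : ℝ} (hF : 0 ≤ F) (h : l ≤ l') : bfun F l ≤ bfun F l' := by
  rcases lt_or_ge F l with h1 | h1
  · have hl : 0 < l := by linarith
    rw [bfun_eq_sqrt hl, bfun_eq_sqrt (hl.trans_le h)]
    have := pow_le_pow_left₀ (div_nonneg hF (hl.le.trans h)) (div_le_div_of_nonneg_left hF hl h) 2
    exact Real.sqrt_le_sqrt (by linarith)
  · simp only [bfun, not_lt.2 h1, if_false]
    exact bfun_nonneg F l'

lemma intervalIntegrable_bfun {F l : ℝ → ℝ} (hF : Measurable F) (hl : Measurable l) (a b : ℝ) :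
    IntervalIntegrable (fun s => bfun (F s) (l s)) volume a b := by
  have hm : Measurable fun s => bfun (F s) (l s) := by
    unfold bfun
    exact Measurable.ite (measurableSet_lt hF hl) (by fun_prop) (by fun_prop)
  refine IntervalIntegrable.mono_fun (intervalIntegrable_const (c := (1 : ℝ)))
    hm.aestronglyMeasurable (Eventually.of_forall fun s => ?_)
  simp only [Real.norm_eq_abs, abs_one, abs_of_nonneg (bfun_nonneg _ _)]
  exact bfun_le_one _ _

lemma continuous_ell3 : Continuous ell3 := by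
  unfold ell3
  fun_prop

/-- Inside the flat range the bound is the smaller of the first two. -/
lemma ell3_eq {s : ℝ} (h : 1 ≤ π * (1 - s)) : ell3 s = min 1 √(π * s) := by
  unfold ell3
  have : 1 ≤ √(π * (1 - s)) := Real.one_le_sqrt.2 h
  rcases min_cases √(π * s) √(π * (1 - s)) with hm | hm <;> rcases hm with ⟨e, _⟩ <;> rw [e]
  rw [min_eq_left this, min_eq_left (by linarith)]

lemma range_in {r K u : ℝ} (hr0 : 0 < r) (hr1 : r < 1) (h1 : (1 - r) ^ 2 < u)
    (h2 : u < 1 + r ^ 2 + 2 * min (K - 1) r) : u + 1 - r ^ 2 < 2 * min √u K := by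
  have hu : 0 < u := (sq_nonneg (1 - r)).trans_lt h1
  have hs := Real.sq_sqrt hu.le
  have hl1 : 1 - r < √u := (Real.lt_sqrt (by linarith)).2 h1
  have hl2 : √u < 1 + r :=
    (Real.sqrt_lt' (by linarith)).2 (by linarith [min_le_right (K - 1) r])
  rcases min_cases √u K with ⟨e, _⟩ | ⟨e, _⟩ <;> rw [e]
  · nlinarith [mul_pos (sub_pos.2 hl1) (sub_pos.2 hl2)]
  · linarith [min_le_left (K - 1) r]

lemma range_out {r K u : ℝ} (hr0 : 0 < r) (hr1 : r < 1) (hu : 0 ≤ u)
    (h : u + 1 - r ^ 2 < 2 * min √u K) :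
    (1 - r) ^ 2 < u ∧ u < 1 + r ^ 2 + 2 * min (K - 1) r := by
  have hs := Real.sq_sqrt hu
  have hA : u + 1 - r ^ 2 < 2 * √u := h.trans_le (by linarith [min_le_left √u K])
  have hB : u + 1 - r ^ 2 < 2 * K := h.trans_le (by linarith [min_le_right √u K])
  have hsq : (√u - 1) ^ 2 < r ^ 2 := by linarith [show (√u - 1) ^ 2 = √u ^ 2 - 2 * √u + 1 by ring]
  obtain ⟨g1, g2⟩ := abs_lt_of_sq_lt_sq' hsq hr0.le
  refine ⟨?_, ?_⟩
  · rw [← hs]; exact pow_lt_pow_left₀ (by linarith) (by linarith) two_ne_zero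
  · rcases min_cases (K - 1) r with ⟨e, _⟩ | ⟨e, _⟩
    · rw [e]; linarith
    · rw [e, ← hs]
      calc √u ^ 2 < (1 + r) ^ 2 := pow_lt_pow_left₀ (by linarith) (Real.sqrt_nonneg _) two_ne_zero
        _ = _ := by ring

/-- The tube lemma in normalised variables. -/
theorem tube_gen {T c a1 a0 p : ℝ} (hT : 5 / 8 ≤ T) (hT1 : T ≤ 1) (hc : T / 6 ≤ c)
    (hc1 : c < T / 2) (ha1 : 0 ≤ a1) (h1p : a1 ≤ p) (hp0 : p ≤ a0)
    (hp : π / (2 * T) * p + c < ell3 p) (he1 : ell3 a1 ≤ π / (2 * T) * a1 + c)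
    (he0 : ell3 a0 ≤ π / (2 * T) * a0 + c) :
    T / 2 - c < ∫ s in a1..a0, bfun (π / (2 * T) * s + c) (ell3 s) := by
  have hpi := Real.pi_pos
  have hpi3 := Real.pi_gt_three
  have hT0 : 0 < T := by linarith
  set w := T ^ 2 / π with hw
  have hw0 : 0 < w := by positivity
  set r := √(1 - 2 * c / T) with hr
  have hd0 : 0 < 1 - 2 * c / T := by
    rw [sub_pos, div_lt_one hT0]; linarith
  have hrsq : r ^ 2 = 1 - 2 * c / T := Real.sq_sqrt hd0.le
  have hr0 : 0 < r := Real.sqrt_pos.2 hd0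
  have hr2 : r ^ 2 ≤ 2 / 3 := by
    rw [hrsq]
    have : 1 / 3 ≤ 2 * c / T := (le_div_iff₀ hT0).2 (by linarith)
    linarith
  have hr1 : r < 1 := by nlinarith
  set K := 1 / T with hK
  have hK1 : 1 ≤ K := (one_le_div hT0).2 hT1
  have hK2 : K ≤ 8 / 5 := (div_le_iff₀ hT0).2 (by linarith)
  have hTK : T * K = 1 := mul_one_div_cancel hT0.ne'
  set μ := min (K - 1) r with hμ
  have hμ0 : 0 ≤ μ := le_min (by linarith) hr0.le
  have hμK : μ ≤ K - 1 := min_le_left _ _
  have hμr : μ ≤ r := min_le_right _ _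
  set lo := (1 - r) ^ 2 with hlo
  set hi := 1 + r ^ 2 + 2 * μ with hhi
  have hlo0 : 0 < lo := pow_pos (by linarith) 2
  have hlohi : lo ≤ hi := by rw [hlo, hhi]; nlinarith
  have hwhi : π * (w * hi) ≤ 5 / 3 := by
    have e : π * w = T ^ 2 := by rw [hw]; field_simp
    calc π * (w * hi) = T ^ 2 * hi := by rw [← mul_assoc, e]
      _ ≤ T ^ 2 * (2 * K - 1 / 3) := mul_le_mul_of_nonneg_left (by linarith) (sq_nonneg T)
      _ = 2 * T * (T * K) - T ^ 2 / 3 := by ring
      _ ≤ 5 / 3 := by rw [hTK]; nlinarith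
  have hF : ∀ u, π / (2 * T) * (w * u) + c = T / 2 * (u + 1 - r ^ 2) := by
    intro u
    rw [hrsq, hw]
    field_simp
    ring
  have hroot : ∀ u, 0 ≤ u → min 1 √(π * (w * u)) = T * min √u K := by
    intro u hu
    have e : π * (w * u) = T ^ 2 * u := by rw [hw]; field_simp
    rw [e, Real.sqrt_mul (sq_nonneg T), Real.sqrt_sq hT0.le, mul_min_of_nonneg _ _ hT0.le, hTK,
      min_comm]
  have hell : ∀ u, 0 ≤ u → u ≤ hi → ell3 (w * u) = T * min √u K := by
    intro u hu hu'
    rw [ell3_eq, hroot u hu]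
    nlinarith [mul_le_mul_of_nonneg_left hu' (mul_nonneg hpi.le hw0.le)]
  have hin : ∀ u, lo < u → u < hi → π / (2 * T) * (w * u) + c < ell3 (w * u) := by
    intro u h1 h2
    have hu : 0 < u := hlo0.trans h1
    rw [hF, hell u hu.le h2.le]
    have hlt := range_in hr0 hr1 h1 h2
    calc T / 2 * (u + 1 - r ^ 2) < T / 2 * (2 * min √u K) :=
          mul_lt_mul_of_pos_left hlt (by linarith)
      _ = _ := by ring
  have hout : ∀ s, 0 ≤ s → π / (2 * T) * s + c < ell3 s → w * lo < s ∧ s < w * hi := by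
    intro s hs hlt
    set u := s / w with hu
    have hu0 : 0 ≤ u := by positivity
    have es : s = w * u := by rw [hu]; field_simp
    have hle : ell3 s ≤ min 1 √(π * s) :=
      le_min (min_le_left _ _) ((min_le_right _ _).trans (min_le_left _ _))
    rw [es, hroot u hu0] at hle
    rw [es, hF] at hlt
    have h2 : u + 1 - r ^ 2 < 2 * min √u K := by
      refine lt_of_mul_lt_mul_left ?_ hT0.le
      linarith
    obtain ⟨g1, g2⟩ := range_out hr0 hr1 hu0 h2
    exact ⟨es ▸ mul_lt_mul_of_pos_left g1 hw0, es ▸ mul_lt_mul_of_pos_left g2 hw0⟩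
  obtain ⟨hp1, hp2⟩ := hout p (ha1.trans h1p) hp
  have hA1 : a1 ≤ w * lo := by
    by_contra hcon
    have h1 : lo < a1 / w := (lt_div_iff₀ hw0).2 (by linarith)
    have h2 : a1 / w < hi := (div_lt_iff₀ hw0).2 (by linarith)
    have h3 := hin _ h1 h2
    rw [mul_div_cancel₀ a1 hw0.ne'] at h3
    linarith
  have hA0 : w * hi ≤ a0 := by
    by_contra hcon
    have h1 : lo < a0 / w := (lt_div_iff₀ hw0).2 (by linarith)
    have h2 : a0 / w < hi := (div_lt_iff₀ hw0).2 (by linarith)
    have h3 := hin _ h1 h2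
    rw [mul_div_cancel₀ a0 hw0.ne'] at h3
    linarith
  have hint := intervalIntegrable_bfun (F := fun s => π / (2 * T) * s + c) (by fun_prop)
    continuous_ell3.measurable a1 a0
  refine lt_of_lt_of_le ?_ (integral_mono_interval hA1 (mul_le_mul_of_nonneg_left hlohi hw0.le) hA0
    (Eventually.of_forall fun s => bfun_nonneg _ _) hint)
  have heq : (∫ s in w * lo..w * hi, bfun (π / (2 * T) * s + c) (ell3 s)) =
      w * ∫ u in lo..hi, tg r K u := by
    rw [← intervalIntegral.mul_integral_comp_mul_left (c := w)]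
    congr 1
    refine integral_congr fun u hu => ?_
    rw [uIcc_of_le hlohi] at hu
    have hu0 : 0 < u := hlo0.trans_le hu.1
    have hm : 0 < T * min √u K := mul_pos hT0 (lt_min (Real.sqrt_pos.2 hu0) (by linarith))
    simp only [tg]
    rw [hF, hell u hu0.le hu.2, bfun_eq_sqrt hm]
    congr 2
    field_simp
  rw [heq]
  refine lt_of_eq_of_lt ?_ (mul_lt_mul_of_pos_left (tube_core hr0 hr2 hK1 hK2) hw0)
  rw [hrsq, hw, hK]
  field_simp

theorem tubeLemma : TubeLemma := by
  intro v h c a1 a0 hv hv' hh0 hh hc hc' ha1 h1v hv0 ha0 he1 he0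
  have hpi := Real.pi_pos
  have hpi3 := Real.pi_gt_three
  have hvp : 0 < v := lt_of_lt_of_le (by rw [vBT]; positivity) hv
  set T := √(π * v) with hT
  have hTsq : T ^ 2 = π * v := Real.sq_sqrt (by positivity)
  have hT0 : 0 < T := Real.sqrt_pos.2 (by positivity)
  have hT1 : T ≤ 1 := Real.sqrt_le_one.2 (by rw [mul_comm]; exact (le_div_iff₀ hpi).1 hv')
  have hTlo : 5 / 8 ≤ T := by
    refine Real.le_sqrt_of_sq_le ?_
    rw [vBT] at hv
    nlinarith [mul_le_mul_of_nonneg_left hv hpi.le, mul_le_mul hpi3.le hpi3.le (by norm_num) hpi.le]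
  have hH : π / (2 * T) = T / (2 * v) := by field_simp; linarith
  have hH0 : 0 ≤ π / (2 * T) := by positivity
  have hb : h ≤ π / (2 * T) := by rw [hH]; exact hh
  set c' := max c (T / 6) with hc'def
  have hcc : c ≤ c' := le_max_left _ _
  have hc6 : T / 6 ≤ c' := le_max_right _ _
  have hc2 : c' < T / 2 := max_lt hc' (by linarith)
  have hv2 : 1 ≤ π * (1 - v) := by
    nlinarith [(le_div_iff₀ hpi).1 hv']
  have hellv : ell3 v = T := by rw [ell3_eq hv2, ← hT, min_eq_right hT1]
  have hpv : π / (2 * T) * v + c' < ell3 v := by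
    rw [hellv]
    have : π / (2 * T) * v = T / 2 := by rw [hH]; field_simp
    linarith
  have hle : ∀ s, 0 ≤ s → h * s + c ≤ π / (2 * T) * s + c' := fun s hs =>
    add_le_add (mul_le_mul_of_nonneg_right hb hs) hcc
  have hmain := tube_gen hTlo hT1 hc6 hc2 ha1 h1v hv0 hpv (he1.trans (hle a1 ha1))
    (he0.trans (hle a0 (by linarith)))
  have hmono : (∫ s in a1..a0, bfun (π / (2 * T) * s + c') (ell3 s)) ≤
      ∫ s in a1..a0, bfun (h * s + c) (ell3 s) :=
    integral_mono_on (h1v.trans hv0)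
      (intervalIntegrable_bfun (by fun_prop) continuous_ell3.measurable _ _)
      (intervalIntegrable_bfun (by fun_prop) continuous_ell3.measurable _ _)
      fun s hs => bfun_anti (add_nonneg (mul_nonneg hh0 (ha1.trans hs.1)) hc)
        (hle s (ha1.trans hs.1))
  refine lt_of_le_of_lt ?_ (hmain.trans_le hmono)
  rcases max_cases c (T / 6) with ⟨e, _⟩ | ⟨e, _⟩ <;> rw [hc'def, e]
  · exact min_le_left _ _
  · exact (min_le_right _ _).trans_eq (by ring)

/-- Lower bound for the slab integral by two constant pieces. -/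
lemma slab_pieces {c a1 a0 : ℝ} (hc0 : 0 ≤ c) (h1 : a1 ≤ 1 / 4)
    (h0 : 3 / 4 ≤ a0) :
    0.3633 * √(1 - c ^ 2) + 0.1366 * √(1 - (c / 0.8862) ^ 2) ≤
      ∫ s in a1..a0, bfun c (ell3 s) := by
  have hp := Real.pi_gt_d4
  have hp' := Real.pi_lt_d4
  set f := fun s => bfun c (ell3 s) with hfdef
  have hi : ∀ a b, IntervalIntegrable f volume a b := fun a b =>
    intervalIntegrable_bfun measurable_const continuous_ell3.measurable a b
  refine le_trans ?_ (integral_mono_interval h1 (by norm_num) h0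
    (Eventually.of_forall fun s => bfun_nonneg _ _) (hi _ _))
  rw [← integral_add_adjacent_intervals (b := (0.31834 : ℝ)) (hi _ _) (hi _ _),
    ← integral_add_adjacent_intervals (a := (0.31834 : ℝ)) (b := (0.68166 : ℝ)) (hi _ _) (hi _ _)]
  have hlb : ∀ s, 1 / 4 ≤ s → s ≤ 3 / 4 → 0.8862 ≤ ell3 s := by
    intro s g1 g2
    unfold ell3
    refine le_min (by norm_num) (le_min ?_ ?_) <;> refine Real.le_sqrt_of_sq_le ?_ <;> nlinarith
  have hmid : ∀ s, 0.31834 ≤ s → s ≤ 0.68166 → ell3 s = 1 := by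
    intro s g1 g2
    unfold ell3
    refine min_eq_left (le_min ?_ ?_) <;> refine Real.one_le_sqrt.2 ?_ <;> nlinarith
  set A := √(1 - c ^ 2) with hA
  set B := √(1 - (c / 0.8862) ^ 2) with hB
  have hB' : ∀ s, 1 / 4 ≤ s → s ≤ 3 / 4 → B ≤ f s := by
    intro s g1 g2
    rw [hB, ← bfun_eq_sqrt (by norm_num : (0 : ℝ) < 0.8862)]
    exact bfun_mono hc0 (hlb s g1 g2)
  have e1 := integral_mono_on (a := (1 / 4 : ℝ)) (b := 0.31834) (by norm_num)
    (intervalIntegrable_const (c := B) (μ := volume)) (hi _ _)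
    fun s hs => hB' s hs.1 (by norm_num at hs ⊢; linarith [hs.2])
  have e2 := integral_mono_on (a := (0.31834 : ℝ)) (b := 0.68166) (by norm_num)
    (intervalIntegrable_const (c := A) (μ := volume)) (hi _ _) fun s hs => by
      rw [hfdef]
      simp only [hmid s hs.1 hs.2, bfun_eq_sqrt one_pos, div_one, ← hA, le_refl]
  have e3 := integral_mono_on (a := (0.68166 : ℝ)) (b := 3 / 4) (by norm_num)
    (intervalIntegrable_const (c := B) (μ := volume)) (hi _ _)
    fun s hs => hB' s (by norm_num at hs ⊢; linarith [hs.1]) hs.2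
  rw [intervalIntegral.integral_const, smul_eq_mul] at e1 e2 e3
  have hA0 : 0 ≤ A := Real.sqrt_nonneg _
  have hB0 : 0 ≤ B := Real.sqrt_nonneg _
  norm_num at e1 e2 e3 ⊢
  linarith

theorem slabLemma : SlabLemma := by
  intro v P c a1 a0 hv hv' hc0 hcP hP h3 ha1 h1v hv0 ha0 he1 he0
  have hp := Real.pi_gt_d4
  have hp' := Real.pi_lt_d4
  have hpi := Real.pi_pos
  have hc1 : c < 1 := by linarith
  have hv1 : 0.3183 ≤ v := le_trans (by rw [le_div_iff₀ hpi]; nlinarith) hv
  have hp1 : π * (1 / π) = 1 := mul_one_div_cancel hpi.ne'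
  have hinv : 1 / π ≤ 0.31835 := by rw [div_le_iff₀ hpi]; nlinarith
  have hflat : ∀ s, 1 / π ≤ s → s ≤ 1 - 1 / π → ell3 s = 1 := by
    intro s g1 g2
    unfold ell3
    refine min_eq_left (le_min ?_ ?_) <;> refine Real.one_le_sqrt.2 ?_
    · nlinarith [mul_le_mul_of_nonneg_left g1 hpi.le]
    · nlinarith [mul_le_mul_of_nonneg_left g2 hpi.le]
  have hA1 : a1 ≤ 1 / π := by
    by_contra hcon
    linarith [hflat a1 (by linarith) (by linarith)]
  have hA0 : 1 - 1 / π ≤ a0 := by
    by_contra hcon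
    linarith [hflat a0 (by linarith) (by linarith)]
  have hi : ∀ a b, IntervalIntegrable (fun s => bfun c (ell3 s)) volume a b := fun a b =>
    intervalIntegrable_bfun measurable_const continuous_ell3.measurable a b
  rcases lt_or_ge c 0.77 with hc | hc
  · have h14 : a1 ≤ 1 / 4 := by
      by_contra hcon
      have : (0.8862 : ℝ) ≤ ell3 a1 := by
        unfold ell3
        refine le_min (by norm_num) (le_min ?_ ?_) <;> refine Real.le_sqrt_of_sq_le ?_ <;> nlinarith
      norm_num at this hc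
      linarith
    have h34 : 3 / 4 ≤ a0 := by
      by_contra hcon
      have : (0.8862 : ℝ) ≤ ell3 a0 := by
        unfold ell3
        refine le_min (by norm_num) (le_min ?_ ?_) <;> refine Real.le_sqrt_of_sq_le ?_ <;> nlinarith
      norm_num at this hc
      linarith
    refine lt_of_lt_of_le ?_ (slab_pieces hc0 h14 h34)
    rcases le_or_gt c 0.71 with hc7 | hc7
    · have g1 : 0.704 ≤ √(1 - c ^ 2) :=
        Real.le_sqrt_of_sq_le (by norm_num at hc7 ⊢; nlinarith)
      have g2 : 0.598 ≤ √(1 - (c / 0.8862) ^ 2) :=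
        Real.le_sqrt_of_sq_le (by norm_num at hc7 ⊢; nlinarith)
      norm_num at g1 g2 ⊢
      linarith
    · have g1 : 0.638 ≤ √(1 - c ^ 2) :=
        Real.le_sqrt_of_sq_le (by norm_num at hc ⊢; nlinarith)
      have g2 : 0.494 ≤ √(1 - (c / 0.8862) ^ 2) :=
        Real.le_sqrt_of_sq_le (by norm_num at hc ⊢; nlinarith)
      norm_num at g1 g2 hc7 ⊢
      linarith
  · refine lt_of_lt_of_le ?_ (integral_mono_interval hA1 (by linarith) hA0
      (Eventually.of_forall fun s => bfun_nonneg _ _) (hi _ _))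
    rw [integral_congr (g := fun _ => √(1 - c ^ 2)) fun s hs => by
      rw [uIcc_of_le (by linarith)] at hs
      simp only [hflat s hs.1 hs.2, bfun_eq_sqrt one_pos, div_one]]
    rw [intervalIntegral.integral_const, smul_eq_mul]
    have hs := Real.sq_sqrt (by nlinarith : 0 ≤ 1 - c ^ 2)
    have hs0 := Real.sqrt_nonneg (1 - c ^ 2)
    have hk : 1 - c ≤ 0.3633 * √(1 - c ^ 2) := by
      refine (pow_le_pow_iff_left₀ (by linarith) (mul_nonneg (by norm_num) hs0) two_ne_zero).1 ?_
      rw [mul_pow, hs]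
      have hq := mul_nonneg (sub_nonneg.2 hc1.le)
        (show 0 ≤ (0.3633 : ℝ) ^ 2 * (1 + c) - (1 - c) by norm_num at hc ⊢; linarith)
      calc (1 - c) ^ 2 ≤ (1 - c) ^ 2 + (1 - c) * ((0.3633 : ℝ) ^ 2 * (1 + c) - (1 - c)) :=
            le_add_of_nonneg_right hq
        _ = _ := by ring
    have hl : 0.3633 ≤ 1 - 1 / π - 1 / π := by norm_num at hinv ⊢; linarith
    linarith [mul_le_mul_of_nonneg_right hl hs0]

/-- A continuous slice bound evaluated at an end. -/
lemma end_bound {h x : ℝ} {c : ℝ} {f : ℝ → ℝ} {l : Filter ℝ} {ell : ℝ → ℝ}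
    (hell : Continuous ell) (ht : Tendsto f l (𝓝 x))
    (hend : ∀ b : ℝ, (∀ᶠ t in l, b ≤ ell (f t)) → b ≤ h * x + c) : ell x ≤ h * x + c := by
  by_contra hcon
  have hlt : (h * x + c + ell x) / 2 < ell x := by linarith
  have := hend _ (((hell.tendsto x).comp ht).eventually (Ici_mem_nhds hlt))
  linarith

lemma ends_ell3 (hS : Slice3) (hB : SliceBasics) {D : Set V3} {h : ℝ} {c : Fin 3 → ℝ}
    (hD : IsDown D) (hst : Stationary D h c) (i : Fin 3) :
    ell3 (endA1 D i) ≤ h * endA1 D i + c i ∧ ell3 (endA0 D i) ≤ h * endA0 D i + c i := by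
  obtain ⟨-, -, -, ht0, ht1, -⟩ := hB D hD i
  exact ⟨end_bound continuous_ell3 ht1 fun b hb => hst.end1 i _ (hS D hD i) b hb,
    end_bound continuous_ell3 ht0 fun b hb => hst.end0 i _ (hS D hD i) b hb⟩

theorem coefNonneg (hS : Slice3) (hB : SliceBasics) : CoefNonneg := by
  intro D h c hD hst hv hh h2 hv1 i
  obtain ⟨-, -, -, -, -, -, ha, hav, -, -⟩ := hB D hD i
  set a := endA1 D i with hadef
  have hpi := Real.pi_gt_three
  have hha : h * a ≤ 1 := (mul_le_mul_of_nonneg_left hav hh).trans hv1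
  have hge : h * a ≤ ell3 a := by
    unfold ell3
    refine le_min hha (le_min (Real.le_sqrt_of_sq_le ?_) (hha.trans (Real.one_le_sqrt.2 ?_)))
    · calc (h * a) ^ 2 = h ^ 2 * a * a := by ring
        _ ≤ π * a := mul_le_mul_of_nonneg_right
          ((mul_le_mul_of_nonneg_left hav (sq_nonneg h)).trans h2) ha
    · nlinarith
  have := (ends_ell3 hS hB hD hst i).1
  linarith

theorem noSpanBound (hF : SliceFree) (hB : SliceBasics) (hM : MainIneq) : NoSpanBound := by
  intro D h c hD hst hh hno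
  have hpi := Real.pi_pos
  have hP0 : 0 ≤ area D := MeasureTheory.integral_nonneg fun x => Real.sqrt_nonneg _
  rcases (measureReal_nonneg : 0 ≤ dvol D).eq_or_lt with hv | hv
  · have h0 : dvol D = 0 := hv.symm
    rw [h0]
    simpa using pow_nonneg hP0 3
  have hc : ∀ i, c i = 0 := fun i => hst.unspanned i (hno i)
  obtain ⟨-, -, -, ht0, -, -, -, -, hv0, -⟩ := hB D hD 0
  have hfree := hF D hD 0 fun j _ => hno j
  have hcont : Continuous fun s => √(π * s) := by fun_prop
  have hend : √(π * endA0 D 0) ≤ h * endA0 D 0 + c 0 :=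
    end_bound hcont ht0 fun b hb => hst.end0 0 _ hfree b hb
  have hmain := hM D h c hD hst 0 (fun s => √(π * s)) hcont hfree
  rw [hc 0, add_zero, hno 0] at hmain
  rw [hc 0, add_zero] at hend
  simp only [add_zero] at hmain
  set a := endA0 D 0 with hadef
  have ha : 0 < a := hv.trans_le hv0
  set b := π / h ^ 2 with hb
  have hb0 : 0 < b := by positivity
  have hba : b ≤ a := by
    rw [Real.sqrt_le_left (by positivity)] at hend
    rw [hb, div_le_iff₀ (by positivity)]
    nlinarith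
  have hint : b * (2 / 3) ≤ ∫ s in (0 : ℝ)..a, bfun (h * s) √(π * s) := by
    refine le_trans (le_of_eq ?_) (integral_mono_interval le_rfl hb0.le hba
      (Eventually.of_forall fun s => bfun_nonneg _ _)
      (intervalIntegrable_bfun (by fun_prop) (by fun_prop) _ _))
    have e : (∫ s in (0 : ℝ)..b, bfun (h * s) √(π * s)) = ∫ s in (0 : ℝ)..b, √(1 - s / b) := by
      refine intervalIntegral.integral_congr_ae (Eventually.of_forall fun s hs => ?_)
      rw [uIoc_of_le hb0.le] at hs
      have hs0 : 0 < s := hs.1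
      rw [bfun_eq_sqrt (Real.sqrt_pos.2 (mul_pos hpi hs0)), div_pow,
        Real.sq_sqrt (mul_pos hpi hs0).le, hb]
      congr 2
      field_simp
    rw [e, intervalIntegral.integral_comp_div (fun x => √(1 - x)) hb0.ne',
      intervalIntegral.integral_comp_sub_left (fun x => √x), zero_div, div_self hb0.ne', sub_self,
      sub_zero, integral_sqrt_pow zero_le_one]
    simp
  have hsum := hst.sum_eq
  simp only [hc, Finset.sum_const_zero, add_zero] at hsum
  set P := area D with hPdef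
  set v := dvol D with hvdef
  have hPh : 2 * π ≤ P * h ^ 2 := by
    have : b ≤ P / 2 := by linarith
    rw [hb, div_le_iff₀ (by positivity)] at this
    linarith
  have key := mul_le_mul_of_nonneg_right hPh (sq_nonneg (3 * v))
  have e : P * h ^ 2 * (3 * v) ^ 2 = 4 * P ^ 3 := by
    rw [show P * h ^ 2 * (3 * v) ^ 2 = P * (3 * h * v) ^ 2 by ring, ← hsum]
    ring
  linarith

theorem noMinInterior (hV : Variation) (hS : Slice3) (hB : SliceBasics) (hM : MainIneq) :
    NoMinInterior := by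
  intro D hmin
  obtain ⟨h, c, hlo, hhi, hst⟩ := hV D hmin
  obtain ⟨hD, hv0, hv2, hPJ, -⟩ := hmin
  have hpi := Real.pi_pos
  have hpi3 := Real.pi_gt_three
  by_contra hne
  push Not at hne
  obtain ⟨hne1, hne2⟩ := hne
  set v := dvol D with hvdef
  set P := area D with hPdef
  set J0 := jQ v with hJdef
  have hP0 : 0 ≤ P := MeasureTheory.integral_nonneg fun x => Real.sqrt_nonneg _
  have hJ0 : 0 < J0 := hP0.trans_lt hPJ
  have hmv : min v (1 - v) = v := min_eq_left (by linarith)
  have hJ1 : J0 ≤ 1 := by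
    rw [hJdef, jQ, div_le_iff₀ two_pos, one_mul]
    exact min_le_right _ _
  have hJT : J0 ≤ √(π * v) := by
    rw [hJdef, jQ, div_le_iff₀ two_pos, J, hmv, mul_comm _ (2 : ℝ)]
    exact (min_le_left _ _).trans (min_le_right _ _)
  have hJsq : J0 ^ 2 ≤ π * v := by
    have := pow_le_pow_left₀ hJ0.le hJT 2
    rwa [Real.sq_sqrt (by positivity)] at this
  have hsum : 2 * P = 3 * h * v + ∑ i, c i := hst.sum_eq
  have hcoef := coefNonneg hS hB D h c hD hst hv2
  obtain ⟨i, -, hi⟩ := Finset.exists_max_image Finset.univ c Finset.univ_nonempty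
  have hmax : ∑ j, c j ≤ 3 * c i := by
    have := Finset.sum_le_card_nsmul Finset.univ c (c i) hi
    simpa using this
  have hmainI := hM D h c hD hst i ell3 continuous_ell3 (hS D hD i)
  obtain ⟨-, -, -, -, -, -, ha1, ha1v, hva0, ha0⟩ := hB D hD i
  obtain ⟨he1, he0⟩ := ends_ell3 hS hB hD hst i
  rcases lt_or_gt_of_ne hne1 with hlt | hgt
  · simp only [hLo, hHi, ← hJdef, if_pos hlt, if_pos hlt.le] at hlo hhi
    have hh : h = 2 * J0 / (3 * v) := le_antisymm hhi hlo
    have hhv : h * v = 2 / 3 * J0 := by rw [hh]; field_simp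
    have h0 : 0 ≤ h := by rw [hh]; positivity
    have hcn := hcoef h0 (by
      refine le_of_mul_le_mul_right ?_ hv0
      calc h ^ 2 * v * v = (h * v) ^ 2 := by ring
        _ ≤ π * v := by rw [hhv, mul_pow]; nlinarith) (by linarith)
    have : 0 ≤ ∑ j, c j := Finset.sum_nonneg fun j _ => hcn j
    linarith
  rcases lt_or_gt_of_ne hne2 with hlt | hgt'
  · simp only [hLo, hHi, ← hJdef, if_neg hgt.le.not_gt, if_neg hgt.not_ge, if_pos hlt,
      if_pos hlt.le] at hlo hhi
    have hh : h = J0 / (2 * v) := le_antisymm hhi hlo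
    have hhv : h * v = J0 / 2 := by rw [hh]; field_simp
    have h0 : 0 ≤ h := by rw [hh]; positivity
    have hcn := hcoef h0 (by
      refine le_of_mul_le_mul_right ?_ hv0
      calc h ^ 2 * v * v = (h * v) ^ 2 := by ring
        _ ≤ π * v := by rw [hhv, div_pow]; nlinarith) (by linarith)
    have hci : c i ≤ ∑ j, c j :=
      Finset.single_le_sum (fun j _ => hcn j) (Finset.mem_univ i)
    have hh' : h ≤ √(π * v) / (2 * v) := by
      rw [hh]; exact div_le_div_of_nonneg_right hJT (by positivity)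
    have htube := tubeLemma v h (c i) _ _ hgt.le hlt.le h0 hh' (hcn i) (by linarith) ha1 ha1v hva0
      ha0 he1 he0
    rcases min_lt_iff.1 htube with hk | hk
    · linarith
    · by_cases h6 : c i ≤ √(π * v) / 6
      · linarith
      · linarith
  · simp only [hLo, hHi, if_neg hgt.le.not_gt, if_neg hgt.not_ge, if_neg hgt'.le.not_gt,
      if_neg hgt'.not_ge] at hlo hhi
    have hh : h = 0 := le_antisymm hhi hlo
    rw [hh] at he1 he0 hmainI hsum
    simp only [zero_mul, zero_add, mul_zero] at he1 he0 hmainI hsum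
    have hcn := hcoef (by rw [hh]) (by rw [hh]; simp [hpi.le]) (by rw [hh]; simp)
    have hnn : 0 ≤ ∫ s in endA1 D i..endA0 D i, bfun (c i) (ell3 s) :=
      intervalIntegral.integral_nonneg (ha1v.trans hva0) fun s _ => bfun_nonneg _ _
    have hslab := slabLemma v P (c i) _ _ hgt'.le hv2 (hcn i) (by linarith) (by linarith)
      (by linarith) ha1 ha1v hva0 ha0 he1 he0
    linarith

end Vale.Agent.P232
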