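import Vale.Agent.P232.Interior

/-! # P232: common facts used at the two transition volumes -/

namespace Vale.Agent.P232

open MeasureTheory Set Filter Topology

lemma jQ_eq_min {v : ℝ} (hv : v ≤ 1 / 2) :
    jQ v = min (min ((36 * Real.pi) ^ (1 / 3 : ℝ) * v ^ (2 / 3 : ℝ) / 2) √(Real.pi * v)) 1 := by
  have h1 : min v (1 - v) = v := min_eq_left (by linarith)
  unfold jQ J
  rw [h1, ← min_div_div_right (by norm_num : (0:ℝ) ≤ 2),
    ← min_div_div_right (by norm_num : (0:ℝ) ≤ 2)]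
  congr 1
  · congr 1
    ring
  · norm_num

lemma three_axes (i : Fin 3) : ∃ j k : Fin 3, i ≠ j ∧ i ≠ k ∧ j ≠ k ∧
    (∀ l, l = i ∨ l = j ∨ l = k) ∧ ∀ f : Fin 3 → ℝ, ∑ l, f l = f i + f j + f k := by
  fin_cases i
  · exact ⟨1, 2, by decide, by decide, by decide, by decide,
      fun f => by rw [Fin.sum_univ_three]; rfl⟩
  · exact ⟨0, 2, by decide, by decide, by decide, by decide,
      fun f => by rw [Fin.sum_univ_three]; ring!⟩
  · exact ⟨0, 1, by decide, by decide, by decide, by decide,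
      fun f => by rw [Fin.sum_univ_three]; ring!⟩

lemma faceW_eq_zero (hF : FaceBasics) {D : Set V3} (hD : IsDown D) {i j k : Fin 3} (hij : i ≠ j)
    (hik : i ≠ k) (hjk : j ≠ k) (hz : endA1 D j = 0) :
    ∀ t ∈ Ioo (0:ℝ) 1, faceW D i j k t = 0 := by
  obtain ⟨hanti, hmeas, hb, hint, -⟩ := hF D hD i j k hij hik hjk
  intro t ht
  by_contra hne
  have hpos : 0 < faceW D i j k t := lt_of_le_of_ne (hb t).1 (Ne.symm hne)
  have hi : ∀ a b : ℝ, IntervalIntegrable (faceW D i j k) volume a b := fun a b =>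
    (intervalIntegrable_const (c := (1:ℝ))).mono_fun hmeas.aestronglyMeasurable
      (Eventually.of_forall fun x => by
        simpa [abs_of_nonneg (hb x).1] using (hb x).2)
  have h1 : t * faceW D i j k t ≤ ∫ s in (0:ℝ)..t, faceW D i j k s := by
    have := intervalIntegral.integral_mono_on_of_le_Ioo ht.1.le
      (intervalIntegrable_const (c := faceW D i j k t)) (hi 0 t)
      (fun s hs => hanti ⟨hs.1, hs.2.trans ht.2⟩ ht hs.2.le)
    simpa using this
  have h2 : 0 ≤ ∫ s in t..(1:ℝ), faceW D i j k s :=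
    intervalIntegral.integral_nonneg ht.2.le fun s _ => (hb s).1
  have h3 := intervalIntegral.integral_add_adjacent_intervals (hi 0 t) (hi t 1)
  rw [hint, hz] at h3
  nlinarith [mul_pos ht.1 hpos]

lemma faceW_pos_near (hF : FaceBasics) {D : Set V3} (hD : IsDown D) {i j k : Fin 3} (hij : i ≠ j)
    (hik : i ≠ k) (hjk : j ≠ k) (hp : 0 < endA1 D j) :
    ∀ᶠ t in 𝓝[>] (0:ℝ), 0 < faceW D i j k t := by
  obtain ⟨hanti, hmeas, hb, hint, -⟩ := hF D hD i j k hij hik hjk
  have : ∃ t0 ∈ Ioo (0:ℝ) 1, 0 < faceW D i j k t0 := by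
    by_contra hcon
    push_neg at hcon
    have : ∫ t in (0:ℝ)..1, faceW D i j k t = ∫ t in (0:ℝ)..1, (0:ℝ) := by
      apply intervalIntegral.integral_congr_ae
      filter_upwards [compl_mem_ae_iff.mpr (Real.volume_singleton (a := (1:ℝ)))] with t ht1 ht
      rw [uIoc_of_le zero_le_one] at ht
      exact le_antisymm (hcon t ⟨ht.1, lt_of_le_of_ne ht.2 ht1⟩) (hb t).1
    rw [hint] at this
    simp at this
    linarith
  obtain ⟨t0, ht0, hpos⟩ := this
  filter_upwards [Ioo_mem_nhdsGT ht0.1] with t ht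
  exact lt_of_lt_of_le hpos (hanti ⟨ht.1, ht.2.trans ht0.2⟩ ht0 ht.2.le)

/-- Continuous bounds pass to the face `x i = 0`. -/
lemma end0_continuous (hB : SliceBasics) {D : Set V3} {h : ℝ} {c : Fin 3 → ℝ} (hD : IsDown D)
    (hS : Stationary D h c) (i : Fin 3) {ell : ℝ → ℝ} (hc : Continuous ell) (L : ℝ → ℝ)
    (hL : LengthBound D i L) (hle : ∀ᶠ t in 𝓝[>] (0:ℝ), ell (sliceA D i t) ≤ L t) :
    ell (endA0 D i) ≤ h * endA0 D i + c i := by
  obtain ⟨-, -, -, h0, -⟩ := hB D hD i
  refine le_of_forall_lt_imp_le_of_dense fun l hl => ?_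
  apply hS.end0 i L hL
  filter_upwards [((hc.tendsto _).comp h0).eventually (lt_mem_nhds hl), hle] with t h1 h2
  exact le_trans (le_of_lt h1) h2

lemma end1_continuous (hB : SliceBasics) {D : Set V3} {h : ℝ} {c : Fin 3 → ℝ} (hD : IsDown D)
    (hS : Stationary D h c) (i : Fin 3) {ell : ℝ → ℝ} (hc : Continuous ell) (L : ℝ → ℝ)
    (hL : LengthBound D i L) (hle : ∀ᶠ t in 𝓝[<] (1:ℝ), ell (sliceA D i t) ≤ L t) :
    ell (endA1 D i) ≤ h * endA1 D i + c i := by
  obtain ⟨-, -, -, -, h1, -⟩ := hB D hD i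
  refine le_of_forall_lt_imp_le_of_dense fun l hl => ?_
  apply hS.end1 i L hL
  filter_upwards [((hc.tendsto _).comp h1).eventually (lt_mem_nhds hl), hle] with t h1 h2
  exact le_trans (le_of_lt h1) h2

/-- When both other axes are spanned, the first slice spans both. -/
lemma end0_both (hB : SliceBasics) (hF : FaceBasics) (hG : SliceGen) {D : Set V3} {h : ℝ}
    {c : Fin 3 → ℝ} (hD : IsDown D) (hS : Stationary D h c) {i j k : Fin 3} (hij : i ≠ j)
    (hik : i ≠ k) (hjk : j ≠ k) (hj : 0 < endA1 D j) (hk : 0 < endA1 D k) :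
    √(Real.pi * (1 - endA0 D i)) ≤ h * endA0 D i + c i := by
  obtain ⟨-, hAm, -⟩ := hB D hD i
  obtain ⟨-, hjm, -⟩ := hF D hD i j k hij hik hjk
  obtain ⟨-, hkm, -⟩ := hF D hD i k j hik hij hjk.symm
  let L : ℝ → ℝ := fun t => if 0 < faceW D i j k t ∧ 0 < faceW D i k j t
    then √(Real.pi * (1 - sliceA D i t)) else 0
  have hLm : Measurable L :=
    Measurable.ite ((measurableSet_lt measurable_const hjm).inter
      (measurableSet_lt measurable_const hkm)) (by fun_prop) measurable_const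
  have hL : LengthBound D i L := by
    refine hG D hD i j k hij hik hjk L (fun _ => 0) hLm measurable_const
      (fun _ => ⟨le_rfl, zero_le_one⟩) fun t _ => ⟨?_, ?_, ?_, ?_⟩
    · intro a b; simp [L, a]
    · intro a b; simp [L, a, b]
    · intro a b; simp [L, a, b]
    · intro a b; simp [L, a, b]
  refine end0_continuous hB hD hS i (ell := fun a => √(Real.pi * (1 - a))) (by fun_prop) L hL ?_
  filter_upwards [faceW_pos_near hF hD hij hik hjk hj,
    faceW_pos_near hF hD hik hij hjk.symm hk] with t a b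
  simp [L, a, b]

/-- A polynomial lower bound for `phiK`. -/
lemma phiK_ge {k : ℝ} (h0 : 0 ≤ k) (h1 : k ≤ 1) : 1 - k ^ 2 / 6 - k ^ 4 / 10 ≤ phiK k := by
  have hp : ∀ y ∈ Icc (0:ℝ) 1,
      1 - k ^ 2 * y ^ 2 / 2 - k ^ 4 * y ^ 4 / 2 ≤ √(1 - k ^ 2 * y ^ 2) := by
    intro y hy
    apply Real.le_sqrt_of_sq_le
    have hz : k ^ 2 * y ^ 2 ≤ 1 := by
      have : k * y ≤ 1 := by nlinarith [hy.1, hy.2]
      nlinarith [mul_nonneg h0 hy.1]
    have hz0 : 0 ≤ k ^ 2 * y ^ 2 := by positivity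
    generalize hzd : k ^ 2 * y ^ 2 = z at hz hz0
    have : k ^ 4 * y ^ 4 = z ^ 2 := by rw [← hzd]; ring
    rw [this]
    nlinarith [mul_nonneg (sq_nonneg z) (sub_nonneg.mpr hz), pow_nonneg hz0 3, sq_nonneg z]
  calc 1 - k ^ 2 / 6 - k ^ 4 / 10
      = ∫ y in (0:ℝ)..1, (1 - k ^ 2 * y ^ 2 / 2 - k ^ 4 * y ^ 4 / 2) := by
        rw [intervalIntegral.integral_sub (Continuous.intervalIntegrable (by fun_prop) _ _)
          (Continuous.intervalIntegrable (by fun_prop) _ _),
          intervalIntegral.integral_sub (Continuous.intervalIntegrable (by fun_prop) _ _)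
          (Continuous.intervalIntegrable (by fun_prop) _ _)]
        simp [intervalIntegral.integral_div, intervalIntegral.integral_const_mul, integral_pow]
        ring
    _ ≤ phiK k := intervalIntegral.integral_mono_on zero_le_one
        (Continuous.intervalIntegrable (by fun_prop) _ _)
        (Continuous.intervalIntegrable (by fun_prop) _ _) hp

end Vale.Agent.P232
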