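import Vale.Agent.P232.Interior

/-! # P232: bilinear lower bounds for the slice integral without offset -/

namespace Vale.Agent.P232

open MeasureTheory Set intervalIntegral

/-- A lower bound for the slice integral, affine in the slope parameter. -/
def Low (a b θ u Sa Sb : ℝ) : Prop :=
  (1 - θ) * Sa + θ * Sb ≤ ∫ s in (0 : ℝ)..u, bfun (((1 - θ) * a + θ * b) * s) (ell3 s)

lemma low_intervalIntegrable (h u w : ℝ) :
    IntervalIntegrable (fun s => bfun (h * s) (ell3 s)) volume u w :=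
  intervalIntegrable_bfun (by fun_prop) continuous_ell3.measurable u w

lemma low_start (a b θ : ℝ) : Low a b θ 0 0 0 := by simp [Low]

lemma low_skip {a b θ u w Sa Sb : ℝ} 
    (hs : Low a b θ u Sa Sb) (huw : u ≤ w) : Low a b θ w Sa Sb := by
  unfold Low at hs ⊢
  rw [← integral_add_adjacent_intervals (low_intervalIntegrable _ 0 u)
    (low_intervalIntegrable _ u w)]
  have := intervalIntegral.integral_nonneg (μ := volume) huw fun s _ =>
    bfun_nonneg (((1 - θ) * a + θ * b) * s) (ell3 s)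
  linarith

/-- A convex combination of two chords stays below the square root. -/
lemma comb_sq_le {θ x y A B : ℝ} (t0 : 0 ≤ θ) (t1 : θ ≤ 1) (hx : x ^ 2 ≤ A) (hy : y ^ 2 ≤ B) :
    ((1 - θ) * x + θ * y) ^ 2 ≤ (1 - θ) * A + θ * B := by
  have h1 := mul_le_mul_of_nonneg_left hx (sub_nonneg.2 t1)
  have h2 := mul_le_mul_of_nonneg_left hy t0
  have h3 := mul_nonneg (mul_nonneg t0 (sub_nonneg.2 t1)) (sq_nonneg (x - y))
  linarith [show ((1 - θ) * x + θ * y) ^ 2 + θ * (1 - θ) * (x - y) ^ 2 =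
    (1 - θ) * x ^ 2 + θ * y ^ 2 by ring]

lemma low_step (p : ℝ → ℝ) {a b θ u w Sa Sb ya za yb zb : ℝ} (t0 : 0 ≤ θ) (t1 : θ ≤ 1)
    (hs : Low a b θ u Sa Sb) (huw : u < w)
    (hconv : ∀ τ : ℝ, 0 ≤ τ → τ ≤ 1 → p ((1 - τ) * u + τ * w) ≤ (1 - τ) * p u + τ * p w)
    (hell : ∀ s ∈ Ioo u w, 0 < ell3 s ∧ (s / ell3 s) ^ 2 ≤ p s)
    (hy : ya ^ 2 ≤ 1 - a ^ 2 * p u ∧ za ^ 2 ≤ 1 - a ^ 2 * p w ∧
      yb ^ 2 ≤ 1 - b ^ 2 * p u ∧ zb ^ 2 ≤ 1 - b ^ 2 * p w) :
    Low a b θ w (Sa + (w - u) * (ya + za) / 2) (Sb + (w - u) * (yb + zb) / 2) := by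
  unfold Low at hs ⊢
  set h := (1 - θ) * a + θ * b with hh
  set y := (1 - θ) * ya + θ * yb
  set z := (1 - θ) * za + θ * zb
  rw [← integral_add_adjacent_intervals (low_intervalIntegrable h 0 u)
    (low_intervalIntegrable h u w)]
  have hd : 0 < w - u := sub_pos.2 huw
  have hpt : ∀ s ∈ Ioo u w, y + (z - y) / (w - u) * (s - u) ≤ bfun (h * s) (ell3 s) := by
    intro s hsI
    obtain ⟨hl, hle⟩ := hell s hsI
    rw [bfun_eq_sqrt hl]
    refine Real.le_sqrt_of_sq_le ?_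
    set τ := (s - u) / (w - u) with hτ
    have τ0 : 0 ≤ τ := div_nonneg (by linarith [hsI.1]) hd.le
    have τ1 : τ ≤ 1 := (div_le_one hd).2 (by linarith [hsI.2])
    have es : (1 - τ) * u + τ * w = s := by rw [hτ]; field_simp; ring
    have e1 : y + (z - y) / (w - u) * (s - u) = (1 - τ) * y + τ * z := by rw [hτ]; ring
    have hh2 : h ^ 2 ≤ (1 - θ) * a ^ 2 + θ * b ^ 2 := comb_sq_le t0 t1 le_rfl le_rfl
    have hc := hconv τ τ0 τ1
    rw [es] at hc
    have hnn : 0 ≤ (1 - θ) * a ^ 2 + θ * b ^ 2 :=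
      add_nonneg (mul_nonneg (by linarith) (sq_nonneg a)) (mul_nonneg t0 (sq_nonneg b))
    have hsq : (h * s / ell3 s) ^ 2 ≤
        ((1 - θ) * a ^ 2 + θ * b ^ 2) * ((1 - τ) * p u + τ * p w) := by
      rw [mul_div_assoc, mul_pow]
      exact mul_le_mul hh2 (hle.trans hc) (sq_nonneg _) hnn
    rw [e1]
    refine (comb_sq_le τ0 τ1 (comb_sq_le t0 t1 hy.1 hy.2.2.1)
      (comb_sq_le t0 t1 hy.2.1 hy.2.2.2)).trans ?_
    linarith
  have hm := integral_mono_on_of_le_Ioo huw.le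
    (Continuous.intervalIntegrable (μ := volume) (by fun_prop) u w)
    (low_intervalIntegrable h u w) hpt
  have hv : (∫ s in u..w, (y + (z - y) / (w - u) * (s - u))) = (w - u) * (y + z) / 2 := by
    rw [intervalIntegral.integral_add intervalIntegrable_const
      (Continuous.intervalIntegrable (by fun_prop) _ _), intervalIntegral.integral_const,
      intervalIntegral.integral_const_mul,
      intervalIntegral.integral_comp_sub_right (fun x => x), integral_id, smul_eq_mul]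
    field_simp
    ring
  rw [hv] at hm
  linarith

lemma low_step1 {a b θ u w Sa Sb ya za yb zb : ℝ} (t0 : 0 ≤ θ) (t1 : θ ≤ 1)
    (hs : Low a b θ u Sa Sb) (hr : 0 ≤ u ∧ u < w ∧ w ≤ 3183 / 10000)
    (hy : ya ^ 2 ≤ 1 - a ^ 2 * (u / 3.14159) ∧ za ^ 2 ≤ 1 - a ^ 2 * (w / 3.14159) ∧
      yb ^ 2 ≤ 1 - b ^ 2 * (u / 3.14159) ∧ zb ^ 2 ≤ 1 - b ^ 2 * (w / 3.14159)) :
    Low a b θ w (Sa + (w - u) * (ya + za) / 2) (Sb + (w - u) * (yb + zb) / 2) := by
  obtain ⟨hu, huw, hw⟩ := hr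
  refine low_step (fun s => s / 3.14159) t0 t1 hs huw ?_ ?_ hy
  · intro τ _ _; exact le_of_eq (by ring)
  · intro s hsI
    have hs0 : 0 < s := hu.trans_lt hsI.1
    have hp := Real.pi_gt_d6
    have hp' := Real.pi_lt_d6
    have hs1 : s ≤ 3183 / 10000 := hsI.2.le.trans hw
    have h1 : Real.pi * s ≤ 1 := by nlinarith
    have he : ell3 s = √(Real.pi * s) := by
      rw [ell3_eq (by nlinarith), min_eq_right (Real.sqrt_le_one.2 h1)]
    have hps : 0 < Real.pi * s := mul_pos Real.pi_pos hs0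
    refine ⟨he ▸ Real.sqrt_pos.2 hps, ?_⟩
    rw [he, div_pow, Real.sq_sqrt hps.le, sq, mul_div_mul_right _ _ hs0.ne']
    exact div_le_div_of_nonneg_left hs0.le (by norm_num) (by norm_num at hp ⊢; linarith)

lemma low_step2 {a b θ u w Sa Sb ya za yb zb : ℝ} (t0 : 0 ≤ θ) (t1 : θ ≤ 1)
    (hs : Low a b θ u Sa Sb) (hr : 31832 / 100000 ≤ u ∧ u < w ∧ w ≤ 68168 / 100000)
    (hy : ya ^ 2 ≤ 1 - a ^ 2 * u ^ 2 ∧ za ^ 2 ≤ 1 - a ^ 2 * w ^ 2 ∧
      yb ^ 2 ≤ 1 - b ^ 2 * u ^ 2 ∧ zb ^ 2 ≤ 1 - b ^ 2 * w ^ 2) :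
    Low a b θ w (Sa + (w - u) * (ya + za) / 2) (Sb + (w - u) * (yb + zb) / 2) := by
  obtain ⟨hu, huw, hw⟩ := hr
  refine low_step (fun s => s ^ 2) t0 t1 hs huw ?_ ?_ hy
  · intro τ h0 h1; exact comb_sq_le h0 h1 le_rfl le_rfl
  · intro s hsI
    have hp := Real.pi_gt_d6
    have hs0 : 31832 / 100000 ≤ s := hu.trans hsI.1.le
    have hs1 : s ≤ 68168 / 100000 := hsI.2.le.trans hw
    have h1 : 1 ≤ Real.pi * s := by nlinarith
    have he : ell3 s = 1 := by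
      rw [ell3_eq (by nlinarith), min_eq_left (Real.one_le_sqrt.2 h1)]
    simp [he]

lemma low_step3 {a b θ u w Sa Sb ya za yb zb : ℝ} (t0 : 0 ≤ θ) (t1 : θ ≤ 1)
    (hs : Low a b θ u Sa Sb) (hr : 6817 / 10000 ≤ u ∧ u < w ∧ w < 1)
    (hy : ya ^ 2 ≤ 1 - a ^ 2 * (u ^ 2 / (3.14159 * (1 - u))) ∧
      za ^ 2 ≤ 1 - a ^ 2 * (w ^ 2 / (3.14159 * (1 - w))) ∧
      yb ^ 2 ≤ 1 - b ^ 2 * (u ^ 2 / (3.14159 * (1 - u))) ∧
      zb ^ 2 ≤ 1 - b ^ 2 * (w ^ 2 / (3.14159 * (1 - w)))) :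
    Low a b θ w (Sa + (w - u) * (ya + za) / 2) (Sb + (w - u) * (yb + zb) / 2) := by
  obtain ⟨hu, huw, hw⟩ := hr
  refine low_step (fun s => s ^ 2 / (3.14159 * (1 - s))) t0 t1 hs huw ?_ ?_ hy
  · intro τ h0 h1
    have hU : 0 < 1 - u := by linarith
    have hW : 0 < 1 - w := by linarith
    set M := (1 - τ) * (1 - u) + τ * (1 - w) with hM
    have hMpos : 0 < M := by
      rw [hM]
      nlinarith [mul_nonneg (sub_nonneg.2 h1) (by linarith : 0 ≤ (1 - u) - (1 - w))]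
    have e : 1 - ((1 - τ) * u + τ * w) = M := by rw [hM]; ring
    have key : (1 - τ) * (u ^ 2 / (1 - u)) + τ * (w ^ 2 / (1 - w)) -
        ((1 - τ) * u + τ * w) ^ 2 / M =
        τ * (1 - τ) * (w - u) ^ 2 / ((1 - u) * (1 - w) * M) := by
      field_simp
      rw [hM]
      ring
    have hnn : 0 ≤ τ * (1 - τ) * (w - u) ^ 2 / ((1 - u) * (1 - w) * M) :=
      div_nonneg (mul_nonneg (mul_nonneg h0 (sub_nonneg.2 h1)) (sq_nonneg _))
        (mul_nonneg (mul_nonneg hU.le hW.le) hMpos.le)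
    have d := div_le_div_of_nonneg_right (c := (3.14159 : ℝ))
      (show ((1 - τ) * u + τ * w) ^ 2 / M ≤
        (1 - τ) * (u ^ 2 / (1 - u)) + τ * (w ^ 2 / (1 - w)) by linarith) (by norm_num)
    simp only [e, div_mul_eq_div_div_swap]
    refine d.trans_eq ?_
    ring
  · intro s hsI
    have hp := Real.pi_gt_d6
    have hp' := Real.pi_lt_d6
    have hs0 : 6817 / 10000 ≤ s := hu.trans hsI.1.le
    have hs1 : s < 1 := hsI.2.trans hw
    have h1 : 1 ≤ Real.pi * s := by nlinarith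
    have h2 : Real.pi * (1 - s) ≤ 1 := by nlinarith
    have hq : √(Real.pi * (1 - s)) ≤ 1 := Real.sqrt_le_one.2 h2
    have hq' : √(Real.pi * (1 - s)) ≤ √(Real.pi * s) := hq.trans (Real.one_le_sqrt.2 h1)
    have he : ell3 s = √(Real.pi * (1 - s)) := by
      unfold ell3
      rw [min_eq_right hq', min_eq_right hq]
    have hps : 0 < Real.pi * (1 - s) := mul_pos Real.pi_pos (by linarith)
    refine ⟨he ▸ Real.sqrt_pos.2 hps, ?_⟩
    rw [he, div_pow, Real.sq_sqrt hps.le]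
    have h31 : (3.14159 : ℝ) ≤ Real.pi := by norm_num at hp ⊢; linarith
    exact div_le_div_of_nonneg_left (sq_nonneg s) (mul_pos (by norm_num) (by linarith))
      (mul_le_mul_of_nonneg_right h31 (by linarith))

lemma low_finish {a b θ u Sa Sb : ℝ} (t0 : 0 ≤ θ) (t1 : θ ≤ 1) (hs : Low a b θ u Sa Sb)
    (ha : 0 < a ∧ 1 - a / 3.1416 ≤ Sa) (hb : 0 < b ∧ 1 - b / 3.1416 ≤ Sb) :
    1 - ((1 - θ) * a + θ * b) / Real.pi <
      ∫ s in (0 : ℝ)..u, bfun (((1 - θ) * a + θ * b) * s) (ell3 s) := by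
  refine lt_of_lt_of_le ?_ hs
  have e1 := div_lt_div_of_pos_left ha.1 Real.pi_pos Real.pi_lt_d4
  have e2 := div_lt_div_of_pos_left hb.1 Real.pi_pos Real.pi_lt_d4
  have g : 0 < (1 - θ) * (Sa - (1 - a / Real.pi)) + θ * (Sb - (1 - b / Real.pi)) := by
    have d1 : 0 < Sa - (1 - a / Real.pi) := by linarith [ha.2]
    have d2 : 0 < Sb - (1 - b / Real.pi) := by linarith [hb.2]
    rcases t1.lt_or_eq with ht | ht
    · have := mul_pos (sub_pos.2 ht) d1
      have := mul_nonneg t0 d2.le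
      linarith
    · subst ht; linarith
  linarith [show 1 - ((1 - θ) * a + θ * b) / Real.pi =
    (1 - θ) * (1 - a / Real.pi) + θ * (1 - b / Real.pi) by ring]

lemma cell_finish {a b u h a0 : ℝ} (h1 : a ≤ h) (h2 : h ≤ b) (hab : a < b) (ha : 0 ≤ a)
    (hu : 0 ≤ u) (hv : 0 ≤ a0) (hup : b ^ 2 * u ^ 2 ≤ 3.14159 * (1 - u))
    (he : Real.pi * (1 - a0) ≤ (h * a0) ^ 2)
    (main : ∀ θ : ℝ, 0 ≤ θ → θ ≤ 1 → 1 - ((1 - θ) * a + θ * b) / Real.pi <
      ∫ s in (0 : ℝ)..u, bfun (((1 - θ) * a + θ * b) * s) (ell3 s)) :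
    1 - h / Real.pi < ∫ s in (0 : ℝ)..a0, bfun (h * s) (ell3 s) := by
  have hua : u ≤ a0 := by
    by_contra hcon
    rw [not_le] at hcon
    have hh : 0 ≤ h := ha.trans h1
    have g1 : (h * a0) ^ 2 ≤ (b * u) ^ 2 :=
      pow_le_pow_left₀ (mul_nonneg hh hv) (mul_le_mul h2 hcon.le hv (hh.trans h2)) 2
    have hu1 : 0 ≤ 1 - u := by
      by_contra hc
      nlinarith [mul_nonneg (sq_nonneg b) (sq_nonneg u)]
    have g2 : 3.14159 * (1 - u) ≤ Real.pi * (1 - u) :=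
      mul_le_mul_of_nonneg_right (by have := Real.pi_gt_d6; norm_num at this ⊢; linarith) hu1
    have g3 := mul_lt_mul_of_pos_left hcon Real.pi_pos
    rw [mul_pow b u] at g1
    linarith
  set θ := (h - a) / (b - a) with hθ
  have hd : 0 < b - a := sub_pos.2 hab
  have t0 : 0 ≤ θ := div_nonneg (by linarith) hd.le
  have t1 : θ ≤ 1 := (div_le_one hd).2 (by linarith)
  have eh : (1 - θ) * a + θ * b = h := by rw [hθ]; field_simp; ring
  have hm := main θ t0 t1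
  rw [eh] at hm
  exact hm.trans_le (integral_mono_interval le_rfl hu hua
    (Filter.Eventually.of_forall fun s => bfun_nonneg _ _) (low_intervalIntegrable h 0 a0))

end Vale.Agent.P232
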