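import Vale.Agent.P232.ClassifyDefs

/-! # P232, module C2: periodic functions of one variable with variation two -/

namespace Vale.Agent.P232

open MeasureTheory Set Filter Topology
open scoped ENNReal

theorem tdist_add_int (t : ℝ) (k : ℤ) : tdist (t + k) = tdist t := by
  simp [tdist, round_add_intCast]

theorem tdist_le_abs (t : ℝ) : tdist t ≤ |t| := by
  simpa [tdist] using round_le t 0

theorem abs_sub_eq_abs_integral {h : ℝ → ℝ} (hh : ContDiff ℝ 1 h) {a b : ℝ} (hab : a ≤ b) :
    |h b - h a| ≤ ∫ t in a..b, |deriv h t| := by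
  rw [← intervalIntegral.integral_deriv_eq_sub
    (fun t _ => (hh.differentiable one_ne_zero) t)
    ((hh.continuous_deriv le_rfl).intervalIntegrable a b)]
  exact intervalIntegral.abs_integral_le_integral_abs hab

theorem periodic_deriv {h : ℝ → ℝ} (hp : Function.Periodic h 1) :
    Function.Periodic (deriv h) 1 := fun t => by
  have e : (fun s => h (s + 1)) = h := funext hp
  have := deriv_comp_add_const (f := h) (a := (1 : ℝ)) (x := t)
  rw [e] at this
  exact this.symm

/-- A limit of periodic functions with values zero and one and variation two is an arc, and the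
variation concentrates at its two ends. -/
theorem arc_of_variation_two {h : ℕ → ℝ → ℝ} {χ : ℝ → ℝ} {m : ℝ} (hh : ∀ n, ContDiff ℝ 1 (h n))
    (hp : ∀ n, Function.Periodic (h n) 1) (hb : ∀ n t, h n t ∈ Icc (0 : ℝ) 1)
    (hχp : Function.Periodic χ 1) (hχ : ∀ t, χ t = 0 ∨ χ t = 1) (hχm : Measurable χ)
    (hlim : ∀ᵐ t : ℝ, Tendsto (fun n => h n t) atTop (𝓝 (χ t)))
    (hvar : Tendsto (fun n => ∫ t in (0 : ℝ)..1, |deriv (h n) t|) atTop (𝓝 2))
    (hm : (∫ t in (0 : ℝ)..1, χ t) = m) (hm0 : 0 < m) (hm1 : m < 1) :
    ∃ α β : ℝ, β - α = m ∧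
      (∀ φ : ℝ → ℝ, Continuous φ → Function.Periodic φ 1 →
        (∫ t in (0 : ℝ)..1, φ t * χ t) = ∫ t in α..β, φ t) ∧
      (∀ g : ℝ → ℝ, ContDiff ℝ 1 g → Function.Periodic g 1 →
        Tendsto (fun n => ∫ t in (0 : ℝ)..1, g t * |deriv (h n) t|) atTop (𝓝 (g α + g β))) ∧
      ∀ᵐ t : ℝ, χ t = if tdist (t - (α + β) / 2) < (β - α) / 2 then 1 else 0 := by
  set G : Set ℝ := {t | Tendsto (fun n => h n t) atTop (𝓝 (χ t))} with hG
  have hGae : ∀ᵐ t : ℝ, t ∈ G := hlim
  have hGp : ∀ t ∈ G, t + 1 ∈ G := fun t ht => by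
    simp only [hG, mem_ofPred_eq, hχp t, hp _ t] at ht ⊢
    exact ht
  have hχb : ∀ t, χ t ∈ Icc (0 : ℝ) 1 := fun t => by
    rcases hχ t with e | e <;> simp [e]
  have hχi : ∀ a b : ℝ, IntervalIntegrable χ volume a b := fun a b =>
    (intervalIntegrable_const (c := (1 : ℝ))).mono_fun' hχm.aestronglyMeasurable
      (ae_of_all _ fun t => show ‖χ t‖ ≤ 1 by
        rw [Real.norm_eq_abs, abs_of_nonneg (hχb t).1]; exact (hχb t).2)
  have hdc : ∀ n, Continuous (deriv (h n)) := fun n => (hh n).continuous_deriv le_rfl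
  have hshift : ∀ n t0, (∫ t in (0 : ℝ)..1, |deriv (h n) t|) =
      ∫ t in t0..t0 + 1, |deriv (h n) t| := fun n t0 => by
    have := ((periodic_deriv (hp n)).comp abs).intervalIntegral_add_eq 0 t0
    simpa using this
  -- a point where the limit is zero
  obtain ⟨t0, ht0G, ht0⟩ : ∃ t0 ∈ G, χ t0 = 0 := by
    by_contra hne
    push Not at hne
    have h1 : (∫ t in (0 : ℝ)..1, χ t) = ∫ _t in (0 : ℝ)..1, (1 : ℝ) :=
      intervalIntegral.integral_congr_ae (hGae.mono fun t ht _ => (hχ t).resolve_left (hne t ht))
    rw [hm, intervalIntegral.integral_const] at h1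
    simp at h1
    linarith
  have hshiftχ : ∀ φ : ℝ → ℝ, Function.Periodic φ 1 →
      (∫ t in (0 : ℝ)..1, φ t * χ t) = ∫ t in t0..t0 + 1, φ t * χ t := fun φ hφ => by
    have := (hφ.mul hχp).intervalIntegral_add_eq 0 t0
    simpa using this
  set A : Set ℝ := {t | t ∈ G ∧ t ∈ Ioo t0 (t0 + 1) ∧ χ t = 1} with hA
  have hAne : A.Nonempty := by
    by_contra hne
    rw [not_nonempty_iff_eq_empty] at hne
    have h1 : (∫ t in t0..t0 + 1, χ t) = ∫ _t in t0..t0 + 1, (0 : ℝ) := by
      refine intervalIntegral.integral_congr_ae ?_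
      filter_upwards [hGae, Measure.ae_ne volume (t0 + 1)] with t ht hne' hmem
      rw [uIoc_of_le (by linarith)] at hmem
      refine (hχ t).resolve_right fun e => ?_
      have : t ∈ A := ⟨ht, ⟨hmem.1, lt_of_le_of_ne hmem.2 hne'⟩, e⟩
      rw [hne] at this
      exact this
    have h2 := hshiftχ (fun _ => 1) (fun _ => rfl)
    simp only [one_mul, hm, h1, intervalIntegral.integral_zero] at h2
    linarith
  have hAsub : A ⊆ Icc t0 (t0 + 1) := fun t ht => Ioo_subset_Icc_self ht.2.1
  have hAb : BddBelow A := bddBelow_Icc.mono hAsub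
  have hAa : BddAbove A := bddAbove_Icc.mono hAsub
  set α := sInf A with hα
  set β := sSup A with hβ
  have hα0 : t0 ≤ α := le_csInf hAne fun t ht => (hAsub ht).1
  have hβ1 : β ≤ t0 + 1 := csSup_le hAne fun t ht => (hAsub ht).2
  have hαβ : α ≤ β := (csInf_le hAb hAne.some_mem).trans (le_csSup hAa hAne.some_mem)
  -- no gap
  have hin : ∀ r ∈ G, α < r → r < β → χ r = 1 := by
    intro r hr h1 h2
    refine (hχ r).resolve_left fun e => ?_
    obtain ⟨p, hp1, hpr⟩ := exists_lt_of_csInf_lt hAne h1
    obtain ⟨p', hp2, hrp⟩ := exists_lt_of_lt_csSup hAne h2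
    have l1 : Tendsto (fun n => |h n p - h n t0| + |h n r - h n p| + |h n p' - h n r| +
        |h n (t0 + 1) - h n p'|) atTop (𝓝 (|(1 : ℝ) - 0| + |0 - 1| + |1 - 0| + |0 - 1|)) := by
      have a0 : Tendsto (fun n => h n t0) atTop (𝓝 0) := ht0 ▸ ht0G
      have a1 : Tendsto (fun n => h n p) atTop (𝓝 1) := hp1.2.2 ▸ hp1.1
      have a2 : Tendsto (fun n => h n r) atTop (𝓝 0) := e ▸ hr
      have a3 : Tendsto (fun n => h n p') atTop (𝓝 1) := hp2.2.2 ▸ hp2.1
      have a4 : Tendsto (fun n => h n (t0 + 1)) atTop (𝓝 0) := by simpa [hp _ t0] using a0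
      exact ((((a1.sub a0).abs.add (a2.sub a1).abs).add (a3.sub a2).abs).add (a4.sub a3).abs)
    have := le_of_tendsto_of_tendsto' l1 hvar fun n => by
      rw [hshift n t0]
      have hi : ∀ a b : ℝ, IntervalIntegrable (fun t => |deriv (h n) t|) volume a b :=
        fun a b => (hdc n).abs.intervalIntegrable a b
      rw [← intervalIntegral.integral_add_adjacent_intervals (b := p') (hi _ _) (hi _ _),
        ← intervalIntegral.integral_add_adjacent_intervals (b := r) (hi t0 _) (hi _ _),
        ← intervalIntegral.integral_add_adjacent_intervals (b := p) (hi t0 _) (hi _ _)]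
      linarith [abs_sub_eq_abs_integral (hh n) hp1.2.1.1.le,
        abs_sub_eq_abs_integral (hh n) hpr.le, abs_sub_eq_abs_integral (hh n) hrp.le,
        abs_sub_eq_abs_integral (hh n) hp2.2.1.2.le]
    norm_num at this
  have hout : ∀ r ∈ G, r ∈ Ioo t0 (t0 + 1) → r < α ∨ β < r → χ r = 0 := by
    intro r hr hr' ho
    refine (hχ r).resolve_right fun e => ?_
    have hmem : r ∈ A := ⟨hr, hr', e⟩
    rcases ho with ho | ho
    · exact absurd (csInf_le hAb hmem) (not_le.2 ho)
    · exact absurd (le_csSup hAa hmem) (not_le.2 ho)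
  -- integrals against the limit
  have hint : ∀ φ : ℝ → ℝ, Continuous φ → ∀ a b, t0 ≤ a → a ≤ b → b ≤ t0 + 1 →
      a ≤ β → α ≤ b → (∫ t in a..b, φ t * χ t) = ∫ t in max a α..min b β, φ t := by
    intro φ hφ a b ha hab hb haβ hαb
    set a' := max a α
    set b' := min b β
    have h1 : a ≤ a' := le_max_left _ _
    have h2 : a' ≤ b' := max_le (le_min hab haβ) (le_min hαb hαβ)
    have h3 : b' ≤ b := min_le_left _ _
    have hi : ∀ x y, IntervalIntegrable (fun t => φ t * χ t) volume x y := fun x y =>
      (hχi x y).continuousOn_mul hφ.continuousOn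
    have e1 : (∫ t in a..a', φ t * χ t) = 0 := by
      refine intervalIntegral.integral_zero_ae ?_
      filter_upwards [hGae, Measure.ae_ne volume a', Measure.ae_ne volume (t0 + 1)]
        with t ht hne hne1 hmem
      rw [uIoc_of_le h1] at hmem
      have hlt : t < a' := lt_of_le_of_ne hmem.2 hne
      have hta : t < α := by
        rcases max_choice a α with e | e
        · simp only [a', e] at hlt; linarith [hmem.1]
        · simpa [a', e] using hlt
      rw [hout t ht ⟨by linarith [hmem.1],
        lt_of_le_of_ne (by linarith [hlt, h2, h3]) hne1⟩ (Or.inl hta), mul_zero]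
    have e2 : (∫ t in b'..b, φ t * χ t) = 0 := by
      refine intervalIntegral.integral_zero_ae ?_
      filter_upwards [hGae, Measure.ae_ne volume (t0 + 1)] with t ht hne hmem
      rw [uIoc_of_le h3] at hmem
      have htb : β < t := by
        rcases min_choice b β with e | e
        · simp only [b', e] at hmem; linarith [hmem.1, hmem.2]
        · simpa [b', e] using hmem.1
      rw [hout t ht ⟨by linarith [hmem.1, h1, h2],
        lt_of_le_of_ne (hmem.2.trans hb) hne⟩ (Or.inr htb), mul_zero]
    have e3 : (∫ t in a'..b', φ t * χ t) = ∫ t in a'..b', φ t := by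
      refine intervalIntegral.integral_congr_ae ?_
      filter_upwards [hGae, Measure.ae_ne volume β] with t ht hne hmem
      rw [uIoc_of_le h2] at hmem
      rw [hin t ht (lt_of_le_of_lt (le_max_right _ _) hmem.1)
        (lt_of_le_of_ne (hmem.2.trans (min_le_right _ _)) hne), mul_one]
    rw [← intervalIntegral.integral_add_adjacent_intervals (b := a') (hi _ _) (hi _ _), e1,
      ← intervalIntegral.integral_add_adjacent_intervals (b := b') (hi a' _) (hi _ _), e2, e3]
    ring
  have hfull : ∀ φ : ℝ → ℝ, Continuous φ → Function.Periodic φ 1 →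
      (∫ t in (0 : ℝ)..1, φ t * χ t) = ∫ t in α..β, φ t := fun φ hφ hφp => by
    rw [hshiftχ φ hφp, hint φ hφ t0 (t0 + 1) le_rfl (by linarith) le_rfl (by linarith) (by linarith),
      max_eq_right hα0, min_eq_right hβ1]
  have hlen : β - α = m := by
    have := hfull (fun _ => 1) continuous_const (fun _ => rfl)
    simpa [hm] using this.symm
  refine ⟨α, β, hlen, hfull, fun g hg hgp => ?_, ?_⟩
  · obtain ⟨p, hpG, hpI, hpχ⟩ := hAne
    have hpα : α ≤ p := csInf_le hAb ⟨hpG, hpI, hpχ⟩
    have hpβ : p ≤ β := le_csSup hAa ⟨hpG, hpI, hpχ⟩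
    have hgc := hg.continuous
    have hgd : Continuous (deriv g) := hg.continuous_deriv le_rfl
    obtain ⟨C, hC⟩ := (isCompact_Icc (a := t0) (b := t0 + 1)).exists_bound_of_continuousOn
      hgc.continuousOn
    have l0 : Tendsto (fun n => h n t0) atTop (𝓝 0) := ht0 ▸ ht0G
    have l1 : Tendsto (fun n => h n p) atTop (𝓝 1) := hpχ ▸ hpG
    have l2 : Tendsto (fun n => h n (t0 + 1)) atTop (𝓝 0) := by simpa [hp _ t0] using l0
    have hparts : ∀ a b, (∀ t, t = a ∨ t = b → t ∈ G) →
        Tendsto (fun n => ∫ t in a..b, g t * deriv (h n) t) atTop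
          (𝓝 (g b * χ b - g a * χ a - ∫ t in a..b, deriv g t * χ t)) := fun a b hab => by
      have e : ∀ n, (∫ t in a..b, g t * deriv (h n) t) =
          g b * h n b - g a * h n a - ∫ t in a..b, deriv g t * h n t := fun n =>
        intervalIntegral.integral_mul_deriv_eq_deriv_mul
          (fun t _ => ((hg.differentiable one_ne_zero) t).hasDerivAt)
          (fun t _ => (((hh n).differentiable one_ne_zero) t).hasDerivAt)
          (hgd.intervalIntegrable a b) ((hdc n).intervalIntegrable a b)
      simp only [e]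
      refine (((hab b (Or.inr rfl)).const_mul (g b)).sub ((hab a (Or.inl rfl)).const_mul (g a))).sub ?_
      refine intervalIntegral.tendsto_integral_filter_of_dominated_convergence
        (fun t => |deriv g t|) (Eventually.of_forall fun n =>
          (hgd.mul (hh n).continuous).aestronglyMeasurable)
        (Eventually.of_forall fun n => ae_of_all _ fun t _ => ?_)
        (hgd.abs.intervalIntegrable a b) (hGae.mono fun t ht _ => ht.const_mul _)
      rw [norm_mul, Real.norm_eq_abs, Real.norm_eq_abs, abs_of_nonneg (hb n t).1]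
      exact mul_le_of_le_one_right (abs_nonneg _) (hb n t).2
    have hp1 := hparts t0 p (by rintro t (rfl | rfl) <;> assumption)
    have hp2 := hparts p (t0 + 1) (by
      rintro t (rfl | rfl)
      · exact hpG
      · exact hGp t0 ht0G)
    have hgd' : Continuous fun t => deriv g t := hgd
    rw [ht0, hpχ, hint _ hgd' t0 p le_rfl hpI.1.le hpI.2.le (hα0.trans hαβ) hpα,
      max_eq_right hα0, min_eq_left hpβ, intervalIntegral.integral_deriv_eq_sub
        (fun t _ => (hg.differentiable one_ne_zero) t) (hgd.intervalIntegrable _ _)] at hp1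
    rw [hχp t0, ht0, hpχ, hint _ hgd' p (t0 + 1) hpI.1.le hpI.2.le le_rfl hpβ (hαβ.trans hβ1),
      max_eq_left hpα, min_eq_right hβ1, intervalIntegral.integral_deriv_eq_sub
        (fun t _ => (hg.differentiable one_ne_zero) t) (hgd.intervalIntegrable _ _)] at hp2
    have hmain := hp1.sub hp2
    have hval : g p * 1 - g t0 * 0 - (g p - g α) - (g (t0 + 1) * 0 - g p * 1 - (g β - g p)) =
        g α + g β := by ring
    rw [hval] at hmain
    set K : ℕ → ℝ := fun n => (∫ t in t0..t0 + 1, |deriv (h n) t|) -
      ((h n p - h n t0) - (h n (t0 + 1) - h n p))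
    have hK : Tendsto K atTop (𝓝 0) := by
      have := hvar.sub ((l1.sub l0).sub (l2.sub l1))
      simp only [hshift _ t0] at this
      rw [show (2 : ℝ) - (1 - 0 - (0 - 1)) = 0 by norm_num] at this
      exact this
    have hclose : ∀ n, |(∫ t in (0 : ℝ)..1, g t * |deriv (h n) t|) -
        ((∫ t in t0..p, g t * deriv (h n) t) - ∫ t in p..t0 + 1, g t * deriv (h n) t)| ≤
        C * K n := by
      intro n
      have hs : (∫ t in (0 : ℝ)..1, g t * |deriv (h n) t|) =
          ∫ t in t0..t0 + 1, g t * |deriv (h n) t| := by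
        have := (hgp.mul ((periodic_deriv (hp n)).comp abs)).intervalIntegral_add_eq 0 t0
        simpa using this
      have hc1 : Continuous fun t => |deriv (h n) t| := (hdc n).abs
      have hi : ∀ a b : ℝ, IntervalIntegrable (fun t => g t * |deriv (h n) t|) volume a b :=
        fun a b => (hgc.mul hc1).intervalIntegrable a b
      have hi' : ∀ a b : ℝ, IntervalIntegrable (fun t => g t * deriv (h n) t) volume a b :=
        fun a b => (hgc.mul (hdc n)).intervalIntegrable a b
      have hKn : K n = (∫ t in t0..p, (|deriv (h n) t| - deriv (h n) t)) +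
          ∫ t in p..t0 + 1, (|deriv (h n) t| + deriv (h n) t) := by
        rw [intervalIntegral.integral_sub (hc1.intervalIntegrable _ _)
            ((hdc n).intervalIntegrable _ _),
          intervalIntegral.integral_add (hc1.intervalIntegrable _ _)
            ((hdc n).intervalIntegrable _ _),
          intervalIntegral.integral_deriv_eq_sub (fun t _ => ((hh n).differentiable one_ne_zero) t)
            ((hdc n).intervalIntegrable _ _),
          intervalIntegral.integral_deriv_eq_sub (fun t _ => ((hh n).differentiable one_ne_zero) t)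
            ((hdc n).intervalIntegrable _ _)]
        simp only [K]
        rw [← intervalIntegral.integral_add_adjacent_intervals (b := p)
          (hc1.intervalIntegrable t0 _) (hc1.intervalIntegrable _ _)]
        ring
      rw [hs, ← intervalIntegral.integral_add_adjacent_intervals (b := p) (hi t0 _) (hi _ _),
        hKn, mul_add, ← intervalIntegral.integral_const_mul, ← intervalIntegral.integral_const_mul]
      have ea : (∫ t in t0..p, g t * |deriv (h n) t|) + (∫ t in p..t0 + 1, g t * |deriv (h n) t|) -
          ((∫ t in t0..p, g t * deriv (h n) t) - ∫ t in p..t0 + 1, g t * deriv (h n) t) =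
          (∫ t in t0..p, (g t * |deriv (h n) t| - g t * deriv (h n) t)) +
            ∫ t in p..t0 + 1, (g t * |deriv (h n) t| + g t * deriv (h n) t) := by
        rw [intervalIntegral.integral_sub (hi _ _) (hi' _ _),
          intervalIntegral.integral_add (hi _ _) (hi' _ _)]
        ring
      rw [ea]
      refine (abs_add_le _ _).trans (add_le_add ?_ ?_)
      · refine (intervalIntegral.abs_integral_le_integral_abs hpI.1.le).trans
          (intervalIntegral.integral_mono_on hpI.1.le (((hgc.mul hc1).sub (hgc.mul (hdc n))).abs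
            |>.intervalIntegrable _ _) ((continuous_const.mul (hc1.sub (hdc n))).intervalIntegrable _ _)
            fun t ht => ?_)
        rw [← mul_sub, abs_mul, abs_of_nonneg (sub_nonneg.2 (le_abs_self (deriv (h n) t)))]
        exact mul_le_mul_of_nonneg_right (hC t ⟨ht.1, ht.2.trans hpI.2.le⟩)
          (sub_nonneg.2 (le_abs_self _))
      · refine (intervalIntegral.abs_integral_le_integral_abs hpI.2.le).trans
          (intervalIntegral.integral_mono_on hpI.2.le (((hgc.mul hc1).add (hgc.mul (hdc n))).abs
            |>.intervalIntegrable _ _) ((continuous_const.mul (hc1.add (hdc n))).intervalIntegrable _ _)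
            fun t ht => ?_)
        have h0 : 0 ≤ |deriv (h n) t| + deriv (h n) t := by
          linarith [neg_abs_le (deriv (h n) t)]
        rw [← mul_add, abs_mul, abs_of_nonneg h0]
        exact mul_le_mul_of_nonneg_right (hC t ⟨hpI.1.le.trans ht.1, ht.2⟩) h0
    refine tendsto_of_tendsto_of_dist hmain
      (squeeze_zero (fun n => dist_nonneg) (fun n => ?_) (by simpa using hK.const_mul C))
    rw [dist_comm, Real.dist_eq]
    exact hclose n
  · have hcount : ∀ x : ℝ, ∀ᵐ t : ℝ, ∀ k : ℤ, t ≠ x + k := fun x =>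
      ae_all_iff.2 fun k => Measure.ae_ne volume _
    filter_upwards [hGae, hcount t0, hcount α, hcount β] with t ht e0 eα eβ
    set k : ℤ := ⌊t - t0⌋
    set r : ℝ := t - k with hr
    have hk0 : t0 < r := lt_of_le_of_ne (by linarith [Int.floor_le (t - t0)]) fun h' =>
      e0 k (by linarith)
    have hk1 : r < t0 + 1 := by linarith [Int.lt_floor_add_one (t - t0)]
    have hχr : χ r = χ t := by simpa [hr] using hχp.sub_int_mul_eq (x := t) k
    have hrG : r ∈ G := by
      show Tendsto (fun n => h n r) atTop (𝓝 (χ r))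
      rw [hχr]
      refine ht.congr fun n => ?_
      have := (hp n).sub_int_mul_eq k (x := t)
      simp only [mul_one] at this
      exact this.symm
    have htd : tdist (t - (α + β) / 2) = tdist (r - (α + β) / 2) := by
      rw [← tdist_add_int (r - _) k]
      congr 1
      simp [hr]; ring
    rw [← hχr, htd]
    rcases lt_trichotomy r α with hlt | heq | hgt
    · rw [hout r hrG ⟨hk0, hk1⟩ (Or.inl hlt), if_neg (not_lt.2 ?_)]
      rw [tdist]
      set z := round (r - (α + β) / 2)
      rcases lt_trichotomy z 0 with hz | hz | hz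
      · have hz' : (z : ℝ) ≤ -1 := by exact_mod_cast Int.le_sub_one_of_lt hz
        exact le_trans (by linarith) (le_abs_self _)
      · rw [hz]; exact le_trans (by simp; linarith) (neg_le_abs _)
      · have hz' : (1 : ℝ) ≤ z := by exact_mod_cast hz
        exact le_trans (by linarith) (neg_le_abs _)
    · exact absurd (show t = α + k by linarith) (eα k)
    rcases lt_trichotomy r β with hlt' | heq | hgt'
    · rw [hin r hrG hgt hlt', if_pos]
      refine lt_of_le_of_lt (tdist_le_abs _) (abs_lt.2 ⟨?_, ?_⟩) <;> linarith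
    · exact absurd (show t = β + k by linarith) (eβ k)
    · rw [hout r hrG ⟨hk0, hk1⟩ (Or.inr hgt'), if_neg (not_lt.2 ?_)]
      rw [tdist]
      set z := round (r - (α + β) / 2)
      rcases lt_trichotomy z 0 with hz | hz | hz
      · have hz' : (z : ℝ) ≤ -1 := by exact_mod_cast Int.le_sub_one_of_lt hz
        exact le_trans (by linarith) (le_abs_self _)
      · rw [hz]; exact le_trans (by simp; linarith) (le_abs_self _)
      · have hz' : (1 : ℝ) ≤ z := by exact_mod_cast hz
        exact le_trans (by linarith) (neg_le_abs _)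

end Vale.Agent.P232
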