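import Vale.Agent.P232.Defs

/-! # P232: periodic functions, integrals over the cell, the folding map -/

namespace Vale.Agent.P232

open MeasureTheory Set Filter Topology
open scoped ENNReal NNReal

/-- Integer vector as a point of space. -/
def intVec (k : Fin 3 → ℤ) : V3 := fun i => (k i : ℝ)

/-- Coordinate unit vector. -/
noncomputable def evec (i : Fin 3) : V3 := Pi.single i 1

/-! ### The cell -/

theorem cell_measurableSet : MeasurableSet cell :=
  MeasurableSet.pi countable_univ fun _ _ => measurableSet_Ico

theorem cell_eq_fundamentalDomain :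
    cell = ZSpan.fundamentalDomain (Pi.basisFun ℝ (Fin 3)) := by
  ext x
  simp [cell]

theorem volume_cell : volume cell = 1 := by
  simp [cell, volume_pi_pi]

theorem volume_cell_ne_top : volume cell ≠ ⊤ := by simp [volume_cell]

instance : IsFiniteMeasure (volume.restrict cell) :=
  isFiniteMeasure_restrict.2 volume_cell_ne_top

theorem ZPeriodic.mem_span {α : Type} {f : V3 → α} (hf : ZPeriodic f)
    (g : Submodule.span ℤ (Set.range (Pi.basisFun ℝ (Fin 3)))) (x : V3) :
    f (x + (g : V3)) = f x := by
  have h := ((Pi.basisFun ℝ (Fin 3)).mem_span_iff_repr_mem ℤ (g : V3)).1 g.2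
  choose k hk using h
  have hg : (g : V3) = intVec k := by
    funext i
    have := hk i
    simp [intVec] at this ⊢
    exact this.symm
  rw [hg]
  exact hf x k

theorem setIntegral_cell_add {f : V3 → ℝ} (hf : ZPeriodic f) (a : V3) :
    ∫ x in cell, f (x + a) = ∫ x in cell, f x := by
  have hs := ZSpan.isAddFundamentalDomain (Pi.basisFun ℝ (Fin 3)) (volume : Measure V3)
  rw [← cell_eq_fundamentalDomain] at hs
  have hmp : MeasurePreserving (fun x : V3 => x + -a) volume volume :=
    measurePreserving_add_right volume (-a)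
  have ht := hs.preimage_of_equiv (ν := volume) hmp.quasiMeasurePreserving
    (e := id) Function.bijective_id (fun g x => by
      simp only [id, Submodule.vadd_def, vadd_eq_add]
      abel)
  have hinv : ∀ (g : Submodule.span ℤ (Set.range (Pi.basisFun ℝ (Fin 3)))) (x : V3),
      f (g +ᵥ x) = f x := fun g x => by
    rw [Submodule.vadd_def, vadd_eq_add, add_comm]
    exact hf.mem_span g x
  have : VAddInvariantMeasure (Submodule.span ℤ (Set.range (Pi.basisFun ℝ (Fin 3)))) V3 volume :=
    inferInstanceAs <| VAddInvariantMeasure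
      (Submodule.span ℤ (Set.range (Pi.basisFun ℝ (Fin 3)))).toAddSubgroup V3 volume
  rw [hs.setIntegral_eq ht hinv]
  have h2 := hmp.setIntegral_preimage_emb (measurableEmbedding_addRight (-a))
    (fun x => f (x + a)) cell
  simp only [add_assoc, neg_add_cancel, add_zero] at h2
  exact h2.symm

theorem ZPeriodic.exists_mem_cell {α : Type} {f : V3 → α} (hf : ZPeriodic f) (x : V3) :
    ∃ y ∈ cell, f y = f x := by
  refine ⟨fun i => Int.fract (x i), fun i _ => ⟨Int.fract_nonneg _, Int.fract_lt_one _⟩, ?_⟩
  rw [← hf x fun i => -⌊x i⌋]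
  congr 1
  funext i
  simp only [Pi.add_apply, Int.cast_neg, ← sub_eq_add_neg]
  rfl

theorem cell_subset_Icc : cell ⊆ Icc (0 : V3) 1 := fun _ hx =>
  ⟨fun i => (hx i trivial).1, fun i => (hx i trivial).2.le⟩

theorem ZPeriodic.exists_norm_le {E : Type} [SeminormedAddCommGroup E] {f : V3 → E}
    (hf : ZPeriodic f) (hc : Continuous f) : ∃ C, ∀ x, ‖f x‖ ≤ C := by
  obtain ⟨C, hC⟩ := (isCompact_Icc (a := (0 : V3)) (b := 1)).exists_bound_of_continuousOn
    hc.continuousOn
  refine ⟨C, fun x => ?_⟩
  obtain ⟨y, hy, hxy⟩ := hf.exists_mem_cell x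
  rw [← hxy]
  exact hC y (cell_subset_Icc hy)

theorem integrableOn_cell_of_bound {f : V3 → ℝ} (hf : AEStronglyMeasurable f volume) {C : ℝ}
    (hC : ∀ x, |f x| ≤ C) : IntegrableOn f cell :=
  (integrable_const C).mono' hf.restrict (Eventually.of_forall fun x => by simpa using hC x)

theorem integrableOn_cell_of_periodic {f : V3 → ℝ} (hf : ZPeriodic f) (hc : Continuous f) :
    IntegrableOn f cell := by
  obtain ⟨C, hC⟩ := hf.exists_norm_le hc
  exact integrableOn_cell_of_bound hc.aestronglyMeasurable hC

theorem ZPeriodic.fderiv {F : Type} [NormedAddCommGroup F] [NormedSpace ℝ F] {f : V3 → F}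
    (hf : ZPeriodic f) : ZPeriodic (_root_.fderiv ℝ f) := by
  intro x k
  have h : (fun y => f (y + fun i => (k i : ℝ))) = f := funext fun y => hf y k
  calc _root_.fderiv ℝ f (x + fun i => (k i : ℝ))
      = _root_.fderiv ℝ (fun y => f (y + fun i => (k i : ℝ))) x := by
        rw [fderiv_comp_add_right]
    _ = _root_.fderiv ℝ f x := by rw [h]

theorem ZPeriodic.exists_lipschitz {f : V3 → ℝ} (hf : ZPeriodic f) (hc : ContDiff ℝ 1 f) :
    ∃ C, LipschitzWith C f := by
  obtain ⟨C, hC⟩ := hf.fderiv.exists_norm_le (hc.continuous_fderiv one_ne_zero)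
  refine ⟨C.toNNReal, lipschitzWith_of_nnnorm_fderiv_le (hc.differentiable one_ne_zero)
    fun x => ?_⟩
  rw [← NNReal.coe_le_coe, coe_nnnorm]
  exact (hC x).trans (Real.le_coe_toNNReal C)

/-! ### Integration by parts -/

theorem setIntegral_fderiv_periodic {g : V3 → ℝ} {C : ℝ≥0} (hl : LipschitzWith C g)
    (hg : ZPeriodic g) (v : V3) : ∫ x in cell, fderiv ℝ g x v = 0 := by
  set t : ℕ → ℝ := fun n => ((n : ℝ) + 1)⁻¹ with ht
  have tpos : ∀ n, 0 < t n := fun n => by positivity
  have ht0 : Tendsto t atTop (𝓝 0) := by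
    simpa [ht] using tendsto_one_div_add_atTop_nhds_zero_nat (𝕜 := ℝ)
  have hgi : IntegrableOn g cell := integrableOn_cell_of_periodic hg hl.continuous
  have hzero : ∀ n, ∫ x in cell, (t n)⁻¹ * (g (x + t n • v) - g x) = 0 := by
    intro n
    have hshift : ZPeriodic fun x => g (x + t n • v) := fun x k => by
      beta_reduce
      rw [add_right_comm]
      exact hg _ k
    rw [integral_const_mul, integral_sub (integrableOn_cell_of_periodic hshift
      (hl.continuous.comp (continuous_id.add continuous_const))) hgi,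
      setIntegral_cell_add hg, sub_self, mul_zero]
  have hlim : Tendsto (fun n => ∫ x in cell, (t n)⁻¹ * (g (x + t n • v) - g x)) atTop
      (𝓝 (∫ x in cell, fderiv ℝ g x v)) := by
    refine tendsto_integral_of_dominated_convergence (fun _ => (C : ℝ) * ‖v‖) (fun n => ?_)
      (integrable_const _) (fun n => Eventually.of_forall fun x => ?_) ?_
    · exact (continuous_const.mul ((hl.continuous.comp (continuous_id.add continuous_const)).sub
        hl.continuous)).aestronglyMeasurable
    · rw [Real.norm_eq_abs, abs_mul, abs_of_pos (inv_pos.2 (tpos n)),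
        inv_mul_le_iff₀ (tpos n)]
      have := hl.dist_le_mul (x + t n • v) x
      rw [Real.dist_eq, dist_eq_norm, add_sub_cancel_left, norm_smul, Real.norm_eq_abs,
        abs_of_pos (tpos n)] at this
      linarith
    · refine ae_restrict_of_ae (hl.ae_differentiableAt.mono fun x hx => ?_)
      have h1 := (hx.hasFDerivAt.hasLineDerivAt v).tendsto_slope_zero_right
      have h2 : Tendsto t atTop (𝓝[>] 0) :=
        tendsto_nhdsWithin_iff.2 ⟨ht0, Eventually.of_forall tpos⟩
      simpa [Function.comp_def] using h1.comp h2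
  exact tendsto_nhds_unique hlim (by simp [hzero])

/-- Partial derivative. -/
noncomputable def grad (g : V3 → ℝ) (x : V3) (i : Fin 3) : ℝ := fderiv ℝ g x (evec i)

/-- Length of the gradient. -/
noncomputable def gnorm (g : V3 → ℝ) (x : V3) : ℝ := √(∑ i, grad g x i ^ 2)

theorem measurable_grad (g : V3 → ℝ) (i : Fin 3) : Measurable fun x => grad g x i :=
  measurable_fderiv_apply_const ℝ g _

theorem measurable_gnorm (g : V3 → ℝ) : Measurable (gnorm g) := by
  have := fun i => measurable_grad g i
  unfold gnorm
  fun_prop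

theorem abs_grad_le {g : V3 → ℝ} {C : ℝ≥0} (hl : LipschitzWith C g) (x : V3) (i : Fin 3) :
    |grad g x i| ≤ C := by
  refine ((fderiv ℝ g x).le_opNorm (evec i)).trans ?_
  have h1 : ‖evec i‖ = 1 := by simp [evec, Pi.norm_single]
  rw [h1, mul_one]
  exact norm_fderiv_le_of_lipschitz ℝ hl

theorem gnorm_le {g : V3 → ℝ} {C : ℝ≥0} (hl : LipschitzWith C g) (x : V3) :
    gnorm g x ≤ √(3 * (C : ℝ) ^ 2) := by
  refine Real.sqrt_le_sqrt ?_
  have h : ∀ i, grad g x i ^ 2 ≤ (C : ℝ) ^ 2 := fun i => by
    rw [sq_le_sq, abs_of_nonneg C.coe_nonneg]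
    exact abs_grad_le hl x i
  have := Finset.sum_le_sum fun i (_ : i ∈ Finset.univ) => h i
  simpa using this

theorem integrableOn_gnorm {g : V3 → ℝ} {C : ℝ≥0} (hl : LipschitzWith C g) :
    IntegrableOn (gnorm g) cell :=
  integrableOn_cell_of_bound (measurable_gnorm g).aestronglyMeasurable fun x => by
    rw [abs_of_nonneg (by unfold gnorm; positivity)]
    exact gnorm_le hl x

theorem IsField.comp {X : V3 → V3} (hX : IsField X) (i : Fin 3) :
    ContDiff ℝ 1 (fun x => X x i) ∧ ZPeriodic (fun x => X x i) :=
  ⟨contDiff_pi.1 hX.1 i, fun x k => congr_fun (hX.2.1 x k) i⟩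

theorem IsField.abs_le {X : V3 → V3} (hX : IsField X) (x : V3) (i : Fin 3) : |X x i| ≤ 1 := by
  rw [abs_le_one_iff_mul_self_le_one, ← sq]
  exact (Finset.single_le_sum (fun j _ => sq_nonneg (X x j)) (Finset.mem_univ i)).trans
    (hX.2.2 x)

theorem divg_eq {X : V3 → V3} (hX : IsField X) (x : V3) :
    divg X x = ∑ i, grad (fun y => X y i) x i := by
  refine Finset.sum_congr rfl fun i _ => ?_
  rw [grad, fderiv_apply ((hX.1.differentiable one_ne_zero) x) i]
  rfl

theorem continuous_divg {X : V3 → V3} (hX : IsField X) : Continuous (divg X) := by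
  have := hX.1.continuous_fderiv one_ne_zero
  unfold divg
  fun_prop

theorem periodic_divg {X : V3 → V3} (hX : IsField X) : ZPeriodic (divg X) := fun x k => by
  simp only [divg, hX.2.1.fderiv x k]

/-- Integration by parts on the torus. -/
theorem setIntegral_mul_divg {g : V3 → ℝ} {C : ℝ≥0} (hl : LipschitzWith C g) (hg : ZPeriodic g)
    {X : V3 → V3} (hX : IsField X) :
    ∫ x in cell, g x * divg X x = -∫ x in cell, ∑ i, grad g x i * X x i := by
  obtain ⟨M, hM⟩ := hg.exists_norm_le hl.continuous
  have hM0 : 0 ≤ M := (norm_nonneg _).trans (hM 0)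
  have key : ∀ i, ∫ x in cell, g x * grad (fun y => X y i) x i
      = -∫ x in cell, grad g x i * X x i := by
    intro i
    obtain ⟨hXc, hXp⟩ := hX.comp i
    obtain ⟨D, hD⟩ := hXp.exists_lipschitz hXc
    have hprod : LipschitzWith (C + M.toNNReal * D) fun x => g x * X x i := by
      refine LipschitzWith.of_dist_le_mul fun x y => ?_
      have h1 := hl.dist_le_mul x y
      have h2 := hD.dist_le_mul x y
      rw [Real.dist_eq] at h1 h2 ⊢
      have e : g x * X x i - g y * X y i = (g x - g y) * X x i + g y * (X x i - X y i) := by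
        ring
      rw [e, NNReal.coe_add, NNReal.coe_mul, Real.coe_toNNReal M hM0, add_mul]
      refine (abs_add_le _ _).trans (add_le_add ?_ ?_) <;> rw [abs_mul]
      · exact (mul_le_of_le_one_right (abs_nonneg _) (hX.abs_le x i)).trans h1
      · calc |g y| * |X x i - X y i| ≤ M * ((D : ℝ) * dist x y) :=
              mul_le_mul (hM y) h2 (abs_nonneg _) hM0
          _ = M * D * dist x y := by ring
    have h0 := setIntegral_fderiv_periodic hprod
      (fun x k => by simp only [hg x k, hX.2.1 x k]) (evec i)
    have hae : (fun x => fderiv ℝ (fun x => g x * X x i) x (evec i)) =ᵐ[volume.restrict cell]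
        fun x => g x * grad (fun y => X y i) x i + grad g x i * X x i := by
      refine ae_restrict_of_ae (hl.ae_differentiableAt.mono fun x hx => ?_)
      beta_reduce
      rw [fderiv_fun_mul hx (hXc.differentiable one_ne_zero x)]
      simp [grad, mul_comm]
    have i1 : IntegrableOn (fun x => g x * grad (fun y => X y i) x i) cell :=
      integrableOn_cell_of_bound
        (hl.continuous.measurable.mul (measurable_grad _ i)).aestronglyMeasurable (C := M * D)
        fun x => by
          rw [abs_mul]
          exact mul_le_mul (hM x) (abs_grad_le hD x i) (abs_nonneg _) hM0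
    have i2 : IntegrableOn (fun x => grad g x i * X x i) cell :=
      integrableOn_cell_of_bound
        ((measurable_grad g i).mul hXc.continuous.measurable).aestronglyMeasurable (C := (C : ℝ))
        fun x => by
          rw [abs_mul]
          exact (mul_le_of_le_one_right (abs_nonneg _) (hX.abs_le x i)).trans (abs_grad_le hl x i)
    rw [integral_congr_ae hae, integral_add i1 i2] at h0
    linarith
  simp only [divg_eq hX, Finset.mul_sum]
  rw [integral_finsetSum _ fun i _ => ?_, integral_finsetSum _ fun i _ => ?_,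
    Finset.sum_congr rfl fun i _ => key i, Finset.sum_neg_distrib]
  · exact integrableOn_cell_of_bound
      ((measurable_grad g i).mul (hX.comp i).1.continuous.measurable).aestronglyMeasurable
      (C := (C : ℝ)) fun x => by
        rw [abs_mul]
        exact (mul_le_of_le_one_right (abs_nonneg _) (hX.abs_le x i)).trans (abs_grad_le hl x i)
  · obtain ⟨hXc, hXp⟩ := hX.comp i
    obtain ⟨D, hD⟩ := hXp.exists_lipschitz hXc
    exact integrableOn_cell_of_bound
      (hl.continuous.measurable.mul (measurable_grad _ i)).aestronglyMeasurable (C := M * D)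
      fun x => by
        rw [abs_mul]
        exact mul_le_mul (hM x) (abs_grad_le hD x i) (abs_nonneg _) hM0

theorem setIntegral_divg {X : V3 → V3} (hX : IsField X) : ∫ x in cell, divg X x = 0 := by
  have h := setIntegral_mul_divg (g := fun _ => 1) (C := 0) (LipschitzWith.const (1 : ℝ)) (fun _ _ => rfl) hX
  simpa [grad] using h

theorem sum_grad_mul_le {g : V3 → ℝ} {X : V3 → V3} (hX : IsField X) (x : V3) :
    |∑ i, grad g x i * X x i| ≤ gnorm g x := by
  rw [← Real.sqrt_sq_eq_abs]
  refine Real.sqrt_le_sqrt ((Finset.sum_mul_sq_le_sq_mul_sq _ _ _).trans ?_)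
  exact mul_le_of_le_one_right (Finset.sum_nonneg fun i _ => sq_nonneg _) (hX.2.2 x)

theorem setIntegral_mul_divg_le {g : V3 → ℝ} {C : ℝ≥0} (hl : LipschitzWith C g) (hg : ZPeriodic g)
    {X : V3 → V3} (hX : IsField X) :
    ∫ x in cell, g x * divg X x ≤ ∫ x in cell, gnorm g x := by
  rw [setIntegral_mul_divg hl hg hX, ← integral_neg]
  refine integral_mono ?_ (integrableOn_gnorm hl)
    fun x => (neg_le_abs _).trans (sum_grad_mul_le hX x)
  refine (integrable_finsetSum _ fun i _ => ?_).neg
  exact integrableOn_cell_of_bound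
    ((measurable_grad g i).mul (hX.comp i).1.continuous.measurable).aestronglyMeasurable
    (C := (C : ℝ)) fun x => by
      rw [abs_mul]
      exact (mul_le_of_le_one_right (abs_nonneg _) (hX.abs_le x i)).trans (abs_grad_le hl x i)

/-! ### The folding map -/

/-- Twice the distance to the nearest integer, in each coordinate. -/
noncomputable def fold (x : V3) : V3 := fun i => 2 * |x i - round (x i)|

theorem lift_eq_preimage (D : Set V3) : lift D = fold ⁻¹' D := rfl

theorem fold_periodic : ZPeriodic fold := fun x k => by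
  funext i
  simp [fold, round_add_intCast]

theorem fold_mem_Icc (x : V3) (i : Fin 3) : fold x i ∈ Icc (0 : ℝ) 1 := by
  have := abs_sub_round (x i)
  constructor
  · unfold fold; positivity
  · unfold fold; linarith

theorem lipschitz_fold : LipschitzWith 2 fold := by
  refine LipschitzWith.of_dist_le_mul fun x y => (dist_pi_le_iff (by positivity)).2 fun i => ?_
  have h : ∀ a b : ℝ, |a - round a| - |b - round b| ≤ |a - b| := fun a b => by
    have h1 := round_le a (round b)
    have h2 := abs_sub_abs_le_abs_sub (a - round b) (b - round b)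
    have h3 : a - (round b : ℝ) - (b - round b) = a - b := by ring
    rw [h3] at h2
    linarith
  have := h (x i) (y i)
  have := h (y i) (x i)
  have hd : |x i - y i| ≤ dist x y := by
    rw [← Real.dist_eq]
    exact dist_le_pi_dist x y i
  rw [Real.dist_eq]
  simp only [fold, NNReal.coe_ofNat]
  rw [abs_sub_comm (y i) (x i)] at *
  rw [← mul_sub, abs_mul, abs_two]
  have : |(|x i - round (x i)| - |y i - round (y i)|)| ≤ |x i - y i| :=
    abs_le.2 ⟨by linarith, by linarith⟩
  linarith

theorem measurable_fold : Measurable fold := lipschitz_fold.continuous.measurable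

theorem isTorusSet_lift {D : Set V3} (hD : MeasurableSet D) : IsTorusSet (lift D) :=
  ⟨measurable_fold hD, fun x k => by simp only [lift_eq_preimage, mem_preimage, fold_periodic x k]⟩

theorem fold_preimage_null {N : Set V3} (hN : volume N = 0) : volume (fold ⁻¹' N) = 0 := by
  let T : (Fin 3 → ℤ) × (Fin 3 → Bool) → V3 → V3 :=
    fun p z i => (p.1 i : ℝ) + (if p.2 i then (1 : ℝ) else -1) * (z i / 2)
  have hsub : fold ⁻¹' N ⊆ ⋃ p, T p '' N := by
    intro x hx
    refine mem_iUnion.2 ⟨(fun i => round (x i), fun i => decide (0 ≤ x i - round (x i))),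
      fold x, hx, ?_⟩
    funext i
    simp only [T, fold, decide_eq_true_eq]
    split_ifs with h
    · rw [abs_of_nonneg h]; ring
    · rw [abs_of_neg (not_le.1 h)]; ring
  refine measure_mono_null hsub (measure_iUnion_null fun p => ?_)
  refine addHaar_image_eq_zero_of_differentiableOn_of_addHaar_eq_zero volume ?_ hN
  simp only [T]
  fun_prop

theorem ae_fold {p : V3 → Prop} (h : ∀ᵐ z, p z) : ∀ᵐ x, p (fold x) :=
  fold_preimage_null h

end Vale.Agent.P232
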