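import Vale.Agent.P232.Periodic

/-! # P232: polarisation in coordinate hyperplanes -/

namespace Vale.Agent.P232

open MeasureTheory Set Filter Topology
open scoped ENNReal NNReal
open Real (cos sin pi_pos)

/-- Reflection in the hyperplane `x i = c`. -/
noncomputable def refl (i : Fin 3) (c : ℝ) (x : V3) : V3 := Function.update x i (2 * c - x i)

/-- Positive on the side of the hyperplanes nearer to the lattice planes `x i ∈ ℤ`. -/
noncomputable def side (i : Fin 3) (c : ℝ) (x : V3) : ℝ :=
  cos (2 * Real.pi * x i) - cos (2 * Real.pi * (2 * c - x i))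

/-- Polarisation. -/
noncomputable def pol (i : Fin 3) (c : ℝ) (f : V3 → ℝ) (x : V3) : ℝ :=
  if 0 ≤ side i c x then max (f x) (f (refl i c x)) else min (f x) (f (refl i c x))

/-- The hyperplanes used. -/
def Adm (c : ℝ) : Prop := sin (2 * Real.pi * c) ≠ 0

/-- The functional increased by polarisation. -/
noncomputable def phi (x : V3) : ℝ := ∑ i, cos (2 * Real.pi * x i)

theorem refl_refl (i : Fin 3) (c : ℝ) (x : V3) : refl i c (refl i c x) = x := by
  funext j
  by_cases h : j = i
  · subst h; simp [refl]
  · simp [refl, h]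

theorem dist_refl (i : Fin 3) (c : ℝ) (x y : V3) : dist (refl i c x) (refl i c y) ≤ dist x y := by
  refine (dist_pi_le_iff dist_nonneg).2 fun j => ?_
  by_cases h : j = i
  · subst h
    simp only [refl, Function.update_self, Real.dist_eq]
    rw [show 2 * c - x j - (2 * c - y j) = -(x j - y j) by ring, abs_neg, ← Real.dist_eq]
    exact dist_le_pi_dist x y j
  · simp only [refl, Function.update_of_ne h]
    exact dist_le_pi_dist x y j

theorem continuous_refl (i : Fin 3) (c : ℝ) : Continuous (refl i c) := by
  unfold refl; fun_prop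

theorem measurePreserving_refl (i : Fin 3) (c : ℝ) :
    MeasurePreserving (refl i c) volume volume := by
  have h : ∀ j : Fin 3, MeasurePreserving (fun t : ℝ => if j = i then 2 * c - t else t)
      volume volume := fun j => by
    by_cases hj : j = i
    · simpa [hj] using Measure.measurePreserving_sub_left (volume : Measure ℝ) (2 * c)
    · simp only [hj, if_false]
      exact MeasurePreserving.id (volume : Measure ℝ)
  have e : refl i c = fun (x : V3) j => if j = i then 2 * c - x j else x j := by
    funext x j
    by_cases hj : j = i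
    · subst hj; simp [refl]
    · simp [refl, hj]
  rw [e]
  exact volume_preserving_pi h

theorem measurableEmbedding_refl (i : Fin 3) (c : ℝ) : MeasurableEmbedding (refl i c) :=
  ((Homeomorph.mk ⟨refl i c, refl i c, refl_refl i c, refl_refl i c⟩ (continuous_refl i c)
    (continuous_refl i c))).measurableEmbedding

theorem refl_add (i : Fin 3) (c : ℝ) (x : V3) (k : Fin 3 → ℤ) :
    refl i c (x + fun j => (k j : ℝ)) =
      refl i c x + fun j => ((Function.update k i (-k i) j : ℤ) : ℝ) := by
  funext j
  by_cases h : j = i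
  · subst h; simp [refl]; ring
  · simp [refl, h]

theorem ZPeriodic.comp_refl {α : Type} {f : V3 → α} (hf : ZPeriodic f) (i : Fin 3) (c : ℝ) :
    ZPeriodic fun x => f (refl i c x) := fun x k => by
  simp only [refl_add, hf _ _]

theorem setIntegral_cell_refl {f : V3 → ℝ} (hf : ZPeriodic f) (i : Fin 3) (c : ℝ) :
    ∫ x in cell, f (refl i c x) = ∫ x in cell, f x := by
  set a : V3 := Pi.single i (2 * c - 1) with ha
  have h1 := (measurePreserving_refl i c).setIntegral_preimage_emb (measurableEmbedding_refl i c)
    f (refl i c ⁻¹' cell)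
  have hpre : refl i c ⁻¹' (refl i c ⁻¹' cell) = cell := by
    ext x; simp [refl_refl]
  rw [hpre] at h1
  rw [h1]
  have hae : (refl i c ⁻¹' cell : Set V3) =ᵐ[volume] ((fun x : V3 => x + -a) ⁻¹' cell : Set V3) := by
    have e1 : (refl i c ⁻¹' cell : Set V3)
        = univ.pi fun j => if j = i then Ioc (2 * c - 1) (2 * c) else Ico (0 : ℝ) 1 := by
      ext x
      simp only [cell, mem_preimage, mem_univ_pi]
      refine forall_congr' fun j => ?_
      by_cases hj : j = i
      · subst hj
        simp only [refl, Function.update_self, if_pos, mem_Ico, mem_Ioc]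
        constructor <;> rintro ⟨u, w⟩ <;> constructor <;> linarith
      · simp [refl, hj]
    have e2 : ((fun x : V3 => x + -a) ⁻¹' cell : Set V3)
        = univ.pi fun j => if j = i then Ico (2 * c - 1) (2 * c) else Ico (0 : ℝ) 1 := by
      ext x
      simp only [cell, mem_preimage, mem_univ_pi]
      refine forall_congr' fun j => ?_
      by_cases hj : j = i
      · subst hj
        simp only [ha, Pi.add_apply, Pi.neg_apply, Pi.single_eq_same, if_pos, mem_Ico]
        constructor <;> rintro ⟨u, w⟩ <;> constructor <;> linarith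
      · simp [ha, hj]
    rw [e1, e2, volume_pi]
    refine Measure.ae_eq_set_pi fun j _ => ?_
    by_cases hj : j = i
    · simp only [hj, if_pos]
      exact Ioc_ae_eq_Icc.trans Ico_ae_eq_Icc.symm
    · simp only [hj, if_false]
      rfl
  rw [setIntegral_congr_set hae, ← setIntegral_cell_add hf a]
  have h2 := (measurePreserving_add_right (volume : Measure V3) (-a)).setIntegral_preimage_emb
    (measurableEmbedding_addRight (-a)) (fun x => f (x + a)) cell
  simpa [add_assoc] using h2

theorem phi_sub_refl (i : Fin 3) (c : ℝ) (x : V3) : phi x - phi (refl i c x) = side i c x := by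
  rw [phi, phi, ← Finset.sum_sub_distrib, Finset.sum_eq_single i]
  · simp [side, refl]
  · intro j _ hj; simp [refl, hj]
  · simp

theorem side_refl (i : Fin 3) (c : ℝ) (x : V3) : side i c (refl i c x) = -side i c x := by
  simp [side, refl]

theorem side_eq (i : Fin 3) (c : ℝ) (x : V3) :
    side i c x = -2 * sin (2 * Real.pi * c) * sin (2 * Real.pi * (x i - c)) := by
  rw [side, Real.cos_sub_cos]
  ring_nf

theorem continuous_side (i : Fin 3) (c : ℝ) : Continuous (side i c) := by
  unfold side; fun_prop

theorem continuous_phi : Continuous phi := by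
  unfold phi; fun_prop

theorem phi_periodic : ZPeriodic phi := fun x k => by
  refine Finset.sum_congr rfl fun i _ => ?_
  rw [Pi.add_apply, mul_add, show 2 * Real.pi * (k i : ℝ) = (k i : ℝ) * (2 * Real.pi) by ring,
    Real.cos_add_int_mul_two_pi]

theorem abs_phi_le (x : V3) : |phi x| ≤ 3 := by
  refine (Finset.abs_sum_le_sum_abs _ _).trans ?_
  have := Finset.sum_le_sum fun i (_ : i ∈ Finset.univ) => Real.abs_cos_le_one (2 * Real.pi * x i)
  simpa using this

theorem side_periodic (i : Fin 3) (c : ℝ) : ZPeriodic (side i c) := fun x k => by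
  have h : phi (refl i c (x + fun j => (k j : ℝ))) = phi (refl i c x) :=
    phi_periodic.comp_refl i c x k
  rw [← phi_sub_refl, ← phi_sub_refl, phi_periodic x k, h]

theorem exists_int_of_side_eq_zero {i : Fin 3} {c : ℝ} (hc : Adm c) {x : V3}
    (h : side i c x = 0) : ∃ m : ℤ, x i = c + m / 2 := by
  rw [side_eq, mul_eq_zero, mul_eq_zero] at h
  rcases h with (h | h) | h
  · norm_num at h
  · exact absurd h hc
  · obtain ⟨m, hm⟩ := Real.sin_eq_zero_iff.1 h
    refine ⟨m, ?_⟩
    have : (m : ℝ) * Real.pi = Real.pi * (2 * (x i - c)) := by rw [hm]; ring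
    rw [mul_comm] at this
    have := mul_left_cancel₀ Real.pi_ne_zero this
    linarith

theorem ae_side_ne_zero {i : Fin 3} {c : ℝ} (hc : Adm c) :
    ∀ᵐ x : V3, side i c x ≠ 0 := by
  have hnull : volume (Function.eval i ⁻¹' range fun m : ℤ => c + (m : ℝ) / 2 : Set V3) = 0 := by
    rw [volume_pi]
    exact Measure.pi_eval_preimage_null _ ((countable_range _).measure_zero _)
  refine measure_mono_null (fun x hx => ?_) hnull
  obtain ⟨m, hm⟩ := exists_int_of_side_eq_zero hc (by simpa using hx)
  exact ⟨m, hm.symm⟩

section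
variable {i : Fin 3} {c : ℝ} {f : V3 → ℝ}

theorem eq_refl_of_side_eq_zero (hc : Adm c) (hf : ZPeriodic f) {x : V3} (h : side i c x = 0) :
    f (refl i c x) = f x := by
  obtain ⟨m, hm⟩ := exists_int_of_side_eq_zero hc h
  have : refl i c x = x + fun j => ((Pi.single i (-m) : Fin 3 → ℤ) j : ℝ) := by
    funext j
    by_cases hj : j = i
    · subst hj; simp [refl, hm]; ring
    · simp [refl, hj]
  rw [this]
  exact hf x _

theorem pol_pair (hc : Adm c) (hf : ZPeriodic f) (x : V3) :
    (pol i c f x = f x ∧ pol i c f (refl i c x) = f (refl i c x)) ∨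
      (pol i c f x = f (refl i c x) ∧ pol i c f (refl i c x) = f x) := by
  rcases lt_trichotomy (side i c x) 0 with h | h | h
  · rcases le_total (f x) (f (refl i c x)) with h' | h'
    · refine Or.inl ⟨?_, ?_⟩ <;> simp [pol, side_refl, refl_refl, h.le, not_le.2 h, h']
    · refine Or.inr ⟨?_, ?_⟩ <;> simp [pol, side_refl, refl_refl, h.le, not_le.2 h, h']
  · have h' := eq_refl_of_side_eq_zero hc hf h
    exact Or.inl ⟨by simp [pol, h, h'], by simp [pol, side_refl, refl_refl, h, h']⟩
  · rcases le_total (f x) (f (refl i c x)) with h' | h'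
    · refine Or.inr ⟨?_, ?_⟩ <;> simp [pol, side_refl, refl_refl, h.le, not_le.2 h, h']
    · refine Or.inl ⟨?_, ?_⟩ <;> simp [pol, side_refl, refl_refl, h.le, not_le.2 h, h']

theorem pol_periodic (hf : ZPeriodic f) : ZPeriodic (pol i c f) := fun x k => by
  simp only [pol, side_periodic i c x k, hf x k, hf.comp_refl i c x k]

theorem pol_mem_Icc (hb : ∀ x, f x ∈ Icc (0 : ℝ) 1) (x : V3) : pol i c f x ∈ Icc (0 : ℝ) 1 := by
  have h1 := hb x
  have h2 := hb (refl i c x)
  unfold pol
  split_ifs
  · exact ⟨le_max_of_le_left h1.1, max_le h1.2 h2.2⟩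
  · exact ⟨le_min h1.1 h2.1, min_le_of_left_le h1.2⟩

theorem lipschitz_pol {L : ℝ≥0} (hc : Adm c) (hf : ZPeriodic f) (hl : LipschitzWith L f) :
    LipschitzWith L (pol i c f) := by
  have hR : ∀ x y, |f (refl i c x) - f (refl i c y)| ≤ L * dist x y := fun x y => by
    rw [← Real.dist_eq]
    exact (hl.dist_le_mul _ _).trans (mul_le_mul_of_nonneg_left (dist_refl i c x y) L.coe_nonneg)
  have hI : ∀ x y, |f x - f y| ≤ L * dist x y := fun x y => by
    rw [← Real.dist_eq]; exact hl.dist_le_mul x y
  have hmax : ∀ x y, 0 ≤ side i c x → 0 ≤ side i c y →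
      |pol i c f x - pol i c f y| ≤ L * dist x y := fun x y hx hy => by
    simp only [pol, hx, hy, if_true]
    exact (abs_max_sub_max_le_max _ _ _ _).trans (max_le (hI x y) (hR x y))
  have hmin : ∀ x y, side i c x ≤ 0 → side i c y ≤ 0 →
      |pol i c f x - pol i c f y| ≤ L * dist x y := fun x y hx hy => by
    have e : ∀ z, side i c z ≤ 0 → pol i c f z = min (f z) (f (refl i c z)) := fun z hz => by
      rcases hz.lt_or_eq with h | h
      · simp [pol, not_le.2 h]
      · simp [pol, h, eq_refl_of_side_eq_zero hc hf h]
    rw [e x hx, e y hy]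
    exact (abs_min_sub_min_le_max _ _ _ _).trans (max_le (hI x y) (hR x y))
  have hcross : ∀ x y, side i c x ≤ 0 → 0 ≤ side i c y →
      |pol i c f x - pol i c f y| ≤ L * dist x y := fun x y hx hy => by
    obtain ⟨z, hz, hzs⟩ : ∃ z ∈ segment ℝ x y, side i c z = 0 :=
      (convex_segment x y).isPreconnected.intermediate_value (left_mem_segment ℝ x y)
        (right_mem_segment ℝ x y) (continuous_side i c).continuousOn ⟨hx, hy⟩
    rw [← dist_add_dist_of_mem_segment hz, mul_add]
    exact (abs_sub_le _ (pol i c f z) _).trans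
      (add_le_add (hmin x z hx hzs.le) (hmax z y hzs.ge hy))
  refine LipschitzWith.of_dist_le_mul fun x y => ?_
  rw [Real.dist_eq]
  rcases le_total 0 (side i c x) with hx | hx <;> rcases le_total 0 (side i c y) with hy | hy
  · exact hmax x y hx hy
  · rw [abs_sub_comm, dist_comm]; exact hcross y x hy hx
  · exact hcross x y hx hy
  · exact hmin x y hx hy

theorem setIntegral_comp_pol {L : ℝ≥0} {ψ : ℝ → ℝ} (hψ : Continuous ψ) (hc : Adm c)
    (hf : ZPeriodic f) (hl : LipschitzWith L f) :
    ∫ x in cell, ψ (pol i c f x) = ∫ x in cell, ψ (f x) := by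
  have hg := lipschitz_pol (i := i) hc hf hl
  have hp := pol_periodic (i := i) (c := c) hf
  have pψ : ∀ {g : V3 → ℝ}, ZPeriodic g → ZPeriodic fun x => ψ (g x) := fun h x k => by
    simp only [h x k]
  have i1 : ∀ {g : V3 → ℝ}, ZPeriodic g → Continuous g →
      IntegrableOn (fun x => ψ (g x)) cell := fun h h' =>
    integrableOn_cell_of_periodic (pψ h) (hψ.comp h')
  have e1 := setIntegral_cell_refl (pψ hp) i c
  have e2 := setIntegral_cell_refl (pψ hf) i c
  have e3 : ∫ x in cell, (ψ (pol i c f x) + ψ (pol i c f (refl i c x)))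
      = ∫ x in cell, (ψ (f x) + ψ (f (refl i c x))) := by
    refine integral_congr_ae (Eventually.of_forall fun x => ?_)
    rcases pol_pair (i := i) hc hf x with ⟨a, b⟩ | ⟨a, b⟩
    · simp only [a, b]
    · simp only [a, b, add_comm]
  rw [integral_add (i1 hp hg.continuous)
      (i1 (hp.comp_refl i c) (hg.continuous.comp (continuous_refl i c))),
    integral_add (i1 hf hl.continuous)
      (i1 (hf.comp_refl i c) (hl.continuous.comp (continuous_refl i c))), e1, e2] at e3
  linarith

/-- `grad` of a reflected function. -/
theorem gnorm_comp_refl {x : V3} (h : DifferentiableAt ℝ f (refl i c x)) :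
    gnorm (fun y => f (refl i c y)) x = gnorm f (refl i c x) := by
  let s : Fin 3 → ℝ := fun j => if j = i then -1 else 1
  let A : V3 →L[ℝ] V3 := ContinuousLinearMap.pi fun j => s j • ContinuousLinearMap.proj j
  have hA : HasFDerivAt (refl i c) A x := by
    have e : refl i c = fun y => A y + Pi.single i (2 * c) := by
      funext y j
      by_cases hj : j = i
      · subst hj; simp [refl, A, s]; ring
      · simp [refl, A, s, hj]
    rw [e]
    exact A.hasFDerivAt.add_const _
  have hev : ∀ j, A (evec j) = s j • evec j := fun j => by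
    funext k
    by_cases hk : k = j
    · subst hk; simp [A, evec]
    · simp [A, evec, hk]
  have hd : fderiv ℝ (fun y => f (refl i c y)) x = (fderiv ℝ f (refl i c x)).comp A :=
    (h.hasFDerivAt.comp x hA).fderiv
  simp only [gnorm, grad, hd, ContinuousLinearMap.comp_apply, hev, map_smul, smul_eq_mul]
  congr 1
  refine Finset.sum_congr rfl fun j _ => ?_
  simp only [s]
  split_ifs <;> ring

theorem fderiv_pol_eq {x : V3} {u : V3 → ℝ}
    (hu : u = f ∨ u = fun y => f (refl i c y)) (hs : side i c x ≠ 0)
    (hg : DifferentiableAt ℝ (pol i c f) x) (hud : DifferentiableAt ℝ u x)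
    (he : pol i c f x = u x) : fderiv ℝ (pol i c f) x = fderiv ℝ u x := by
  have hd : fderiv ℝ (fun y => pol i c f y - u y) x = 0 := by
    rcases lt_or_gt_of_ne hs with h | h
    · refine IsLocalMax.fderiv_eq_zero ?_
      filter_upwards [(continuous_side i c).continuousAt.eventually_lt_const h] with y hy
      change pol i c f y - u y ≤ pol i c f x - u x
      rw [he, sub_self, sub_nonpos, pol, if_neg (not_le.2 hy)]
      rcases hu with rfl | rfl
      · exact min_le_left _ _
      · exact min_le_right _ _
    · refine IsLocalMin.fderiv_eq_zero ?_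
      filter_upwards [(continuous_side i c).continuousAt.eventually_const_lt h] with y hy
      change pol i c f x - u x ≤ pol i c f y - u y
      rw [he, sub_self, sub_nonneg, pol, if_pos hy.le]
      rcases hu with rfl | rfl
      · exact le_max_left _ _
      · exact le_max_right _ _
  rw [fderiv_fun_sub hg hud] at hd
  exact sub_eq_zero.1 hd

theorem setIntegral_gnorm_pol {L : ℝ≥0} (hc : Adm c) (hf : ZPeriodic f) (hl : LipschitzWith L f) :
    ∫ x in cell, gnorm (pol i c f) x = ∫ x in cell, gnorm f x := by
  have hg := lipschitz_pol (i := i) hc hf hl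
  have hp := pol_periodic (i := i) (c := c) hf
  have pgn : ∀ {g : V3 → ℝ}, ZPeriodic g → ZPeriodic (gnorm g) := fun h x k => by
    simp only [gnorm, grad, h.fderiv x k]
  have key : ∀ᵐ x : V3, gnorm (pol i c f) x + gnorm (pol i c f) (refl i c x)
      = gnorm f x + gnorm f (refl i c x) := by
    have qm := (measurePreserving_refl i c).quasiMeasurePreserving
    filter_upwards [ae_side_ne_zero (i := i) hc, hl.ae_differentiableAt,
      qm.ae hl.ae_differentiableAt, hg.ae_differentiableAt, qm.ae hg.ae_differentiableAt]
      with x hs hfx hfR hgx hgR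
    have hR : ∀ z, DifferentiableAt ℝ (refl i c) z := fun z => by
      refine differentiableAt_pi.2 fun j => ?_
      by_cases hj : j = i
      · subst hj; simp only [refl, Function.update_self]; fun_prop
      · simp only [refl, Function.update_of_ne hj]; fun_prop
    have hs' : side i c (refl i c x) ≠ 0 := by rw [side_refl]; exact neg_ne_zero.2 hs
    have dcomp : ∀ z, DifferentiableAt ℝ f (refl i c z) →
        DifferentiableAt ℝ (fun y => f (refl i c y)) z := fun z hz => hz.comp z (hR z)
    have g1 : ∀ z, side i c z ≠ 0 → DifferentiableAt ℝ (pol i c f) z → DifferentiableAt ℝ f z →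
        pol i c f z = f z → gnorm (pol i c f) z = gnorm f z := fun z a b d e => by
      simp only [gnorm, grad, fderiv_pol_eq (Or.inl rfl) a b d e]
    have g2 : ∀ z, side i c z ≠ 0 → DifferentiableAt ℝ (pol i c f) z →
        DifferentiableAt ℝ f (refl i c z) →
        pol i c f z = f (refl i c z) → gnorm (pol i c f) z = gnorm f (refl i c z) :=
      fun z a b d e => by
        rw [← gnorm_comp_refl d]
        simp only [gnorm, grad, fderiv_pol_eq (Or.inr rfl) a b (dcomp z d) e]
    rcases pol_pair (i := i) hc hf x with ⟨a, b⟩ | ⟨a, b⟩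
    · rw [g1 x hs hgx hfx a, g1 _ hs' hgR hfR b]
    · rw [g2 x hs hgx hfR a, g2 _ hs' hgR (by rwa [refl_refl]) (by rwa [refl_refl]), refl_refl,
        add_comm]
  have e3 := integral_congr_ae (ae_restrict_of_ae (s := cell) key)
  have i1 : ∀ {g : V3 → ℝ}, LipschitzWith L g →
      IntegrableOn (fun x => gnorm g (refl i c x)) cell := fun h =>
    integrableOn_cell_of_bound
      ((measurable_gnorm _).comp (continuous_refl i c).measurable).aestronglyMeasurable
      fun x => by
        rw [abs_of_nonneg (by unfold gnorm; positivity)]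
        exact gnorm_le h _
  rw [integral_add (integrableOn_gnorm hg) (i1 hg), integral_add (integrableOn_gnorm hl) (i1 hl),
    setIntegral_cell_refl (pgn hp), setIntegral_cell_refl (pgn hf)] at e3
  linarith

/-- Increase of `∫ f φ` under polarisation, as the integral of a nonnegative function. -/
theorem gain_eq {L : ℝ≥0} (hc : Adm c) (hf : ZPeriodic f) (hl : LipschitzWith L f) :
    2 * ((∫ x in cell, pol i c f x * phi x) - ∫ x in cell, f x * phi x)
      = ∫ x in cell, (pol i c f x - f x) * side i c x := by
  have hg := lipschitz_pol (i := i) hc hf hl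
  have hp := pol_periodic (i := i) (c := c) hf
  set d : V3 → ℝ := fun x => pol i c f x - f x with hd
  have dper : ZPeriodic fun x => d x * phi x := fun x k => by
    simp only [hd, hp x k, hf x k, phi_periodic x k]
  have dcont : Continuous fun x => d x * phi x :=
    (hg.continuous.sub hl.continuous).mul continuous_phi
  have anti : ∀ x, d (refl i c x) = -d x := fun x => by
    rcases pol_pair (i := i) hc hf x with ⟨a, b⟩ | ⟨a, b⟩ <;> simp [hd, a, b]
  have e1 := setIntegral_cell_refl dper i c
  have e2 : ∫ x in cell, d x * side i c x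
      = ∫ x in cell, (d x * phi x + d (refl i c x) * phi (refl i c x)) := by
    refine integral_congr_ae (Eventually.of_forall fun x => ?_)
    simp only [anti, ← phi_sub_refl]
    ring
  rw [integral_add (integrableOn_cell_of_periodic dper dcont)
    (integrableOn_cell_of_periodic (dper.comp_refl i c) (dcont.comp (continuous_refl i c))), e1,
    ] at e2
  have e4 : ∫ x in cell, d x * phi x
      = (∫ x in cell, pol i c f x * phi x) - ∫ x in cell, f x * phi x := by
    rw [← integral_sub]
    · simp only [hd, sub_mul]
    · exact integrableOn_cell_of_periodic (fun x k => by simp only [hp x k, phi_periodic x k])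
        (hg.continuous.mul continuous_phi)
    · exact integrableOn_cell_of_periodic (fun x k => by simp only [hf x k, phi_periodic x k])
        (hl.continuous.mul continuous_phi)
  rw [e2, e4]
  ring

theorem gain_integrand_nonneg (x : V3) : 0 ≤ (pol i c f x - f x) * side i c x := by
  by_cases h : 0 ≤ side i c x
  · refine mul_nonneg ?_ h
    simp [pol, h]
  · refine mul_nonneg_of_nonpos_of_nonpos ?_ (not_le.1 h).le
    simp [pol, h]

theorem le_of_gain_nonpos {L : ℝ≥0} (hc : Adm c) (hf : ZPeriodic f) (hl : LipschitzWith L f)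
    (h : (∫ x in cell, pol i c f x * phi x) - (∫ x in cell, f x * phi x) ≤ 0)
    {x : V3} (hx : 0 < side i c x) : f (refl i c x) ≤ f x := by
  have hg := lipschitz_pol (i := i) hc hf hl
  have hp := pol_periodic (i := i) (c := c) hf
  set k : V3 → ℝ := fun x => (pol i c f x - f x) * side i c x with hk
  have kper : ZPeriodic k := fun x n => by
    simp only [hk, hp x n, hf x n, side_periodic i c x n]
  have kcont : Continuous k := (hg.continuous.sub hl.continuous).mul (continuous_side i c)
  have h0 : ∫ x in cell, k x = 0 := by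
    refine le_antisymm ?_ (integral_nonneg fun x => gain_integrand_nonneg x)
    simp only [hk]
    rw [← gain_eq hc hf hl]
    linarith
  have hae := (setIntegral_eq_zero_iff_of_nonneg_ae (Eventually.of_forall gain_integrand_nonneg)
    (integrableOn_cell_of_periodic kper kcont)).1 h0
  set O : Set V3 := univ.pi fun _ => Ioo (0 : ℝ) 1 with hO
  have hOo : IsOpen O := isOpen_set_pi finite_univ fun _ _ => isOpen_Ioo
  have hOc : O ⊆ cell := fun y hy j _ => ⟨(hy j trivial).1.le, (hy j trivial).2⟩
  have hO0 : EqOn k 0 O :=
    Measure.eqOn_open_of_ae_eq (ae_restrict_of_ae_restrict_of_subset hOc hae) hOo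
      kcont.continuousOn continuousOn_const
  obtain ⟨y, hy, hyx⟩ := kper.exists_mem_cell x
  have hy' : y ∈ closure O := by
    rw [hO, closure_pi_set]
    intro j _
    rw [closure_Ioo zero_ne_one]
    exact ⟨(hy j trivial).1, (hy j trivial).2.le⟩
  have : k x = 0 := by
    rw [← hyx]
    exact hO0.closure kcont continuous_const hy'
  rcases mul_eq_zero.1 this with h1 | h1
  · simpa [pol, hx.le, sub_eq_zero] using h1
  · exact absurd h1 hx.ne'

theorem tendsto_pol {g : ℕ → V3 → ℝ} (h : ∀ x, Tendsto (fun n => g n x) atTop (𝓝 (f x)))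
    (x : V3) : Tendsto (fun n => pol i c (g n) x) atTop (𝓝 (pol i c f x)) := by
  simp only [pol]
  split_ifs
  · exact (h x).max (h _)
  · exact (h x).min (h _)

end

end Vale.Agent.P232
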