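import Vale.Agent.P232.Polar
import Vale.Agent.P232.Helly
import Vale.Agent.P232.Interface

/-! # P232: reduction to symmetric down-sets, existence of a minimiser -/

namespace Vale.Agent.P232

open MeasureTheory Set Filter Topology
open scoped ENNReal NNReal Convolution
open Real (cos sin)

/-- Indicator as a real function. -/
noncomputable def ind (E : Set V3) : V3 → ℝ := E.indicator fun _ => 1

theorem ind_mem_Icc (E : Set V3) (x : V3) : ind E x ∈ Icc (0 : ℝ) 1 := by
  by_cases h : x ∈ E <;> simp [ind, h]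

theorem measurable_ind {E : Set V3} (hE : MeasurableSet E) : Measurable (ind E) :=
  measurable_const.indicator hE

theorem IsTorusSet.periodic {E : Set V3} (hE : IsTorusSet E) : ZPeriodic (ind E) := fun x k => by
  by_cases h : x ∈ E
  · simp [ind, h, (hE.2 x k).2 h]
  · have h' : (x + fun i => (k i : ℝ)) ∉ E := fun hh => h ((hE.2 x k).1 hh)
    simp [ind, h, h']

theorem torusVol_eq {E : Set V3} (hE : MeasurableSet E) :
    torusVol E = ∫ x in cell, ind E x := by
  rw [ind, setIntegral_indicator hE, setIntegral_const, smul_eq_mul, mul_one, torusVol, inter_comm]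

/-- Variation at most `T`. -/
def TVle (g : V3 → ℝ) (T : ℝ) : Prop := ∀ X, IsField X → ∫ x in cell, g x * divg X x ≤ T

theorem setIntegral_inter_cell {E : Set V3} (hE : MeasurableSet E) (X : V3 → V3) :
    ∫ x in E ∩ cell, divg X x = ∫ x in cell, ind E x * divg X x := by
  rw [inter_comm, ← setIntegral_indicator hE]
  refine integral_congr_ae (Eventually.of_forall fun x => ?_)
  by_cases h : x ∈ E <;> simp [ind, h]

theorem isField_zero : IsField fun _ => 0 :=
  ⟨contDiff_const, fun _ _ => rfl, fun _ => by simp⟩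

theorem TVle.nonneg {g : V3 → ℝ} {T : ℝ} (h : TVle g T) : 0 ≤ T := by
  simpa [divg] using h _ isField_zero

theorem tvle_of_perim {E : Set V3} (hE : MeasurableSet E) (hfin : perim E ≠ ⊤) :
    TVle (ind E) (perim E).toReal := by
  intro X hX
  rw [← setIntegral_inter_cell hE]
  refine (ENNReal.ofReal_le_iff_le_toReal hfin).1 ?_
  exact le_iSup₂ (f := fun X (_ : IsField X) => ENNReal.ofReal (∫ x in E ∩ cell, divg X x)) X hX

theorem TVle.perim_le {E : Set V3} (hE : MeasurableSet E) {T : ℝ} (h : TVle (ind E) T) :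
    perim E ≤ ENNReal.ofReal T :=
  iSup₂_le fun X hX => ENNReal.ofReal_le_ofReal (by rw [setIntegral_inter_cell hE]; exact h X hX)

theorem tendsto_cell_mul {g : ℕ → V3 → ℝ} {G w : V3 → ℝ} (hm : ∀ n, Measurable (g n))
    (hb : ∀ n x, g n x ∈ Icc (0 : ℝ) 1) (hw : Continuous w) (hwp : ZPeriodic w)
    (hlim : ∀ᵐ x ∂volume.restrict cell, Tendsto (fun n => g n x) atTop (𝓝 (G x))) :
    Tendsto (fun n => ∫ x in cell, g n x * w x) atTop (𝓝 (∫ x in cell, G x * w x)) := by
  obtain ⟨C, hC⟩ := hwp.exists_norm_le hw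
  refine tendsto_integral_of_dominated_convergence (fun _ => C)
    (fun n => ((hm n).mul hw.measurable).aestronglyMeasurable) (integrable_const _)
    (fun n => Eventually.of_forall fun x => ?_) (hlim.mono fun x hx => hx.mul_const _)
  rw [norm_mul]
  refine (mul_le_of_le_one_left (norm_nonneg _) ?_).trans (hC x)
  rw [Real.norm_eq_abs, abs_of_nonneg (hb n x).1]
  exact (hb n x).2

theorem tendsto_cell_comp {g : ℕ → V3 → ℝ} {G : V3 → ℝ} (hm : ∀ n, Measurable (g n))
    (hb : ∀ n x, g n x ∈ Icc (0 : ℝ) 1) {ψ : ℝ → ℝ} (hψ : Continuous ψ)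
    (hlim : ∀ᵐ x ∂volume.restrict cell, Tendsto (fun n => g n x) atTop (𝓝 (G x))) :
    Tendsto (fun n => ∫ x in cell, ψ (g n x)) atTop (𝓝 (∫ x in cell, ψ (G x))) := by
  obtain ⟨C, hC⟩ :=
    (isCompact_Icc (a := (0 : ℝ)) (b := 1)).exists_bound_of_continuousOn hψ.continuousOn
  exact tendsto_integral_of_dominated_convergence (fun _ => C)
    (fun n => (hψ.measurable.comp (hm n)).aestronglyMeasurable) (integrable_const _)
    (fun n => Eventually.of_forall fun x => hC _ (hb n x))
    (hlim.mono fun x hx => (hψ.tendsto _).comp hx)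

theorem TVle.of_tendsto {g : ℕ → V3 → ℝ} {G : V3 → ℝ} {T : ℕ → ℝ} {T' : ℝ}
    (hm : ∀ n, Measurable (g n)) (hb : ∀ n x, g n x ∈ Icc (0 : ℝ) 1)
    (hlim : ∀ᵐ x ∂volume.restrict cell, Tendsto (fun n => g n x) atTop (𝓝 (G x)))
    (hT : Tendsto T atTop (𝓝 T')) (h : ∀ n, TVle (g n) (T n)) : TVle G T' := fun X hX =>
  le_of_tendsto_of_tendsto' (tendsto_cell_mul hm hb (continuous_divg hX) (periodic_divg hX) hlim)
    hT fun n => h n X hX

theorem TVle.congr_ae {g g' : V3 → ℝ} {T : ℝ} (h : TVle g T)
    (hg : g =ᵐ[volume.restrict cell] g') : TVle g' T := fun X hX => by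
  refine le_trans (le_of_eq (integral_congr_ae ?_)) (h X hX)
  filter_upwards [hg] with x hx
  rw [hx]

/-! ### Mollification -/

/-- A shrinking bump function. -/
noncomputable def bump (n : ℕ) : ContDiffBump (0 : V3) where
  rIn := 1 / ((n : ℝ) + 1)
  rOut := 2 / ((n : ℝ) + 1)
  rIn_pos := by positivity
  rIn_lt_rOut := div_lt_div_of_pos_right one_lt_two (by positivity)

/-- Mollified indicator. -/
noncomputable def moll (E : Set V3) (n : ℕ) : V3 → ℝ :=
  (bump n).normed volume ⋆[ContinuousLinearMap.lsmul ℝ ℝ, volume] ind E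

theorem moll_apply (E : Set V3) (n : ℕ) (x : V3) :
    moll E n x = ∫ t, (bump n).normed volume t * ind E (x - t) := by
  simp [moll, convolution_def]

theorem locallyIntegrable_ind {E : Set V3} (hE : MeasurableSet E) :
    LocallyIntegrable (ind E) volume :=
  (locallyIntegrable_const (1 : ℝ)).indicator hE

theorem contDiff_moll {E : Set V3} (hE : MeasurableSet E) (n : ℕ) :
    ContDiff ℝ 2 (moll E n) :=
  ((bump n).hasCompactSupport_normed).contDiff_convolution_left _ (bump n).contDiff_normed
    (locallyIntegrable_ind hE)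

theorem moll_mem_Icc {E : Set V3} (n : ℕ) (x : V3) :
    moll E n x ∈ Icc (0 : ℝ) 1 := by
  rw [moll_apply]
  refine ⟨integral_nonneg fun t => mul_nonneg ((bump n).nonneg_normed t) (ind_mem_Icc _ _).1, ?_⟩
  calc ∫ t, (bump n).normed volume t * ind E (x - t) ≤ ∫ t, (bump n).normed volume t := by
        refine integral_mono_of_nonneg (Eventually.of_forall fun t =>
          mul_nonneg ((bump n).nonneg_normed t) (ind_mem_Icc _ _).1) (bump n).integrable_normed
          (Eventually.of_forall fun t => ?_)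
        exact mul_le_of_le_one_right ((bump n).nonneg_normed t) (ind_mem_Icc _ _).2
    _ = 1 := (bump n).integral_normed

theorem moll_periodic {E : Set V3} (hE : IsTorusSet E) (n : ℕ) : ZPeriodic (moll E n) := by
  intro x k
  simp only [moll_apply]
  refine integral_congr_ae (Eventually.of_forall fun t => ?_)
  simp only [add_sub_right_comm]
  rw [hE.periodic]

theorem IsField.shift {X : V3 → V3} (hX : IsField X) (t : V3) : IsField fun x => X (x + t) :=
  ⟨hX.1.comp (contDiff_id.add contDiff_const),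
    fun x k => by simp only [add_right_comm x _ t]; exact hX.2.1 _ k, fun x => hX.2.2 _⟩

theorem divg_shift (X : V3 → V3) (t x : V3) :
    divg (fun y => X (y + t)) x = divg X (x + t) := by
  simp only [divg, fderiv_comp_add_right]

theorem tvle_moll {E : Set V3} (hE : IsTorusSet E) {P : ℝ} (hP : TVle (ind E) P) (n : ℕ) :
    TVle (moll E n) P := by
  intro X hX
  set ρ : V3 → ℝ := (bump n).normed volume with hρ
  obtain ⟨M, hM⟩ := (periodic_divg hX).exists_norm_le (continuous_divg hX)
  have hint : Integrable (Function.uncurry fun x t => ρ t * ind E (x - t) * divg X x)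
      ((volume.restrict cell).prod (volume : Measure V3)) := by
    refine ((integrable_const (μ := volume.restrict cell) M).mul_prod
      (bump n).integrable_normed).mono' ?_ (Eventually.of_forall fun p => ?_)
    · refine (((bump n).continuous_normed.measurable.comp measurable_snd).mul
        ((measurable_ind hE.1).comp (measurable_fst.sub measurable_snd))).mul
        ((continuous_divg hX).measurable.comp measurable_fst) |>.aestronglyMeasurable
    · simp only [Function.uncurry, norm_mul]
      rw [Real.norm_eq_abs, Real.norm_eq_abs, abs_of_nonneg ((bump n).nonneg_normed _),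
        abs_of_nonneg (ind_mem_Icc E _).1, mul_comm M]
      gcongr
      · exact (bump n).nonneg_normed _
      · exact mul_le_of_le_one_right ((bump n).nonneg_normed _) (ind_mem_Icc E _).2
      · exact hM _
  have h1 : ∫ x in cell, moll E n x * divg X x
      = ∫ t, ∫ x in cell, ρ t * ind E (x - t) * divg X x := by
    rw [← integral_integral_swap hint]
    refine integral_congr_ae (Eventually.of_forall fun x => ?_)
    simp only [moll_apply, hρ, integral_mul_const]
  rw [h1]
  calc ∫ t, ∫ x in cell, ρ t * ind E (x - t) * divg X x ≤ ∫ t, ρ t * P := by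
        refine integral_mono hint.integral_prod_right ((bump n).integrable_normed.mul_const P)
          fun t => ?_
        simp only [mul_assoc, integral_const_mul]
        refine mul_le_mul_of_nonneg_left ?_ ((bump n).nonneg_normed t)
        have hper : ZPeriodic fun x => ind E (x - t) * divg X x := fun x k => by
          simp only [periodic_divg hX x k, add_sub_right_comm x _ t, hE.periodic (x - t) k]
        rw [← setIntegral_cell_add hper t]
        simp only [add_sub_cancel_right, ← divg_shift]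
        exact hP _ (hX.shift t)
    _ = P := by rw [integral_mul_const, hρ, (bump n).integral_normed, one_mul]

theorem ae_tendsto_moll {E : Set V3} (hE : MeasurableSet E) :
    ∀ᵐ x : V3, Tendsto (fun n => moll E n x) atTop (𝓝 (ind E x)) := by
  refine ContDiffBump.ae_convolution_tendsto_right_of_locallyIntegrable (K := 2) ?_
    (Eventually.of_forall fun n => ?_) (locallyIntegrable_ind hE)
  · simpa [bump, div_eq_mul_inv] using
      (tendsto_one_div_add_atTop_nhds_zero_nat (𝕜 := ℝ)).const_mul 2
  · simp [bump, div_eq_mul_inv]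

theorem setIntegral_gnorm_le {f : V3 → ℝ} {P : ℝ} (hf : ContDiff ℝ 2 f) (hp : ZPeriodic f)
    (hP : TVle f P) : ∫ x in cell, gnorm f x ≤ P := by
  obtain ⟨C, hC⟩ := hp.exists_lipschitz (hf.of_le one_le_two)
  refine le_of_forall_pos_le_add fun ε hε => ?_
  set η : ℝ := ε ^ 2 with hη
  have hη0 : 0 < η := by positivity
  set S : V3 → ℝ := fun x => ∑ i, grad f x i ^ 2 with hS
  have hS0 : ∀ x, 0 ≤ S x := fun x => Finset.sum_nonneg fun i _ => sq_nonneg _
  have hg : ∀ i, ContDiff ℝ 1 fun x => grad f x i := fun i =>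
    (hf.fderiv_right le_rfl).clm_apply contDiff_const
  have hSc : ContDiff ℝ 1 S := ContDiff.sum fun i _ => (hg i).pow 2
  let X : V3 → V3 := fun x i => -grad f x i / √(S x + η)
  have hX : IsField X := by
    refine ⟨contDiff_pi.2 fun i => ?_, fun x k => ?_, fun x => ?_⟩
    · exact (hg i).neg.div ((hSc.add contDiff_const).sqrt fun x => (add_pos_of_nonneg_of_pos (hS0 x) hη0).ne')
        fun x => (Real.sqrt_pos.2 (add_pos_of_nonneg_of_pos (hS0 x) hη0)).ne'
    · funext i
      simp only [X, hS, grad, hp.fderiv x k]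
    · simp only [X, div_pow, neg_sq]
      rw [← Finset.sum_div, Real.sq_sqrt (add_nonneg (hS0 x) hη0.le),
        div_le_one (add_pos_of_nonneg_of_pos (hS0 x) hη0)]
      exact le_add_of_nonneg_right hη0.le
  have h1 := hP X hX
  rw [setIntegral_mul_divg hC hp hX, ← integral_neg] at h1
  have h2 : ∫ x in cell, (gnorm f x - ε) ≤ ∫ x in cell, -∑ i, grad f x i * X x i := by
    refine integral_mono ((integrableOn_gnorm hC).sub (integrable_const _)) ?_ fun x => ?_
    · refine (integrable_finsetSum _ fun i _ => ?_).neg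
      exact integrableOn_cell_of_bound
        ((measurable_grad f i).mul (hX.comp i).1.continuous.measurable).aestronglyMeasurable
        (C := (C : ℝ)) fun x => by
          rw [abs_mul]
          exact (mul_le_of_le_one_right (abs_nonneg _) (hX.abs_le x i)).trans (abs_grad_le hC x i)
    · set r : ℝ := √(S x + η) with hr
      have hr2 : r ^ 2 = S x + η := Real.sq_sqrt (add_nonneg (hS0 x) hη0.le)
      have hrε : ε ≤ r := Real.le_sqrt_of_sq_le (by linarith [hS0 x])
      have hrS : gnorm f x ≤ r := Real.sqrt_le_sqrt (le_add_of_nonneg_right hη0.le)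
      have hr0 : 0 < r := hε.trans_le hrε
      have e : -∑ i, grad f x i * X x i = S x / r := by
        simp only [X, hS, Finset.sum_div, ← Finset.sum_neg_distrib]
        refine Finset.sum_congr rfl fun i _ => ?_
        rw [← hr]
        ring
      rw [e, le_div_iff₀ hr0]
      nlinarith
  rw [integral_sub (integrableOn_gnorm hC) (integrable_const _), setIntegral_const,
    measureReal_def, volume_cell] at h2
  simp at h2
  linarith

/-! ### Iterated polarisation -/

/-- What polarisation preserves. -/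
structure Good (L : ℝ≥0) (P M₁ M₂ : ℝ) (g : V3 → ℝ) : Prop where
  per : ZPeriodic g
  lip : LipschitzWith L g
  mem : ∀ x, g x ∈ Icc (0 : ℝ) 1
  int1 : ∫ x in cell, g x = M₁
  int2 : ∫ x in cell, g x * (1 - g x) = M₂
  grad_le : ∫ x in cell, gnorm g x ≤ P

theorem Good.pol {L : ℝ≥0} {P M₁ M₂ : ℝ} {g : V3 → ℝ} (h : Good L P M₁ M₂ g) (i : Fin 3) {c : ℝ}
    (hc : Adm c) : Good L P M₁ M₂ (pol i c g) where
  per := pol_periodic h.per
  lip := lipschitz_pol hc h.per h.lip
  mem := pol_mem_Icc h.mem
  int1 := (setIntegral_comp_pol continuous_id hc h.per h.lip).trans h.int1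
  int2 := (setIntegral_comp_pol (ψ := fun t => t * (1 - t)) (by fun_prop) hc h.per h.lip).trans
    h.int2
  grad_le := (setIntegral_gnorm_pol hc h.per h.lip).trans_le h.grad_le

theorem adm_of_cos_ne {s t : ℝ} (h : cos (2 * Real.pi * s) ≠ cos (2 * Real.pi * t)) :
    Adm ((s + t) / 2) := fun h0 => h <| sub_eq_zero.1 <| by
  rw [Real.cos_sub_cos,
    show (2 * Real.pi * s + 2 * Real.pi * t) / 2 = 2 * Real.pi * ((s + t) / 2) by ring, h0]
  ring

theorem exists_polarised_axes {L : ℝ≥0} {P M₁ M₂ : ℝ} {f : V3 → ℝ} (hf : Good L P M₁ M₂ f)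
    (A : Fin 3 → Prop) {i0 : Fin 3} (hi0 : A i0) (Q : (V3 → ℝ) → Prop) (hQf : Q f)
    (hQ : ∀ (i : Fin 3) (c : ℝ) (g : V3 → ℝ), A i → Adm c → Good L P M₁ M₂ g → Q g →
      Q (Vale.Agent.P232.pol i c g)) :
    ∃ (g : V3 → ℝ) (gs : ℕ → V3 → ℝ), ZPeriodic g ∧ Continuous g ∧
      (∀ x, g x ∈ Icc (0 : ℝ) 1) ∧
      ∫ x in cell, g x = M₁ ∧ ∫ x in cell, g x * (1 - g x) = M₂ ∧ TVle g P ∧
      (∀ n, Good L P M₁ M₂ (gs n) ∧ Q (gs n)) ∧
      (∀ x, Tendsto (fun n => gs n x) atTop (𝓝 (g x))) ∧
      ∀ i, A i → ∀ (x : V3) (s t : ℝ), cos (2 * Real.pi * t) < cos (2 * Real.pi * s) →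
        g (Function.update x i t) ≤ g (Function.update x i s) := by
  let Φ : (V3 → ℝ) → ℝ := fun g => ∫ x in cell, g x * phi x
  let Plane := {p : Fin 3 × ℝ // A p.1 ∧ Adm p.2}
  have : Nonempty Plane := ⟨⟨(i0, 1 / 4), hi0, by
    change sin (2 * Real.pi * (1 / 4)) ≠ 0
    rw [show 2 * Real.pi * (1 / 4) = Real.pi / 2 by ring, Real.sin_pi_div_two]
    exact one_ne_zero⟩⟩
  have hmonoΦ : ∀ g, Good L P M₁ M₂ g → ∀ p : Plane, Φ g ≤ Φ (pol p.1.1 p.1.2 g) := fun g hg p => by
    have h := gain_eq (i := p.1.1) p.2.2 hg.per hg.lip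
    have h' : 0 ≤ ∫ x in cell, (pol p.1.1 p.1.2 g x - g x) * side p.1.1 p.1.2 x :=
      integral_nonneg fun x => gain_integrand_nonneg x
    simp only [Φ]
    linarith
  have hbound : ∀ g, Good L P M₁ M₂ g → Φ g ≤ 3 := fun g hg => by
    calc Φ g ≤ ∫ _ in cell, (3 : ℝ) := by
          refine integral_mono (integrableOn_cell_of_periodic
            (fun x k => by simp only [hg.per x k, phi_periodic x k])
            (hg.lip.continuous.mul continuous_phi)) (integrable_const _) fun x => ?_
          calc g x * phi x ≤ |g x * phi x| := le_abs_self _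
            _ ≤ 1 * 3 := by
              rw [abs_mul, abs_of_nonneg (hg.mem x).1]
              exact mul_le_mul (hg.mem x).2 (abs_phi_le x) (abs_nonneg _) zero_le_one
            _ = 3 := one_mul _
      _ = 3 := by rw [setIntegral_const, measureReal_def, volume_cell]; simp
  have hstep : ∀ (n : ℕ) (g : {g // Good L P M₁ M₂ g ∧ Q g}),
      ∃ g' : {g // Good L P M₁ M₂ g ∧ Q g},
      Φ g.1 ≤ Φ g'.1 ∧ ∀ q : Plane, Φ (pol q.1.1 q.1.2 g.1) ≤ Φ g'.1 + 1 / ((n : ℝ) + 1) := by
    intro n g
    set S := range fun q : Plane => Φ (pol q.1.1 q.1.2 g.1) with hS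
    have hbdd : BddAbove S := ⟨3, by rintro _ ⟨q, rfl⟩; exact hbound _ (g.2.1.pol _ q.2.2)⟩
    have hlt : sSup S - 1 / ((n : ℝ) + 1) < sSup S := by
      linarith [show (0 : ℝ) < 1 / ((n : ℝ) + 1) by positivity]
    obtain ⟨_, ⟨p, rfl⟩, hp⟩ := exists_lt_of_lt_csSup (range_nonempty _) hlt
    refine ⟨⟨_, g.2.1.pol p.1.1 p.2.2, hQ _ _ _ p.2.1 p.2.2 g.2.1 g.2.2⟩, hmonoΦ _ g.2.1 p,
      fun q => ?_⟩
    have := le_csSup hbdd ⟨q, rfl⟩
    dsimp only at this hp ⊢
    linarith
  choose step hstep1 hstep2 using hstep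
  let seq : ℕ → {g // Good L P M₁ M₂ g ∧ Q g} := fun n =>
    Nat.rec ⟨f, hf, hQf⟩ (fun n g => step n g) n
  let g : ℕ → V3 → ℝ := fun n => (seq n).1
  have hgood : ∀ n, Good L P M₁ M₂ (g n) := fun n => (seq n).2.1
  have hΦmono : Monotone fun n => Φ (g n) := monotone_nat_of_le_succ fun n => hstep1 n (seq n)
  obtain ⟨l, hl⟩ : ∃ l, Tendsto (fun n => Φ (g n)) atTop (𝓝 l) :=
    ⟨_, tendsto_atTop_ciSup hΦmono ⟨3, by rintro _ ⟨n, rfl⟩; exact hbound _ (hgood n)⟩⟩
  obtain ⟨H, -, φ, hφ, hH⟩ :=
    (isCompact_univ_pi fun _ : Fin 3 → ℚ => isCompact_Icc (a := (0 : ℝ)) (b := 1)).tendsto_subseq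
      (x := fun n q => g n (qPt q)) fun n q _ => (hgood n).mem _
  have hHq : ∀ q, CauchySeq fun n => g (φ n) (qPt q) := fun q =>
    (tendsto_pi_nhds.1 hH q).cauchySeq
  have hcau : ∀ x, CauchySeq fun n => g (φ n) x := fun x => by
    refine Metric.cauchySeq_iff.2 fun ε hε => ?_
    set δ : ℝ := ε / (3 * ((L : ℝ) + 1)) with hδ
    have hδ0 : 0 < δ := by positivity
    have hlt : SLt x (fun i => x i + δ) := fun i => lt_add_of_pos_right _ hδ0
    obtain ⟨q, hq1, hq2⟩ := hlt.exists_qPt
    have hd : dist x (qPt q) ≤ δ := (dist_pi_le_iff hδ0.le).2 fun i => by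
      rw [Real.dist_eq, abs_le]
      constructor <;> linarith [hq1 i, hq2 i]
    have hδ3 : (L : ℝ) * δ ≤ ε / 3 := by
      rw [hδ, mul_div, div_le_div_iff₀ (by positivity) (by norm_num)]
      nlinarith
    obtain ⟨N, hN⟩ := Metric.cauchySeq_iff.1 (hHq q) (ε / 3) (by positivity)
    refine ⟨N, fun m hm k hk => ?_⟩
    have a1 := ((hgood (φ m)).lip.dist_le_mul x (qPt q)).trans
      (mul_le_mul_of_nonneg_left hd L.coe_nonneg)
    have a2 := ((hgood (φ k)).lip.dist_le_mul (qPt q) x).trans
      (mul_le_mul_of_nonneg_left (show dist (qPt q) x ≤ δ by rwa [dist_comm]) L.coe_nonneg)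
    linarith [dist_triangle4 (g (φ m) x) (g (φ m) (qPt q)) (g (φ k) (qPt q)) (g (φ k) x),
      hN m hm k hk]
  choose G hG using fun x => cauchySeq_tendsto_of_complete (hcau x)
  have hGmem : ∀ x, G x ∈ Icc (0 : ℝ) 1 := fun x =>
    isClosed_Icc.mem_of_tendsto (hG x) (Eventually.of_forall fun n => (hgood _).mem x)
  have hGlip : LipschitzWith L G := LipschitzWith.of_dist_le_mul fun x y =>
    le_of_tendsto' ((hG x).dist (hG y)) fun n => (hgood _).lip.dist_le_mul x y
  have hGper : ZPeriodic G := fun x k => tendsto_nhds_unique (hG _) (by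
    simpa only [(hgood _).per x k] using hG x)
  have hm : ∀ n, Measurable (g (φ n)) := fun n => (hgood _).lip.continuous.measurable
  have hb : ∀ n x, g (φ n) x ∈ Icc (0 : ℝ) 1 := fun n x => (hgood _).mem x
  have hae : ∀ᵐ x ∂volume.restrict cell, Tendsto (fun n => g (φ n) x) atTop (𝓝 (G x)) :=
    Eventually.of_forall hG
  refine ⟨G, fun n => g (φ n), hGper, hGlip.continuous, hGmem, ?_, ?_, ?_,
    fun n => (seq (φ n)).2, hG, ?_⟩
  · refine tendsto_nhds_unique (tendsto_cell_comp hm hb continuous_id hae) ?_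
    simp only [id, (hgood _).int1]
    exact tendsto_const_nhds
  · refine tendsto_nhds_unique
      (tendsto_cell_comp hm hb (ψ := fun t => t * (1 - t)) (by fun_prop) hae) ?_
    simp only [(hgood _).int2]
    exact tendsto_const_nhds
  · exact TVle.of_tendsto hm hb hae tendsto_const_nhds fun n X hX =>
      (setIntegral_mul_divg_le (hgood _).lip (hgood _).per hX).trans (hgood _).grad_le
  · intro i hAi x s t hst
    have hc : Adm ((s + t) / 2) := adm_of_cos_ne hst.ne'
    have hrefl : refl i ((s + t) / 2) (Function.update x i s) = Function.update x i t := by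
      simp [refl, mul_div_cancel₀]
    have hside : 0 < side i ((s + t) / 2) (Function.update x i s) := by
      simp [side, mul_div_cancel₀, hst]
    have hΦG : Φ G = l := tendsto_nhds_unique
      (tendsto_cell_mul hm hb continuous_phi phi_periodic hae) (hl.comp hφ.tendsto_atTop)
    have hpol : Tendsto (fun n => Φ (pol i ((s + t) / 2) (g (φ n)))) atTop
        (𝓝 (Φ (pol i ((s + t) / 2) G))) :=
      tendsto_cell_mul (fun n => ((hgood _).pol i hc).lip.continuous.measurable)
        (fun n y => ((hgood _).pol i hc).mem y) continuous_phi phi_periodic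
        (Eventually.of_forall fun y => tendsto_pol hG y)
    have hr : Tendsto (fun n => Φ (g (φ n + 1)) + 1 / ((φ n : ℝ) + 1)) atTop (𝓝 (l + 0)) :=
      (((tendsto_add_atTop_iff_nat 1).2 hl).comp hφ.tendsto_atTop).add
        ((tendsto_one_div_add_atTop_nhds_zero_nat (𝕜 := ℝ)).comp hφ.tendsto_atTop)
    have hle : Φ (pol i ((s + t) / 2) G) ≤ l + 0 :=
      le_of_tendsto_of_tendsto' hpol hr fun n => hstep2 (φ n) (seq (φ n)) ⟨(i, _), hAi, hc⟩
    have := le_of_gain_nonpos hc hGper hGlip (by simp only [Φ] at hle hΦG; linarith) hside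
    rwa [hrefl] at this

theorem exists_polarised {L : ℝ≥0} {P M₁ M₂ : ℝ} {f : V3 → ℝ} (hf : Good L P M₁ M₂ f) :
    ∃ g : V3 → ℝ, ZPeriodic g ∧ Continuous g ∧ (∀ x, g x ∈ Icc (0 : ℝ) 1) ∧
      ∫ x in cell, g x = M₁ ∧ ∫ x in cell, g x * (1 - g x) = M₂ ∧ TVle g P ∧
      ∀ (i : Fin 3) (x : V3) (s t : ℝ), cos (2 * Real.pi * t) < cos (2 * Real.pi * s) →
        g (Function.update x i t) ≤ g (Function.update x i s) := by
  obtain ⟨g, -, h1, h2, h3, h4, h5, h6, -, -, h7⟩ :=
    exists_polarised_axes hf (fun _ => True) (i0 := 0) trivial (fun _ => True) trivial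
      fun _ _ _ _ _ _ _ => trivial
  exact ⟨g, h1, h2, h3, h4, h5, h6, fun i => h7 i trivial⟩

/-! ### Monotone profiles -/

section
variable {g : V3 → ℝ} (hp : ZPeriodic g) (hc : Continuous g)
  (hmono : ∀ (i : Fin 3) (x : V3) (s t : ℝ), cos (2 * Real.pi * t) < cos (2 * Real.pi * s) →
    g (Function.update x i t) ≤ g (Function.update x i s))

theorem cos_lt_cos_of_half {s t : ℝ} (h0 : 0 ≤ s) (hst : s < t) (ht : t ≤ 1 / 2) :
    cos (2 * Real.pi * t) < cos (2 * Real.pi * s) :=
  Real.cos_lt_cos_of_nonneg_of_le_pi (by positivity)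
    (by nlinarith [Real.pi_pos]) (by nlinarith [Real.pi_pos])

include hmono in
theorem mono_half {i : Fin 3} (x : V3) {s t : ℝ} (h0 : 0 ≤ s) (hst : s ≤ t) (ht : t ≤ 1 / 2) :
    g (Function.update x i t) ≤ g (Function.update x i s) := by
  rcases hst.lt_or_eq with h | h
  · exact hmono i x s t (cos_lt_cos_of_half h0 h ht)
  · rw [h]

include hp hc hmono in
theorem even_coord (i : Fin 3) (x : V3) {s : ℝ} (hs : |s| ≤ 1 / 2) :
    g (Function.update x i (|s|)) = g (Function.update x i s) := by
  rcases le_or_gt 0 s with h | h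
  · rw [abs_of_nonneg h]
  rcases (abs_le.1 hs).1.lt_or_eq with h' | h'
  · rw [abs_of_neg h]
    set r : ℝ := -s with hr
    have hr0 : 0 < r := by linarith
    have hr1 : r < 1 / 2 := by linarith
    have hupd : Continuous fun u : ℝ => g (Function.update x i u) :=
      hc.comp (continuous_const.update i continuous_id)
    have hcos : cos (2 * Real.pi * s) = cos (2 * Real.pi * r) := by
      rw [hr, mul_neg, Real.cos_neg]
    apply le_antisymm
    · -- approach `r` from the right, `-r` from inside
      have ht : Tendsto (fun u : ℝ => g (Function.update x i u)) (𝓝[>] r)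
          (𝓝 (g (Function.update x i r))) := (hupd.tendsto r).mono_left nhdsWithin_le_nhds
      refine le_of_tendsto ht ?_
      filter_upwards [Ioo_mem_nhdsGT hr1] with u hu
      exact hmono i x s u (hcos ▸ cos_lt_cos_of_half hr0.le hu.1 hu.2.le)
    · have ht : Tendsto (fun u : ℝ => g (Function.update x i u)) (𝓝[<] r)
          (𝓝 (g (Function.update x i r))) := (hupd.tendsto r).mono_left nhdsWithin_le_nhds
      refine ge_of_tendsto ht ?_
      filter_upwards [Ioo_mem_nhdsLT hr0] with u hu
      exact hmono i x u s (hcos ▸ cos_lt_cos_of_half hu.1.le hu.2 hr1.le)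
  · have e : (Function.update x i (|s|) : V3)
        = Function.update x i s + fun j => ((Pi.single i 1 : Fin 3 → ℤ) j : ℝ) := by
      funext j
      by_cases hj : j = i
      · subst hj
        simp only [Function.update_self, Pi.add_apply, Pi.single_eq_same, Int.cast_one,
          abs_of_neg h]
        linarith
      · simp [hj]
    rw [e]
    exact hp _ _

/-- The profile of a symmetric function, extended to all of space. -/
noncomputable def prof (g : V3 → ℝ) (z : V3) : ℝ := g fun i => max 0 (min 1 (z i)) / 2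

include hmono in
theorem antitone_prof : Antitone (prof g) := by
  intro z z' h
  set a : V3 := fun i => max 0 (min 1 (z i)) / 2 with ha
  set b : V3 := fun i => max 0 (min 1 (z' i)) / 2 with hb
  have hab : ∀ i, a i ≤ b i := fun i => by
    simp only [ha, hb]; gcongr; exact h i
  have ha0 : ∀ i, 0 ≤ a i := fun i => by simp only [ha]; positivity
  have hb1 : ∀ i, b i ≤ 1 / 2 := fun i => by
    simp only [hb]
    gcongr
    exact max_le zero_le_one (min_le_left _ _)
  set y1 : V3 := Function.update a 0 (b 0) with hy1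
  set y2 : V3 := Function.update y1 1 (b 1) with hy2
  have e3 : b = Function.update y2 2 (b 2) := by
    funext j; fin_cases j <;> simp [hy1, hy2]
  have step : ∀ (x : V3) (i : Fin 3), x i = a i → g (Function.update x i (b i)) ≤ g x := by
    intro x i hx
    have := mono_half hmono (i := i) x (ha0 i) (hab i) (hb1 i)
    rwa [← hx, Function.update_eq_self] at this
  calc prof g z' = g (Function.update y2 2 (b 2)) := by rw [← e3]; rfl
    _ ≤ g y2 := step y2 2 (by simp [hy1, hy2])
    _ ≤ g y1 := step y1 1 (by simp [hy1])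
    _ ≤ prof g z := step a 0 rfl

include hp hc hmono in
theorem eq_prof_fold (x : V3) : g x = prof g (fold x) := by
  set a : V3 := fun i => x i - round (x i) with ha
  have h1 : g x = g a := by
    rw [← hp x fun i => -round (x i)]
    congr 1
    funext i
    simp [ha, sub_eq_add_neg]
  have hb : ∀ i, |a i| ≤ 1 / 2 := fun i => abs_sub_round (x i)
  set y1 : V3 := Function.update a 0 |a 0| with hy1
  set y2 : V3 := Function.update y1 1 |a 1| with hy2
  have e1 : g y1 = g a := by
    rw [hy1, even_coord hp hc hmono 0 a (hb 0), Function.update_eq_self]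
  have e2 : g y2 = g y1 := by
    rw [hy2, even_coord hp hc hmono 1 y1 (hb 1),
      show a 1 = y1 1 by simp [hy1], Function.update_eq_self]
  have e3 : g (Function.update y2 2 |a 2|) = g y2 := by
    rw [even_coord hp hc hmono 2 y2 (hb 2),
      show a 2 = y2 2 by simp [hy1, hy2], Function.update_eq_self]
  rw [h1, ← e1, ← e2, ← e3, prof]
  congr 1
  funext j
  have hj := fold_mem_Icc x j
  rw [min_eq_right hj.2, max_eq_right hj.1]
  fin_cases j <;> simp [hy1, hy2, fold, ha]

end

/-! ### Limit sets -/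

theorem isOpen_cube : IsOpen cube := isOpen_set_pi finite_univ fun _ _ => isOpen_Ioo

theorem ae_fold_mem_cube : ∀ᵐ x : V3, fold x ∈ cube := by
  have hne : ∀ᵐ x : V3, ∀ i : Fin 3, x i ∉ range fun m : ℤ => (m : ℝ) / 2 :=
    ae_all_iff.2 fun i => by
      rw [ae_iff, volume_pi]
      simp only [not_not]
      exact Measure.pi_eval_preimage_null _ ((countable_range _).measure_zero _)
  filter_upwards [hne] with x hx i _
  obtain ⟨h0, h1⟩ := fold_mem_Icc x i
  refine ⟨h0.lt_of_ne fun h => hx i ⟨2 * round (x i), ?_⟩, h1.lt_of_ne fun h => ?_⟩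
  · have : |x i - round (x i)| = 0 := by unfold fold at h; linarith
    rw [abs_eq_zero, sub_eq_zero] at this
    push_cast
    linarith
  · have : |x i - round (x i)| = 1 / 2 := by unfold fold at h; linarith
    rcases (abs_eq (by norm_num)).1 this with h' | h'
    · exact hx i ⟨2 * round (x i) + 1, by push_cast; linarith⟩
    · exact hx i ⟨2 * round (x i) - 1, by push_cast; linarith⟩

/-- The down-set cut out by a limit profile. -/
theorem exists_downset_of_limit {H : V3 → ℝ} (hm : Measurable H) (ha : Antitone H)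
    (h01 : ∀ᵐ x ∂volume.restrict cell, H (fold x) = 0 ∨ H (fold x) = 1) :
    ∃ D, IsDown D ∧ (fun x => H (fold x)) =ᵐ[volume.restrict cell] ind (lift D) := by
  refine ⟨{z | 1 / 2 < H z} ∩ cube, ⟨(measurableSet_lt measurable_const hm).inter
    isOpen_cube.measurableSet, inter_subset_right,
    fun x hx y hy hyx => ⟨lt_of_lt_of_le hx.1 (ha hyx), hy⟩⟩, ?_⟩
  filter_upwards [h01, ae_restrict_of_ae ae_fold_mem_cube] with x hx hxc
  simp only [ind, lift_eq_preimage]
  rcases hx with h | h
  · rw [indicator_of_notMem, h]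
    intro hmem
    have : (1 : ℝ) / 2 < H (fold x) := hmem.1
    linarith
  · rw [indicator_of_mem, h]
    exact ⟨show (1 : ℝ) / 2 < H (fold x) by rw [h]; norm_num, hxc⟩

/-- Compactness: profiles with bounded variation and asymptotically no intermediate values. -/
theorem exists_downset_limit {h : ℕ → V3 → ℝ} {T : ℕ → ℝ} {T' V : ℝ}
    (hm : ∀ n, Antitone (h n)) (hme : ∀ n, Measurable fun x => h n (fold x))
    (hb : ∀ n z, h n z ∈ Icc (0 : ℝ) 1) (hT : Tendsto T atTop (𝓝 T'))
    (hTV : ∀ n, TVle (fun x => h n (fold x)) (T n))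
    (hV : Tendsto (fun n => ∫ x in cell, h n (fold x)) atTop (𝓝 V))
    (h2 : Tendsto (fun n => ∫ x in cell, h n (fold x) * (1 - h n (fold x))) atTop (𝓝 0)) :
    ∃ D, IsDown D ∧ perim (lift D) ≤ ENNReal.ofReal T' ∧ torusVol (lift D) = V := by
  obtain ⟨φ, hφ, H, hHm, hHa, hHb, hlim⟩ := exists_subseq_antitone_tendsto h hm hb
  have hae : ∀ᵐ x ∂volume.restrict cell,
      Tendsto (fun n => h (φ n) (fold x)) atTop (𝓝 (H (fold x))) :=
    ae_restrict_of_ae (ae_fold hlim)
  have hb' : ∀ n x, h (φ n) (fold x) ∈ Icc (0 : ℝ) 1 := fun n x => hb _ _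
  have e2 : ∫ x in cell, H (fold x) * (1 - H (fold x)) = 0 := tendsto_nhds_unique
    (tendsto_cell_comp (fun n => hme (φ n)) hb' (ψ := fun t => t * (1 - t)) (by fun_prop) hae)
    (h2.comp hφ.tendsto_atTop)
  have hnn : ∀ x, 0 ≤ H (fold x) * (1 - H (fold x)) := fun x =>
    mul_nonneg (hHb _).1 (sub_nonneg.2 (hHb _).2)
  have h01 : ∀ᵐ x ∂volume.restrict cell, H (fold x) = 0 ∨ H (fold x) = 1 := by
    have hi : IntegrableOn (fun x => H (fold x) * (1 - H (fold x))) cell :=
      integrableOn_cell_of_bound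
        (((hHm.comp measurable_fold).mul
          (measurable_const.sub (hHm.comp measurable_fold))).aestronglyMeasurable) (C := 1)
        fun x => by
          rw [abs_of_nonneg (hnn x)]
          nlinarith [(hHb (fold x)).1, (hHb (fold x)).2]
    filter_upwards [(setIntegral_eq_zero_iff_of_nonneg_ae (Eventually.of_forall hnn) hi).1 e2]
      with x hx
    rcases mul_eq_zero.1 hx with h' | h'
    · exact Or.inl h'
    · exact Or.inr (by linarith)
  obtain ⟨D, hD, hDe⟩ := exists_downset_of_limit hHm hHa h01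
  have hDm : MeasurableSet (lift D) := (isTorusSet_lift hD.1).1
  refine ⟨D, hD, TVle.perim_le hDm ?_, ?_⟩
  · exact (TVle.of_tendsto (fun n => hme (φ n)) hb' hae (hT.comp hφ.tendsto_atTop)
      fun n => hTV (φ n)).congr_ae hDe
  · rw [torusVol_eq hDm, ← integral_congr_ae hDe]
    exact tendsto_nhds_unique (tendsto_cell_comp (fun n => hme (φ n)) hb' continuous_id hae)
      (hV.comp hφ.tendsto_atTop)

theorem symReduce : SymReduce := by
  intro E hE hfin
  set P : ℝ := (perim E).toReal with hP
  have hTV : TVle (ind E) P := tvle_of_perim hE.1 hfin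
  have hgood : ∀ n, ∃ L, Good L P (∫ x in cell, moll E n x)
      (∫ x in cell, moll E n x * (1 - moll E n x)) (moll E n) := fun n => by
    obtain ⟨L, hL⟩ := (moll_periodic hE n).exists_lipschitz ((contDiff_moll hE.1 n).of_le one_le_two)
    exact ⟨L, moll_periodic hE n, hL, moll_mem_Icc n, rfl, rfl,
      setIntegral_gnorm_le (contDiff_moll hE.1 n) (moll_periodic hE n) (tvle_moll hE hTV n)⟩
  choose L hL using hgood
  choose g hgp hgc hgb hg1 hg2 hgT hgm using fun n => exists_polarised (hL n)
  have heq : ∀ n x, prof (g n) (fold x) = g n x := fun n x =>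
    (eq_prof_fold (hgp n) (hgc n) (hgm n) x).symm
  have hmol := ae_restrict_of_ae (s := cell) (ae_tendsto_moll hE.1)
  have hmm : ∀ n, Measurable (moll E n) := fun n => (contDiff_moll hE.1 n).continuous.measurable
  have hV := tendsto_cell_comp hmm (fun n x => moll_mem_Icc n x) continuous_id hmol
  have h2 := tendsto_cell_comp hmm (fun n x => moll_mem_Icc n x)
    (ψ := fun t => t * (1 - t)) (by fun_prop) hmol
  have hz : ∫ x in cell, ind E x * (1 - ind E x) = 0 := by
    refine integral_eq_zero_of_ae (Eventually.of_forall fun x => ?_)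
    by_cases h : x ∈ E <;> simp [ind, h]
  rw [hz] at h2
  simp only [id] at hV
  obtain ⟨D, hD, hDp, hDv⟩ := exists_downset_limit (h := fun n => prof (g n)) (T := fun _ => P)
    (fun n => antitone_prof (hgm n))
    (fun n => by simp only [heq]; exact (hgc n).measurable)
    (fun n z => hgb n _) tendsto_const_nhds (fun n => by simp only [heq]; exact hgT n)
    (by simp only [heq, hg1]; exact hV) (by simp only [heq, hg2]; exact h2)
  exact ⟨D, hD, hDp.trans ENNReal.ofReal_toReal_le, hDv.trans (torusVol_eq hE.1).symm⟩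

/-! ### Minimiser -/

theorem continuous_jQ : Continuous jQ := by
  unfold jQ J
  have h : ∀ p : ℝ, 0 ≤ p → Continuous fun v : ℝ => min v (1 - v) ^ p := fun p hp =>
    (continuous_id.min (continuous_const.sub continuous_id)).rpow_const fun _ => Or.inr hp
  have := h (2 / 3) (by norm_num)
  fun_prop

theorem jQ_zero : jQ 0 = 0 := by
  simp [jQ, J, Real.zero_rpow]

theorem jQ_le_one (v : ℝ) : jQ v ≤ 1 := by
  have : J v ≤ 2 := min_le_right _ _
  unfold jQ
  linarith

theorem jQ_symm (v : ℝ) : jQ (1 - v) = jQ v := by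
  unfold jQ J
  rw [show 1 - (1 - v) = v by ring, min_comm (1 - v) v]

theorem jQ_one : jQ 1 = 0 := by rw [← jQ_zero, ← jQ_symm 0, sub_zero]

theorem area_nonneg (D : Set V3) : 0 ≤ area D :=
  integral_nonneg fun x => by unfold dnorm; positivity

theorem dvol_mem {D : Set V3} (hD : IsDown D) : dvol D ∈ Icc (0 : ℝ) 1 := by
  refine ⟨measureReal_nonneg, ?_⟩
  have hc : volume cube = 1 := by simp [cube, volume_pi_pi]
  have := measureReal_mono (μ := (volume : Measure V3)) hD.2.1 (by simp [hc])
  simpa [dvol, measureReal_def, hc] using this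

theorem antitone_ind_lower {S : Set V3} (hS : IsLowerSet S) : Antitone (ind S) := fun x y hxy => by
  by_cases h : y ∈ S
  · simp [ind, h, hS hxy h]
  · simp only [ind, indicator_of_notMem h]
    exact (ind_mem_Icc S x).1

/-- An open lower set agreeing almost everywhere in the cube with a down-set. -/
def openExt (D : Set V3) : Set V3 := ⋃ d ∈ D, {z | SLt z d}

theorem isOpen_openExt (D : Set V3) : IsOpen (openExt D) :=
  isOpen_biUnion fun d _ => isOpen_slt_left d

theorem isLowerSet_openExt (D : Set V3) : IsLowerSet (openExt D) := fun a b hba ha => by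
  simp only [openExt, mem_iUnion, mem_ofPred_eq] at ha ⊢
  obtain ⟨d, hd, had⟩ := ha
  exact ⟨d, hd, fun i => (hba i).trans_lt (had i)⟩

theorem IsDown.ae_mem_openExt {D : Set V3} (hD : IsDown D) :
    ∀ᵐ z : V3, z ∈ cube → (z ∈ openExt D ↔ z ∈ D) := by
  have hnull := measure_eq_zero_iff_ae_notMem.1
    (LowerSet.lower (lowerClosure D)).null_frontier
  filter_upwards [hnull] with z hz hc
  simp only [openExt, mem_iUnion, mem_ofPred_eq, exists_prop]
  refine ⟨fun ⟨d, hd, hzd⟩ => hD.2.2 d hd z hc fun i => (hzd i).le, fun h => ?_⟩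
  have hint : z ∈ interior ((lowerClosure D : LowerSet V3) : Set V3) := by
    by_contra hn
    exact hz ⟨subset_closure (subset_lowerClosure h), hn⟩
  have ht : Tendsto (fun t : ℝ => fun i => z i + t) (𝓝[>] 0) (𝓝 z) := by
    have : Continuous fun t : ℝ => (fun i => z i + t : V3) := by fun_prop
    simpa using (this.tendsto 0).mono_left nhdsWithin_le_nhds
  obtain ⟨t, htS, htpos⟩ :=
    ((ht.eventually (mem_interior_iff_mem_nhds.1 hint)).and self_mem_nhdsWithin).exists
  obtain ⟨d, hd, hle⟩ := mem_lowerClosure.1 htS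
  exact ⟨d, hd, fun i => (lt_add_of_pos_right (z i) htpos).trans_le (hle i)⟩

/-- The complement of a down-set, reflected. -/
def flipD (D : Set V3) : Set V3 := {z | (fun i => 1 - z i) ∉ D} ∩ cube

theorem sub_mem_cube {z : V3} (hz : z ∈ cube) : (fun i => 1 - z i : V3) ∈ cube := fun i _ =>
  ⟨by linarith [(hz i trivial).2], by linarith [(hz i trivial).1]⟩

theorem isDown_flipD {D : Set V3} (hD : IsDown D) : IsDown (flipD D) := by
  refine ⟨?_, inter_subset_right, ?_⟩
  · have hm : Measurable fun z : V3 => (fun i => 1 - z i : V3) := by fun_prop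
    exact (hm hD.1).compl.inter isOpen_cube.measurableSet
  · rintro x ⟨hx, hxc⟩ y hy hyx
    refine ⟨fun hmem => hx ?_, hy⟩
    exact hD.2.2 _ hmem _ (sub_mem_cube hxc) fun i => by linarith [hyx i]

theorem fold_add_half (x : V3) (h : fold x ∈ cube) :
    fold (x + fun _ => 1 / 2) = fun i => 1 - fold x i := by
  funext i
  obtain ⟨h0, h1⟩ := h i trivial
  simp only [fold, Pi.add_apply] at h0 h1 ⊢
  set a := x i - round (x i) with ha
  rcases le_or_gt 0 a with hs | hs
  · rw [abs_of_nonneg hs] at h0 h1 ⊢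
    have hr : round (x i + 1 / 2) = round (x i) + 1 := by
      rw [round_eq, Int.floor_eq_iff]
      push_cast
      constructor <;> linarith
    rw [hr]
    push_cast
    rw [abs_of_neg (by linarith)]
    linarith
  · rw [abs_of_neg hs] at h0 h1 ⊢
    have hr : round (x i + 1 / 2) = round (x i) := by
      rw [round_eq, Int.floor_eq_iff]
      constructor <;> linarith
    rw [hr, abs_of_pos (by linarith)]
    linarith

theorem ind_lift_flipD (D : Set V3) :
    ind (lift (flipD D)) =ᵐ[volume] fun x => 1 - ind (lift D) (x + fun _ => 1 / 2) := by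
  filter_upwards [ae_fold_mem_cube] with x hx
  have e := fold_add_half x hx
  by_cases h : (fun i => 1 - fold x i : V3) ∈ D
  · have h1 : x ∉ lift (flipD D) := fun hh => hh.1 h
    have h2 : (x + fun _ => 1 / 2) ∈ lift D := by rw [lift_eq_preimage, mem_preimage, e]; exact h
    simp only [ind]
    rw [indicator_of_notMem h1, indicator_of_mem h2, sub_self]
  · have h1 : x ∈ lift (flipD D) := ⟨h, hx⟩
    have h2 : (x + fun _ => 1 / 2) ∉ lift D := by rw [lift_eq_preimage, mem_preimage, e]; exact h
    simp only [ind]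
    rw [indicator_of_mem h1, indicator_of_notMem h2, sub_zero]

theorem perim_lift_flipD {D : Set V3} (hD : IsDown D) (hfin : perim (lift D) ≠ ⊤) :
    perim (lift (flipD D)) ≤ perim (lift D) := by
  have hT := isTorusSet_lift hD.1
  have hTf := isTorusSet_lift (isDown_flipD hD).1
  have h := tvle_of_perim hT.1 hfin
  refine (TVle.perim_le hTf.1 ?_).trans ENNReal.ofReal_toReal_le
  intro X hX
  set a : V3 := fun _ => 1 / 2 with ha
  have hY : IsField fun x => -X (x + -a) :=
    ⟨(hX.shift (-a)).1.neg, fun x k => congrArg Neg.neg ((hX.shift (-a)).2.1 x k), fun x => by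
      simpa using hX.2.2 (x + -a)⟩
  have hdiv : ∀ x, divg (fun y => -X (y + -a)) x = -divg X (x + -a) := fun x => by
    have : fderiv ℝ (fun y => -X (y + -a)) x = -fderiv ℝ X (x + -a) := by
      rw [fderiv_fun_neg, fderiv_comp_add_right]
    simp [divg, this, Finset.sum_neg_distrib]
  have h1 := h _ hY
  simp only [hdiv] at h1
  have hper : ZPeriodic fun x => ind (lift D) x * -divg X (x + -a) := fun x k => by
    simp only [hT.periodic x k, add_right_comm x _ (-a), periodic_divg hX _ k]
  rw [← setIntegral_cell_add hper a] at h1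
  simp only [add_neg_cancel_right] at h1
  have hi : IntegrableOn (divg X) cell :=
    integrableOn_cell_of_periodic (periodic_divg hX) (continuous_divg hX)
  have hi2 : IntegrableOn (fun x => ind (lift D) (x + a) * -divg X x) cell := by
    obtain ⟨M, hM⟩ := (periodic_divg hX).exists_norm_le (continuous_divg hX)
    refine integrableOn_cell_of_bound (((measurable_ind hT.1).comp
      (measurable_id.add_const a)).mul (continuous_divg hX).measurable.neg).aestronglyMeasurable
      (C := M) fun x => ?_
    rw [abs_mul, abs_neg, abs_of_nonneg (ind_mem_Icc _ _).1]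
    exact (mul_le_of_le_one_left (abs_nonneg _) (ind_mem_Icc _ _).2).trans (hM x)
  have e : ∫ x in cell, ind (lift (flipD D)) x * divg X x
      = ∫ x in cell, (divg X x + ind (lift D) (x + a) * -divg X x) := by
    refine integral_congr_ae ?_
    filter_upwards [ae_restrict_of_ae (ind_lift_flipD D)] with x hx
    rw [hx, ← ha]
    ring
  rw [e, integral_add hi hi2, setIntegral_divg hX, zero_add]
  exact h1

theorem dvol_flipD {D : Set V3} (hD : IsDown D) : dvol (flipD D) = 1 - dvol D := by
  have hpre : {z : V3 | (fun i => 1 - z i : V3) ∈ D} ⊆ cube := fun z hz => by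
    have := sub_mem_cube (hD.2.1 hz)
    simpa using this
  have hmp : MeasurePreserving (fun z : V3 => (fun i => 1 - z i : V3)) volume volume :=
    volume_preserving_pi fun _ => Measure.measurePreserving_sub_left volume (1 : ℝ)
  have hm : MeasurableSet {z : V3 | (fun i => 1 - z i : V3) ∈ D} := hmp.measurable hD.1
  have e : flipD D = cube \ {z : V3 | (fun i => 1 - z i : V3) ∈ D} := by
    ext z; simp [flipD, and_comm]
  have hc : volume cube = 1 := by simp [cube, volume_pi_pi]
  rw [dvol, dvol, e, measureReal_sdiff hpre hm (by simp [hc]), measureReal_def, measureReal_def,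
    measureReal_def, hc, ENNReal.toReal_one]
  congr 2
  exact hmp.measure_preimage hD.1.nullMeasurableSet

theorem minExists (hLA : LiftArea) : MinExists := by
  rintro ⟨D0, hD0, hneg⟩
  set S : Set ℝ := {r | ∃ D, IsDown D ∧ area D - jQ (dvol D) = r} with hS
  have hSne : S.Nonempty := ⟨_, D0, hD0, rfl⟩
  have hSb : BddBelow S := ⟨-1, by
    rintro _ ⟨D, -, rfl⟩
    linarith [area_nonneg D, jQ_le_one (dvol D)]⟩
  set m := sInf S with hm
  have hm0 : m < 0 := (csInf_le hSb ⟨D0, hD0, rfl⟩).trans_lt (by linarith)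
  obtain ⟨u, -, hu, huS⟩ := exists_seq_tendsto_sInf hSne hSb
  choose Dn hDn huD using huS
  obtain ⟨v, -, φ, hφ, hv⟩ :=
    isCompact_Icc.tendsto_subseq (x := fun n => dvol (Dn n)) fun n => dvol_mem (hDn n)
  set K : ℕ → Set V3 := fun n => Dn (φ n) with hK
  set W : ℕ → Set V3 := fun n => openExt (K n) with hW
  have hKW : ∀ n, ind (lift (K n)) =ᵐ[volume.restrict cell] fun x => ind (W n) (fold x) :=
    fun n => by
      filter_upwards [ae_restrict_of_ae ae_fold_mem_cube,
        ae_restrict_of_ae (ae_fold (hDn (φ n)).ae_mem_openExt)] with x hx he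
      by_cases h : fold x ∈ W n
      · have : x ∈ lift (K n) := (he hx).1 h
        simp [ind, h, this]
      · have : x ∉ lift (K n) := fun hh => h ((he hx).2 hh)
        simp [ind, h, this]
  have harea : Tendsto (fun n => 2 * area (K n)) atTop (𝓝 (2 * (m + jQ v))) := by
    have h1 : Tendsto (fun n => area (K n) - jQ (dvol (K n))) atTop (𝓝 m) := by
      simpa [hK, huD, Function.comp_def] using hu.comp hφ.tendsto_atTop
    have h2 : Tendsto (fun n => jQ (dvol (K n))) atTop (𝓝 (jQ v)) :=
      (continuous_jQ.tendsto v).comp hv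
    simpa using ((h1.add h2).const_mul 2)
  have hlift : ∀ n, TVle (fun x => ind (W n) (fold x)) (2 * area (K n)) := fun n => by
    obtain ⟨hT, hp, -⟩ := hLA _ (hDn (φ n))
    have := tvle_of_perim hT.1 (by rw [hp]; exact ENNReal.ofReal_ne_top)
    rw [hp, ENNReal.toReal_ofReal (by linarith [area_nonneg (Dn (φ n))])] at this
    exact this.congr_ae (hKW n)
  have hWm : ∀ n, Measurable fun x => ind (W n) (fold x) := fun n =>
    (measurable_ind (isOpen_openExt _).measurableSet).comp measurable_fold
  obtain ⟨D, hD, hDp, hDv⟩ := exists_downset_limit (h := fun n => ind (W n))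
    (fun n => antitone_ind_lower (isLowerSet_openExt _)) hWm (fun n z => ind_mem_Icc _ z) harea hlift
    (V := v)
    (by
      refine hv.congr fun n => ?_
      obtain ⟨hT, -, hvol⟩ := hLA _ (hDn (φ n))
      rw [Function.comp_apply, ← hvol, torusVol_eq hT.1]
      exact integral_congr_ae (hKW n))
    (by
      refine Tendsto.congr (fun n => (integral_eq_zero_of_ae (Eventually.of_forall fun x => ?_)).symm)
        tendsto_const_nhds
      by_cases h : fold x ∈ W n <;> simp [ind, h])
  obtain ⟨-, hp, hvol⟩ := hLA _ hD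
  have hvD : dvol D = v := hvol.symm.trans hDv
  have hAD : area D - jQ (dvol D) = m := by
    refine le_antisymm ?_ (csInf_le hSb ⟨D, hD, rfl⟩)
    rw [hp] at hDp
    have h0 : 0 ≤ 2 * (m + jQ v) := ge_of_tendsto' harea fun n => by linarith [area_nonneg (K n)]
    have := (ENNReal.ofReal_le_ofReal_iff h0).1 hDp
    rw [hvD]
    linarith
  have hmin : ∀ D', IsDown D' → area D - jQ (dvol D) ≤ area D' - jQ (dvol D') := fun D' h' =>
    hAD ▸ csInf_le hSb ⟨D', h', rfl⟩
  have hlt : area D < jQ (dvol D) := by linarith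
  obtain ⟨hv0, hv1⟩ := dvol_mem hD
  have hv0' : 0 < dvol D := hv0.lt_of_ne fun h => by
    rw [← h, jQ_zero] at hlt; linarith [area_nonneg D]
  have hv1' : dvol D < 1 := hv1.lt_of_ne fun h => by
    rw [h, jQ_one] at hlt; linarith [area_nonneg D]
  by_cases hhalf : dvol D ≤ 1 / 2
  · exact ⟨D, hD, hv0', hhalf, hlt, hmin⟩
  · obtain ⟨-, hpf, -⟩ := hLA _ (isDown_flipD hD)
    have hle := perim_lift_flipD hD (by rw [hp]; exact ENNReal.ofReal_ne_top)
    rw [hpf, hp, ENNReal.ofReal_le_ofReal_iff (by linarith [area_nonneg D])] at hle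
    have hvf := dvol_flipD hD
    refine ⟨flipD D, isDown_flipD hD, by linarith, by linarith, ?_, fun D' h' => ?_⟩
    · rw [hvf, jQ_symm]; linarith
    · have := hmin D' h'
      rw [hvf, jQ_symm]; linarith

end Vale.Agent.P232
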