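import Vale.Agent.P232.VarFirst

/-! # P232: stationarity of minimisers under stretching the axes -/

namespace Vale.Agent.P232

open MeasureTheory Set Filter Topology
open scoped ENNReal

namespace Var

variable {D : Set V3}

/-- Indicator of a left half-line. -/
noncomputable def half (s : ℝ) : ℝ → ℝ := (Iic s).indicator fun _ => 1

/-- Length of the part of the unit interval left of `s`. -/
noncomputable def ell (s : ℝ) : ℝ := ∫ t in (0 : ℝ)..1, half s t

/-- Half-line indicator with mean zero. -/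
noncomputable def zm (s : ℝ) (t : ℝ) : ℝ := half s t - ell s

/-- A stretch of one axis only. -/
def single (i : Fin 3) (f : ℝ → ℝ) (j : Fin 3) (t : ℝ) : ℝ := if j = i then f t else 0

/-- Combination of stretches. -/
def lin (a : ℝ) (g : Fin 3 → ℝ → ℝ) (k : ℝ) (g' : Fin 3 → ℝ → ℝ) (j : Fin 3) (t : ℝ) : ℝ :=
  a * g j t + k * g' j t

/-- Bounded measurable stretches. -/
def BM (g : Fin 3 → ℝ → ℝ) : Prop :=
  (∀ j, Measurable (g j)) ∧ ∃ C, ∀ j t, |g j t| ≤ C

theorem half_mem (s t : ℝ) : 0 ≤ half s t ∧ half s t ≤ 1 := by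
  by_cases h : t ∈ Iic s <;> simp [half, h]

theorem measurable_half (s : ℝ) : Measurable (half s) :=
  measurable_const.indicator measurableSet_Iic

theorem abs_half (s t : ℝ) : |half s t| ≤ 1 :=
  abs_le.2 ⟨by linarith [(half_mem s t).1], (half_mem s t).2⟩

theorem abs_zm (s t : ℝ) : |zm s t| ≤ 2 := by
  have h := abs_integral_le (abs_half s) 0 1
  simp only [sub_zero, abs_one, mul_one] at h
  exact (abs_sub _ _).trans (by linarith [abs_half s t, show |ell s| ≤ 1 from h])

theorem BM.single {f : ℝ → ℝ} (hf : Measurable f) {C : ℝ} (hC : ∀ t, |f t| ≤ C) (i : Fin 3) :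
    BM (single i f) := by
  refine ⟨fun j => ?_, C, fun j t => ?_⟩
  · unfold Var.single
    by_cases h : j = i <;> simp [h, hf]
  · unfold Var.single
    by_cases h : j = i
    · simpa [h] using hC t
    · simpa [h] using (abs_nonneg _).trans (hC t)

theorem BM.lin {g g' : Fin 3 → ℝ → ℝ} (hg : BM g) (hg' : BM g') (a k : ℝ) :
    BM (lin a g k g') := by
  obtain ⟨hm, C, hC⟩ := hg
  obtain ⟨hm', C', hC'⟩ := hg'
  refine ⟨fun j => ((hm j).const_mul a).add ((hm' j).const_mul k), |a| * C + |k| * C', fun j t => ?_⟩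
  refine (abs_add_le _ _).trans (add_le_add ?_ ?_) <;> rw [abs_mul]
  · exact mul_le_mul_of_nonneg_left (hC j t) (abs_nonneg a)
  · exact mul_le_mul_of_nonneg_left (hC' j t) (abs_nonneg k)

theorem bm_zm (i : Fin 3) (s : ℝ) : BM (single i (zm s)) :=
  BM.single ((measurable_half s).sub measurable_const) (abs_zm s) i

theorem bm_one (i : Fin 3) : BM (single i fun _ => 1) :=
  BM.single measurable_const (C := 1) (fun _ => by simp) i

theorem mean_lin {g g' : Fin 3 → ℝ → ℝ} (hg : BM g) (hg' : BM g') (a k : ℝ) (j : Fin 3) :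
    ∫ t in (0 : ℝ)..1, lin a g k g' j t =
      a * (∫ t in (0 : ℝ)..1, g j t) + k * ∫ t in (0 : ℝ)..1, g' j t := by
  obtain ⟨hm, C, hC⟩ := hg
  obtain ⟨hm', C', hC'⟩ := hg'
  simp only [lin]
  rw [intervalIntegral.integral_add ((intervalIntegrable_bdd (hm j) (hC j) 0 1).const_mul a)
    ((intervalIntegrable_bdd (hm' j) (hC' j) 0 1).const_mul k),
    intervalIntegral.integral_const_mul, intervalIntegral.integral_const_mul]

theorem mean_zm (i : Fin 3) (s : ℝ) (j : Fin 3) :
    ∫ t in (0 : ℝ)..1, single i (zm s) j t = 0 := by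
  by_cases h : j = i
  · simp only [single, h, if_true, zm]
    rw [intervalIntegral.integral_sub (intervalIntegrable_bdd (measurable_half s) (abs_half s) 0 1)
      intervalIntegrable_const]
    simp [ell]
  · simp [single, h]

theorem mean_one (i j : Fin 3) :
    ∫ t in (0 : ℝ)..1, single i (fun _ => (1 : ℝ)) j t = if j = i then 1 else 0 := by
  by_cases h : j = i <;> simp [single, h]

theorem dA_lin {g g' : Fin 3 → ℝ → ℝ} (hg : BM g) (hg' : BM g') (a k : ℝ) :
    dA D (lin a g k g') = a * dA D g + k * dA D g' := by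
  obtain ⟨hm, C, hC⟩ := hg
  obtain ⟨hm', C', hC'⟩ := hg'
  simp only [dA, Finset.mul_sum, ← Finset.sum_add_distrib]
  refine Finset.sum_congr rfl fun j _ => ?_
  rw [← integral_const_mul, ← integral_const_mul, ← integral_add
    ((integrable_mul_fd (hm j) (hC j) j).const_mul a)
    ((integrable_mul_fd (hm' j) (hC' j) j).const_mul k)]
  refine integral_congr_ae (ae_of_all _ fun x => ?_)
  simp only [lin]; ring

theorem dV_lin (hD : IsDown D) {g g' : Fin 3 → ℝ → ℝ} (hg : BM g) (hg' : BM g') (a k : ℝ) :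
    dV D (lin a g k g') = a * dV D g + k * dV D g' := by
  obtain ⟨hm, C, hC⟩ := hg
  obtain ⟨hm', C', hC'⟩ := hg'
  simp only [dV, Finset.mul_sum, ← Finset.sum_add_distrib]
  refine Finset.sum_congr rfl fun j _ => ?_
  rw [← integral_const_mul, ← integral_const_mul, ← integral_add
    ((integrableOn_coord hD (hm j) (hC j) j).const_mul a)
    ((integrableOn_coord hD (hm' j) (hC' j) j).const_mul k)]
  rfl

theorem dA_single (i : Fin 3) (f : ℝ → ℝ) :
    dA D (single i f) = ∫ x, f (x i) * fd D i x ∂surf D := by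
  rw [dA, Finset.sum_eq_single i (fun j _ hj => by simp [single, hj])
    fun h => absurd (Finset.mem_univ i) h]
  simp [single]

theorem dV_single (i : Fin 3) (f : ℝ → ℝ) : dV D (single i f) = ∫ x in D, f (x i) := by
  rw [dV, Finset.sum_eq_single i (fun j _ hj => by simp [single, hj])
    fun h => absurd (Finset.mem_univ i) h]
  simp [single]

theorem dA_one (i : Fin 3) : dA D (single i fun _ => 1) = ∫ x, fd D i x ∂surf D := by
  rw [dA_single]; simp

theorem dV_one (i : Fin 3) : dV D (single i fun _ => 1) = dvol D := by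
  rw [dV_single]; simp [dvol]

/-- Total variation of the area in direction `i`. -/
noncomputable def mass (D : Set V3) (i : Fin 3) : ℝ := ∫ x, fd D i x ∂surf D

theorem dA_zm (i : Fin 3) (s : ℝ) :
    dA D (single i (zm s)) =
      (∫ x, half s (x i) * fd D i x ∂surf D) - ell s * mass D i := by
  rw [dA_single, mass, ← integral_const_mul, ← integral_sub
    (integrable_mul_fd (measurable_half s) (abs_half s) i)
    (integrable_mul_fd (f := fun _ => ell s) measurable_const (fun _ => le_rfl) i)]
  simp only [zm, sub_mul]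

theorem dV_zm (hD : IsDown D) (i : Fin 3) (s : ℝ) :
    dV D (single i (zm s)) =
      volume.real (D ∩ {x | x i ∈ Iic s}) - ell s * dvol D := by
  have hfin : volume D ≠ ⊤ := ne_top_of_le_ne_top ENNReal.one_ne_top (volume_le_one hD)
  rw [dV_single]
  simp only [zm]
  rw [integral_sub (integrableOn_coord hD (measurable_half s) (abs_half s) i)
    (integrableOn_const hfin)]
  congr 1
  · have hm : MeasurableSet {x : V3 | x i ∈ Iic s} := measurable_pi_apply i measurableSet_Iic
    have : (fun x : V3 => half s (x i)) = {x : V3 | x i ∈ Iic s}.indicator fun _ => 1 := by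
      funext x
      by_cases h : x i ≤ s <;> simp [half, h]
    rw [this, setIntegral_indicator hm]
    simp
  · simp [dvol, mul_comm]

/-- Fubini on layers. -/
theorem slab_vol (hD : IsDown D) (i : Fin 3) {T : Set ℝ} (hT : MeasurableSet T) :
    volume.real (D ∩ {x | x i ∈ T}) = ∫ t in T, sliceA D i t := by
  have hm : MeasurableSet (D ∩ {x | x i ∈ T}) := hD.1.inter (measurable_pi_apply i hT)
  have hmp : MeasurePreserving (fun p : ℝ × (Fin 2 → ℝ) => (i.insertNth p.1 p.2 : V3))
      volume volume := (volume_preserving_piFinSuccAbove (fun _ : Fin 3 => ℝ) i).symm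
  have hsl : ∀ t, volume {q : Fin 2 → ℝ | i.insertNth t q ∈ D} < ⊤ := fun t =>
    (measure_mono (slice_subset hD i t)).trans_lt (by simp [volume_square])
  have hmeas : Measurable fun t => volume {q : Fin 2 → ℝ | i.insertNth t q ∈ D} :=
    measurable_measure_prodMk_left ((measurable_insertNth i) hD.1)
  simp only [sliceA, measureReal_def]
  rw [integral_toReal hmeas.aemeasurable (ae_of_all _ hsl)]
  congr 1
  rw [← hmp.measure_preimage hm.nullMeasurableSet, Measure.volume_eq_prod,
    Measure.prod_apply ((measurable_insertNth i) hm), ← lintegral_indicator hT]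
  refine lintegral_congr fun t => ?_
  by_cases ht : t ∈ T <;> simp [indicator, ht, preimage]

theorem slice_bounds (hB : SliceBasics) (hD : IsDown D) (i : Fin 3) {T : Set ℝ}
    (hT : MeasurableSet T) (hT1 : T ⊆ Ioo 0 1) {m M : ℝ}
    (hb : ∀ t ∈ T, m ≤ sliceA D i t ∧ sliceA D i t ≤ M) :
    m * volume.real T ≤ volume.real (D ∩ {x | x i ∈ T}) ∧
      volume.real (D ∩ {x | x i ∈ T}) ≤ M * volume.real T := by
  obtain ⟨-, hm, h01, -⟩ := hB D hD i
  have hfin : volume T < ⊤ := (measure_mono hT1).trans_lt measure_Ioo_lt_top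
  have hi : IntegrableOn (sliceA D i) T := IntegrableOn.of_bound hfin hm.aestronglyMeasurable 1
    (ae_of_all _ fun t => by rw [Real.norm_eq_abs, abs_of_nonneg (h01 t).1]; exact (h01 t).2)
  rw [slab_vol hD i hT]
  have hc : ∀ c : ℝ, ∫ _ in T, c = c * volume.real T := fun c => by simp [mul_comm]
  rw [← hc, ← hc]
  exact ⟨setIntegral_mono_on (integrableOn_const hfin.ne) hi hT fun t ht => (hb t ht).1,
    setIntegral_mono_on hi (integrableOn_const hfin.ne) hT fun t ht => (hb t ht).2⟩

theorem slice_le_end0 (hB : SliceBasics) (hD : IsDown D) (i : Fin 3) {t : ℝ}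
    (ht : t ∈ Ioo (0 : ℝ) 1) : sliceA D i t ≤ endA0 D i := by
  obtain ⟨ha, -, -, hl, -⟩ := hB D hD i
  refine ge_of_tendsto hl ?_
  filter_upwards [Ioo_mem_nhdsGT ht.1] with u hu
  exact ha ⟨hu.1, hu.2.trans ht.2⟩ ht hu.2.le

theorem end1_le_slice (hB : SliceBasics) (hD : IsDown D) (i : Fin 3) {t : ℝ}
    (ht : t ∈ Ioo (0 : ℝ) 1) : endA1 D i ≤ sliceA D i t := by
  obtain ⟨ha, -, -, -, hl, -⟩ := hB D hD i
  refine le_of_tendsto hl ?_
  filter_upwards [Ioo_mem_nhdsLT ht.2] with u hu
  exact ha ht ⟨ht.1.trans hu.1, hu.2⟩ hu.1.le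

theorem tendsto_slab0 (hB : SliceBasics) (hD : IsDown D) (i : Fin 3) {τ : ℝ → ℝ}
    {l : Filter ℝ} (hl : ∀ᶠ ε in l, 0 < ε ∧ τ ε ∈ Ioo (0 : ℝ) 1) (hτ0 : Tendsto τ l (𝓝 0))
    (hτ : Tendsto (fun ε => τ ε / ε) l (𝓝 1)) :
    Tendsto (fun ε => volume.real (D ∩ {x | x i ∈ Ioc 0 (τ ε)}) / ε) l (𝓝 (endA0 D i)) := by
  obtain ⟨ha, -, -, hlim, -⟩ := hB D hD i
  have h1 : Tendsto τ l (𝓝[>] 0) := tendsto_nhdsWithin_iff.2 ⟨hτ0, hl.mono fun ε h => h.2.1⟩
  have key : ∀ ε, 0 < ε ∧ τ ε ∈ Ioo (0 : ℝ) 1 →
      sliceA D i (τ ε) * (τ ε / ε) ≤ volume.real (D ∩ {x | x i ∈ Ioc 0 (τ ε)}) / ε ∧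
        volume.real (D ∩ {x | x i ∈ Ioc 0 (τ ε)}) / ε ≤ endA0 D i * (τ ε / ε) := by
    intro ε h
    have hsub : Ioc 0 (τ ε) ⊆ Ioo (0 : ℝ) 1 := fun t ht => ⟨ht.1, ht.2.trans_lt h.2.2⟩
    obtain ⟨b1, b2⟩ := slice_bounds hB hD i measurableSet_Ioc hsub
      (m := sliceA D i (τ ε)) (M := endA0 D i)
      fun t ht => ⟨ha (hsub ht) h.2 ht.2, slice_le_end0 hB hD i (hsub ht)⟩
    rw [Real.volume_real_Ioc_of_le h.2.1.le, sub_zero] at b1 b2
    rw [← mul_div_assoc, ← mul_div_assoc]
    exact ⟨div_le_div_of_nonneg_right b1 h.1.le, div_le_div_of_nonneg_right b2 h.1.le⟩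
  refine tendsto_of_tendsto_of_tendsto_of_le_of_le' ?_ ?_ (hl.mono fun ε h => (key ε h).1)
    (hl.mono fun ε h => (key ε h).2)
  · simpa using (hlim.comp h1).mul hτ
  · simpa using hτ.const_mul (endA0 D i)

theorem tendsto_slab1 (hB : SliceBasics) (hD : IsDown D) (i : Fin 3) {τ : ℝ → ℝ}
    {l : Filter ℝ} (hl : ∀ᶠ ε in l, 0 < ε ∧ τ ε ∈ Ioo (0 : ℝ) 1) (hτ0 : Tendsto τ l (𝓝 0))
    (hτ : Tendsto (fun ε => τ ε / ε) l (𝓝 1)) :
    Tendsto (fun ε => volume.real (D ∩ {x | x i ∈ Ico (1 - τ ε) 1}) / ε) l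
      (𝓝 (endA1 D i)) := by
  obtain ⟨ha, -, -, -, hlim, -⟩ := hB D hD i
  have h1 : Tendsto (fun ε => 1 - τ ε) l (𝓝[<] 1) := tendsto_nhdsWithin_iff.2
    ⟨by simpa using hτ0.const_sub 1, hl.mono fun ε h => sub_lt_self 1 h.2.1⟩
  have key : ∀ ε, 0 < ε ∧ τ ε ∈ Ioo (0 : ℝ) 1 →
      endA1 D i * (τ ε / ε) ≤ volume.real (D ∩ {x | x i ∈ Ico (1 - τ ε) 1}) / ε ∧
        volume.real (D ∩ {x | x i ∈ Ico (1 - τ ε) 1}) / ε ≤ sliceA D i (1 - τ ε) * (τ ε / ε) := by
    intro ε h
    have hm : 1 - τ ε ∈ Ioo (0 : ℝ) 1 := ⟨by linarith [h.2.2], by linarith [h.2.1]⟩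
    have hsub : Ico (1 - τ ε) 1 ⊆ Ioo (0 : ℝ) 1 := fun t ht => ⟨hm.1.trans_le ht.1, ht.2⟩
    obtain ⟨b1, b2⟩ := slice_bounds hB hD i measurableSet_Ico hsub
      (m := endA1 D i) (M := sliceA D i (1 - τ ε))
      fun t ht => ⟨end1_le_slice hB hD i (hsub ht), ha hm (hsub ht) ht.1⟩
    rw [Real.volume_real_Ico_of_le (by linarith [h.2.1]), sub_sub_cancel] at b1 b2
    rw [← mul_div_assoc, ← mul_div_assoc]
    exact ⟨div_le_div_of_nonneg_right b1 h.1.le, div_le_div_of_nonneg_right b2 h.1.le⟩
  refine tendsto_of_tendsto_of_tendsto_of_le_of_le' ?_ ?_ (hl.mono fun ε h => (key ε h).1)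
    (hl.mono fun ε h => (key ε h).2)
  · simpa using hτ.const_mul (endA1 D i)
  · simpa using (hlim.comp h1).mul hτ

/-- Layer widths. -/
theorem tendsto_tau (C : ℝ) :
    (∀ᶠ ε in 𝓝[>] (0 : ℝ), 0 < ε ∧ ε / (1 + ε * C) ∈ Ioo (0 : ℝ) 1) ∧
      Tendsto (fun ε => ε / (1 + ε * C)) (𝓝[>] 0) (𝓝 0) ∧
      Tendsto (fun ε => ε / (1 + ε * C) / ε) (𝓝[>] 0) (𝓝 1) := by
  have hid : Tendsto id (𝓝[>] (0 : ℝ)) (𝓝 0) := nhdsWithin_le_nhds
  have h1 : Tendsto (fun ε : ℝ => 1 + ε * C) (𝓝[>] 0) (𝓝 1) := by
    simpa using (hid.mul_const C).const_add 1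
  have h0 : Tendsto (fun ε => ε / (1 + ε * C)) (𝓝[>] 0) (𝓝 0) := by
    have := hid.div h1 one_ne_zero
    simp only [zero_div] at this
    exact this
  refine ⟨?_, h0, ?_⟩
  · filter_upwards [self_mem_nhdsWithin, h1.eventually (Ioi_mem_nhds zero_lt_one),
      h0.eventually (Iio_mem_nhds zero_lt_one)] with ε hε h2 h3
    exact ⟨hε, div_pos hε h2, h3⟩
  · have := (tendsto_const_nhds (x := (1 : ℝ))).div h1 one_ne_zero
    rw [div_one] at this
    refine this.congr' ?_
    filter_upwards [self_mem_nhdsWithin] with ε hε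
    rw [Pi.div_apply, div_right_comm, div_self (ne_of_gt (show (0 : ℝ) < ε from hε))]

theorem eventually_small (C : ℝ) : ∀ᶠ ε in 𝓝[>] (0 : ℝ), 0 < ε ∧ ε * C ≤ 1 / 2 := by
  have hid : Tendsto (fun ε : ℝ => ε * C) (𝓝[>] 0) (𝓝 0) := by
    simpa using (tendsto_id.mono_left nhdsWithin_le_nhds : Tendsto id (𝓝[>] (0 : ℝ)) (𝓝 0)).mul_const C
  filter_upwards [self_mem_nhdsWithin, hid.eventually (Iic_mem_nhds (by norm_num : (0 : ℝ) < 1 / 2))]
    with ε h1 h2 using ⟨h1, h2⟩

theorem adv_strictMono (b : ℝ) {g : ℝ → ℝ} (hg : Measurable g) {C ε : ℝ} (hC : ∀ t, |g t| ≤ C)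
    (hε : 0 < ε) (hεC : ε * C ≤ 1 / 2) : StrictMono (adv b g ε) := by
  obtain ⟨e, he, -⟩ := exists_iso b hg hC hε hεC
  intro s t hst
  rw [← he, ← he]
  exact e.strictMono hst

theorem adv_zero (b : ℝ) (g : ℝ → ℝ) (ε : ℝ) : adv b g ε 0 = ε * b := by simp [adv]

theorem adv_mem {b : ℝ} {g : ℝ → ℝ} (hg : Measurable g) {C ε : ℝ} (hC : ∀ t, |g t| ≤ C)
    (hε : 0 < ε) (hεC : ε * C ≤ 1 / 2) (h0 : b = 0) (h1 : b + ∫ t in (0 : ℝ)..1, g t ≤ 0)
    {x : ℝ} (hx : x ∈ Ioo (0 : ℝ) 1) : adv b g ε x ∈ Ioo (0 : ℝ) 1 := by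
  subst h0
  have hm := adv_strictMono 0 hg hC hε hεC
  refine ⟨?_, (hm hx.2).trans_le ?_⟩
  · have := hm hx.1
    rwa [adv_zero, mul_zero] at this
  · rw [adv]; nlinarith

theorem surf_ae_cube (hD : IsDown D) : ∀ᵐ x ∂surf D, x ∈ cube := by
  suffices h : surf D cubeᶜ = 0 from
    (measure_eq_zero_iff_ae_notMem.1 h).mono fun x hx => not_not.1 hx
  rw [surf, Measure.coe_finsetSum, Finset.sum_apply]
  refine Finset.sum_eq_zero fun i _ => ?_
  rw [sheet, Measure.map_apply (measurable_graph hD.1 i) measurableSet_cube.compl,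
    Measure.restrict_apply ((measurable_graph hD.1 i) measurableSet_cube.compl)]
  refine measure_mono_null (fun q hq => ?_) measure_empty
  exact hq.1 (insertNth_mem_cube.2 ⟨hq.2.2, hq.2.1⟩)

theorem layer_le (hD : IsDown D) {i : Fin 3} {L : ℝ → ℝ} (hL : LengthBound D i L) {T : Set ℝ}
    (hT : MeasurableSet T) (hT1 : T ⊆ Ioo 0 1) {l : ℝ} (hl : ∀ t ∈ T, l ≤ L t) {S : Set V3}
    (hS : ∀ x ∈ cube, x i ∈ T → x ∈ Sᶜ) (hSm : MeasurableSet S) :
    max l 0 * volume.real T ≤ ∫ x in Sᶜ, dnorm D x ∂surf D := by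
  have hfin : volume T < ⊤ := (measure_mono hT1).trans_lt measure_Ioo_lt_top
  rw [← ENNReal.ofReal_le_ofReal_iff (setIntegral_nonneg hSm.compl fun x _ => dnorm_nonneg D x),
    ENNReal.ofReal_mul (le_max_right _ _), measureReal_def, ENNReal.ofReal_toReal hfin.ne,
    ofReal_integral_eq_lintegral_ofReal (integrable_dnorm D).integrableOn
      (ae_of_all _ (dnorm_nonneg D)), ← setLIntegral_const]
  have h := hL.2 (T.indicator 1) (measurable_const.indicator hT)
  calc ∫⁻ _ in T, ENNReal.ofReal (max l 0)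
      ≤ ∫⁻ t in T, ENNReal.ofReal (L t) :=
        setLIntegral_mono hL.1.ennreal_ofReal fun t ht => by
          rw [ENNReal.ofReal_max, ENNReal.ofReal_zero, max_eq_left zero_le]
          exact ENNReal.ofReal_le_ofReal (hl t ht)
    _ = ∫⁻ t in Ioo (0 : ℝ) 1, T.indicator 1 t * ENNReal.ofReal (L t) := by
        rw [← lintegral_indicator hT, ← lintegral_indicator measurableSet_Ioo]
        refine lintegral_congr fun t => ?_
        by_cases ht : t ∈ T
        · simp [ht, hT1 ht]
        · simp [indicator, ht]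
    _ ≤ ∫⁻ x, T.indicator 1 (x i) * ENNReal.ofReal (dtan D i x) ∂surf D := h
    _ ≤ ∫⁻ x in Sᶜ, ENNReal.ofReal (dnorm D x) ∂surf D := by
        rw [← lintegral_indicator hSm.compl]
        refine lintegral_mono_ae ?_
        filter_upwards [surf_ae_cube hD] with x hx
        by_cases ht : x i ∈ T
        · rw [indicator_of_mem ht, Pi.one_apply, one_mul, indicator_of_mem (hS x hx ht)]
          refine ENNReal.ofReal_le_ofReal ?_
          refine le_of_pow_le_pow_left₀ two_ne_zero (dnorm_nonneg D x) ?_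
          rw [dnorm_sq D i x]; nlinarith
        · simp [indicator, ht]

theorem measurableSet_keepSet (b : Fin 3 → ℝ) {g : Fin 3 → ℝ → ℝ} (hg : BM g) (ε : ℝ) :
    MeasurableSet (keepSet b g ε) := by
  obtain ⟨hm, C, hC⟩ := hg
  have : ∀ j, Measurable fun x : V3 => adv (b j) (g j) ε (x j) := fun j =>
    (continuous_id.add (continuous_const.mul (continuous_const.add
      (intervalIntegral.continuous_primitive (intervalIntegrable_bdd (hm j) (hC j)) 0)))).measurable
      |>.comp (measurable_pi_apply j)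
  simp only [keepSet, ofPred_forall]
  exact MeasurableSet.iInter fun j => this j measurableSet_Ioo

theorem slope_zero (v : ℝ) : slope v 0 = 0 := by simp [slope]

/-- Stretches of the axes keeping both ends. -/
theorem var_two_sided (hmin : IsOpt D) {g : Fin 3 → ℝ → ℝ} (hg : BM g)
    (hg0 : ∀ j, ∫ t in (0 : ℝ)..1, g j t = 0) : slope (dvol D) (dV D g) ≤ dA D g := by
  obtain ⟨hm, C, hC⟩ := hg
  have := firstVar hmin (fun _ => 0) g hm hC (fun _ => le_rfl)
    (fun j => Or.inr (by simp [hg0 j])) (W := 0) (q0 := 0) (q := fun _ => 0)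
    (tendsto_const_nhds.congr' ?_) (Eventually.of_forall fun ε =>
      integral_nonneg fun x => dnorm_nonneg D x) (by simp)
  · simpa using this
  · filter_upwards [eventually_small C] with ε ⟨hε, hεC⟩
    have : D \ keepSet (fun _ => 0) g ε = ∅ := by
      ext x
      simp only [Set.mem_sdiff, mem_empty_iff_false, iff_false, not_and, not_not]
      exact fun hx j => adv_mem (hm j) (hC j) hε hεC rfl (by simp [hg0 j])
        (mem_cube_iff.1 (hmin.1.2.1 hx) j)
    simp [this]

/-- A minimiser is not invariant along every axis. -/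
theorem exists_ne (hB : SliceBasics) (hmin : IsOpt D) :
    ∃ i s, dV D (single i (zm s)) ≠ 0 := by
  obtain ⟨hD, hv0, hv2, -⟩ := hmin
  by_contra hcon
  push Not at hcon
  have hfin : volume D ≠ ⊤ := ne_top_of_le_ne_top ENNReal.one_ne_top (volume_le_one hD)
  have hsl : ∀ i, ∀ s ∈ Ioo (0 : ℝ) 1, sliceA D i s = dvol D := by
    intro i s hs
    obtain ⟨ha, -⟩ := hB D hD i
    have hA := hcon i s
    rw [dV_zm hD] at hA
    have hell : ell s = s := by
      rw [ell, intervalIntegral.integral_of_le zero_le_one, half,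
        setIntegral_indicator measurableSet_Iic, Ioc_inter_Iic, min_eq_right hs.2.le]
      simp [hs.1.le]
    rw [hell] at hA
    have e1 : D ∩ {x | x i ∈ Iic s} = D ∩ {x | x i ∈ Ioc 0 s} := by
      ext x
      simp only [mem_inter_iff, mem_ofPred_eq, mem_Iic, mem_Ioc, and_congr_right_iff]
      exact fun hx => ⟨fun h => ⟨(mem_cube_iff.1 (hD.2.1 hx) i).1, h⟩, fun h => h.2⟩
    have e2 : D ∩ {x | x i ∈ Ioo s 1} = D \ (D ∩ {x | x i ∈ Iic s}) := by
      ext x
      simp only [mem_inter_iff, mem_ofPred_eq, mem_Iic, mem_Ioo, Set.mem_sdiff, not_and, not_le]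
      exact ⟨fun h => ⟨h.1, fun _ => h.2.1⟩, fun h => ⟨h.1, h.2 h.1, (mem_cube_iff.1 (hD.2.1 h.1) i).2⟩⟩
    have h1 := (slice_bounds hB hD i measurableSet_Ioc (T := Ioc 0 s)
      (fun t ht => ⟨ht.1, ht.2.trans_lt hs.2⟩) (m := sliceA D i s) (M := endA0 D i)
      fun t ht => ⟨ha ⟨ht.1, ht.2.trans_lt hs.2⟩ hs ht.2,
        slice_le_end0 hB hD i ⟨ht.1, ht.2.trans_lt hs.2⟩⟩).1
    have h2 := (slice_bounds hB hD i measurableSet_Ioo (T := Ioo s 1)
      (fun t ht => ⟨hs.1.trans ht.1, ht.2⟩) (m := endA1 D i) (M := sliceA D i s)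
      fun t ht => ⟨end1_le_slice hB hD i ⟨hs.1.trans ht.1, ht.2⟩,
        ha hs ⟨hs.1.trans ht.1, ht.2⟩ ht.1.le⟩).2
    have hms : MeasurableSet {x : V3 | x i ∈ Iic s} := measurable_pi_apply i measurableSet_Iic
    rw [e2, measureReal_sdiff inter_subset_left (hD.1.inter hms) hfin,
      Real.volume_real_Ioo_of_le hs.2.le] at h2
    rw [← e1, Real.volume_real_Ioc_of_le hs.1.le, sub_zero] at h1
    have h3 : volume.real (D ∩ {x | x i ∈ Iic s}) = s * dvol D := by linarith
    rw [h3] at h1 h2
    refine le_antisymm (le_of_mul_le_mul_right (by linarith) hs.1) ?_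
    refine le_of_mul_le_mul_right ?_ (sub_pos.2 hs.2)
    rw [show volume.real D = dvol D from rfl] at h2
    linarith
  have hend : ∀ i, endA0 D i = endA1 D i := by
    intro i
    obtain ⟨-, -, -, hl0, hl1, -⟩ := hB D hD i
    have c0 : Tendsto (sliceA D i) (𝓝[>] (0 : ℝ)) (𝓝 (dvol D)) := tendsto_const_nhds.congr' <| by
      filter_upwards [Ioo_mem_nhdsGT zero_lt_one] with t ht using (hsl i t ht).symm
    have c1 : Tendsto (sliceA D i) (𝓝[<] (1 : ℝ)) (𝓝 (dvol D)) := tendsto_const_nhds.congr' <| by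
      filter_upwards [Ioo_mem_nhdsLT zero_lt_one] with t ht using (hsl i t ht).symm
    rw [tendsto_nhds_unique hl0 c0, tendsto_nhds_unique hl1 c1]
  have hfill : ∀ i (q q' : Fin 2 → ℝ), q ∈ square → 0 < ext D i q → (∀ j, q' j < q j) →
      q' ∈ square → ∀ t ∈ Ioo (0 : ℝ) 1, i.insertNth t q' ∈ D := by
    intro i q q' hq he hlt hq' t ht
    refine mem_of_lt_ext hD ht.1 (ht.2.trans_le ?_)
    by_contra hne
    push Not at hne
    have hbox : (univ.pi fun j => Ioo (q' j) (q j)) ⊆
        {p | p ∈ square ∧ 0 < ext D i p} \ {p | p ∈ square ∧ ext D i p = 1} := by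
      intro p hp
      have hpq : ∀ j, q' j < p j ∧ p j < q j := fun j => hp j (mem_univ j)
      have hps : p ∈ square := mem_square_iff.2 fun j =>
        ⟨(mem_square_iff.1 hq' j).1.trans (hpq j).1, (hpq j).2.trans (mem_square_iff.1 hq j).2⟩
      refine ⟨⟨hps, he.trans_le (ext_antitone hD i hps hq fun j => (hpq j).2.le)⟩, fun h => ?_⟩
      have := ext_antitone hD i hq' hps fun j => (hpq j).1.le
      linarith [h.2]
    have hsq : ∀ P : Set (Fin 2 → ℝ), P ⊆ square → volume P ≠ ⊤ := fun P hP =>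
      ne_top_of_le_ne_top (by simp [volume_square]) (measure_mono hP)
    have hnull : volume.real ({p | p ∈ square ∧ 0 < ext D i p} \
        {p | p ∈ square ∧ ext D i p = 1}) = 0 := by
      have hsub : {p | p ∈ square ∧ ext D i p = 1} ⊆ {p | p ∈ square ∧ 0 < ext D i p} :=
        fun p hp => ⟨hp.1, by rw [hp.2]; exact one_pos⟩
      rw [measureReal_sdiff hsub
        (measurableSet_square.inter (measurable_ext hD.1 i (measurableSet_singleton 1)))
        (hsq {p | p ∈ square ∧ 0 < ext D i p} fun p hp => hp.1)]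
      exact sub_eq_zero.2 (hend i)
    have hz := measure_mono_null hbox
      ((measureReal_eq_zero_iff (hsq ({p | p ∈ square ∧ 0 < ext D i p} \
        {p | p ∈ square ∧ ext D i p = 1}) fun p hp => hp.1.1)).1 hnull)
    rw [volume_pi_pi] at hz
    obtain ⟨j, -, hj⟩ := Finset.prod_eq_zero_iff.1 hz
    simp only [Real.volume_Ioo, ENNReal.ofReal_eq_zero] at hj
    linarith [hlt j]
  have hstep : ∀ i {x y : V3}, x ∈ D → y ∈ cube → (∀ k, k ≠ i → y k < x k) → y ∈ D := by
    intro i x y hx hy hyx
    have hpos : 0 < ext D i (i.removeNth x) :=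
      (mem_cube_iff.1 (hD.2.1 hx) i).1.trans_le (le_ext_of_mem hD (by simpa using hx))
    have hxm := (insertNth_mem_cube (i := i) (t := x i) (q := i.removeNth x)).1
      (by simpa using hD.2.1 hx)
    have hym := (insertNth_mem_cube (i := i) (t := y i) (q := i.removeNth y)).1 (by simpa using hy)
    have := hfill i _ _ hxm.2 hpos (fun j => hyx _ (Fin.succAbove_ne i j)) hym.2 _ hym.1
    convert this using 1
    exact (Fin.insertNth_self_removeNth i y).symm
  obtain ⟨x, hx⟩ : D.Nonempty := by
    by_contra h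
    rw [not_nonempty_iff_eq_empty] at h
    simp [h, dvol] at hv0
  have hxc := mem_cube_iff.1 (hD.2.1 hx)
  have hall : cube ⊆ D := by
    intro y hy
    have hy' := mem_cube_iff.1 hy
    have h0 := hstep 0 (y := ![(1 + y 0) / 2, x 1 / 2, x 2 / 2]) hx
      (mem_cube_iff.2 fun k => by fin_cases k <;> simp <;> constructor <;>
        linarith [(hy' 0).1, (hy' 0).2, (hxc 1).1, (hxc 1).2, (hxc 2).1, (hxc 2).2])
      (fun k hk => by fin_cases k <;> simp at hk ⊢ <;> linarith [(hxc 1).1, (hxc 2).1])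
    have h1 := hstep 1 (y := ![(1 + 3 * y 0) / 4, (1 + y 1) / 2, x 2 / 4]) h0
      (mem_cube_iff.2 fun k => by fin_cases k <;> simp <;> constructor <;>
        linarith [(hy' 0).1, (hy' 0).2, (hy' 1).1, (hy' 1).2, (hxc 2).1, (hxc 2).2])
      (fun k hk => by fin_cases k <;> simp at hk ⊢ <;> linarith [(hy' 0).2, (hxc 2).1])
    exact hstep 2 (y := y) h1 hy
      (fun k hk => by fin_cases k <;> simp at hk ⊢ <;> linarith [(hy' 0).2, (hy' 1).2])
  have := measureReal_mono (μ := (volume : Measure V3)) hall hfin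
  simp only [measureReal_def, volume_cube, ENNReal.toReal_one] at this
  simp only [dvol, measureReal_def] at hv2
  linarith

end Var

open Var

/-- Down-sets of least `area - jQ` are stationary. -/
theorem stationary_of_opt (hB : SliceBasics) {D : Set V3} (hmin : IsOpt D) :
    ∃ (h : ℝ) (c : Fin 3 → ℝ), hLo (dvol D) ≤ h ∧ h ≤ hHi (dvol D) ∧ Stationary D h c := by
  obtain ⟨hD, hv0, hv2, -⟩ := id hmin
  set v := dvol D with hv
  obtain ⟨i0, s0, hne⟩ := exists_ne hB hmin
  set g0 := single i0 (zm s0)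
  have bg0 : BM g0 := bm_zm i0 s0
  have mg0 : ∀ j, ∫ t in (0 : ℝ)..1, g0 j t = 0 := mean_zm i0 s0
  set V0 := dV D g0 with hV0
  set h := dA D g0 / V0 with hh
  have hD0 : dA D g0 = h * V0 := (div_mul_cancel₀ _ hne).symm
  have two : ∀ g, BM g → (∀ j, ∫ t in (0 : ℝ)..1, g j t = 0) → dA D g = h * dV D g := by
    intro g hg hg0
    have hk : ∀ a k : ℝ, a * dV D g + k * V0 = 0 → 0 ≤ a * dA D g + k * dA D g0 := by
      intro a k hak
      have := var_two_sided hmin (hg.lin bg0 a k) fun j => by
        rw [mean_lin hg bg0, hg0, mg0]; ring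
      rwa [dV_lin hD hg bg0, hak, slope_zero, dA_lin hg bg0] at this
    have p := hk 1 (-(dV D g / V0)) (by field_simp; ring)
    have n := hk (-1) (dV D g / V0) (by field_simp; ring)
    have e : dV D g / V0 * dA D g0 = h * dV D g := by rw [hD0]; field_simp
    linarith
  have hrange : hLo v ≤ h ∧ h ≤ hHi v := by
    have hk : ∀ k : ℝ, Var.slope v (k * V0) ≤ k * dA D g0 := by
      intro k
      have := var_two_sided hmin (bg0.lin bg0 k 0) fun j => by rw [mean_lin bg0 bg0, mg0]; ring
      rwa [dV_lin hD bg0 bg0, dA_lin bg0 bg0, zero_mul, zero_mul, add_zero, add_zero] at this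
    have hp := hk (1 / V0)
    have hn := hk (-(1 / V0))
    rw [one_div, inv_mul_cancel₀ hne] at hp
    rw [neg_mul, one_div, inv_mul_cancel₀ hne] at hn
    have e : V0⁻¹ * dA D g0 = h := by rw [hh]; ring
    simp only [Var.slope, neg_mul, e] at hp hn
    norm_num at hp hn
    exact ⟨hp, by linarith⟩
  have h0 : 0 ≤ h := (hLo_nonneg hv0).trans hrange.1
  set c : Fin 3 → ℝ := fun i => mass D i - h * v with hc
  have hflux : ∀ i s, ∫ x, half s (x i) * fd D i x ∂surf D =
      h * volume.real (D ∩ {x | x i ∈ Iic s}) + ell s * c i := by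
    intro i s
    have := two _ (bm_zm i s) (mean_zm i s)
    rw [dA_zm, dV_zm hD, ← hv] at this
    linear_combination this
  have hends : ∀ (i : Fin 3) (L : ℝ → ℝ), LengthBound D i L → ∀ l : ℝ,
      ((∀ᶠ t in 𝓝[>] (0 : ℝ), l ≤ L t) → max l 0 ≤ h * endA0 D i + c i) ∧
      ((∀ᶠ t in 𝓝[<] (1 : ℝ), l ≤ L t) → max l 0 ≤ h * endA1 D i + c i) := by
    intro i L hL l
    constructor <;> intro hev
    · set k := (endA0 D i - v) / V0 with hk
      set g := lin 1 (single i fun _ => 1) k g0 with hgdef
      set b : Fin 3 → ℝ := fun j => if j = i then -1 else 0 with hb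
      have hg : BM g := (bm_one i).lin bg0 _ _
      have hG : ∀ j, b j + ∫ t in (0 : ℝ)..1, g j t = 0 := fun j => by
        rw [hgdef, mean_lin (bm_one i) bg0, mean_one, mg0, hb]
        by_cases h : j = i <;> simp [h]
      obtain ⟨hm, C, hC⟩ := id hg
      have hCge : ∀ x : ℝ, 0 ≤ x → |∫ t in (0 : ℝ)..x, g i t| ≤ C * x := fun x hx => by
        simpa [abs_of_nonneg hx] using abs_integral_le (hC i) 0 x
      have hin : ∀ ε, 0 < ε → ε * C ≤ 1 / 2 → ∀ x ∈ cube,
          (x i * (1 + ε * C) ≤ ε → x ∉ keepSet b g ε) ∧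
          (x ∉ keepSet b g ε → x i * (1 - ε * C) ≤ ε) := by
        intro ε hε hεC x hx
        have hxi := mem_cube_iff.1 hx i
        obtain ⟨h1, h2⟩ := abs_le.1 (hCge _ hxi.1.le)
        refine ⟨fun hle hk => ?_, fun hk => ?_⟩
        · have := (hk i).1
          simp only [adv, hb, if_true] at this
          nlinarith [mul_le_mul_of_nonneg_left h2 hε.le]
        · simp only [keepSet, mem_ofPred_eq, not_forall] at hk
          obtain ⟨j, hj⟩ := hk
          by_cases hji : j = i
          · subst hji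
            have hlt := adv_strictMono (b j) (hm j) (hC j) hε hεC hxi.2
            have h11 : adv (b j) (g j) ε 1 = 1 := by rw [adv, hG]; ring
            rw [h11] at hlt
            have : adv (b j) (g j) ε (x j) ≤ 0 := not_lt.1 fun h' => hj ⟨h', hlt⟩
            simp only [adv, hb, if_true] at this
            nlinarith [mul_le_mul_of_nonneg_left h1 hε.le]
          · exact absurd (adv_mem (hm j) (hC j) hε hεC (by simp [hb, hji]) (hG j).le
              (mem_cube_iff.1 hx j)) hj
      obtain ⟨e1, z1, r1⟩ := tendsto_tau C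
      obtain ⟨e2, z2, r2⟩ := tendsto_tau (-C)
      have hW : Tendsto (fun ε => volume.real (D \ keepSet b g ε) / ε) (𝓝[>] 0)
          (𝓝 (endA0 D i)) := by
        refine tendsto_of_tendsto_of_tendsto_of_le_of_le' (tendsto_slab0 hB hD i e1 z1 r1)
          (tendsto_slab0 hB hD i e2 z2 r2) ?_ ?_
        · filter_upwards [eventually_small C] with ε ⟨hε, hεC⟩
          have hC0 : 0 ≤ ε * C := mul_nonneg hε.le ((abs_nonneg _).trans (hC i 0))
          refine div_le_div_of_nonneg_right (measureReal_mono (fun x hx => ⟨hx.1, ?_⟩) ?_) hε.le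
          · refine ((hin ε hε hεC x (hD.2.1 hx.1)).1 ?_)
            have := hx.2.2
            rwa [le_div_iff₀ (by linarith)] at this
          · exact ne_top_of_le_ne_top ENNReal.one_ne_top
              ((measure_mono sdiff_subset).trans (volume_le_one hD))
        · filter_upwards [eventually_small C] with ε ⟨hε, hεC⟩
          refine div_le_div_of_nonneg_right (measureReal_mono (fun x hx => ⟨hx.1, ?_⟩) ?_) hε.le
          · refine ⟨(mem_cube_iff.1 (hD.2.1 hx.1) i).1, ?_⟩
            rw [le_div_iff₀ (by linarith), mul_neg, ← sub_eq_add_neg]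
            exact (hin ε hε hεC x (hD.2.1 hx.1)).2 hx.2
          · exact ne_top_of_le_ne_top ENNReal.one_ne_top
              ((measure_mono inter_subset_left).trans (volume_le_one hD))
      obtain ⟨u, hu, hu'⟩ := mem_nhdsGT_iff_exists_Ioc_subset.1 hev
      have := firstVar hmin b g hm hC (fun j => by by_cases h : j = i <;> simp [hb, h])
        (fun j => Or.inr (hG j).ge) hW
        (q := fun ε => max l 0 * (ε / (1 + ε * C))) (q0 := max l 0) ?_ ?_
      · rw [hgdef, dA_lin (bm_one i) bg0, dV_lin hD (bm_one i) bg0, dA_one, dV_one, ← hv, hD0,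
          ← hV0, hk, div_mul_cancel₀ _ hne,
          show 1 * v + (endA0 D i - v) - endA0 D i = 0 by ring, slope_zero] at this
        rw [hc]
        have : (endA0 D i - v) / V0 * (h * V0) = h * (endA0 D i - v) := by field_simp
        simp only [mass] at *
        linarith
      · filter_upwards [eventually_small C, e1, z1.eventually (Iic_mem_nhds hu)]
          with ε ⟨hε, hεC⟩ ⟨_, hτ⟩ hτu
        have hC0 : 0 ≤ ε * C := mul_nonneg hε.le ((abs_nonneg _).trans (hC i 0))
        have := layer_le hD hL (T := Ioc 0 (ε / (1 + ε * C))) measurableSet_Ioc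
          (fun t ht => ⟨ht.1, ht.2.trans_lt hτ.2⟩) (l := l)
          (fun t ht => hu' ⟨ht.1, ht.2.trans hτu⟩)
          (S := keepSet b g ε) (fun x hx hxi => (hin ε hε hεC x hx).1
            ((le_div_iff₀ (by linarith)).1 hxi.2)) (measurableSet_keepSet b hg ε)
        rwa [Real.volume_real_Ioc_of_le hτ.1.le, sub_zero] at this
      · simp only [mul_div_assoc]
        simpa using r1.const_mul (max l 0)
    · set k := (endA1 D i - v) / V0 with hk
      set g := lin 1 (single i fun _ => 1) k g0 with hgdef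
      set b : Fin 3 → ℝ := fun _ => 0 with hb
      have hg : BM g := (bm_one i).lin bg0 _ _
      have hG : ∀ j, ∫ t in (0 : ℝ)..1, g j t = if j = i then 1 else 0 := fun j => by
        rw [hgdef, mean_lin (bm_one i) bg0, mean_one, mg0]; ring
      obtain ⟨hm, C, hC⟩ := id hg
      have hCge : ∀ x : ℝ, x ≤ 1 → |∫ t in x..1, g i t| ≤ C * (1 - x) := fun x hx => by
        simpa [abs_of_nonneg (sub_nonneg.2 hx)] using abs_integral_le (hC i) x 1
      have hin : ∀ ε, 0 < ε → ε * C ≤ 1 / 2 → ∀ x ∈ cube,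
          ((1 - x i) * (1 + ε * C) ≤ ε → x ∉ keepSet b g ε) ∧
          (x ∉ keepSet b g ε → (1 - x i) * (1 - ε * C) ≤ ε) := by
        intro ε hε hεC x hx
        have hxi := mem_cube_iff.1 hx i
        obtain ⟨h1, h2⟩ := abs_le.1 (hCge _ hxi.2.le)
        have hadv : adv (b i) (g i) ε (x i) = x i + ε * (1 - ∫ t in x i..1, g i t) := by
          have := intervalIntegral.integral_add_adjacent_intervals
            (intervalIntegrable_bdd (hm i) (hC i) 0 (x i))
            (intervalIntegrable_bdd (hm i) (hC i) (x i) 1)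
          rw [hG, if_pos rfl] at this
          simp only [adv, hb]
          linear_combination ε * this
        refine ⟨fun hle hk => ?_, fun hk => ?_⟩
        · have := (hk i).2
          rw [hadv] at this
          nlinarith [mul_le_mul_of_nonneg_left h2 hε.le]
        · simp only [keepSet, mem_ofPred_eq, not_forall] at hk
          obtain ⟨j, hj⟩ := hk
          by_cases hji : j = i
          · subst hji
            have hlt := adv_strictMono (b j) (hm j) (hC j) hε hεC hxi.1
            rw [adv_zero, hb, mul_zero] at hlt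
            have : 1 ≤ adv (b j) (g j) ε (x j) := not_lt.1 fun h' => hj ⟨hlt, h'⟩
            rw [hadv] at this
            nlinarith [mul_le_mul_of_nonneg_left h1 hε.le]
          · exact absurd (adv_mem (hm j) (hC j) hε hεC rfl (by simp [hG j, hji])
              (mem_cube_iff.1 hx j)) hj
      obtain ⟨e1, z1, r1⟩ := tendsto_tau C
      obtain ⟨e2, z2, r2⟩ := tendsto_tau (-C)
      have hW : Tendsto (fun ε => volume.real (D \ keepSet b g ε) / ε) (𝓝[>] 0)
          (𝓝 (endA1 D i)) := by
        refine tendsto_of_tendsto_of_tendsto_of_le_of_le' (tendsto_slab1 hB hD i e1 z1 r1)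
          (tendsto_slab1 hB hD i e2 z2 r2) ?_ ?_
        · filter_upwards [eventually_small C] with ε ⟨hε, hεC⟩
          have hC0 : 0 ≤ ε * C := mul_nonneg hε.le ((abs_nonneg _).trans (hC i 0))
          refine div_le_div_of_nonneg_right (measureReal_mono (fun x hx => ⟨hx.1, ?_⟩) ?_) hε.le
          · refine ((hin ε hε hεC x (hD.2.1 hx.1)).1 ?_)
            have := hx.2.1
            rw [sub_le_comm, le_div_iff₀ (by linarith)] at this
            exact this
          · exact ne_top_of_le_ne_top ENNReal.one_ne_top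
              ((measure_mono sdiff_subset).trans (volume_le_one hD))
        · filter_upwards [eventually_small C] with ε ⟨hε, hεC⟩
          refine div_le_div_of_nonneg_right (measureReal_mono (fun x hx => ⟨hx.1, ?_⟩) ?_) hε.le
          · refine ⟨?_, (mem_cube_iff.1 (hD.2.1 hx.1) i).2⟩
            rw [sub_le_comm, le_div_iff₀ (by linarith), mul_neg, ← sub_eq_add_neg]
            exact (hin ε hε hεC x (hD.2.1 hx.1)).2 hx.2
          · exact ne_top_of_le_ne_top ENNReal.one_ne_top
              ((measure_mono inter_subset_left).trans (volume_le_one hD))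
      obtain ⟨u, hu, hu'⟩ := mem_nhdsLT_iff_exists_Ico_subset.1 hev
      have := firstVar hmin b g hm hC (fun j => le_rfl)
        (fun j => Or.inr (by rw [hG]; simp only [hb]; split_ifs <;> norm_num)) hW
        (q := fun ε => max l 0 * (ε / (1 + ε * C))) (q0 := max l 0) ?_ ?_
      · rw [hgdef, dA_lin (bm_one i) bg0, dV_lin hD (bm_one i) bg0, dA_one, dV_one, ← hv, hD0,
          ← hV0, hk, div_mul_cancel₀ _ hne,
          show 1 * v + (endA1 D i - v) - endA1 D i = 0 by ring, slope_zero] at this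
        rw [hc]
        have : (endA1 D i - v) / V0 * (h * V0) = h * (endA1 D i - v) := by field_simp
        simp only [mass] at *
        linarith
      · filter_upwards [eventually_small C, e1,
          z1.eventually (Iic_mem_nhds (show 0 < 1 - u from sub_pos.2 hu))]
          with ε ⟨hε, hεC⟩ ⟨_, hτ⟩ hτu
        have hC0 : 0 ≤ ε * C := mul_nonneg hε.le ((abs_nonneg _).trans (hC i 0))
        replace hτu : ε / (1 + ε * C) ≤ 1 - u := hτu
        have := layer_le hD hL (T := Ico (1 - ε / (1 + ε * C)) 1) measurableSet_Ico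
          (fun t ht => ⟨by linarith [hτ.2, ht.1], ht.2⟩) (l := l)
          (fun t ht => hu' ⟨by linarith [ht.1], ht.2⟩)
          (S := keepSet b g ε) (fun x hx hxi => (hin ε hε hεC x hx).1
            ((le_div_iff₀ (by linarith)).1 (sub_le_comm.1 hxi.1))) (measurableSet_keepSet b hg ε)
        rwa [Real.volume_real_Ico_of_le (by linarith [hτ.1]), sub_sub_cancel] at this
      · simp only [mul_div_assoc]
        simpa using r1.const_mul (max l 0)
  have hLzero : ∀ i, LengthBound D i fun _ => 0 := fun i =>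
    ⟨measurable_const, fun g _ => by simp⟩
  have hun : ∀ i, endA1 D i = 0 → c i = 0 := by
    intro i hi
    refine le_antisymm ?_ ?_
    · set k := v / V0 with hk
      set g := lin (-1) (single i fun _ => 1) k g0 with hgdef
      obtain ⟨hm, C, hC⟩ : BM g := (bm_one i).lin bg0 _ _
      have hG : ∀ j, ∫ t in (0 : ℝ)..1, g j t = if j = i then -1 else 0 := fun j => by
        rw [hgdef, mean_lin (bm_one i) bg0, mean_one, mg0]
        by_cases h : j = i <;> simp [h]
      have := firstVar hmin (fun _ => 0) g hm hC (fun _ => le_rfl)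
        (fun j => by
          by_cases h : j = i
          · exact Or.inl (h ▸ hi)
          · exact Or.inr (by simp [hG, h]))
        (W := 0) (q0 := 0) (q := fun _ => 0)
        (tendsto_const_nhds.congr' ?_) (Eventually.of_forall fun ε =>
          integral_nonneg fun x => dnorm_nonneg D x) (by simp)
      · rw [hgdef, dA_lin (bm_one i) bg0, dV_lin hD (bm_one i) bg0, dA_one, dV_one, ← hv, hD0,
          ← hV0, hk, div_mul_cancel₀ _ hne, show -1 * v + v - 0 = 0 by ring, slope_zero] at this
        have e : v / V0 * (h * V0) = h * v := by field_simp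
        simp only [hc, mass]
        linarith
      · filter_upwards [eventually_small C] with ε ⟨hε, hεC⟩
        have : D \ keepSet (fun _ => 0) g ε = ∅ := by
          ext x
          simp only [Set.mem_sdiff, mem_empty_iff_false, iff_false, not_and, not_not]
          exact fun hx j => adv_mem (hm j) (hC j) hε hεC rfl
            (by rw [hG]; split_ifs <;> norm_num) (mem_cube_iff.1 (hD.2.1 hx) j)
        simp [this]
    · have := (hends i _ (hLzero i) 0).2 (Eventually.of_forall fun _ => le_rfl)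
      simpa [hi] using this
  have hnn : ∀ (i : Fin 3) (t : ℝ), t ∈ Ioo (0 : ℝ) 1 → 0 ≤ h * sliceA D i t + c i := by
    intro i t ht
    have h1 := (hends i _ (hLzero i) 0).2 (Eventually.of_forall fun _ => le_rfl)
    have h2 := mul_le_mul_of_nonneg_left (end1_le_slice hB hD i ht) h0
    simp only [max_self] at h1
    linarith
  refine ⟨h, c, hrange.1, hrange.2, ?_, hnn, hun,
    fun i L hL l hl => (le_max_left _ _).trans ((hends i L hL l).1 hl),
    fun i L hL l hl => (le_max_left _ _).trans ((hends i L hL l).2 hl), ?_⟩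
  · intro i g hg
    have hfm : Measurable fun x => ENNReal.ofReal (fd D i x) := (measurable_fd D i).ennreal_ofReal
    have hnm : Measurable fun t => ENNReal.ofReal (h * sliceA D i t + c i) :=
      (((hB D hD i).2.1.const_mul h).add measurable_const).ennreal_ofReal
    set m := ((surf D).withDensity fun x => ENNReal.ofReal (fd D i x)).map fun x => x i
    set n := (volume.restrict (Ioo (0 : ℝ) 1)).withDensity fun t =>
      ENNReal.ofReal (h * sliceA D i t + c i)
    have hfi : Integrable (fd D i) (surf D) :=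
      by simpa using integrable_mul_fd (f := fun _ => 1) measurable_const (C := 1) (by simp) i
    have : IsFiniteMeasure ((surf D).withDensity fun x => ENNReal.ofReal (fd D i x)) :=
      isFiniteMeasure_withDensity_ofReal hfi.2
    have hmn : m = n := by
      refine Measure.ext_of_Iic _ _ fun s => ?_
      have hs : MeasurableSet ((fun x : V3 => x i) ⁻¹' Iic s) :=
        measurable_pi_apply i measurableSet_Iic
      have hint : IntegrableOn (fun t => h * sliceA D i t + c i) (Iic s ∩ Ioo 0 1) := by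
        refine ((IntegrableOn.of_bound ((measure_mono inter_subset_right).trans_lt measure_Ioo_lt_top)
          (hB D hD i).2.1.aestronglyMeasurable 1 (ae_of_all _ fun t => ?_)).const_mul h).add
          (integrableOn_const (ne_top_of_le_ne_top measure_Ioo_lt_top.ne
            (measure_mono inter_subset_right)))
        rw [Real.norm_eq_abs, abs_of_nonneg ((hB D hD i).2.2.1 t).1]
        exact ((hB D hD i).2.2.1 t).2
      rw [Measure.map_apply (measurable_pi_apply i) measurableSet_Iic, withDensity_apply _ hs,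
        withDensity_apply _ measurableSet_Iic, Measure.restrict_restrict measurableSet_Iic,
        ← ofReal_integral_eq_lintegral_ofReal hfi.integrableOn (ae_of_all _ (fd_nonneg D i)),
        ← ofReal_integral_eq_lintegral_ofReal hint
          ((ae_restrict_iff' (measurableSet_Iic.inter measurableSet_Ioo)).2
            (ae_of_all _ fun t ht => hnn i t ht.2))]
      congr 1
      have e1 : ∫ x in (fun x : V3 => x i) ⁻¹' Iic s, fd D i x ∂surf D =
          ∫ x, half s (x i) * fd D i x ∂surf D := by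
        rw [← integral_indicator hs]
        refine integral_congr_ae (ae_of_all _ fun x => ?_)
        by_cases hx : x i ≤ s <;> simp [half, hx]
      have e2 : D ∩ {x | x i ∈ Iic s} = D ∩ {x | x i ∈ Iic s ∩ Ioo 0 1} := by
        ext x
        simp only [mem_inter_iff, mem_ofPred_eq, and_congr_right_iff]
        exact fun hx => (and_iff_left (mem_cube_iff.1 (hD.2.1 hx) i)).symm
      have e3 : ell s = volume.real (Iic s ∩ Ioo (0 : ℝ) 1) := by
        rw [ell, intervalIntegral.integral_of_le zero_le_one, integral_Ioc_eq_integral_Ioo, half,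
          setIntegral_indicator measurableSet_Iic, inter_comm]
        simp
      have hsl : IntegrableOn (sliceA D i) (Iic s ∩ Ioo 0 1) :=
        IntegrableOn.of_bound ((measure_mono inter_subset_right).trans_lt measure_Ioo_lt_top)
          (hB D hD i).2.1.aestronglyMeasurable 1 (ae_of_all _ fun t => by
            rw [Real.norm_eq_abs, abs_of_nonneg ((hB D hD i).2.2.1 t).1]
            exact ((hB D hD i).2.2.1 t).2)
      rw [e1, hflux, e2, slab_vol hD i (measurableSet_Iic.inter measurableSet_Ioo), e3,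
        integral_add (hsl.const_mul h) (integrableOn_const (ne_top_of_le_ne_top
          measure_Ioo_lt_top.ne (measure_mono inter_subset_right))), integral_const_mul]
      simp [mul_comm]
    calc ∫⁻ x, g (x i) * ENNReal.ofReal (dtan D i x ^ 2 / dnorm D x) ∂surf D
        = ∫⁻ t, g t ∂m := by
          rw [lintegral_map hg (measurable_pi_apply i)]
          have hgm : Measurable fun x : V3 => g (x i) := hg.comp (measurable_pi_apply i)
          rw [lintegral_withDensity_eq_lintegral_mul _ hfm hgm]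
          simp [mul_comm, fd]
      _ = ∫⁻ t, g t ∂n := by rw [hmn]
      _ = _ := by
          rw [lintegral_withDensity_eq_lintegral_mul _ hnm hg]
          simp [mul_comm]
  · have hfi : ∀ j, Integrable (fd D j) (surf D) := fun j =>
      by simpa using integrable_mul_fd (f := fun _ => 1) measurable_const (C := 1) (by simp) j
    have hsum : ∀ x, ∑ j, fd D j x = 2 * dnorm D x := by
      intro x
      simp only [fd, ← Finset.sum_div]
      have e : ∑ j, dtan D j x ^ 2 = 2 * dnorm D x ^ 2 := by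
        have a0 := dnorm_sq D 0 x
        have a1 := dnorm_sq D 1 x
        have a2 := dnorm_sq D 2 x
        have a : dnorm D x ^ 2 = ∑ j, dens D j x ^ 2 :=
          Real.sq_sqrt (Finset.sum_nonneg fun j _ => sq_nonneg _)
        rw [Fin.sum_univ_three] at a ⊢
        linarith
      rw [e, mul_div_assoc, pow_two, mul_self_div_self]
    have hM : ∑ j, mass D j = 2 * area D := by
      simp only [mass]
      rw [← integral_finsetSum _ fun j _ => hfi j]
      simp only [hsum]
      exact integral_const_mul _ _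
    simp only [hc, Finset.sum_sub_distrib, hM, Finset.sum_const, Finset.card_univ,
      Fintype.card_fin, nsmul_eq_mul, Nat.cast_ofNat]
    rw [← hv]
    ring

/-- Minimisers are stationary. -/
theorem variation (hB : SliceBasics) : Variation := fun _ hD =>
  stationary_of_opt hB ⟨hD.1, hD.2.1, hD.2.2.1, hD.2.2.2.2⟩

end Vale.Agent.P232
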