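import Vale.Agent.P232.ClassifyDefs
import Vale.Agent.P232.Variation

/-! # P232: stationarity of minimisers at value zero -/

namespace Vale.Agent.P232

open Var

/-- Minimisers of `area - jQ` with value zero are stationary. -/
theorem variation0 (hB : SliceBasics) : Variation0 := fun _ hD =>
  stationary_of_opt hB ⟨hD.1, hD.2.1, hD.2.2.1,
    fun D' hD' => by linarith [hD.2.2.2.1, hD.2.2.2.2 D' hD']⟩

end Vale.Agent.P232
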