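import Vale.Agent.P232.Attain
import Vale.Agent.P232.Lift
import Vale.Agent.P232.Reduction
import Vale.Agent.P232.Variation
import Vale.Agent.P232.Calibration
import Vale.Agent.P232.EqCases
import Vale.Agent.P232.Variation0
import Vale.Agent.P232.SlabHigh.Fat

/-! # P232: assembly of the profile -/

namespace Vale.Agent.P232

open MeasureTheory Set
open scoped ENNReal

/-- No down-set has area below the profile. -/
theorem jQ_le_area_of (hHigh : TwoHighLe) : ∀ D, IsDown D → jQ (dvol D) ≤ area D := by
  intro D hD
  by_contra hcon
  obtain ⟨D', hmin⟩ := minExists liftArea ⟨D, hD, not_le.1 hcon⟩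
  have hV : Variation := variation sliceBasics
  have hCN : CoefNonneg := coefNonneg slice3 sliceBasics
  have hN : NoSpanBound := noSpanBound sliceFree sliceBasics mainIneq
  rcases noMinInterior hV slice3 sliceBasics mainIneq D' hmin with hv | hv
  · exact noMinBT hV hCN hN sliceBasics faceBasics sliceGen slice3 sliceFree sliceExtent mainIneq
      quadIneq D' hmin hv
  · refine noMinSlabKink_of hV hCN hN sliceBasics faceBasics sliceGen slice3 sliceFree mainIneq
      quadIneq tubeLemma ?_ D' hmin hv
    intro E h c hE hst hv hh0 hh2 hA hc0 i j k hij hik hjk hi hj hk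
    rcases le_or_gt h 1.02 with hlo | hhi
    · exact slabTwoLow sliceBasics faceBasics sliceGen slice3 mainIneq quadIneq E h c hE hst hv hh0
        hlo hA hc0 i j k hij hik hjk hi hj hk
    · exact hHigh E h c hE hst hv hhi.le hh2 hA.le hc0 i j k hij hik hjk hi hj hk

/-- The profile of the cubic torus, given the large-slope certificate. -/
theorem profile_of (hHigh : TwoHighLe) : Profile := by
  intro V hV
  have hlow : ∀ E : Set V3, IsTorusSet E → torusVol E = V → ENNReal.ofReal (J V) ≤ perim E := by
    intro E hE hvol
    by_cases htop : perim E = ⊤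
    · rw [htop]; exact le_top
    obtain ⟨D, hD, hle, hv⟩ := symReduce E hE htop
    obtain ⟨-, hp, hv'⟩ := liftArea D hD
    rw [hv'] at hv
    have hkey := jQ_le_area_of hHigh D hD
    rw [hv, hvol, jQ, div_le_iff₀ two_pos] at hkey
    rw [hp] at hle
    exact (ENNReal.ofReal_le_ofReal (by linarith)).trans hle
  refine ⟨?_, ?_⟩
  · obtain ⟨E, hE, hvol, hle⟩ := attain V hV
    exact ⟨E, hE, hvol, le_antisymm hle (hlow E hE hvol)⟩
  · rintro p ⟨E, hE, hvol, rfl⟩
    exact hlow E hE hvol

/-- The isoperimetric profile of the cubic torus. -/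
theorem profile : Profile := profile_of SlabHigh.twoHighLe

/-- Down-sets realising the profile have the parameters of a ball, a tube or a slab. -/
theorem eqCases_holds : EqCases :=
  eqCases (variation0 sliceBasics) sliceBasics faceBasics sliceGen slice3 sliceFree sliceExtent
    mainIneq quadIneq SlabHigh.twoHighLe

end Vale.Agent.P232
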