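import Vale.Agent.P232.Slices

/-! # P232 module C3b: slices of least length are quarter discs -/

namespace Vale.Agent.P232

open MeasureTheory Set Filter Topology
open scoped ENNReal

namespace Shape

variable {D : Set V3} {i j k : Fin 3}

theorem exists_ae_Ioo {a b : ℝ} {p : ℝ → Prop} (hab : a < b) (h : ∀ᵐ t : ℝ, p t) :
    ∃ t ∈ Ioo a b, p t := by
  by_contra hc
  push Not at hc
  have h0 : volume (Ioo a b) = 0 := measure_mono_null (fun t ht => hc t ht) (ae_iff.1 h)
  rw [Real.volume_Ioo, ENNReal.ofReal_eq_zero] at h0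
  linarith

theorem fext_pos_below (hD : IsDown D) (hij : i ≠ j) (hik : i ≠ k) (hjk : j ≠ k) {t t' r r' : ℝ}
    (h : 0 < fext D i j k t r) (ht : 0 < t') (htt : t' ≤ t) (hr : 0 < r') (hrr : r' ≤ r) :
    0 < fext D i j k t' r' := by
  obtain ⟨ht0, hr0⟩ := ioo_of_fext_pos hD hij hik hjk h
  exact h.trans_le (fext_mono hD hij hik hjk ⟨ht, htt.trans_lt ht0.2⟩
    ⟨hr, hrr.trans_lt hr0.2⟩ htt hrr)

theorem sliceA_pos (hD : IsDown D) (hij : i ≠ j) (hik : i ≠ k) (hjk : j ≠ k) {t r : ℝ}
    (h : 0 < fext D i j k t r) : 0 < sliceA D i t := by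
  obtain ⟨ht0, hr0⟩ := ioo_of_fext_pos hD hij hik hjk h
  refine (sliceA_nonneg D i t).lt_of_ne fun h0 => ?_
  have h1 := lintegral_fext hD hij hik hjk t
  rw [← h0, ENNReal.ofReal_zero,
    lintegral_eq_zero_iff (measurable_fext_right hD.1 i j k t).ennreal_ofReal] at h1
  obtain ⟨r', hr', h2⟩ := exists_ae_Ioo hr0.1 h1
  exact (ENNReal.ofReal_pos.2 (fext_pos_below hD hij hik hjk h ht0.1 le_rfl hr'.1 hr'.2.le)).ne' h2

theorem posRow_finite (hD : IsDown D) (hij : i ≠ j) (hik : i ≠ k) (hjk : j ≠ k) (t : ℝ) :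
    volume {s : ℝ | 0 < fext D i j k t s} ≠ ⊤ :=
  ne_top_of_le_ne_top (by simp : volume (Ioo (0 : ℝ) 1) ≠ ⊤)
    (measure_mono fun _ hs => (ioo_of_fext_pos hD hij hik hjk hs).2)

theorem fext_le_wPos (hD : IsDown D) (hij : i ≠ j) (hik : i ≠ k) (hjk : j ≠ k) (t r : ℝ) :
    fext D i j k t r ≤ wPos D i j k t := by
  rcases (fext_nonneg D i j k t r).lt_or_eq with h | h
  · have hr := (ioo_of_fext_pos hD hij hik hjk h).2
    have h2 := measureReal_mono (μ := volume) (s₁ := Ioo 0 (fext D i j k t r))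
      (fun s hs => hr.1.trans_le (fext_dual hD hij hik hjk hs.1 hs.2))
      (posRow_finite hD hik hij hjk.symm t)
    rwa [Real.volume_real_Ioo_of_le h.le, sub_zero] at h2
  · rw [← h]; exact measureReal_nonneg

theorem le_wPos_of_pos (hD : IsDown D) (hij : i ≠ j) (hik : i ≠ k) (hjk : j ≠ k) {t r : ℝ}
    (h : 0 < fext D i j k t r) : r ≤ wPos D i k j t := by
  obtain ⟨ht, hr⟩ := ioo_of_fext_pos hD hij hik hjk h
  have h2 := measureReal_mono (μ := volume) (s₁ := Ioo 0 r)
    (fun s hs => fext_pos_below hD hij hik hjk h ht.1 le_rfl hs.1 hs.2.le)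
    (posRow_finite hD hij hik hjk t)
  rwa [Real.volume_real_Ioo_of_le hr.1.le, sub_zero] at h2

/-- The calibration of a slice of width `b` is at least `a / b + b π / 4` on it. -/
theorem slice_lower (hD : IsDown D) (hij : i ≠ j) (hik : i ≠ k) (hjk : j ≠ k) {t : ℝ}
    (ht : t ∈ Ioo (0 : ℝ) 1) (hw : faceW D i j k t = 0) (hw' : faceW D i k j t = 0)
    (ha : 0 < sliceA D i t) :
    0 < wPos D i j k t ∧
    ENNReal.ofReal (sliceA D i t / wPos D i j k t + wPos D i j k t * Real.pi / 4) ≤
      (∫⁻ r in {r | fext D i j k t r ∈ Ioo (0 : ℝ) 1},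
          ENNReal.ofReal (clamp01 (fext D i j k t r / wPos D i j k t))) +
      ∫⁻ s in {s | fext D i k j t s ∈ Ioo (0 : ℝ) 1},
          ENNReal.ofReal √(1 - clamp01 (s / wPos D i j k t) ^ 2) := by
  set b := wPos D i j k t with hb
  have hFb := fext_le_wPos hD hij hik hjk t
  have hb0 : 0 < b := by
    by_contra h
    have h0 := lintegral_fext hD hij hik hjk t
    simp only [fun r => ENNReal.ofReal_of_nonpos ((hFb r).trans (not_lt.1 h)),
      lintegral_zero] at h0
    exact absurd h0.symm (by simpa using ha)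
  refine ⟨hb0, ?_⟩
  have h1 : ∫⁻ r in {r | fext D i j k t r ∈ Ioo (0 : ℝ) 1},
      ENNReal.ofReal (clamp01 (fext D i j k t r / b)) = ENNReal.ofReal (sliceA D i t / b) := by
    calc _ = ∫⁻ r in {r | fext D i j k t r ∈ Ioo (0 : ℝ) 1},
          ENNReal.ofReal (fext D i j k t r) * ENNReal.ofReal b⁻¹ := by
          refine lintegral_congr fun r => ?_
          rw [clamp01_eq (by have := fext_nonneg D i j k t r; positivity)
            ((div_le_one hb0).2 (hFb r)), ← ENNReal.ofReal_mul (fext_nonneg D i j k t r),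
            div_eq_mul_inv]
      _ = _ := by
          rw [lintegral_mul_const' _ _ ENNReal.ofReal_ne_top,
            fext_support hD hij hik hjk (fext_lt_one hD hij hik hjk ht hw),
            ← ENNReal.ofReal_mul (sliceA_nonneg D i t), div_eq_mul_inv]
  have hsub : Ioo 0 b ⊆ {s | fext D i k j t s ∈ Ioo (0 : ℝ) 1} := fun s hs => by
    refine ⟨?_, fext_lt_one hD hik hij hjk.symm ht hw' s⟩
    by_contra hc
    have hs1 : {u : ℝ | 0 < fext D i k j t u} ⊆ Ioo 0 s := fun u hu => by
      have hu' := (ioo_of_fext_pos hD hik hij hjk.symm hu).2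
      refine ⟨hu'.1, lt_of_not_ge fun hsu => hc ?_⟩
      exact fext_pos_below hD hik hij hjk.symm hu ht.1 le_rfl hs.1 hsu
    have h3 := measureReal_mono (μ := volume) hs1 (by simp)
    rw [Real.volume_real_Ioo_of_le hs.1.le, sub_zero] at h3
    exact absurd hs.2 (not_lt.2 h3)
  rw [h1, ENNReal.ofReal_add (by positivity) (by positivity), ← arc_left hb0]
  refine add_le_add_right ?_ _
  refine le_trans (le_of_eq (setLIntegral_congr_fun measurableSet_Ioo fun s hs => ?_))
    (lintegral_mono_set hsub)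
  rw [clamp01_eq (div_nonneg hs.1.le hb0.le) ((div_le_one hb0).2 hs.2.le)]

/-- The component along the axis `j` of the calibration of a quarter disc. -/
noncomputable def calX (D : Set V3) (i j k : Fin 3) (x : V3) : ℝ :=
  clamp01 (x j / wPos D i j k (x i))

theorem measurable_calX (hD : MeasurableSet D) (i j k : Fin 3) : Measurable (calX D i j k) :=
  measurable_clamp01.comp ((measurable_pi_apply j).div
    ((measurable_wPos hD i j k).comp (measurable_pi_apply i)))

/-- Equality in the slice calibration. -/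
theorem slice_cal (hD : IsDown D) (hij : i ≠ j) (hik : i ≠ k) (hjk : j ≠ k)
    (hj0 : endA1 D j = 0) (hk0 : endA1 D k = 0) {w : ℝ → ℝ} (hw : Measurable w)
    (hw0 : ∀ t, 0 ≤ w t)
    (hle : ∫⁻ x, ENNReal.ofReal (w (x i)) * ENNReal.ofReal (dtan D i x) ∂surf D ≤
      ∫⁻ t in Ioo (0 : ℝ) 1, ENNReal.ofReal (w t * √(Real.pi * sliceA D i t)))
    (hfin : ∫⁻ t in Ioo (0 : ℝ) 1, ENNReal.ofReal (w t * √(Real.pi * sliceA D i t)) ≠ ⊤) :
    (∀ᵐ t : ℝ, t ∈ Ioo (0 : ℝ) 1 → 0 < w t → 0 < sliceA D i t →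
      wPos D i j k t ^ 2 = 4 * sliceA D i t / Real.pi) ∧
    (∀ᵐ x ∂surf D, 0 < w (x i) →
      dens D j x ^ 2 = dtan D i x ^ 2 * calX D i j k x ^ 2) := by
  set g : ℝ → ℝ≥0∞ := fun t => ENNReal.ofReal (w t) with hgdef
  have hg : Measurable g := hw.ennreal_ofReal
  set u : V3 → ℝ := calX D i j k with hudef
  set v : V3 → ℝ := fun x => √(1 - u x ^ 2) with hvdef
  have hu : Measurable u := measurable_calX hD.1 i j k
  have hv : Measurable v := (measurable_const.sub (hu.pow_const 2)).sqrt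
  have hu01 : ∀ x, 0 ≤ u x ∧ u x ≤ 1 := fun x => clamp01_mem _
  have huv : ∀ x, u x ^ 2 + v x ^ 2 = 1 := fun x => by
    simp only [hvdef]
    rw [Real.sq_sqrt (sub_nonneg.2 (pow_le_one₀ (hu01 x).1 (hu01 x).2))]
    ring
  set a := sliceA D i with hadef
  have ham : Measurable a := measurable_sliceA hD.1 i
  set b := wPos D i j k with hbdef
  set L : ℝ → ℝ := fun t => if 0 < a t then a t / b t + b t * Real.pi / 4 else 0 with hLdef
  have hbm : Measurable b := measurable_wPos hD.1 i j k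
  have hLm : Measurable L :=
    Measurable.ite (measurableSet_lt measurable_const ham)
      ((ham.div hbm).add ((hbm.mul measurable_const).div_const 4)) measurable_const
  have hab : ∀ t ∈ Ioo (0 : ℝ) 1, ENNReal.ofReal √(Real.pi * a t) ≤ ENNReal.ofReal (L t) ∧
      ENNReal.ofReal (L t) ≤
      (∫⁻ r in {r | fext D i j k t r ∈ Ioo (0 : ℝ) 1},
          ENNReal.ofReal (u (mk3 i j k t (fext D i j k t r) r))) +
      ∫⁻ s in {s | fext D i k j t s ∈ Ioo (0 : ℝ) 1},
          ENNReal.ofReal (v (mk3 i j k t s (fext D i k j t s))) := by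
    intro t ht
    by_cases hat : 0 < a t
    · obtain ⟨hb0, hl⟩ := slice_lower hD hij hik hjk ht
        (faceW_eq_zero_of_endA1 hD hij hik hjk hj0 ht)
        (faceW_eq_zero_of_endA1 hD hik hij hjk.symm hk0 ht) hat
      simp only [hLdef, if_pos hat]
      refine ⟨ENNReal.ofReal_le_ofReal (sqrt_pi_le hat.le hb0), ?_⟩
      simpa only [hudef, hvdef, calX, mk3_fst hij hik, mk3_snd] using hl
    · have h0 : a t = 0 := le_antisymm (not_lt.1 hat) (sliceA_nonneg D i t)
      simp [hLdef, h0]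
  have hdt : ∀ x, u x * dens D j x + v x * dens D k x ≤ dtan D i x := fun x => by
    refine (sq_dot_le (huv x).le).trans ?_
    rw [← dtan_sq_of_perm D hij hik hjk, Real.sqrt_sq (dtan_nonneg ..)]
  have hgi : Measurable fun x : V3 => g (x i) := hg.comp (measurable_pi_apply i)
  set P : V3 → ℝ≥0∞ := fun x =>
    g (x i) * ENNReal.ofReal (u x * dens D j x + v x * dens D k x) with hPdef
  have hPm : Measurable P := hgi.mul
    ((hu.mul (measurable_dens D j)).add (hv.mul (measurable_dens D k))).ennreal_ofReal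
  have hLP : ∫⁻ t in Ioo (0 : ℝ) 1, g t * ENNReal.ofReal (L t) ≤ ∫⁻ x, P x ∂surf D := by
    refine (setLIntegral_mono' measurableSet_Ioo
      fun t ht => mul_le_mul_right (hab t ht).2 (g t)).trans ?_
    refine (setLIntegral_le_lintegral _ _).trans (le_of_eq ?_)
    have h1 := sheet_slices hD hij hik hjk hg hu
    have h2 := sheet_slices hD hik hij hjk.symm hg hv
    simp only [mk3_swap23 hij hik hjk] at h2
    have e : ∀ x, P x = g (x i) * ENNReal.ofReal (u x) * ENNReal.ofReal (dens D j x) +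
        g (x i) * ENNReal.ofReal (v x) * ENNReal.ofReal (dens D k x) := fun x => by
      simp only [hPdef]
      rw [ENNReal.ofReal_add (mul_nonneg (hu01 x).1 (dens_nonneg ..))
        (mul_nonneg (Real.sqrt_nonneg _) (dens_nonneg ..)), ENNReal.ofReal_mul (hu01 x).1,
        ENNReal.ofReal_mul (Real.sqrt_nonneg _), mul_add, mul_assoc, mul_assoc]
    simp only [e]
    rw [lintegral_add_left ((hgi.fun_mul hu.ennreal_ofReal).fun_mul
        (measurable_dens D j).ennreal_ofReal),
      lintegral_mul_dens D j (hgi.fun_mul hu.ennreal_ofReal),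
      lintegral_mul_dens D k (hgi.fun_mul hv.ennreal_ofReal), h1, h2, ← lintegral_add_left' ?_]
    · simp only [mul_add]
    · refine (Measurable.mul hg ?_).aemeasurable
      have hm : Measurable fun p : ℝ × ℝ =>
          ({p : ℝ × ℝ | fext D i j k p.1 p.2 ∈ Ioo (0 : ℝ) 1}).indicator
            (fun p => ENNReal.ofReal (u (mk3 i j k p.1 (fext D i j k p.1 p.2) p.2))) p :=
        ((hu.comp ((measurable_mk3 i j k).comp (measurable_fst.prodMk
          ((measurable_fext hD.1 i j k).prodMk measurable_snd)))).ennreal_ofReal).indicator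
          (measurable_fext hD.1 i j k measurableSet_Ioo)
      convert hm.lintegral_prod_right' (ν := (volume : Measure ℝ)) using 1
      refine funext fun t => ?_
      rw [← lintegral_indicator (measurableSet_fextIoo hD.1 i j k t)]
      rfl
  have hPd : ∀ x, P x ≤ g (x i) * ENNReal.ofReal (dtan D i x) := fun x =>
    mul_le_mul_right (ENNReal.ofReal_le_ofReal (hdt x)) _
  have e0 : ∀ t, ENNReal.ofReal (w t * √(Real.pi * a t)) =
      g t * ENNReal.ofReal √(Real.pi * a t) := fun t => ENNReal.ofReal_mul (hw0 t)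
  simp only [e0] at hle hfin
  have hroot : (fun t => g t * ENNReal.ofReal √(Real.pi * a t)) ≤ᵐ[volume.restrict (Ioo 0 1)]
      fun t => g t * ENNReal.ofReal (L t) :=
    (ae_restrict_iff' measurableSet_Ioo).2
      (ae_of_all _ fun t ht => mul_le_mul_right (hab t ht).1 (g t))
  have hPi : ∫⁻ x, P x ∂surf D ≤ ∫⁻ t in Ioo (0 : ℝ) 1, g t * ENNReal.ofReal √(Real.pi * a t) :=
    (lintegral_mono hPd).trans hle
  refine ⟨?_, ?_⟩
  · have h := (ae_restrict_iff' measurableSet_Ioo).1 (ae_eq_of_ae_le_of_lintegral_le hroot hfin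
      (hg.mul hLm.ennreal_ofReal).aemeasurable (hLP.trans hPi))
    filter_upwards [h] with t ht htI hwt hat
    have hb0 := (slice_lower hD hij hik hjk htI (faceW_eq_zero_of_endA1 hD hij hik hjk hj0 htI)
        (faceW_eq_zero_of_endA1 hD hik hij hjk.symm hk0 htI) hat).1
    have h3 : ENNReal.ofReal √(Real.pi * a t) = ENNReal.ofReal (L t) :=
      (ENNReal.mul_right_inj (ENNReal.ofReal_pos.2 hwt).ne' ENNReal.ofReal_ne_top).1 (ht htI)
    rw [ENNReal.ofReal_eq_ofReal_iff (Real.sqrt_nonneg _) (by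
      simp only [hLdef, if_pos hat]; positivity)] at h3
    simp only [hLdef, if_pos hat] at h3
    have h4 : (a t / b t + b t * Real.pi / 4) ^ 2 = Real.pi * a t := by
      rw [← h3, Real.sq_sqrt (by positivity)]
    have h7 : a t / b t * b t = a t := div_mul_cancel₀ (a t) hb0.ne'
    have h5 : a t / b t * (b t * Real.pi / 4) * 4 = Real.pi * a t := by
      linear_combination Real.pi * h7
    have h6 : a t / b t = b t * Real.pi / 4 :=
      sub_eq_zero.1 (pow_eq_zero_iff two_ne_zero |>.1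
        (by linear_combination h4 - h5 : (a t / b t - b t * Real.pi / 4) ^ 2 = 0))
    rw [eq_div_iff Real.pi_pos.ne']
    linear_combination (-(4 * b t)) * h6 + 4 * h7
  · have hPfin : ∫⁻ x, P x ∂surf D ≠ ⊤ := ne_top_of_le_ne_top hfin hPi
    have h := ae_eq_of_ae_le_of_lintegral_le (ae_of_all (surf D) hPd) hPfin
      (hgi.mul (measurable_dtan D i).ennreal_ofReal).aemeasurable
      (hle.trans ((lintegral_mono_ae hroot).trans hLP))
    filter_upwards [h] with x hx hwx
    have h3 : ENNReal.ofReal (u x * dens D j x + v x * dens D k x) =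
        ENNReal.ofReal (dtan D i x) :=
      (ENNReal.mul_right_inj (ENNReal.ofReal_pos.2 hwx).ne' ENNReal.ofReal_ne_top).1 hx
    rw [ENNReal.ofReal_eq_ofReal_iff (add_nonneg (mul_nonneg (hu01 x).1 (dens_nonneg ..))
      (mul_nonneg (Real.sqrt_nonneg _) (dens_nonneg ..))) (dtan_nonneg ..)] at h3
    have h4 := dtan_sq_of_perm D hij hik hjk x
    have h5 : u x * dens D k x = v x * dens D j x :=
      sub_eq_zero.1 (pow_eq_zero_iff two_ne_zero |>.1 (by
        rw [← h3] at h4
        linear_combination (dens D j x ^ 2 + dens D k x ^ 2) * huv x - h4 :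
        (u x * dens D k x - v x * dens D j x) ^ 2 = 0))
    linear_combination -(u x ^ 2 * h4) - dens D j x ^ 2 * huv x -
      (u x * dens D k x + v x * dens D j x) * h5

/-- If the slices have least length where `w` is positive, they are quarter discs there. -/
theorem slice_circle (hD : IsDown D) (hij : i ≠ j) (hik : i ≠ k) (hjk : j ≠ k)
    (hj0 : endA1 D j = 0) (hk0 : endA1 D k = 0) {w : ℝ → ℝ} (hw : Measurable w)
    (hw0 : ∀ t, 0 ≤ w t)
    (hle : ∫⁻ x, ENNReal.ofReal (w (x i)) * ENNReal.ofReal (dtan D i x) ∂surf D ≤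
      ∫⁻ t in Ioo (0 : ℝ) 1, ENNReal.ofReal (w t * √(Real.pi * sliceA D i t)))
    (hfin : ∫⁻ t in Ioo (0 : ℝ) 1, ENNReal.ofReal (w t * √(Real.pi * sliceA D i t)) ≠ ⊤) :
    ∀ᵐ t : ℝ, t ∈ Ioo (0 : ℝ) 1 → 0 < w t → ∀ᵐ r : ℝ, 0 < fext D i j k t r →
      fext D i j k t r ^ 2 + r ^ 2 = 4 * sliceA D i t / Real.pi := by
  obtain ⟨hbj, hdj⟩ := slice_cal hD hij hik hjk hj0 hk0 hw hw0 hle hfin
  obtain ⟨hbk, hdk⟩ := slice_cal hD hik hij hjk.symm hk0 hj0 hw hw0 hle hfin
  set U : V3 → Prop := fun x => 0 < w (x i) →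
    calX D i j k x ^ 2 + calX D i k j x ^ 2 = 1 with hU
  have hne : ∀ᵐ x ∂sheet D j, dens D j x ≠ 0 := by
    have hm : MeasurableSet {x | dens D j x = 0} :=
      measurable_dens D j (measurableSet_singleton 0)
    have h := lintegral_mul_dens D j (F := {x | dens D j x = 0}.indicator 1)
      (measurable_one.indicator hm)
    rw [lintegral_indicator_one hm, lintegral_eq_zero_of_ae_eq_zero (ae_of_all _ fun x => ?_)] at h
    · exact ae_iff.2 (by simpa using h.symm)
    · by_cases hx : dens D j x = 0 <;> simp [hx]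
  have hsurf : ∀ᵐ x ∂sheet D j, U x := by
    filter_upwards [hne, (sheet_ac_surf D j).ae_le hdj, (sheet_ac_surf D j).ae_le hdk]
      with x h0 h1 h2 hwx
    have h4 := dtan_sq_of_perm D hij hik hjk x
    have e := h1 hwx
    have hpos : dtan D i x ^ 2 ≠ 0 := fun hz => h0 (by
      rw [hz, zero_mul] at e; exact pow_eq_zero_iff two_ne_zero |>.1 e)
    refine mul_left_cancel₀ hpos ?_
    linear_combination -(h1 hwx) - (h2 hwx) - h4
  have hq : ∀ᵐ q : Fin 2 → ℝ, q ∈ square ∧ ext D j q ∈ Ioo (0 : ℝ) 1 →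
      U (j.insertNth (ext D j q) q) :=
    (ae_restrict_iff' (measurableSet_sheetDom hD.1 j)).1
      (ae_of_ae_map (measurable_graph hD.1 j).aemeasurable hsurf)
  have hp := Measure.ae_ae_of_ae_prod
    ((faceMap_mp hij hik hjk).quasiMeasurePreserving.ae hq)
  filter_upwards [hbj, hbk, hp] with t htj htk ht htI hwt
  filter_upwards [ht] with r hr hf
  have hat := sliceA_pos hD hij hik hjk hf
  have hlt := fext_lt_one hD hij hik hjk htI (faceW_eq_zero_of_endA1 hD hij hik hjk hj0 htI) r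
  have hm := hr ⟨mem_square_of_ext_pos hD hf, hf, hlt⟩
  have hr0 := (ioo_of_fext_pos hD hij hik hjk hf).2
  have hB := htj htI hwt hat
  have hB' := htk htI hwt hat
  have hf1 := fext_le_wPos hD hij hik hjk t r
  have hr1 := le_wPos_of_pos hD hij hik hjk hf
  have hb : 0 < wPos D i j k t := hf.trans_le hf1
  have hb' : 0 < wPos D i k j t := hr0.1.trans_le hr1
  rw [hU] at hm
  simp only [fext] at hf hlt hf1 ⊢
  rw [insertNth_faceMap] at hm
  simp only [calX, mk3_fst hij hik, mk3_snd, mk3_thd hjk] at hm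
  have := hm hwt
  rw [clamp01_eq (div_nonneg hf.le hb.le) ((div_le_one hb).2 hf1),
    clamp01_eq (div_nonneg hr0.1.le hb'.le) ((div_le_one hb').2 hr1), div_pow, div_pow, hB, hB',
    ← add_div, div_eq_one_iff_eq (by positivity)] at this
  exact this

end Shape

end Vale.Agent.P232
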