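import Vale.Agent.P232.ShapesVol
import Vale.Agent.P232.ShapesCircle
import Vale.Agent.P232.Calibration

/-! # P232 module C3b: a minimiser with the parameters of a ball, a tube or a slab is one -/

namespace Vale.Agent.P232

open MeasureTheory Set Filter Topology
open scoped ENNReal

namespace Shape

open Calib

variable {D : Set V3} {i j k : Fin 3}

theorem mk3_self (hij : i ≠ j) (hik : i ≠ k) (hjk : j ≠ k) (x : V3) :
    mk3 i j k (x i) (x j) (x k) = x := by
  funext l
  rcases axis_cases hij hik hjk l with rfl | rfl | rfl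
  · exact mk3_fst hij hik _ _ _
  · exact mk3_snd _ _ _ _ _ _
  · exact mk3_thd hjk _ _ _

theorem fext_swap (hik : i ≠ k) (t r : ℝ) : fext D k j i r t = fext D i j k t r := by
  simp only [fext, faceMap, pt3]
  rw [Function.update_comm hik.symm]

theorem le_of_forall_scale {A B : ℝ} (h : ∀ θ ∈ Ioo (0 : ℝ) 1, θ ^ 2 * A ≤ B) : A ≤ B := by
  have hl : Tendsto (fun θ : ℝ => θ ^ 2 * A) (𝓝[<] 1) (𝓝 A) :=
    (Continuous.tendsto' (by fun_prop) 1 A (by simp)).mono_left nhdsWithin_le_nhds
  refine le_of_tendsto hl ?_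
  filter_upwards [Ioo_mem_nhdsLT zero_lt_one] with θ hθ using h θ hθ

/-- A down-set with all its volume in full lines of direction `i` is a cylinder along `i`. -/
theorem cyl (hD : IsDown D) (i : Fin 3) (h : endA1 D i = dvol D) {x : V3} (hx : x ∈ D) {y : V3}
    (hy : y ∈ cube) (hlt : ∀ l, l ≠ i → y l < x l) : y ∈ D := by
  set F : Set (Fin 2 → ℝ) := {q | q ∈ square ∧ ext D i q = 1} with hF
  have hFm : MeasurableSet F :=
    measurableSet_square.inter (measurable_ext hD.1 i (measurableSet_singleton 1))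
  have hsf : IsFiniteMeasure (volume.restrict square : Measure (Fin 2 → ℝ)) :=
    isFiniteMeasure_restrict.2 (by simp [volume_square])
  have hint : Integrable (ext D i) (volume.restrict square) :=
    Integrable.of_bound (measurable_ext hD.1 i).aestronglyMeasurable 1 (ae_of_all _ fun q => by
      rw [Real.norm_eq_abs, abs_of_nonneg (ext_nonneg D i q)]; exact ext_le_one hD i q)
  have hint1 : Integrable (F.indicator fun _ => (1 : ℝ)) (volume.restrict square) :=
    (integrable_const 1).indicator hFm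
  have hzero : (fun q => ext D i q - F.indicator (fun _ => (1 : ℝ)) q) =ᵐ[volume.restrict square]
      0 := by
    refine (integral_eq_zero_iff_of_nonneg_ae (ae_of_all _ fun q => ?_) (hint.sub hint1)).1 ?_
    · by_cases hq : q ∈ F
      · simp [hq, hq.2]
      · simp [hq, ext_nonneg]
    · simp only [Pi.sub_apply]
      rw [integral_sub hint hint1, Unfold.integral_square_ext hD i, setIntegral_indicator hFm,
        inter_eq_right.2 fun q hq => hq.1, setIntegral_const, smul_eq_mul, mul_one]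
      exact sub_eq_zero.2 h.symm
  set q := i.removeNth x with hqdef
  set q' := i.removeNth y with hq'def
  have hqq : ∀ l, q' l < q l := fun l => hlt _ (Fin.succAbove_ne i l)
  have hq'0 : ∀ l, q' l ∈ Ioo (0 : ℝ) 1 := fun l => mem_cube_iff.1 hy _
  have hq1 : ∀ l, q l ∈ Ioo (0 : ℝ) 1 := fun l => mem_cube_iff.1 (hD.2.1 hx) _
  set B : Set (Fin 2 → ℝ) := univ.pi fun l => Ioo (q' l) (q l) with hB
  have hBm : MeasurableSet B := MeasurableSet.univ_pi fun _ => measurableSet_Ioo
  have hBs : B ⊆ square := fun p hp => mem_square_iff.2 fun l =>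
    ⟨(hq'0 l).1.trans (hp l trivial).1, (hp l trivial).2.trans (hq1 l).2⟩
  have hBv : volume B ≠ 0 := by
    rw [hB, volume_pi_pi]
    simp [Real.volume_Ioo, Fin.prod_univ_two, hqq]
  obtain ⟨p, hp, hp0⟩ : ∃ p ∈ B, ext D i p - F.indicator (fun _ => (1 : ℝ)) p = 0 := by
    by_contra hc
    push Not at hc
    refine hBv (measure_mono_null (fun p hp => ?_) (ae_iff.1
      ((ae_restrict_iff' measurableSet_square).1 hzero)))
    exact fun himp => hc p hp (himp (hBs hp))
  have hxm : i.insertNth (x i) q ∈ D := by rw [Fin.insertNth_self_removeNth]; exact hx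
  have hpm : i.insertNth (x i) p ∈ D :=
    insertNth_mono hD hxm le_rfl (fun l => (hp l trivial).2.le) (line_subset hD i q hxm) (hBs hp)
  have hpF : p ∈ F := by
    by_contra hn
    rw [indicator_of_notMem hn, sub_zero] at hp0
    linarith [le_ext_of_mem hD hpm, (mem_cube_iff.1 (hD.2.1 hx) i).1]
  have hyi := mem_cube_iff.1 hy i
  have hpy : i.insertNth (y i) p ∈ D := mem_of_lt_ext hD hyi.1 (by rw [hpF.2]; exact hyi.2)
  have := insertNth_mono hD hpy le_rfl (fun l => (hp l trivial).1.le) hyi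
    (mem_square_iff.2 hq'0)
  rwa [hq'def, Fin.insertNth_self_removeNth] at this

theorem slab_shape (hD : IsDown D) (hij : i ≠ j) (hik : i ≠ k) (hjk : j ≠ k)
    (hi : endA1 D i = dvol D) (hj : endA1 D j = dvol D) (hv : 0 < dvol D) (hv2 : dvol D ≤ 1 / 2) :
    lift D =ᵐ[volume] canon {k} (dvol D / 2) 0 := by
  refine finish hD (n := 1) (κ := 1) hv (by linarith)
    (fun ρ h0 h1 => by rw [dvol_oct_one k h0 h1, one_mul, pow_one]) (fun x hx => ?_) (by simp)
  rw [Finset.sum_singleton]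
  have hx' := mem_cube_iff.1 (hD.2.1 hx)
  refine pow_le_pow_left₀ (hx' k).1.le ?_ 2
  by_contra hlt
  obtain ⟨s, hs1, hs2⟩ := exists_between (not_le.1 hlt)
  have hs0 : 0 < s := hv.trans hs1
  have hs : s < 1 := hs2.trans (hx' k).2
  have hsub : oct {k} s ⊆ D := by
    intro y hy
    have hy' := mem_cube_iff.1 hy.1
    have hyk : y k < s := by
      have := hy.2
      rw [Finset.sum_singleton] at this
      exact lt_of_pow_lt_pow_left₀ 2 hs0.le this
    set z := mk3 i j k ((1 + y i) / 2) (x j / 2) ((y k + x k) / 2) with hz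
    have hzc : z ∈ cube := mem_cube_iff.2 fun l => by
      rcases axis_cases hij hik hjk l with rfl | rfl | rfl
      · rw [hz, mk3_fst hij hik]; constructor <;> linarith [(hy' l).1, (hy' l).2]
      · rw [hz, mk3_snd]; constructor <;> linarith [(hx' l).1, (hx' l).2]
      · rw [hz, mk3_thd hjk]
        constructor <;> linarith [(hy' l).1, (hy' l).2, (hx' l).1, (hx' l).2]
    have hzD : z ∈ D := cyl hD i hi hx hzc fun l hl => by
      rcases axis_cases hij hik hjk l with rfl | rfl | rfl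
      · exact absurd rfl hl
      · rw [hz, mk3_snd]; linarith [(hx' l).1]
      · rw [hz, mk3_thd hjk]; linarith
    refine cyl hD j hj hzD hy.1 fun l hl => ?_
    rcases axis_cases hij hik hjk l with rfl | rfl | rfl
    · rw [hz, mk3_fst hij hik]; linarith [(hy' l).2]
    · exact absurd rfl hl
    · rw [hz, mk3_thd hjk]; linarith
  have := measureReal_mono (μ := volume) hsub
    (ne_top_of_le_ne_top ENNReal.one_ne_top (dvol_le_one hD))
  rw [← dvol, ← dvol, dvol_oct_one k hs0 hs] at this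
  linarith

theorem sliceA_ae_eq (hD : IsDown D) (i : Fin 3) (h : endA1 D i = dvol D) :
    ∀ᵐ t : ℝ, t ∈ Ioo (0 : ℝ) 1 → sliceA D i t = dvol D := by
  have hI : Integrable (fun t => sliceA D i t - dvol D) (volume.restrict (Ioo 0 1)) :=
    (integrableOn_sliceA hD i).sub (integrableOn_const (by simp))
  have h0 : (fun t => sliceA D i t - dvol D) =ᵐ[volume.restrict (Ioo (0 : ℝ) 1)] 0 := by
    refine (integral_eq_zero_iff_of_nonneg_ae ((ae_restrict_iff' measurableSet_Ioo).2
      (ae_of_all _ fun t ht => ?_)) hI).1 ?_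
    · simp only [Pi.zero_apply, sub_nonneg]
      exact h.symm.le.trans (endA1_le_sliceA hD i ht)
    · rw [integral_sub (integrableOn_sliceA hD i) (integrableOn_const (by simp)),
        integral_sliceA hD i]
      simp
  filter_upwards [(ae_restrict_iff' measurableSet_Ioo).1 h0] with t ht htI
  exact sub_eq_zero.1 (ht htI)

theorem tube_shape (hD : IsDown D) (hij : i ≠ j) (hik : i ≠ k) (hjk : j ≠ k)
    (hi : endA1 D i = dvol D) (hj0 : endA1 D j = 0) (hk0 : endA1 D k = 0)
    (hP : area D = √(Real.pi * dvol D)) (hv : 0 < dvol D) (hv2 : dvol D ≤ 1 / 2) :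
    lift D =ᵐ[volume] canon (Finset.univ.erase i) √(dvol D / Real.pi) 0 := by
  have hpi := Real.pi_pos
  have hS : Finset.univ.erase i = {j, k} := by
    ext l
    simp only [Finset.mem_erase, Finset.mem_univ, and_true, Finset.mem_insert,
      Finset.mem_singleton]
    omega
  set r0 := 2 * √(dvol D / Real.pi) with hr0
  have hr0sq : r0 ^ 2 = 4 * dvol D / Real.pi := by
    rw [hr0, mul_pow, Real.sq_sqrt (by positivity)]; ring
  have hr00 : 0 < r0 := by positivity
  have hr01 : r0 < 1 := by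
    refine lt_of_pow_lt_pow_left₀ 2 zero_le_one ?_
    rw [hr0sq, one_pow, div_lt_one hpi]
    linarith [Real.pi_gt_three]
  have ha := sliceA_ae_eq hD i hi
  have hI : ∫⁻ t in Ioo (0 : ℝ) 1, ENNReal.ofReal (1 * √(Real.pi * sliceA D i t)) =
      ENNReal.ofReal √(Real.pi * dvol D) := by
    rw [lintegral_congr_ae ((ae_restrict_iff' measurableSet_Ioo).2 (ha.mono fun t ht htI => by
      rw [ht htI, one_mul] :
      ∀ᵐ t : ℝ, t ∈ Ioo (0 : ℝ) 1 → ENNReal.ofReal (1 * √(Real.pi * sliceA D i t)) =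
        ENNReal.ofReal √(Real.pi * dvol D)))]
    simp
  have hcirc := slice_circle hD hij hik hjk hj0 hk0 (w := fun _ => 1) measurable_const
    (fun _ => zero_le_one) (by
      rw [hI, ← hP, ofReal_area]
      refine lintegral_mono fun x => ?_
      rw [ENNReal.ofReal_one, one_mul]
      refine ENNReal.ofReal_le_ofReal
        (le_of_pow_le_pow_left₀ two_ne_zero (dnorm_nonneg D x) ?_)
      nlinarith [dnorm_sq D i x]) (by rw [hI]; exact ENNReal.ofReal_ne_top)
  obtain ⟨t, ht, htc, hta⟩ := exists_ae_Ioo zero_lt_one (hcirc.and ha)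
  have hr := htc ht one_pos
  rw [hta ht, ← hr0sq] at hr
  have hres := finish hD (S := Finset.univ.erase i) (n := 2) (κ := Real.pi / 4) hr00 hr01
    (fun ρ h0 h1 => dvol_oct_two i h0 h1) (fun x hx => ?_) (by rw [hr0sq]; field_simp)
  · rwa [hr0, mul_div_cancel_left₀ _ two_ne_zero] at hres
  rw [hS, Finset.sum_pair hjk]
  refine le_of_forall_scale fun θ hθ => ?_
  have hx' := mem_cube_iff.1 (hD.2.1 hx)
  have hθk : θ * x k < x k := mul_lt_of_lt_one_left (hx' k).1 hθ.2
  obtain ⟨r, hrI, hrc⟩ := exists_ae_Ioo hθk hr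
  have hrk : 0 < θ * x k := mul_pos hθ.1 (hx' k).1
  have hsj : 0 < θ * x j := mul_pos hθ.1 (hx' j).1
  have hsj1 : θ * x j < x j := mul_lt_of_lt_one_left (hx' j).1 hθ.2
  have hyc : mk3 i j k t (θ * x j) r ∈ cube := mem_cube_iff.2 fun l => by
    rcases axis_cases hij hik hjk l with rfl | rfl | rfl
    · rw [mk3_fst hij hik]; exact ht
    · rw [mk3_snd]; exact ⟨hsj, hsj1.trans (hx' l).2⟩
    · rw [mk3_thd hjk]; exact ⟨hrk.trans hrI.1, hrI.2.trans (hx' l).2⟩
  have hf : θ * x j ≤ fext D i j k t r := le_fext_of_mem hD (cyl hD i hi hx hyc fun l hl => by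
    rcases axis_cases hij hik hjk l with rfl | rfl | rfl
    · exact absurd rfl hl
    · rw [mk3_snd]; exact hsj1
    · rw [mk3_thd hjk]; exact hrI.2)
  rw [← hrc (hsj.trans_le hf)]
  have h1 := pow_le_pow_left₀ hsj.le hf 2
  have h2 := pow_le_pow_left₀ hrk.le hrI.1.le 2
  nlinarith

/-- At ball parameters every slice is a quarter disc and the largest has radius `2 / h`. -/
theorem ball_axis (hD : IsDown D) {h : ℝ} {c : Fin 3 → ℝ} (hst : Stationary D h c)
    (hc : ∀ l, c l = 0) (hend : ∀ l, endA1 D l = 0) (hh : 0 < h)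
    (hflux : h * dvol D = 2 * area D / 3) (hb : Real.pi / h ^ 2 = area D / 2) (i : Fin 3) :
    endA0 D i = Real.pi / h ^ 2 ∧ ∀ j k : Fin 3, i ≠ j → i ≠ k → j ≠ k →
      ∀ᵐ t : ℝ, ∀ᵐ r : ℝ, 0 < fext D i j k t r →
        fext D i j k t r ^ 2 + r ^ 2 = 4 * sliceA D i t / Real.pi := by
  have hpi := Real.pi_pos
  have hP0 := area_nonneg D
  set a := sliceA D i with hadef
  set b0 := Real.pi / h ^ 2 with hb0def
  have hb0 : 0 < b0 := by positivity
  set a0 := endA0 D i with ha0def
  have hfree : LengthBound D i fun t => √(Real.pi * a t) := sliceFree D hD i fun l _ => hend l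
  have hv : 0 < dvol D := by
    have : 0 < area D := by linarith
    exact pos_of_mul_pos_right (hflux.symm ▸ (by positivity : 0 < 2 * area D / 3)) hh.le
  have hba : b0 ≤ a0 := by
    have hend0 : √(Real.pi * a0) ≤ h * a0 := by
      have hl : Tendsto (fun t => √(Real.pi * a t)) (𝓝[>] 0) (𝓝 √(Real.pi * a0)) :=
        ((continuous_const.mul continuous_id).sqrt.tendsto a0).comp (sliceA_tendsto_zero hD i)
      by_contra hlt
      obtain ⟨l, hl1, hl2⟩ := exists_between (not_le.1 hlt)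
      have := hst.end0 i _ hfree l (hl.eventually (Ici_mem_nhds hl2))
      rw [hc i, add_zero] at this
      exact absurd (this.trans_lt hl1) (lt_irrefl _)
    have ha0 : 0 < a0 := lt_of_lt_of_le hv (sliceBasics D hD i).2.2.2.2.2.2.2.2.1
    rw [Real.sqrt_le_left (by positivity)] at hend0
    rw [hb0def, div_le_iff₀ (by positivity)]
    nlinarith
  have ham : Measurable a := measurable_sliceA hD.1 i
  set N := {t | t ∈ Ioo (0 : ℝ) 1 ∧ ¬ContinuousWithinAt a (Ioo 0 1) t} with hN
  have hNc : N.Countable := (sliceA_antitone hD i).countable_not_continuousWithinAt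
  set G := Ioo (0 : ℝ) 1 \ N with hG
  have hGm : MeasurableSet G := measurableSet_Ioo.diff hNc.measurableSet
  set Z := G ∩ {t | b0 < a t} with hZ
  have hZm : MeasurableSet Z := hGm.inter (measurableSet_lt measurable_const ham)
  classical
  set B : ℝ → ℝ := G.piecewise (fun t => √(1 - a t / b0)) 1 with hBdef
  set w : ℝ → ℝ := (G \ Z).indicator fun t => √(a t / b0) with hwdef
  have hBm : Measurable B := ((measurable_const.sub (ham.div_const _)).sqrt).piecewise hGm
    measurable_one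
  have hwm : Measurable w := (ham.div_const _).sqrt.indicator (hGm.diff hZm)
  have hB0 : ∀ t, 0 ≤ B t := fun t => by
    simp only [hBdef, piecewise]
    split_ifs <;> simp [Real.sqrt_nonneg]
  have hw0 : ∀ t, 0 ≤ w t := fun t => indicator_nonneg (fun _ _ => Real.sqrt_nonneg _) t
  have hBw : ∀ t, B t ^ 2 + w t ^ 2 ≤ 1 := fun t => by
    by_cases ht : t ∈ G
    · by_cases hz : b0 < a t
      · rw [hBdef, hwdef, piecewise_eq_of_mem _ _ _ ht,
          indicator_of_notMem fun hm => hm.2 ⟨ht, hz⟩, Real.sqrt_eq_zero_of_nonpos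
            (sub_nonpos.2 ((one_le_div hb0).2 hz.le))]
        norm_num
      · rw [hBdef, hwdef, piecewise_eq_of_mem _ _ _ ht,
          indicator_of_mem (show t ∈ G \ Z from ⟨ht, fun hm => hz hm.2⟩),
          Real.sq_sqrt (sub_nonneg.2 ((div_le_one hb0).2 (not_lt.1 hz))),
          Real.sq_sqrt (div_nonneg (sliceA_nonneg D i t) hb0.le)]
        linarith
    · rw [hBdef, hwdef, piecewise_eq_of_notMem _ _ _ ht, indicator_of_notMem fun hm => ht hm.1]
      simp
  have hBZ : ∀ t ∈ Z, B t = 0 ∧ w t = 0 := fun t ht => by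
    rw [hBdef, hwdef, piecewise_eq_of_mem _ _ _ ht.1, indicator_of_notMem fun hm => hm.2 ht]
    exact ⟨Real.sqrt_eq_zero_of_nonpos (sub_nonpos.2 ((one_le_div hb0).2 ht.2.le)), rfl⟩
  have hxi : Measurable fun x : V3 => x i := measurable_pi_apply i
  set p1 : V3 → ℝ≥0∞ := fun x => ENNReal.ofReal (B (x i)) * ENNReal.ofReal (dens D i x) with hp1
  set p2 : V3 → ℝ≥0∞ := fun x => ENNReal.ofReal (w (x i)) * ENNReal.ofReal (dtan D i x) with hp2
  set p3 : V3 → ℝ≥0∞ := fun x =>
    Z.indicator 1 (x i) * ENNReal.ofReal (dtan D i x ^ 2 / dnorm D x) with hp3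
  set p4 : V3 → ℝ≥0∞ := fun x =>
    Z.indicator 1 (x i) * ENNReal.ofReal (dens D i x ^ 2 / dnorm D x) with hp4
  have hZi : Measurable fun x : V3 => Z.indicator (1 : ℝ → ℝ≥0∞) (x i) :=
    (measurable_one.indicator hZm).comp hxi
  have m1 : Measurable p1 :=
    (hBm.comp hxi).ennreal_ofReal.mul (measurable_dens D i).ennreal_ofReal
  have m2 : Measurable p2 :=
    (hwm.comp hxi).ennreal_ofReal.mul (measurable_dtan D i).ennreal_ofReal
  have m3 : Measurable p3 :=
    hZi.mul (((measurable_dtan D i).pow_const 2).div (measurable_dnorm D)).ennreal_ofReal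
  have hpt : ∀ x, p1 x + p2 x + p3 x + p4 x ≤ ENNReal.ofReal (dnorm D x) := by
    intro x
    have hρ := dens_nonneg D i x
    have hτ := dtan_nonneg D i x
    have hn := dnorm_nonneg D x
    have hsq := dnorm_sq D i x
    simp only [hp1, hp2, hp3, hp4]
    by_cases hx : x i ∈ Z
    · obtain ⟨e1, e2⟩ := hBZ _ hx
      simp only [e1, e2, indicator_of_mem hx, ENNReal.ofReal_zero, zero_mul, zero_add,
        Pi.one_apply, one_mul]
      rw [← ENNReal.ofReal_add (by positivity) (by positivity), ← add_div]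
      refine ENNReal.ofReal_le_ofReal (div_le_of_le_mul₀ hn hn ?_)
      nlinarith
    · simp only [indicator_of_notMem hx, zero_mul, add_zero]
      rw [← ENNReal.ofReal_mul (hB0 _), ← ENNReal.ofReal_mul (hw0 _),
        ← ENNReal.ofReal_add (mul_nonneg (hB0 _) hρ) (mul_nonneg (hw0 _) hτ)]
      refine ENNReal.ofReal_le_ofReal (le_of_pow_le_pow_left₀ two_ne_zero hn ?_)
      nlinarith [sq_nonneg (B (x i) * dtan D i x - w (x i) * dens D i x),
        mul_nonneg (sub_nonneg.2 (hBw (x i))) (add_nonneg (sq_nonneg (dens D i x))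
          (sq_nonneg (dtan D i x)))]
  have htot : ∫⁻ x, p1 x ∂surf D + ∫⁻ x, p2 x ∂surf D + ∫⁻ x, p3 x ∂surf D + ∫⁻ x, p4 x ∂surf D ≤
      ENNReal.ofReal (area D) := by
    rw [← lintegral_add_left m1, ← lintegral_add_left (f := fun x => p1 x + p2 x) (m1.add m2),
      ← lintegral_add_left (f := fun x => p1 x + p2 x + p3 x) ((m1.add m2).add m3), ofReal_area]
    exact lintegral_mono hpt
  set Y0 := ∫⁻ t in Ioo (0 : ℝ) 1, ENNReal.ofReal (w t * √(Real.pi * a t)) with hY0
  have hY : Y0 ≤ ∫⁻ x, p2 x ∂surf D := by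
    refine le_trans (le_of_eq (lintegral_congr fun t => ?_)) (hfree.2 _ hwm.ennreal_ofReal)
    rw [ENNReal.ofReal_mul (hw0 t)]
  have hsum : Y0 + ∫⁻ x, p3 x ∂surf D = ENNReal.ofReal (h * dvol D) := by
    simp only [hp3]
    rw [hst.flux i _ (measurable_one.indicator hZm), hY0,
      ← lintegral_add_left (f := fun t => ENNReal.ofReal (w t * √(Real.pi * a t)))
        (hwm.mul (measurable_const.mul ham).sqrt).ennreal_ofReal]
    have hf := (Calib.lintegral_flux hD hst i).1
    rw [hc i, add_zero] at hf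
    rw [← hf]
    refine lintegral_congr_ae ((ae_restrict_iff' measurableSet_Ioo).2 ?_)
    filter_upwards [measure_eq_zero_iff_ae_notMem.1 (hNc.measure_zero volume)] with t htN htI
    have htG : t ∈ G := ⟨htI, htN⟩
    by_cases hz : b0 < a t
    · rw [indicator_of_mem (show t ∈ Z from ⟨htG, hz⟩), (hBZ t ⟨htG, hz⟩).2]
      simp [hc i]
    · have hz' : t ∉ Z := fun hm => hz hm.2
      rw [indicator_of_notMem hz', hwdef, indicator_of_mem (show t ∈ G \ Z from ⟨htG, hz'⟩),
        zero_mul, add_zero, hadef]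
      congr 1
      have ha := sliceA_nonneg D i t
      rw [← Real.sqrt_mul (div_nonneg ha hb0.le), ← Real.sqrt_sq (mul_nonneg hh.le ha), hb0def]
      field_simp
      rw [add_zero]
  set K := ENNReal.ofReal (area D / 3) with hK
  have hKM : K + ENNReal.ofReal (h * dvol D) = ENNReal.ofReal (area D) := by
    rw [hK, hflux, ← ENNReal.ofReal_add (by positivity) (by positivity)]
    congr 1
    ring
  have hX : ∫⁻ x, p1 x ∂surf D =
      ∫⁻ s in Ioo (endA1 D i) (endA0 D i), ENNReal.ofReal (B (inv D i s)) := by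
    rw [hp1, lintegral_mul_dens D i (F := fun x => ENNReal.ofReal (B (x i)))
      (hBm.comp hxi).ennreal_ofReal]
    exact sheetLaw D hD i _ hBm.ennreal_ofReal
  rw [hend i] at hX
  have hKint : K = ∫⁻ s in Ioo (0 : ℝ) b0, ENNReal.ofReal √(1 - s / b0) := by
    rw [lintegral_Ioo_ofReal hb0.le (by fun_prop) fun x => Real.sqrt_nonneg _,
      intervalIntegral.integral_comp_div (fun x => √(1 - x)) hb0.ne', zero_div, div_self hb0.ne',
      intervalIntegral.integral_comp_sub_left (fun x => √x), sub_self, sub_zero, hK]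
    congr 1
    simp only [Real.sqrt_eq_rpow]
    rw [integral_rpow (Or.inl (by norm_num)), hb]
    norm_num
    ring
  have hBlow : ∀ s ∈ Ioo (0 : ℝ) a0, (s ≤ b0 → √(1 - s / b0) ≤ B (inv D i s)) ∧
      (b0 < s → 1 ≤ B (inv D i s) ∨ inv D i s ∈ Z) := by
    intro s hs
    have hs' : s ∈ Ioo (endA1 D i) (endA0 D i) := by rw [hend i]; exact hs
    by_cases ht : inv D i s ∈ G
    · have e : a (inv D i s) = s := slice_inv hD i hs' (not_not.1 fun hcn => ht.2 ⟨ht.1, hcn⟩)
      refine ⟨fun _ => ?_, fun hlt => Or.inr ⟨ht, show b0 < a (inv D i s) by rw [e]; exact hlt⟩⟩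
      rw [hBdef, piecewise_eq_of_mem _ _ _ ht, e]
    · rw [hBdef, piecewise_eq_of_notMem _ _ _ ht]
      exact ⟨fun _ => Real.sqrt_le_one.2 (by linarith [div_nonneg hs.1.le hb0.le]),
        fun _ => Or.inl le_rfl⟩
  have hKX : K ≤ ∫⁻ x, p1 x ∂surf D := by
    rw [hX, hKint]
    refine (setLIntegral_mono' measurableSet_Ioo fun s hs => ENNReal.ofReal_le_ofReal
      ((hBlow s ⟨hs.1, hs.2.trans_le hba⟩).1 hs.2.le)).trans
      (lintegral_mono_set (Ioo_subset_Ioo_right hba))
  have hfinK : K ≠ ⊤ := ENNReal.ofReal_ne_top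
  have hMfin : ENNReal.ofReal (h * dvol D) ≠ ⊤ := ENNReal.ofReal_ne_top
  have hE : ∫⁻ x, p4 x ∂surf D = 0 := by
    have h1 : ENNReal.ofReal (area D) + ∫⁻ x, p4 x ∂surf D ≤ ENNReal.ofReal (area D) + 0 := by
      rw [add_zero]
      refine le_trans ?_ htot
      rw [← hKM, ← hsum, ← add_assoc]
      gcongr
    exact le_antisymm ((ENNReal.add_le_add_iff_left ENNReal.ofReal_ne_top).1 h1) zero_le
  rw [hE, add_zero] at htot
  have hXK : ∫⁻ x, p1 x ∂surf D ≤ K := by
    refine (ENNReal.add_le_add_iff_right hMfin).1 (le_trans ?_ (htot.trans hKM.ge))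
    rw [← hsum, ← add_assoc]
    gcongr
  have hYY : ∫⁻ x, p2 x ∂surf D ≤ Y0 := by
    have hWfin : ∫⁻ x, p3 x ∂surf D ≠ ⊤ :=
      ne_top_of_le_ne_top hMfin (hsum ▸ le_add_self)
    refine (ENNReal.add_le_add_iff_right hWfin).1 ((ENNReal.add_le_add_iff_left hfinK).1 ?_)
    rw [hsum, hKM, ← add_assoc]
    refine le_trans ?_ htot
    gcongr
  have hZnull : ∫⁻ s in Ioo (0 : ℝ) a0, Z.indicator (1 : ℝ → ℝ≥0∞) (inv D i s) = 0 := by
    have := sheetLaw D hD i _ ((measurable_one (α := ℝ≥0∞)).indicator hZm)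
    rw [hend i] at this
    refine this.symm.trans ?_
    rw [← lintegral_mul_dens D i hZi]
    refine lintegral_eq_zero_of_ae_eq_zero ?_
    have h0 := (lintegral_eq_zero_iff
      (hZi.mul (((measurable_dens D i).pow_const 2).div (measurable_dnorm D)).ennreal_ofReal)).1 hE
    filter_upwards [h0] with x hx
    by_cases hxz : x i ∈ Z
    · simp only [Pi.mul_apply, indicator_of_mem hxz, Pi.one_apply, one_mul, Pi.zero_apply,
        ENNReal.ofReal_eq_zero] at hx ⊢
      refine le_of_eq ?_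
      rcases (dnorm_nonneg D x).eq_or_lt with h0 | h0
      · have := dnorm_sq D i x
        rw [← h0] at this
        nlinarith [sq_nonneg (dtan D i x), dens_nonneg D i x]
      · have := mul_nonpos_of_nonpos_of_nonneg hx h0.le
        simp only [Pi.div_apply, div_mul_cancel₀ _ h0.ne'] at this
        nlinarith [dens_nonneg D i x]
    · simp [indicator_of_notMem hxz]
  have hab : a0 ≤ b0 := by
    have hlow : K + ENNReal.ofReal (a0 - b0) ≤
        ∫⁻ s in Ioo (0 : ℝ) a0,
          (ENNReal.ofReal (B (inv D i s)) + Z.indicator (1 : ℝ → ℝ≥0∞) (inv D i s)) := by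
      have hd : Disjoint (Ioo (0 : ℝ) b0) (Ioo b0 a0) :=
        disjoint_left.2 fun s h1 h2 => (h1.2.trans h2.1).false
      refine le_trans ?_ (lintegral_mono_set (union_subset (Ioo_subset_Ioo_right hba)
        (Ioo_subset_Ioo_left hb0.le) : Ioo (0 : ℝ) b0 ∪ Ioo b0 a0 ⊆ Ioo 0 a0))
      rw [lintegral_union measurableSet_Ioo hd, hKint, ← Real.volume_Ioo, ← setLIntegral_one]
      refine add_le_add (setLIntegral_mono' measurableSet_Ioo fun s hs => le_add_right
        (ENNReal.ofReal_le_ofReal ((hBlow s ⟨hs.1, hs.2.trans_le hba⟩).1 hs.2.le))) ?_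
      refine setLIntegral_mono' measurableSet_Ioo fun s hs => ?_
      rcases (hBlow s ⟨hb0.trans hs.1, hs.2⟩).2 hs.1 with h1 | h1
      · exact le_add_right (ENNReal.one_le_ofReal.2 h1)
      · rw [indicator_of_mem h1]; exact le_add_self
    rw [lintegral_add_right (g := fun s => Z.indicator (1 : ℝ → ℝ≥0∞) (inv D i s)) _
      (((measurable_one (α := ℝ≥0∞)).indicator hZm).comp (inv_antitone D i).measurable),
      hZnull, add_zero, ← hX] at hlow
    have := (ENNReal.add_le_add_iff_left hfinK).1 ((hlow.trans hXK).trans (add_zero K).ge)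
    simpa using this
  refine ⟨le_antisymm hab hba, fun j k hij hik hjk => ?_⟩
  have hcirc := slice_circle hD hij hik hjk (hend j) (hend k) hwm hw0 hYY
    (ne_top_of_le_ne_top hMfin (hsum ▸ le_self_add))
  filter_upwards [hcirc, measure_eq_zero_iff_ae_notMem.1 (hNc.measure_zero volume)] with t htc htN
  by_cases hpos : ∃ r, 0 < fext D i j k t r
  · obtain ⟨r, hr⟩ := hpos
    have htI := (ioo_of_fext_pos hD hij hik hjk hr).1
    refine htc htI ?_
    rw [hwdef, indicator_of_mem]
    · exact Real.sqrt_pos.2 (div_pos (sliceA_pos hD hij hik hjk hr) hb0)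
    · exact ⟨⟨htI, htN⟩, fun hm =>
        absurd hm.2 (not_lt.2 ((sliceA_le_endA0 hD i htI).trans hab))⟩
  · exact ae_of_all _ fun r hr => absurd ⟨r, hr⟩ hpos

/-- Quarter-disc slices in two directions with `a0 = π / h²` put the set in a ball. -/
theorem ball_inside (hD : IsDown D) {h : ℝ} (hh : 0 < h)
    (e0 : endA0 D 0 = Real.pi / h ^ 2)
    (hi : ∀ᵐ t : ℝ, ∀ᵐ r : ℝ, 0 < fext D 0 1 2 t r →
      fext D 0 1 2 t r ^ 2 + r ^ 2 = 4 * sliceA D 0 t / Real.pi)
    (hk : ∀ᵐ r : ℝ, ∀ᵐ t : ℝ, 0 < fext D 2 1 0 r t →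
      fext D 2 1 0 r t ^ 2 + t ^ 2 = 4 * sliceA D 2 r / Real.pi) {x : V3} (hx : x ∈ D) :
    ∑ l, x l ^ 2 ≤ (2 / h) ^ 2 := by
  set F : ℝ → ℝ → ℝ := fext D 0 1 2 with hF
  simp only [fext_swap (D := D) (i := (0 : Fin 3)) (j := 1) (k := 2) (by decide)] at hk
  have hm : MeasurableSet {p : ℝ × ℝ |
      0 < F p.2 p.1 → F p.2 p.1 ^ 2 + p.2 ^ 2 = 4 * sliceA D 2 p.1 / Real.pi} := by
    have hFm : Measurable fun p : ℝ × ℝ => F p.2 p.1 :=
      Measurable.comp (g := fun p : ℝ × ℝ => fext D 0 1 2 p.1 p.2)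
        (f := fun p : ℝ × ℝ => (p.2, p.1)) (measurable_fext hD.1 0 1 2)
        (measurable_snd.prodMk measurable_fst)
    have hpos : MeasurableSet {p : ℝ × ℝ | 0 < F p.2 p.1} := hFm measurableSet_Ioi
    have hL : Measurable fun p : ℝ × ℝ => F p.2 p.1 ^ 2 + p.2 ^ 2 :=
      (hFm.pow_const 2).add (measurable_snd.pow_const 2)
    have hR : Measurable fun p : ℝ × ℝ => 4 * sliceA D 2 p.1 / Real.pi :=
      (((measurable_sliceA hD.1 2).comp measurable_fst).const_mul (4 : ℝ)).div_const Real.pi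
    simp only [imp_iff_not_or]
    exact hpos.compl.union (measurableSet_eq_fun hL hR)
  have hk' : ∀ᵐ t : ℝ, ∀ᵐ r : ℝ, 0 < F t r →
      F t r ^ 2 + t ^ 2 = 4 * sliceA D 2 r / Real.pi :=
    (Measure.ae_ae_comm (p := fun r t => 0 < F t r →
      F t r ^ 2 + t ^ 2 = 4 * sliceA D 2 r / Real.pi) hm).1 hk
  set G1 : ℝ → ℝ := fun t => 4 * sliceA D 0 t / Real.pi + t ^ 2 with hG1
  set good : ℝ → Prop := fun t => ∀ᵐ r : ℝ, 0 < F t r →
    F t r ^ 2 + r ^ 2 + t ^ 2 = G1 t ∧ G1 t = 4 * sliceA D 2 r / Real.pi + r ^ 2 with hgood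
  have hgae : ∀ᵐ t : ℝ, good t := by
    filter_upwards [hi, hk'] with t h1 h2
    filter_upwards [h1, h2] with r e1 e2 hpos
    have := e1 hpos
    have := e2 hpos
    simp only [hG1]
    constructor <;> linarith
  have hnonempty : ∀ t, 0 < sliceA D 0 t → ∃ r, 0 < F t r := fun t hat => by
    by_contra hno
    push Not at hno
    have h0 := lintegral_fext hD (i := 0) (j := 1) (k := 2) (by decide) (by decide) (by decide) t
    simp only [hF] at hno
    simp only [fun r => ENNReal.ofReal_of_nonpos (hno r), lintegral_zero] at h0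
    exact absurd h0.symm (by simpa using hat)
  have hconst : ∀ t t', good t → good t' → 0 < sliceA D 0 t → 0 < sliceA D 0 t' →
      G1 t = G1 t' := by
    intro t t' hg hg' hat hat'
    obtain ⟨r1, hr1⟩ := hnonempty t hat
    obtain ⟨r2, hr2⟩ := hnonempty t' hat'
    obtain ⟨ht, hr1I⟩ := ioo_of_fext_pos hD (by decide) (by decide) (by decide) hr1
    obtain ⟨ht', hr2I⟩ := ioo_of_fext_pos hD (by decide) (by decide) (by decide) hr2
    obtain ⟨r, hr, e1, e2⟩ := exists_ae_Ioo (lt_min hr1I.1 hr2I.1) (hg.and hg')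
    rw [(e1 (fext_pos_below hD (by decide) (by decide) (by decide) hr1 ht.1 le_rfl hr.1
        (hr.2.le.trans (min_le_left _ _)))).2,
      (e2 (fext_pos_below hD (by decide) (by decide) (by decide) hr2 ht'.1 le_rfl hr.1
        (hr.2.le.trans (min_le_right _ _)))).2]
  have hlim : Tendsto G1 (𝓝[>] 0) (𝓝 ((2 / h) ^ 2)) := by
    have := (((sliceA_tendsto_zero hD 0).const_mul 4).div_const Real.pi).add
      (((continuous_pow 2).tendsto' (0 : ℝ) 0 (by simp)).mono_left nhdsWithin_le_nhds)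
    rw [e0] at this
    convert this using 2
    field_simp
    ring
  have hval : ∀ t, good t → 0 < sliceA D 0 t → G1 t = (2 / h) ^ 2 := by
    intro t hg hat
    by_contra hne
    have hev : ∀ᶠ s in 𝓝[>] 0, G1 s ≠ G1 t ∧ 0 < sliceA D 0 s :=
      (hlim.eventually (isOpen_ne.mem_nhds (Ne.symm hne))).and
        ((sliceA_tendsto_zero hD 0).eventually (eventually_gt_nhds (by rw [e0]; positivity)))
    obtain ⟨δ, hδ, hsub⟩ := mem_nhdsGT_iff_exists_Ioo_subset.1 hev
    obtain ⟨s, hs, hgs⟩ := exists_ae_Ioo (show (0 : ℝ) < δ from hδ) hgae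
    exact (hsub hs).1 (hconst s t hgs hg (hsub hs).2 hat)
  refine le_of_forall_scale fun θ hθ => ?_
  have hx' := mem_cube_iff.1 (hD.2.1 hx)
  have hlt : ∀ l, θ * x l < x l := fun l => mul_lt_of_lt_one_left (hx' l).1 hθ.2
  have hpos : ∀ l, 0 < θ * x l := fun l => mul_pos hθ.1 (hx' l).1
  obtain ⟨t, htI, hgt⟩ := exists_ae_Ioo (hlt 0) hgae
  obtain ⟨r, hrI, hgr⟩ := exists_ae_Ioo (hlt 2) hgt
  have ht0 := (hpos 0).trans htI.1
  have hr0 := (hpos 2).trans hrI.1
  have hf : x 1 ≤ F t r := le_fext_of_mem hD (mk3_down hD (i := 0) (j := 1) (k := 2) (by decide)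
    (by decide) (by decide) (by rw [mk3_self (by decide) (by decide) (by decide)]; exact hx)
    ⟨ht0, htI.2.trans (hx' 0).2⟩ (hx' 1) ⟨hr0, hrI.2.trans (hx' 2).2⟩ htI.2.le le_rfl hrI.2.le)
  have hfpos : 0 < F t r := (hx' 1).1.trans_le hf
  obtain ⟨e1, -⟩ := hgr hfpos
  rw [hval t hgt (sliceA_pos hD (by decide) (by decide) (by decide) hfpos)] at e1
  rw [← e1, Fin.sum_univ_three]
  have h1 := pow_le_pow_left₀ (hpos 0).le htI.1.le 2
  have h3 := pow_le_pow_left₀ (hpos 2).le hrI.1.le 2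
  have h4 := pow_le_pow_left₀ (hpos 1).le ((hlt 1).le.trans hf) 2
  nlinarith

theorem ball_shape (hD : IsDown D) {h : ℝ} {c : Fin 3 → ℝ} (hst : Stationary D h c)
    (hc : ∀ l, c l = 0) (hend : ∀ l, endA1 D l = 0) (hv : 0 < dvol D) (hv2 : dvol D ≤ 1 / 2)
    (hP : area D ^ 3 = 9 * Real.pi / 2 * dvol D ^ 2) :
    ∃ R, 0 < R ∧ R < 1 / 2 ∧ lift D =ᵐ[volume] canon Finset.univ R 0 ∧
      2 * area D = 3 * dvol D / R := by
  have hpi := Real.pi_pos
  have hsum := hst.sum_eq
  simp only [hc, Finset.sum_const_zero, add_zero] at hsum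
  have hP0 : 0 < area D := by
    refine (area_nonneg D).lt_of_ne fun h0 => ?_
    have h1 : 0 < 9 * Real.pi / 2 * dvol D ^ 2 := by positivity
    rw [← hP, ← h0] at h1
    simp at h1
  have hflux : h * dvol D = 2 * area D / 3 := by linarith
  have hh : 0 < h := pos_of_mul_pos_left (hflux ▸ (by positivity : 0 < 2 * area D / 3)) hv.le
  have hv0 : dvol D ≠ 0 := hv.ne'
  have hh3 : h ^ 3 * dvol D = 4 * Real.pi / 3 := by
    apply mul_left_cancel₀ (pow_ne_zero 2 hv0)
    calc dvol D ^ 2 * (h ^ 3 * dvol D) = (h * dvol D) ^ 3 := by ring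
      _ = 8 / 27 * area D ^ 3 := by rw [hflux]; ring
      _ = _ := by rw [hP]; ring
  have hb : Real.pi / h ^ 2 = area D / 2 := by
    rw [div_eq_iff (pow_ne_zero 2 hh.ne')]
    have e : h ^ 2 * (h * dvol D) = 4 * Real.pi / 3 := by rw [← hh3]; ring
    rw [hflux] at e
    linarith
  have hax := fun i => ball_axis hD hst hc hend hh hflux hb i
  have h2 : 2 < h := by
    refine lt_of_pow_lt_pow_left₀ 3 hh.le ?_
    nlinarith [mul_le_mul_of_nonneg_left hv2 (pow_nonneg hh.le 3), Real.pi_gt_three]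
  refine ⟨1 / h, by positivity, one_div_lt_one_div_of_lt two_pos h2, ?_,
    by rw [hsum, div_div_eq_mul_div, div_one]; ring⟩
  rw [show 1 / h = 2 / h / 2 by ring]
  refine finish hD (n := 3) (κ := Real.pi / 6) (by positivity) ((div_lt_one hh).2 h2)
    (fun ρ h0 h1 => dvol_oct_three h0 h1) (fun x hx => ball_inside hD hh (hax 0).1
      ((hax 0).2 1 2 (by decide) (by decide) (by decide))
      ((hax 2).2 1 0 (by decide) (by decide) (by decide)) hx) ?_
  · field_simp
    linarith

end Shape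

open Shape

/-- Proof of `Shapes`. -/
theorem shapes : Shapes := by
  intro D hD hv hv2 hA hcase
  have hJ : J (dvol D) = 2 * area D := by rw [hA, jQ]; ring
  rcases hcase with ⟨h, c, hst, hc, hend, hP⟩ | ⟨i, hi, hoth, hP⟩ | ⟨i, j, hij, hi, hj, hP⟩
  · obtain ⟨R, hR0, hR1, hae, he⟩ := ball_shape hD hst hc hend hv hv2 hP
    exact ⟨Finset.univ, R, Finset.univ_nonempty, hR0, hR1, hae, by simpa [hJ] using he⟩
  · obtain ⟨j, k, hij, hik, hjk⟩ : ∃ j k : Fin 3, i ≠ j ∧ i ≠ k ∧ j ≠ k :=
      ⟨i + 1, i + 2, by omega, by omega, by omega⟩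
    refine ⟨Finset.univ.erase i, √(dvol D / Real.pi), ⟨j, by simp [hij.symm]⟩,
      Real.sqrt_pos.2 (div_pos hv Real.pi_pos), ?_,
      tube_shape hD hij hik hjk hi (hoth j hij.symm) (hoth k hik.symm) hP hv hv2, ?_⟩
    · rw [Real.sqrt_lt' (by norm_num), div_lt_iff₀ Real.pi_pos]
      nlinarith [Real.pi_gt_three]
    · have hs : 0 < √(dvol D / Real.pi) := Real.sqrt_pos.2 (div_pos hv Real.pi_pos)
      rw [hJ, hP, eq_div_iff hs.ne', mul_assoc,
        ← Real.sqrt_mul (mul_nonneg Real.pi_nonneg hv.le),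
        show Real.pi * dvol D * (dvol D / Real.pi) = dvol D ^ 2 by field_simp,
        Real.sqrt_sq hv.le]
      simp
  · have third : ∀ p q : Fin 3, p ≠ q → ∃ l, p ≠ l ∧ q ≠ l := by decide
    obtain ⟨k, hik, hjk⟩ := third i j hij
    refine ⟨{k}, dvol D / 2, Finset.singleton_nonempty k, by linarith, by linarith,
      slab_shape hD hij hik hjk hi hj hv hv2, ?_⟩
    rw [hJ, hP]
    field_simp
    simp

end Vale.Agent.P232
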