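import Vale.Agent.P232.Interface

/-! # P232: extents of down-sets, sheets and densities (shared basic facts) -/

namespace Vale.Agent.P232

open MeasureTheory Set Filter Topology
open scoped ENNReal

variable {D : Set V3}

theorem measurable_insertNth (i : Fin 3) :
    Measurable fun p : ℝ × (Fin 2 → ℝ) => (i.insertNth p.1 p.2 : V3) :=
  (MeasurableEquiv.piFinSuccAbove (fun _ : Fin 3 => ℝ) i).symm.measurable

theorem measurableSet_line (hD : MeasurableSet D) (i : Fin 3) (q : Fin 2 → ℝ) :
    MeasurableSet {t : ℝ | i.insertNth t q ∈ D} :=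
  ((measurable_insertNth i).comp (measurable_id.prodMk measurable_const)) hD

theorem measurableSet_slice (hD : MeasurableSet D) (i : Fin 3) (t : ℝ) :
    MeasurableSet {q : Fin 2 → ℝ | i.insertNth t q ∈ D} :=
  ((measurable_insertNth i).comp (measurable_const.prodMk measurable_id)) hD

theorem mem_cube_iff {x : V3} : x ∈ cube ↔ ∀ i, x i ∈ Ioo (0 : ℝ) 1 := by
  simp [cube]

theorem mem_square_iff {q : Fin 2 → ℝ} : q ∈ square ↔ ∀ i, q i ∈ Ioo (0 : ℝ) 1 := by
  simp [square]

theorem insertNth_mem_cube {i : Fin 3} {t : ℝ} {q : Fin 2 → ℝ} :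
    (i.insertNth t q : V3) ∈ cube ↔ t ∈ Ioo (0 : ℝ) 1 ∧ q ∈ square := by
  rw [mem_cube_iff, Fin.forall_iff_succAbove i, mem_square_iff]
  simp

theorem measurableSet_square : MeasurableSet square :=
  MeasurableSet.univ_pi fun _ => measurableSet_Ioo

theorem volume_square : volume square = 1 := by
  simp [square, volume_pi_pi]

theorem line_subset (hD : IsDown D) (i : Fin 3) (q : Fin 2 → ℝ) :
    {t : ℝ | i.insertNth t q ∈ D} ⊆ Ioo 0 1 := fun _ ht =>
  (insertNth_mem_cube.1 (hD.2.1 ht)).1

theorem slice_subset (hD : IsDown D) (i : Fin 3) (t : ℝ) :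
    {q : Fin 2 → ℝ | i.insertNth t q ∈ D} ⊆ square := fun _ hq =>
  (insertNth_mem_cube.1 (hD.2.1 hq)).2

theorem insertNth_mono (hD : IsDown D) {i : Fin 3} {t t' : ℝ} {q q' : Fin 2 → ℝ}
    (h : i.insertNth t q ∈ D) (ht : t' ≤ t) (hq : q' ≤ q) (ht' : t' ∈ Ioo (0 : ℝ) 1)
    (hq' : q' ∈ square) : i.insertNth t' q' ∈ D := by
  refine hD.2.2 _ h _ (insertNth_mem_cube.2 ⟨ht', hq'⟩) ?_
  intro k
  refine Fin.succAboveCases i ?_ (fun l => ?_) k
  · simpa using ht
  · simpa using hq l

theorem volume_line_le (hD : IsDown D) (i : Fin 3) (q : Fin 2 → ℝ) :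
    volume {t : ℝ | i.insertNth t q ∈ D} ≤ 1 :=
  (measure_mono (line_subset hD i q)).trans (by simp)

theorem ext_nonneg (D : Set V3) (i : Fin 3) (q : Fin 2 → ℝ) : 0 ≤ ext D i q :=
  measureReal_nonneg

theorem ext_le_one (hD : IsDown D) (i : Fin 3) (q : Fin 2 → ℝ) : ext D i q ≤ 1 :=
  ENNReal.toReal_le_of_le_ofReal zero_le_one (by simpa using volume_line_le hD i q)

theorem measurable_ext (hD : MeasurableSet D) (i : Fin 3) : Measurable (ext D i) := by
  have h := measurable_measure_prodMk_right (μ := (volume : Measure ℝ))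
    ((measurable_insertNth i) hD)
  exact h.ennreal_toReal

theorem le_ext_of_mem (hD : IsDown D) {i : Fin 3} {q : Fin 2 → ℝ} {t : ℝ}
    (ht : i.insertNth t q ∈ D) : t ≤ ext D i q := by
  obtain ⟨hti, hq⟩ := insertNth_mem_cube.1 (hD.2.1 ht)
  have hsub : Ioo 0 t ⊆ {u : ℝ | i.insertNth u q ∈ D} := fun u hu =>
    insertNth_mono hD ht hu.2.le le_rfl ⟨hu.1, hu.2.trans hti.2⟩ hq
  have h := ENNReal.toReal_mono (ne_top_of_le_ne_top ENNReal.one_ne_top (volume_line_le hD i q))
    (measure_mono (μ := volume) hsub)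
  simpa [ext, measureReal_def, Real.volume_Ioo, ENNReal.toReal_ofReal hti.1.le] using h

theorem mem_of_lt_ext (hD : IsDown D) {i : Fin 3} {q : Fin 2 → ℝ} {t : ℝ}
    (ht0 : 0 < t) (ht : t < ext D i q) : i.insertNth t q ∈ D := by
  by_contra hn
  have hsub : {u : ℝ | i.insertNth u q ∈ D} ⊆ Ioo 0 t := fun u hu => by
    refine ⟨(line_subset hD i q hu).1, lt_of_not_ge fun htu => hn ?_⟩
    exact insertNth_mono hD hu htu le_rfl ⟨ht0, lt_of_le_of_lt htu (line_subset hD i q hu).2⟩
      (insertNth_mem_cube.1 (hD.2.1 hu)).2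
  have : ext D i q ≤ t :=
    ENNReal.toReal_le_of_le_ofReal ht0.le ((measure_mono hsub).trans (by simp [Real.volume_Ioo]))
  linarith

theorem mem_square_of_ext_pos (hD : IsDown D) {i : Fin 3} {q : Fin 2 → ℝ}
    (h : 0 < ext D i q) : q ∈ square :=
  (insertNth_mem_cube.1 (hD.2.1 (mem_of_lt_ext hD (half_pos h) (half_lt_self h)))).2

theorem ext_antitone (hD : IsDown D) (i : Fin 3) : AntitoneOn (ext D i) square := by
  intro q hq q' hq' hle
  refine le_of_forall_lt fun c hc => ?_
  rcases le_or_gt c 0 with hc0 | hc0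
  · rcases lt_or_eq_of_le hc0 with h | h
    · exact h.trans_le (ext_nonneg D i q)
    · subst h
      have hpos : 0 < ext D i q' := hc
      have hm := mem_of_lt_ext hD (half_pos hpos) (half_lt_self hpos)
      have := le_ext_of_mem hD (insertNth_mono hD hm le_rfl hle (line_subset hD i q' hm) hq)
      linarith
  · obtain ⟨c', hc1, hc2⟩ := exists_between hc
    have hm := mem_of_lt_ext hD (hc0.trans hc1) hc2
    exact hc1.trans_le
      (le_ext_of_mem hD (insertNth_mono hD hm le_rfl hle (line_subset hD i q' hm) hq))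

theorem measurableSet_sheetDom (hD : MeasurableSet D) (i : Fin 3) :
    MeasurableSet {q | q ∈ square ∧ ext D i q ∈ Ioo (0 : ℝ) 1} :=
  measurableSet_square.inter (measurable_ext hD i measurableSet_Ioo)

theorem measurable_graph (hD : MeasurableSet D) (i : Fin 3) :
    Measurable fun q => (i.insertNth (ext D i q) q : V3) :=
  (measurable_insertNth i).comp ((measurable_ext hD i).prodMk measurable_id)

theorem lintegral_sheet (hD : MeasurableSet D) (i : Fin 3) {F : V3 → ℝ≥0∞} (hF : Measurable F) :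
    ∫⁻ x, F x ∂sheet D i =
      ∫⁻ q in {q | q ∈ square ∧ ext D i q ∈ Ioo (0 : ℝ) 1}, F (i.insertNth (ext D i q) q) :=
  lintegral_map hF (measurable_graph hD i)

theorem sheet_univ_le (hD : MeasurableSet D) (i : Fin 3) : sheet D i univ ≤ 1 := by
  rw [sheet, Measure.map_apply (measurable_graph hD i) MeasurableSet.univ, preimage_univ,
    Measure.restrict_apply_univ]
  exact (measure_mono fun q hq => hq.1).trans volume_square.le

instance sheet_isFinite (D : Set V3) (i : Fin 3) : IsFiniteMeasure (sheet D i) := by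
  have : IsFiniteMeasure
      (volume.restrict {q : Fin 2 → ℝ | q ∈ square ∧ ext D i q ∈ Ioo (0 : ℝ) 1}) :=
    isFiniteMeasure_restrict.2 (ne_top_of_le_ne_top (by simp [volume_square])
      (measure_mono (μ := volume) (show _ ⊆ square from fun q hq => hq.1)))
  unfold sheet
  infer_instance

instance surf_isFinite (D : Set V3) : IsFiniteMeasure (surf D) := by
  unfold surf
  rw [Fin.sum_univ_three]
  infer_instance

instance sheet_decomp (D : Set V3) (i : Fin 3) :
    (sheet D i).HaveLebesgueDecomposition (surf D) :=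
  Measure.haveLebesgueDecomposition_of_sigmaFinite _ _

theorem sheet_le_surf (D : Set V3) (i : Fin 3) : sheet D i ≤ surf D :=
  Finset.single_le_sum (f := fun j => sheet D j) (fun _ _ => Measure.zero_le _) (Finset.mem_univ i)

theorem sheet_ac_surf (D : Set V3) (i : Fin 3) : sheet D i ≪ surf D :=
  (sheet_le_surf D i).absolutelyContinuous

theorem measurable_dens (D : Set V3) (i : Fin 3) : Measurable (dens D i) :=
  (Measure.measurable_rnDeriv _ _).ennreal_toReal

theorem dens_nonneg (D : Set V3) (i : Fin 3) (x : V3) : 0 ≤ dens D i x :=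
  ENNReal.toReal_nonneg

theorem measurable_dnorm (D : Set V3) : Measurable (dnorm D) :=
  (Finset.measurable_sum _ fun i _ => (measurable_dens D i).pow_const 2).sqrt

theorem measurable_dtan (D : Set V3) (i : Fin 3) : Measurable (dtan D i) :=
  (Finset.measurable_sum _ fun j _ => (measurable_dens D j).pow_const 2).sqrt

theorem dnorm_nonneg (D : Set V3) (x : V3) : 0 ≤ dnorm D x := Real.sqrt_nonneg _

theorem dtan_nonneg (D : Set V3) (i : Fin 3) (x : V3) : 0 ≤ dtan D i x := Real.sqrt_nonneg _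

theorem ofReal_dens (D : Set V3) (i : Fin 3) :
    (fun x => ENNReal.ofReal (dens D i x)) =ᵐ[surf D] (sheet D i).rnDeriv (surf D) := by
  filter_upwards [Measure.rnDeriv_ne_top (sheet D i) (surf D)] with x hx
  exact ENNReal.ofReal_toReal hx

/-- Integration against a density is integration on the sheet. -/
theorem lintegral_mul_dens (D : Set V3) (i : Fin 3) {F : V3 → ℝ≥0∞} (hF : Measurable F) :
    ∫⁻ x, F x * ENNReal.ofReal (dens D i x) ∂surf D = ∫⁻ x, F x ∂sheet D i := by
  rw [← lintegral_rnDeriv_mul (sheet_ac_surf D i) hF.aemeasurable]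
  refine lintegral_congr_ae ?_
  filter_upwards [ofReal_dens D i] with x hx
  simp only [hx]
  exact mul_comm _ _

theorem dens_le_one (D : Set V3) (i : Fin 3) : ∀ᵐ x ∂surf D, dens D i x ≤ 1 := by
  filter_upwards [Measure.rnDeriv_le_one_of_le (sheet_le_surf D i)] with x hx
  exact ENNReal.toReal_le_of_le_ofReal zero_le_one (by simpa using hx)

theorem dnorm_le_two (D : Set V3) : ∀ᵐ x ∂surf D, dnorm D x ≤ 2 := by
  filter_upwards [ae_all_iff.2 (dens_le_one D)] with x hx
  rw [dnorm, Real.sqrt_le_iff, Fin.sum_univ_three]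
  constructor
  · norm_num
  · nlinarith [hx 0, hx 1, hx 2, dens_nonneg D 0 x, dens_nonneg D 1 x, dens_nonneg D 2 x]

theorem integrable_dnorm (D : Set V3) : Integrable (dnorm D) (surf D) :=
  Integrable.of_bound (measurable_dnorm D).aestronglyMeasurable 2 (by
    filter_upwards [dnorm_le_two D] with x hx
    rwa [Real.norm_eq_abs, abs_of_nonneg (dnorm_nonneg D x)])

theorem ofReal_area (D : Set V3) :
    ENNReal.ofReal (area D) = ∫⁻ x, ENNReal.ofReal (dnorm D x) ∂surf D :=
  ofReal_integral_eq_lintegral_ofReal (integrable_dnorm D) (ae_of_all _ (dnorm_nonneg D))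

theorem area_nonneg (D : Set V3) : 0 ≤ area D := integral_nonneg (dnorm_nonneg D)

theorem dnorm_sq (D : Set V3) (i : Fin 3) (x : V3) :
    dnorm D x ^ 2 = dens D i x ^ 2 + dtan D i x ^ 2 := by
  rw [dnorm, dtan, Real.sq_sqrt (Finset.sum_nonneg fun j _ => sq_nonneg _),
    Real.sq_sqrt (Finset.sum_nonneg fun j _ => sq_nonneg _)]
  exact (Finset.add_sum_erase Finset.univ (fun j => dens D j x ^ 2) (Finset.mem_univ i)).symm

theorem dtan_sq_of_perm (D : Set V3) {i j k : Fin 3} (hij : i ≠ j) (hik : i ≠ k) (hjk : j ≠ k)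
    (x : V3) : dtan D i x ^ 2 = dens D j x ^ 2 + dens D k x ^ 2 := by
  rw [dtan, Real.sq_sqrt (Finset.sum_nonneg fun j _ => sq_nonneg _)]
  have : Finset.univ.erase i = {j, k} := by
    ext l
    simp only [Finset.mem_erase, Finset.mem_univ, and_true, Finset.mem_insert,
      Finset.mem_singleton]
    omega
  rw [this, Finset.sum_pair hjk]

end Vale.Agent.P232
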