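import Vale.Agent.P232.TorusTools
import Vale.Agent.P232.Periodic
import Vale.Agent.P232.Surf

/-! # P232: the eight reflected copies and the flux through a lifted down-set -/

namespace Vale.Agent.P232

open MeasureTheory Set Filter Topology
open scoped ENNReal

namespace Unfold

/-- Sign of a branch. -/
def sgn (b : Bool) : ℝ := if b then 1 else -1

/-- The two inverse branches of the folding of an interval. -/
noncomputable def bb (b : Bool) (t : ℝ) : ℝ :=
  (if b then (0 : ℝ) else 1) + t * (if b then (1 / 2 : ℝ) else -(1 / 2))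

/-- Inverse branches, coordinatewise. -/
noncomputable def bs {n : ℕ} (σ : Fin n → Bool) (z : Fin n → ℝ) : Fin n → ℝ :=
  fun j => bb (σ j) (z j)

/-- Twice the distance to the nearest integer. -/
noncomputable def fd (t : ℝ) : ℝ := 2 * |t - round t|

/-- Folding on a face. -/
noncomputable def fd2 (q : Fin 2 → ℝ) : Fin 2 → ℝ := fun j => fd (q j)

/-- Signed average over the reflected copies. -/
noncomputable def wav (F : V3 → ℝ) (i : Fin 3) (z : V3) : ℝ :=
  (∑ σ : Fin 3 → Bool, sgn (σ i) * F (bs σ z)) / 4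

theorem fold_ins (i : Fin 3) (t : ℝ) (q : Fin 2 → ℝ) :
    fold (Torus.ins i t q) = Torus.ins i (fd t) (fd2 q) := by
  funext j
  rcases Fin.eq_self_or_eq_succAbove i j with rfl | ⟨k, rfl⟩ <;> simp [fold, fd, fd2, Torus.ins]

theorem fd_of_le_half {t : ℝ} (h0 : 0 ≤ t) (h1 : t ≤ 1 / 2) : fd t = 2 * t := by
  rw [fd, abs_sub_round_eq_min, Int.fract_eq_self.2 ⟨h0, by linarith⟩, min_eq_left (by linarith)]

theorem fd_of_half_le {t : ℝ} (h0 : 1 / 2 ≤ t) (h1 : t ≤ 1) : fd t = 2 * (1 - t) := by
  rcases h1.lt_or_eq with h | rfl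
  · rw [fd, abs_sub_round_eq_min, Int.fract_eq_self.2 ⟨by linarith, h⟩,
      min_eq_right (by linarith)]
  · simp [fd]

theorem bb_true (t : ℝ) : bb true t = t / 2 := by simp [bb]; ring

theorem bb_false (t : ℝ) : bb false t = 1 - t / 2 := by simp [bb]; ring

theorem fd_bb (b : Bool) {t : ℝ} (h : t ∈ Icc (0 : ℝ) 1) : fd (bb b t) = t := by
  obtain ⟨h0, h1⟩ := h
  cases b
  · rw [bb_false, fd_of_half_le (by linarith) (by linarith)]; ring
  · rw [bb_true, fd_of_le_half (by linarith) (by linarith)]; ring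

theorem fd2_bs (τ : Fin 2 → Bool) {p : Fin 2 → ℝ} (hp : p ∈ square) : fd2 (bs τ p) = p :=
  funext fun j => fd_bb _ (Ioo_subset_Icc_self (mem_square_iff.1 hp j))

theorem continuous_fd2 : Continuous fd2 := by
  refine continuous_pi fun j => ?_
  have h : Continuous fun q : Fin 2 → ℝ => fold (fun _ => q j) 0 := by
    have := lipschitz_fold.continuous
    fun_prop
  exact h

theorem continuous_bb (b : Bool) : Continuous (bb b) := by unfold bb; fun_prop

theorem continuous_bs {n : ℕ} (σ : Fin n → Bool) : Continuous (bs σ) :=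
  continuous_pi fun j => (continuous_bb _).comp (continuous_apply j)

/-! ### Unfolding the unit square -/

theorem map_affine (a : ℝ) {b : ℝ} (hb : b ≠ 0) (J : Set ℝ) (hJ : MeasurableSet J) :
    (volume.restrict ((fun t => a + t * b) ⁻¹' J)).map (fun t => a + t * b) =
      ENNReal.ofReal |b⁻¹| • volume.restrict J := by
  rw [← Measure.restrict_map (by fun_prop) hJ]
  have e : (volume : Measure ℝ).map (fun t => a + t * b) = ENNReal.ofReal |b⁻¹| • volume := by
    rw [show (fun t : ℝ => a + t * b) = (fun t => a + t) ∘ (fun t => t * b) from rfl,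
      ← Measure.map_map (by fun_prop) (by fun_prop), Real.map_volume_mul_right hb,
      Measure.map_smul, map_add_left_eq_self]
  rw [e, Measure.restrict_smul]

theorem map_bb (b : Bool) :
    (volume.restrict (Ioo (0 : ℝ) 1)).map (bb b) =
      (2 : ℝ≥0∞) • volume.restrict (if b then Ioo (0 : ℝ) (1 / 2) else Ioo (1 / 2) 1) := by
  cases b
  · have h := map_affine 1 (b := -(1 / 2)) (by norm_num) (Ioo (1 / 2) 1) measurableSet_Ioo
    have e : (fun t : ℝ => 1 + t * -(1 / 2)) ⁻¹' Ioo (1 / 2) 1 = Ioo 0 1 := by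
      ext t; simp only [mem_preimage, mem_Ioo]; constructor <;> intro h <;> constructor <;> linarith
    rw [e] at h
    have e2 : bb false = fun t : ℝ => 1 + t * -(1 / 2) := by funext t; simp [bb]
    rw [e2, h]
    norm_num
  · have h := map_affine 0 (b := 1 / 2) (by norm_num) (Ioo 0 (1 / 2)) measurableSet_Ioo
    have e : (fun t : ℝ => 0 + t * (1 / 2)) ⁻¹' Ioo 0 (1 / 2) = Ioo 0 1 := by
      ext t; simp only [mem_preimage, mem_Ioo]; constructor <;> intro h <;> constructor <;> linarith
    rw [e] at h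
    have e2 : bb true = fun t : ℝ => 0 + t * (1 / 2) := by funext t; simp [bb]
    rw [e2, h]
    norm_num

theorem halves_eq :
    volume.restrict (Ioo (0 : ℝ) (1 / 2)) + volume.restrict (Ioo (1 / 2 : ℝ) 1) =
      volume.restrict (Ioo (0 : ℝ) 1) := by
  rw [restrict_Ioo_eq_restrict_Ioc, restrict_Ioo_eq_restrict_Ioc, restrict_Ioo_eq_restrict_Ioc,
    ← Measure.restrict_union (Ioc_disjoint_Ioc_of_le le_rfl) measurableSet_Ioc,
    Ioc_union_Ioc_eq_Ioc (by norm_num) (by norm_num)]

theorem restrict_square :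
    volume.restrict square = Measure.pi fun _ : Fin 2 => volume.restrict (Ioo (0 : ℝ) 1) := by
  rw [square, volume_pi, Measure.restrict_pi_pi]

theorem restrict_cell2 : volume.restrict Torus.cell2 = volume.restrict square := by
  rw [restrict_square, Torus.cell2, volume_pi, Measure.restrict_pi_pi]
  simp only [← restrict_Ioo_eq_restrict_Ico]

/-- The square is covered by the four branches. -/
theorem square_eq_sum :
    volume.restrict square =
      (4 : ℝ≥0∞)⁻¹ • ∑ τ : Fin 2 → Bool, (volume.restrict square).map (bs τ) := by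
  rw [restrict_square]
  refine Measure.pi_eq fun s hs => ?_
  have h1 : ∀ τ : Fin 2 → Bool,
      ((Measure.pi fun _ : Fin 2 => volume.restrict (Ioo (0 : ℝ) 1)).map (bs τ)) (univ.pi s) =
        ∏ j, (volume.restrict (Ioo (0 : ℝ) 1)).map (bb (τ j)) (s j) := fun τ => by
    rw [Measure.map_apply (continuous_bs τ).measurable
      (MeasurableSet.univ_pi hs), show bs τ ⁻¹' univ.pi s = univ.pi fun j => bb (τ j) ⁻¹' s j from
        Set.ext fun z => by simp [bs], Measure.pi_pi]
    exact Finset.prod_congr rfl fun j _ =>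
      (Measure.map_apply (continuous_bb _).measurable (hs j)).symm
  have h2 : ∀ j : Fin 2, ∑ b, (volume.restrict (Ioo (0 : ℝ) 1)).map (bb b) (s j) =
      2 * volume.restrict (Ioo (0 : ℝ) 1) (s j) := fun j => by
    rw [Fintype.sum_bool, map_bb, map_bb, Measure.smul_apply, Measure.smul_apply, smul_eq_mul,
      smul_eq_mul, ← mul_add, ← Measure.add_apply]
    simp only [if_true, Bool.false_eq_true, if_false, halves_eq]
  rw [Measure.smul_apply, Measure.finsetSum_apply, Finset.sum_congr rfl fun τ _ => h1 τ,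
    ← Fintype.prod_sum fun j b => (volume.restrict (Ioo (0 : ℝ) 1)).map (bb b) (s j)]
  simp only [h2, Finset.prod_mul_distrib, smul_eq_mul, ← mul_assoc]
  norm_num
  rw [ENNReal.inv_mul_cancel (by norm_num) (by norm_num), one_mul]

theorem integral_unfold {G : (Fin 2 → ℝ) → ℝ} (hG : Measurable G) {C : ℝ}
    (hC : ∀ q, |G q| ≤ C) :
    ∫ q in Torus.cell2, G q =
      (∑ τ : Fin 2 → Bool, ∫ p in square, G (bs τ p)) / 4 := by
  have hfin : IsFiniteMeasure (volume.restrict square) :=
    isFiniteMeasure_restrict.2 (by simp [volume_square])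
  rw [restrict_cell2]
  conv_lhs => rw [square_eq_sum]
  rw [integral_smul_measure, integral_finsetSum_measure fun τ _ =>
    Integrable.of_bound hG.aestronglyMeasurable C (ae_of_all _ hC)]
  simp only [integral_map (continuous_bs _).aemeasurable hG.aestronglyMeasurable]
  simp [div_eq_inv_mul]

/-! ### Lines through a lifted down-set -/

theorem line_ae {D : Set V3} (hD : IsDown D) (i : Fin 3) (q : Fin 2 → ℝ) :
    ({t : ℝ | Torus.ins i t q ∈ lift D} ∩ Ico 0 1 : Set ℝ) =ᵐ[volume]
      (Ioo 0 (ext D i (fd2 q) / 2) ∪ Ioo (1 - ext D i (fd2 q) / 2) 1 : Set ℝ) := by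
  set e := ext D i (fd2 q)
  have he0 : 0 ≤ e := ext_nonneg _ _ _
  have he1 : e ≤ 1 := ext_le_one hD _ _
  have hmem : ∀ t, Torus.ins i t q ∈ lift D ↔ Torus.ins i (fd t) (fd2 q) ∈ D := fun t => by
    rw [lift_eq_preimage, mem_preimage, fold_ins]
  refine ae_eq_set.2 ⟨?_, ?_⟩
  · refine measure_mono_null (t := {e / 2, 1 - e / 2}) ?_ ((Set.toFinite _).measure_zero _)
    rintro t ⟨⟨ht, h0, h1⟩, hn⟩
    rw [mem_ofPred_eq, hmem] at ht
    have hle : fd t ≤ e := le_ext_of_mem hD ht
    have hpos : 0 < fd t := (line_subset hD i _ ht).1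
    simp only [mem_union, mem_Ioo, not_or, not_and, not_lt] at hn
    simp only [mem_insert_iff, mem_singleton_iff]
    rcases le_total t (1 / 2) with h | h
    · rw [fd_of_le_half h0 h] at hle hpos
      have := hn.1 (by linarith)
      left; linarith
    · rw [fd_of_half_le h h1.le] at hle hpos
      by_contra hne
      rw [not_or] at hne
      have h3 : 1 - e / 2 < t := lt_of_le_of_ne (by linarith) (Ne.symm hne.2)
      have := hn.2 h3
      linarith
  · refine measure_mono_null (t := ∅) ?_ measure_empty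
    rintro t ⟨ht, hn⟩
    refine hn ?_
    rcases ht with ⟨h0, h1⟩ | ⟨h0, h1⟩
    · refine ⟨?_, h0.le, by linarith⟩
      rw [mem_ofPred_eq, hmem, fd_of_le_half h0.le (by linarith)]
      exact mem_of_lt_ext hD (by linarith) (show 2 * t < e by linarith)
    · refine ⟨?_, by linarith, h1⟩
      rw [mem_ofPred_eq, hmem, fd_of_half_le (by linarith) h1.le]
      exact mem_of_lt_ext hD (by linarith) (show 2 * (1 - t) < e by linarith)

/-- Integration over the lifted set, line by line. -/
theorem integral_lift_split {D : Set V3} (hD : IsDown D) (i : Fin 3) {f : V3 → ℝ}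
    (hf : Continuous f) :
    ∫ x in lift D ∩ cell, f x = ∫ q in Torus.cell2,
      ((∫ t in Ioo 0 (ext D i (fd2 q) / 2), f (Torus.ins i t q)) +
        ∫ t in Ioo (1 - ext D i (fd2 q) / 2) 1, f (Torus.ins i t q)) := by
  have hm : MeasurableSet (lift D) := (isTorusSet_lift hD.1).1
  rw [inter_comm, ← setIntegral_indicator hm,
    Torus.integral_cell_split i ((Torus.integrableOn_cell hf).indicator hm)]
  refine setIntegral_congr_fun Torus.measurableSet_cell2 fun q _ => ?_
  have hc : Continuous fun t => f (Torus.ins i t q) :=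
    hf.comp ((Torus.continuous_ins i).comp (continuous_id.prodMk continuous_const))
  have e1 : (fun t => (lift D).indicator f (Torus.ins i t q)) =
      ((fun t => Torus.ins i t q) ⁻¹' lift D).indicator fun t => f (Torus.ins i t q) := by
    funext t; exact (indicator_comp_right fun t => Torus.ins i t q).symm
  show ∫ t in Ico (0 : ℝ) 1, (lift D).indicator f (Torus.ins i t q) = _
  rw [e1, setIntegral_indicator (show MeasurableSet ((fun t => Torus.ins i t q) ⁻¹' lift D) from
    measurableSet_line hm i q), inter_comm]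
  refine (setIntegral_congr_set (line_ae hD i q)).trans ?_
  refine setIntegral_union ?_ measurableSet_Ioo
    (hc.integrableOn_Icc.mono_set Ioo_subset_Icc_self)
    (hc.integrableOn_Icc.mono_set Ioo_subset_Icc_self)
  rw [Set.disjoint_left]
  intro t ht ht'
  have := ext_le_one hD i (fd2 q)
  linarith [ht.2, ht'.1]

theorem integral_square_ext {D : Set V3} (hD : IsDown D) (i : Fin 3) :
    ∫ q in square, ext D i q = dvol D := by
  have hsub : D ⊆ cell := fun x hx j _ =>
    ⟨(mem_cube_iff.1 (hD.2.1 hx) j).1.le, (mem_cube_iff.1 (hD.2.1 hx) j).2⟩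
  have h : ∫ x in cell, D.indicator (fun _ => (1 : ℝ)) x = dvol D := by
    rw [setIntegral_indicator hD.1, inter_eq_right.2 hsub]
    simp [dvol]
  rw [← h, Torus.integral_cell_split i
    ((Torus.integrableOn_cell continuous_const).indicator hD.1), restrict_cell2]
  refine setIntegral_congr_fun measurableSet_square fun q _ => ?_
  have e1 : (fun t => D.indicator (fun _ => (1 : ℝ)) (Torus.ins i t q)) =
      {t : ℝ | i.insertNth t q ∈ D}.indicator fun _ => (1 : ℝ) := by
    funext t; exact (indicator_comp_right (f := fun t => Torus.ins i t q) (g := fun _ => (1 : ℝ))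
      (s := D) (x := t)).symm
  show _ = ∫ t in Ico (0 : ℝ) 1, D.indicator (fun _ => (1 : ℝ)) (Torus.ins i t q)
  rw [e1, setIntegral_indicator (measurableSet_line hD.1 i q),
    inter_eq_right.2 ((line_subset hD i q).trans Ioo_subset_Ico_self)]
  simp [ext]

theorem torusVol_lift {D : Set V3} (hD : IsDown D) : torusVol (lift D) = dvol D := by
  have h := integral_lift_split hD 0 (f := fun _ => (1 : ℝ)) continuous_const
  have e : ∀ q, ((∫ _t in Ioo 0 (ext D 0 (fd2 q) / 2), (1 : ℝ)) +
      ∫ _t in Ioo (1 - ext D 0 (fd2 q) / 2) 1, (1 : ℝ)) = ext D 0 (fd2 q) := fun q => by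
    have := ext_nonneg D 0 (fd2 q)
    simp only [setIntegral_const, smul_eq_mul, mul_one, Real.volume_real_Ioo]
    rw [max_eq_left (by linarith), max_eq_left (by linarith)]
    ring
  simp only [e] at h
  rw [integral_unfold (G := fun q => ext D 0 (fd2 q))
    ((measurable_ext hD.1 0).comp continuous_fd2.measurable) (C := 1)
    (fun q => by rw [abs_of_nonneg (ext_nonneg _ _ _)]; exact ext_le_one hD _ _)] at h
  rw [torusVol, ← integral_square_ext hD 0]
  have e2 : ∀ τ : Fin 2 → Bool, ∫ p in square, ext D 0 (fd2 (bs τ p)) =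
      ∫ p in square, ext D 0 p := fun τ =>
    setIntegral_congr_fun measurableSet_square fun p hp => by simp only [fd2_bs τ hp]
  simp only [e2, setIntegral_const, smul_eq_mul, mul_one, Finset.sum_const, Finset.card_univ,
    Fintype.card_pi, Fintype.card_bool, Finset.prod_const, Fintype.card_fin, nsmul_eq_mul] at h
  rw [h]; ring

/-! ### Flux of one component -/

theorem bs_ins (σ : Fin 3 → Bool) (i : Fin 3) (t : ℝ) (p : Fin 2 → ℝ) :
    bs σ (Torus.ins i t p) = Torus.ins i (bb (σ i) t) (bs (fun j => σ (i.succAbove j)) p) := by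
  funext j
  rcases Fin.eq_self_or_eq_succAbove i j with rfl | ⟨k, rfl⟩ <;> simp [bs, Torus.ins]

theorem wav_ins (F : V3 → ℝ) (i : Fin 3) (t : ℝ) (p : Fin 2 → ℝ) :
    wav F i (Torus.ins i t p) = (∑ τ : Fin 2 → Bool,
      (F (Torus.ins i (t / 2) (bs τ p)) - F (Torus.ins i (1 - t / 2) (bs τ p)))) / 4 := by
  rw [wav, ← (Fin.insertNthEquiv (fun _ : Fin 3 => Bool) i).sum_comp, Fintype.sum_prod_type,
    Fintype.sum_bool, ← Finset.sum_add_distrib]
  simp [bs_ins, bb_true, bb_false, sgn, sub_eq_add_neg]

theorem wav_ins_zero {F : V3 → ℝ} (hF : ZPeriodic F) (i : Fin 3) (p : Fin 2 → ℝ) :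
    wav F i (Torus.ins i 0 p) = 0 := by
  simp [wav_ins, Torus.ins_one_eq hF]

theorem wav_ins_one (F : V3 → ℝ) (i : Fin 3) (p : Fin 2 → ℝ) :
    wav F i (Torus.ins i 1 p) = 0 := by
  rw [wav_ins, Finset.sum_eq_zero fun τ _ => ?_, zero_div]
  norm_num

theorem continuous_wav {F : V3 → ℝ} (hF : Continuous F) (i : Fin 3) : Continuous (wav F i) := by
  unfold wav
  exact (continuous_finsetSum _ fun σ _ =>
    continuous_const.mul (hF.comp (continuous_bs σ))).div_const 4

theorem abs_wav_le {F : V3 → ℝ} (hb : ∀ x, |F x| ≤ 1) (i : Fin 3) (z : V3) :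
    |wav F i z| ≤ 2 := by
  rw [wav, abs_div, abs_of_pos (four_pos : (0 : ℝ) < 4), div_le_iff₀ four_pos]
  refine (Finset.abs_sum_le_sum_abs _ _).trans ((Finset.sum_le_card_nsmul _ _ 1 ?_).trans ?_)
  · intro σ _
    rw [abs_mul]
    cases σ i <;> simp [sgn, hb]
  · simp [Finset.card_univ]; norm_num

theorem flux {D : Set V3} (hD : IsDown D) {F : V3 → ℝ} (hF : ContDiff ℝ 1 F) (hp : ZPeriodic F)
    (hb : ∀ x, |F x| ≤ 1) (i : Fin 3) :
    ∫ x in lift D ∩ cell, fderiv ℝ F x (Pi.single i 1) = ∫ z, wav F i z ∂sheet D i := by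
  rw [integral_lift_split hD i (Torus.continuous_partial hF i)]
  have e : ∀ q, ((∫ t in Ioo 0 (ext D i (fd2 q) / 2),
        fderiv ℝ F (Torus.ins i t q) (Pi.single i 1)) +
      ∫ t in Ioo (1 - ext D i (fd2 q) / 2) 1, fderiv ℝ F (Torus.ins i t q) (Pi.single i 1)) =
      F (Torus.ins i (ext D i (fd2 q) / 2) q) - F (Torus.ins i (1 - ext D i (fd2 q) / 2) q) :=
    fun q => by
    have := ext_nonneg D i (fd2 q)
    rw [Torus.integral_line hF i q (by linarith), Torus.integral_line hF i q (by linarith),
      Torus.ins_one_eq hp i q]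
    ring
  simp only [e]
  have hm : Measurable fun q => ext D i (fd2 q) :=
    (measurable_ext hD.1 i).comp continuous_fd2.measurable
  have hmi : ∀ a : (Fin 2 → ℝ) → ℝ, Measurable a → Measurable fun q => F (Torus.ins i (a q) q) :=
    fun a ha => (hF.continuous.comp (Torus.continuous_ins i)).measurable.comp
      (ha.prodMk measurable_id)
  rw [integral_unfold (G := fun q => F (Torus.ins i (ext D i (fd2 q) / 2) q) -
      F (Torus.ins i (1 - ext D i (fd2 q) / 2) q)) ((hmi _ (hm.div_const 2)).sub (hmi _ ((hm.div_const 2).const_sub 1)))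
    (C := 2) (fun q => (abs_sub _ _).trans (by
      have h1 := hb (Torus.ins i (ext D i (fd2 q) / 2) q)
      have h2 := hb (Torus.ins i (1 - ext D i (fd2 q) / 2) q)
      linarith))]
  have hfin : IsFiniteMeasure (volume.restrict square) :=
    isFiniteMeasure_restrict.2 (by simp [volume_square])
  have hsum : (∑ τ : Fin 2 → Bool, ∫ p in square,
      (F (Torus.ins i (ext D i (fd2 (bs τ p)) / 2) (bs τ p)) -
        F (Torus.ins i (1 - ext D i (fd2 (bs τ p)) / 2) (bs τ p)))) / 4 =
      ∫ p in square, wav F i (Torus.ins i (ext D i p) p) := by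
    rw [← integral_finsetSum _ fun τ _ => ?_, ← integral_div]
    · exact setIntegral_congr_fun measurableSet_square fun p hp' => by
        simp only [wav_ins, fd2_bs _ hp']
    · refine Integrable.of_bound ?_ 2 (ae_of_all _ fun p => ?_)
      · exact (((hmi _ (hm.div_const 2)).sub (hmi _ ((hm.div_const 2).const_sub 1))).comp
          (continuous_bs τ).measurable).aestronglyMeasurable
      · refine (norm_sub_le _ _).trans ?_
        simp only [Real.norm_eq_abs]
        exact le_trans (add_le_add (hb _) (hb _)) (by norm_num)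
  refine hsum.trans ?_
  rw [sheet, integral_map (measurable_graph hD.1 i).aemeasurable
    (continuous_wav hF.continuous i).aestronglyMeasurable]
  refine setIntegral_eq_of_subset_of_forall_sdiff_eq_zero measurableSet_square
    (fun q hq => hq.1) ?_
  rintro q ⟨hq, hn⟩
  have h0 := ext_nonneg D i q
  have h1 := ext_le_one hD i q
  rcases h0.lt_or_eq with h0 | h0
  · rcases h1.lt_or_eq with h1 | h1
    · exact absurd ⟨hq, h0, h1⟩ hn
    · rw [h1, wav_ins_one]
  · rw [← h0, wav_ins_zero hp]

end Unfold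

end Vale.Agent.P232
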