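import Vale.Agent.P232.ClassifyDefs
import Vale.Agent.P232.Unfold
import Vale.Agent.P232.Attain
import Vale.Agent.P232.Reduction

/-! # P232 module C3b: octants of balls, tubes and slabs -/

namespace Vale.Agent.P232

open MeasureTheory Set Filter Topology
open scoped ENNReal

namespace Shape

/-- The part in the open cube of the ball, tube or slab of radius `r` about the origin. -/
def oct (S : Finset (Fin 3)) (r : ℝ) : Set V3 := {x | x ∈ cube ∧ ∑ j ∈ S, x j ^ 2 < r ^ 2}

theorem measurableSet_cube : MeasurableSet cube :=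
  MeasurableSet.univ_pi fun _ => measurableSet_Ioo

theorem volume_cube : volume cube = 1 := by simp [cube, volume_pi_pi]

theorem isDown_oct (S : Finset (Fin 3)) (r : ℝ) : IsDown (oct S r) := by
  refine ⟨measurableSet_cube.inter (measurableSet_lt (Finset.measurable_sum _ fun j _ =>
    (measurable_pi_apply j).pow_const 2) measurable_const), fun x hx => hx.1,
    fun x hx y hy hle => ⟨hy, lt_of_le_of_lt (Finset.sum_le_sum fun j _ => ?_) hx.2⟩⟩
  exact pow_le_pow_left₀ (mem_cube_iff.1 hy j).1.le (hle j) 2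

theorem torusVol_congr {E F : Set V3} (h : E =ᵐ[volume] F) : torusVol E = torusVol F :=
  measureReal_congr (ae_eq_set_inter h (ae_eq_refl cell))

theorem canon_eq (S : Finset (Fin 3)) (R : ℝ) :
    canon S R 0 = (fun x : V3 => x + fun _ => 1 / 2) ⁻¹' Region.region S R := by
  ext x
  have e : ∀ j, (Int.fract (x j + 1 / 2) - 1 / 2) ^ 2 = tdist (x j) ^ 2 := fun j => by
    rw [tdist, sq_abs, round_eq, Int.fract]
    ring
  simp only [canon, Region.region, Region.sqd, mem_ofPred_eq, mem_preimage, Pi.add_apply,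
    Pi.zero_apply, sub_zero, e]

theorem torusVol_shift {E : Set V3} (hE : IsTorusSet E) (a : V3) :
    torusVol ((fun x : V3 => x + a) ⁻¹' E) = torusVol E := by
  have hm : MeasurableSet ((fun x : V3 => x + a) ⁻¹' E) := (measurable_add_const a) hE.1
  rw [torusVol_eq hm, torusVol_eq hE.1]
  exact setIntegral_cell_add hE.periodic a

theorem lift_oct_ae (S : Finset (Fin 3)) (r : ℝ) :
    lift (oct S r) =ᵐ[volume] canon S (r / 2) 0 := by
  filter_upwards [ae_fold_mem_cube] with x hx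
  refine propext ⟨fun h => ?_, fun h => ⟨hx, ?_⟩⟩
  · have h2 : ∑ j ∈ S, fold x j ^ 2 < r ^ 2 := h.2
    show ∑ j ∈ S, tdist (x j - (0 : V3) j) ^ 2 < (r / 2) ^ 2
    simp only [fold, mul_pow, ← Finset.mul_sum] at h2
    simp only [Pi.zero_apply, sub_zero, tdist]
    nlinarith
  · have h2 : ∑ j ∈ S, tdist (x j - (0 : V3) j) ^ 2 < (r / 2) ^ 2 := h
    simp only [Pi.zero_apply, sub_zero, tdist] at h2
    show ∑ j ∈ S, fold x j ^ 2 < r ^ 2
    simp only [fold, mul_pow, ← Finset.mul_sum]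
    nlinarith

theorem dvol_oct_region (S : Finset (Fin 3)) (r : ℝ) :
    dvol (oct S r) = torusVol (Region.region S (r / 2)) := by
  rw [← Unfold.torusVol_lift (isDown_oct S r), torusVol_congr (lift_oct_ae S r), canon_eq,
    torusVol_shift (Region.isTorusSet_region S (r / 2))]

theorem dvol_oct_perm (σ : Equiv.Perm (Fin 3)) (S : Finset (Fin 3)) (r : ℝ) :
    dvol (oct (S.map σ.toEmbedding) r) = dvol (oct S r) := by
  have he : MeasurePreserving (⇑(MeasurableEquiv.piCongrLeft (fun _ : Fin 3 => ℝ) σ))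
      volume volume := volume_measurePreserving_piCongrLeft (fun _ : Fin 3 => ℝ) σ
  have ha : ∀ (x : V3) (i : Fin 3),
      MeasurableEquiv.piCongrLeft (fun _ : Fin 3 => ℝ) σ x (σ i) = x i := fun x i =>
    MeasurableEquiv.piCongrLeft_apply_apply (β := fun _ : Fin 3 => ℝ) σ x i
  have hpre : (⇑(MeasurableEquiv.piCongrLeft (fun _ : Fin 3 => ℝ) σ)) ⁻¹'
      oct (S.map σ.toEmbedding) r = oct S r := by
    ext x
    simp only [oct, mem_preimage, mem_ofPred_eq, Finset.sum_map, Equiv.coe_toEmbedding, ha,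
      mem_cube_iff]
    refine and_congr_left' ⟨fun h i => ha x i ▸ h (σ i), fun h i => ?_⟩
    obtain ⟨l, rfl⟩ := σ.surjective i
    rw [ha]
    exact h l
  rw [dvol, dvol, ← hpre, measureReal_def, measureReal_def,
    he.measure_preimage (isDown_oct _ r).1.nullMeasurableSet]

theorem dvol_oct_one (k : Fin 3) {r : ℝ} (hr : 0 < r) (hr1 : r < 1) :
    dvol (oct {k} r) = r := by
  have e : ({0} : Finset (Fin 3)).map (Equiv.swap 0 k).toEmbedding = {k} := by
    revert k; decide
  rw [← e, dvol_oct_perm, dvol_oct_region, Region.vol_slab (half_pos hr) (by linarith)]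
  simp
  ring

theorem dvol_oct_two (i : Fin 3) {r : ℝ} (hr : 0 < r) (hr1 : r < 1) :
    dvol (oct (Finset.univ.erase i) r) = Real.pi / 4 * r ^ 2 := by
  have e : ({1, 2} : Finset (Fin 3)).map (Equiv.swap 0 i).toEmbedding = Finset.univ.erase i := by
    revert i; decide
  rw [← e, dvol_oct_perm, dvol_oct_region, Region.vol_tube (half_pos hr) (by linarith),
    Finset.card_pair (by decide)]
  ring

theorem dvol_oct_three {r : ℝ} (hr : 0 < r) (hr1 : r < 1) :
    dvol (oct Finset.univ r) = Real.pi / 6 * r ^ 3 := by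
  rw [dvol_oct_region, Region.vol_ball (half_pos hr) (by linarith), Finset.card_univ,
    Fintype.card_fin]
  ring

/-- A down-set inside the closed ball, tube or slab of the same volume is that set. -/
theorem finish {D : Set V3} (hD : IsDown D) {S : Finset (Fin 3)} {n : ℕ} {κ r : ℝ}
    (hr : 0 < r) (hr1 : r < 1)
    (hκ : ∀ ρ, 0 < ρ → ρ < 1 → dvol (oct S ρ) = κ * ρ ^ n)
    (hsub : ∀ x ∈ D, ∑ j ∈ S, x j ^ 2 ≤ r ^ 2) (hv : dvol D = κ * r ^ n) :
    lift D =ᵐ[volume] canon S (r / 2) 0 := by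
  set C : Set V3 := {x | x ∈ cube ∧ ∑ j ∈ S, x j ^ 2 ≤ r ^ 2} with hC
  have hfin : ∀ {A : Set V3}, A ⊆ cube → volume A ≠ ⊤ := fun hA =>
    ne_top_of_le_ne_top (by simp [volume_cube]) (measure_mono (μ := volume) hA)
  have hCc : C ⊆ cube := fun x hx => hx.1
  have hCv : volume.real C ≤ κ * r ^ n := by
    have hlim : Tendsto (fun ρ : ℝ => κ * ρ ^ n) (𝓝[>] r) (𝓝 (κ * r ^ n)) :=
      ((continuous_const.mul (continuous_pow n)).tendsto r).mono_left nhdsWithin_le_nhds
    refine ge_of_tendsto hlim ?_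
    filter_upwards [Ioo_mem_nhdsGT hr1] with ρ hρ
    rw [← hκ ρ (hr.trans hρ.1) hρ.2]
    refine measureReal_mono (fun x hx => ⟨hx.1, hx.2.trans_lt ?_⟩) (hfin fun x hx => hx.1)
    exact pow_lt_pow_left₀ hρ.1 hr.le two_ne_zero
  have key : ∀ A : Set V3, MeasurableSet A → A ⊆ C → volume.real A = κ * r ^ n →
      A =ᵐ[volume] C := by
    intro A hA hAC hAv
    refine ae_eq_of_subset_of_measure_ge hAC ?_ hA.nullMeasurableSet (hfin hCc)
    rw [← ENNReal.toReal_le_toReal (hfin hCc) (hfin (hAC.trans hCc))]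
    exact hCv.trans hAv.ge
  have h1 : D =ᵐ[volume] C := key D hD.1 (fun x hx => ⟨hD.2.1 hx, hsub x hx⟩) hv
  have h2 : oct S r =ᵐ[volume] C :=
    key _ (isDown_oct S r).1 (fun x hx => ⟨hx.1, hx.2.le⟩) (hκ r hr hr1)
  have h3 : ∀ᵐ x : V3, (fold x ∈ D ↔ fold x ∈ oct S r) :=
    ae_fold (p := fun z => z ∈ D ↔ z ∈ oct S r) (eventuallyEq_set.1 (h1.trans h2.symm))
  exact (eventuallyEq_set.2 h3 : lift D =ᵐ[volume] lift (oct S r)).trans (lift_oct_ae S r)

end Shape

end Vale.Agent.P232
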