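import Vale.Agent.P232.Surf

/-! # P232 module C: slices, face traces and the slice length bounds -/

namespace Vale.Agent.P232

open MeasureTheory Set Filter Topology
open scoped ENNReal

variable {D : Set V3}

theorem slice_volume_le (hD : IsDown D) (i : Fin 3) (t : ℝ) :
    volume {q : Fin 2 → ℝ | i.insertNth t q ∈ D} ≤ 1 :=
  (measure_mono (slice_subset hD i t)).trans volume_square.le

theorem ofReal_sliceA (hD : IsDown D) (i : Fin 3) (t : ℝ) :
    ENNReal.ofReal (sliceA D i t) = volume {q : Fin 2 → ℝ | i.insertNth t q ∈ D} :=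
  ENNReal.ofReal_toReal (ne_top_of_le_ne_top ENNReal.one_ne_top (slice_volume_le hD i t))

theorem measurable_sliceA (hD : MeasurableSet D) (i : Fin 3) : Measurable (sliceA D i) :=
  (measurable_measure_prodMk_left (ν := (volume : Measure (Fin 2 → ℝ)))
    ((measurable_insertNth i) hD)).ennreal_toReal

theorem sliceA_nonneg (D : Set V3) (i : Fin 3) (t : ℝ) : 0 ≤ sliceA D i t := measureReal_nonneg

theorem sliceA_le_one (hD : IsDown D) (i : Fin 3) (t : ℝ) : sliceA D i t ≤ 1 :=
  ENNReal.toReal_le_of_le_ofReal zero_le_one (by simpa using slice_volume_le hD i t)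

theorem sliceA_antitone (hD : IsDown D) (i : Fin 3) : AntitoneOn (sliceA D i) (Ioo 0 1) :=
  fun s hs _ _ hst => measureReal_mono (fun _ hq => insertNth_mono hD hq hst le_rfl hs
      (slice_subset hD i _ hq))
    (ne_top_of_le_ne_top ENNReal.one_ne_top (slice_volume_le hD i s))

theorem posSet_finite (D : Set V3) (i : Fin 3) :
    volume {q | q ∈ square ∧ 0 < ext D i q} ≠ ⊤ :=
  ne_top_of_le_ne_top (by simp [volume_square]) (measure_mono (μ := volume) fun _ hq => hq.1)

theorem fullSet_finite (D : Set V3) (i : Fin 3) :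
    volume {q | q ∈ square ∧ ext D i q = 1} ≠ ⊤ :=
  ne_top_of_le_ne_top (by simp [volume_square]) (measure_mono (μ := volume) fun _ hq => hq.1)

theorem sliceA_le_endA0 (hD : IsDown D) (i : Fin 3) {t : ℝ} (ht : t ∈ Ioo (0 : ℝ) 1) :
    sliceA D i t ≤ endA0 D i :=
  measureReal_mono (fun _ hq => ⟨slice_subset hD i t hq, ht.1.trans_le (le_ext_of_mem hD hq)⟩)
    (posSet_finite D i)

theorem endA1_le_sliceA (hD : IsDown D) (i : Fin 3) {t : ℝ} (ht : t ∈ Ioo (0 : ℝ) 1) :
    endA1 D i ≤ sliceA D i t :=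
  measureReal_mono (fun _ hq => mem_of_lt_ext hD ht.1 (by rw [hq.2]; exact ht.2))
    (ne_top_of_le_ne_top ENNReal.one_ne_top (slice_volume_le hD i t))

theorem endA0_le_one (D : Set V3) (i : Fin 3) : endA0 D i ≤ 1 :=
  ENNReal.toReal_le_of_le_ofReal zero_le_one
    (((measure_mono fun _ hq => hq.1).trans volume_square.le).trans (by simp))

theorem sliceA_tendsto_zero (hD : IsDown D) (i : Fin 3) :
    Tendsto (sliceA D i) (𝓝[>] 0) (𝓝 (endA0 D i)) := by
  set u : ℕ → ℝ := fun n => 1 / ((n : ℝ) + 2) with hu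
  have hupos : ∀ n, u n ∈ Ioo (0 : ℝ) 1 := fun n => by
    have hn : (0 : ℝ) ≤ n := Nat.cast_nonneg n
    exact ⟨by positivity, by rw [hu, div_lt_one (by positivity)]; linarith⟩
  have hanti : Antitone u := fun m n hmn => by
    have : (m : ℝ) ≤ n := Nat.cast_le.2 hmn
    simp only [hu]
    gcongr
  have hmono : Monotone fun n => {q : Fin 2 → ℝ | i.insertNth (u n) q ∈ D} := fun m n hmn q hq =>
    insertNth_mono hD hq (hanti hmn) le_rfl (hupos n) (slice_subset hD i _ hq)
  have hU : (⋃ n, {q : Fin 2 → ℝ | i.insertNth (u n) q ∈ D}) =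
      {q | q ∈ square ∧ 0 < ext D i q} := by
    ext q
    simp only [mem_iUnion, mem_ofPred_eq]
    refine ⟨fun ⟨n, hn⟩ => ⟨slice_subset hD i _ hn, (hupos n).1.trans_le (le_ext_of_mem hD hn)⟩,
      fun ⟨_, hq⟩ => ?_⟩
    obtain ⟨n, hn⟩ := exists_nat_one_div_lt hq
    refine ⟨n, mem_of_lt_ext hD (hupos n).1 (lt_of_le_of_lt ?_ hn)⟩
    simp only [hu]
    gcongr
    norm_num
  have hl : Tendsto (fun n => sliceA D i (u n)) atTop (𝓝 (endA0 D i)) := by
    have h := tendsto_measure_iUnion_atTop (μ := (volume : Measure (Fin 2 → ℝ))) hmono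
    rw [hU] at h
    exact (ENNReal.tendsto_toReal (posSet_finite D i)).comp h
  refine tendsto_order.2 ⟨fun c hc => ?_, fun c hc => ?_⟩
  · obtain ⟨n, hn⟩ := (hl.eventually (eventually_gt_nhds hc)).exists
    filter_upwards [Ioo_mem_nhdsGT (hupos n).1] with t ht
    exact hn.trans_le (sliceA_antitone hD i ⟨ht.1, ht.2.trans (hupos n).2⟩ (hupos n) ht.2.le)
  · filter_upwards [Ioo_mem_nhdsGT zero_lt_one] with t ht
    exact (sliceA_le_endA0 hD i ht).trans_lt hc

theorem sliceA_tendsto_one (hD : IsDown D) (i : Fin 3) :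
    Tendsto (sliceA D i) (𝓝[<] 1) (𝓝 (endA1 D i)) := by
  set u : ℕ → ℝ := fun n => 1 - 1 / ((n : ℝ) + 2) with hu
  have hupos : ∀ n, u n ∈ Ioo (0 : ℝ) 1 := fun n => by
    have hn : (0 : ℝ) ≤ n := Nat.cast_nonneg n
    have h1 : 1 / ((n : ℝ) + 2) < 1 := by rw [div_lt_one (by positivity)]; linarith
    have h2 : (0 : ℝ) < 1 / ((n : ℝ) + 2) := by positivity
    exact ⟨by rw [hu]; linarith, by rw [hu]; linarith⟩
  have hmo : Monotone u := fun m n hmn => by
    have : (m : ℝ) ≤ n := Nat.cast_le.2 hmn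
    simp only [hu]
    gcongr
  have hmono : Antitone fun n => {q : Fin 2 → ℝ | i.insertNth (u n) q ∈ D} := fun m n hmn q hq =>
    insertNth_mono hD hq (hmo hmn) le_rfl (hupos m) (slice_subset hD i _ hq)
  have hI : (⋂ n, {q : Fin 2 → ℝ | i.insertNth (u n) q ∈ D}) =
      {q | q ∈ square ∧ ext D i q = 1} := by
    ext q
    simp only [mem_iInter, mem_ofPred_eq]
    refine ⟨fun h => ⟨slice_subset hD i _ (h 0), le_antisymm (ext_le_one hD i q) ?_⟩,
      fun ⟨_, hq⟩ n => mem_of_lt_ext hD (hupos n).1 (by rw [hq]; exact (hupos n).2)⟩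
    refine le_of_forall_lt fun c hc => ?_
    obtain ⟨n, hn⟩ := exists_nat_one_div_lt (sub_pos.2 hc)
    have h2 : 1 / ((n : ℝ) + 2) ≤ 1 / ((n : ℝ) + 1) := by gcongr; norm_num
    have h3 := le_ext_of_mem hD (h n)
    simp only [hu] at h3
    linarith
  have hl : Tendsto (fun n => sliceA D i (u n)) atTop (𝓝 (endA1 D i)) := by
    have h := tendsto_measure_iInter_atTop (μ := (volume : Measure (Fin 2 → ℝ)))
      (fun n => (measurableSet_slice hD.1 i (u n)).nullMeasurableSet) hmono
      ⟨0, ne_top_of_le_ne_top ENNReal.one_ne_top (slice_volume_le hD i _)⟩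
    rw [hI] at h
    exact (ENNReal.tendsto_toReal (fullSet_finite D i)).comp h
  refine tendsto_order.2 ⟨fun c hc => ?_, fun c hc => ?_⟩
  · filter_upwards [Ioo_mem_nhdsLT zero_lt_one] with t ht
    exact hc.trans_le (endA1_le_sliceA hD i ht)
  · obtain ⟨n, hn⟩ := (hl.eventually (eventually_lt_nhds hc)).exists
    filter_upwards [Ioo_mem_nhdsLT (hupos n).2] with t ht
    exact (sliceA_antitone hD i (hupos n) ⟨(hupos n).1.trans ht.1, ht.2⟩ ht.1.le).trans_lt hn

theorem lintegral_sliceA (hD : IsDown D) (i : Fin 3) :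
    ∫⁻ t in Ioo (0 : ℝ) 1, ENNReal.ofReal (sliceA D i t) = volume D := by
  have hzero : ∀ t, t ∉ Ioo (0 : ℝ) 1 → volume {q : Fin 2 → ℝ | i.insertNth t q ∈ D} = 0 :=
    fun t ht => by
      have : {q : Fin 2 → ℝ | i.insertNth t q ∈ D} = ∅ := by
        ext q
        simp only [mem_ofPred_eq, mem_empty_iff_false, iff_false]
        exact fun hq => ht (insertNth_mem_cube.1 (hD.2.1 hq)).1
      simp [this]
  simp only [ofReal_sliceA hD i]
  rw [setLIntegral_eq_of_support_subset fun t ht => by_contra fun h => ht (hzero t h)]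
  rw [← (volume_preserving_piFinSuccAbove (fun _ : Fin 3 => ℝ) i).symm.measure_preimage
    hD.1.nullMeasurableSet]
  exact (Measure.prod_apply ((measurable_insertNth i) hD.1)).symm

theorem dvol_le_one (hD : IsDown D) : volume D ≤ 1 :=
  (measure_mono hD.2.1).trans (by simp [cube, volume_pi_pi])

theorem integral_sliceA (hD : IsDown D) (i : Fin 3) :
    ∫ t in Ioo (0 : ℝ) 1, sliceA D i t = dvol D := by
  rw [integral_eq_lintegral_of_nonneg_ae (ae_of_all _ (sliceA_nonneg D i))
    (measurable_sliceA hD.1 i).aestronglyMeasurable, lintegral_sliceA hD i]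
  rfl

theorem integrableOn_sliceA (hD : IsDown D) (i : Fin 3) :
    IntegrableOn (sliceA D i) (Ioo 0 1) :=
  IntegrableOn.of_bound (by simp) (measurable_sliceA hD.1 i).aestronglyMeasurable 1
    (ae_of_all _ fun t => by
      rw [Real.norm_eq_abs, abs_of_nonneg (sliceA_nonneg D i t)]
      exact sliceA_le_one hD i t)

/-- Proof of `SliceBasics`. -/
theorem sliceBasics : SliceBasics := by
  intro D hD i
  refine ⟨sliceA_antitone hD i, measurable_sliceA hD.1 i,
    fun t => ⟨sliceA_nonneg D i t, sliceA_le_one hD i t⟩, sliceA_tendsto_zero hD i,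
    sliceA_tendsto_one hD i, ?_, measureReal_nonneg, ?_, ?_, endA0_le_one D i⟩
  · rw [intervalIntegral.integral_of_le zero_le_one, integral_Ioc_eq_integral_Ioo,
      integral_sliceA hD i]
  · have h := setIntegral_mono_on (μ := volume) (integrableOn_const (C := endA1 D i) (by simp))
      (integrableOn_sliceA hD i) measurableSet_Ioo fun t ht => endA1_le_sliceA hD i ht
    rw [integral_sliceA hD i, setIntegral_const] at h
    simpa using h
  · have h := setIntegral_mono_on (μ := volume) (integrableOn_sliceA hD i)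
      (integrableOn_const (C := endA0 D i) (by simp)) measurableSet_Ioo
      fun t ht => sliceA_le_endA0 hD i ht
    rw [integral_sliceA hD i, setIntegral_const] at h
    simpa using h

/-! ## Coordinates -/

/-- The point with coordinates `t`, `s`, `r` on the axes `i`, `j`, `k`. -/
noncomputable def mk3 (i j k : Fin 3) (t s r : ℝ) : V3 :=
  Function.update (pt3 i k t r) j s

/-- Coordinates on the face normal to `j`. -/
noncomputable def faceMap (i j k : Fin 3) (p : ℝ × ℝ) : Fin 2 → ℝ :=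
  j.removeNth (pt3 i k p.1 p.2)

section coord

variable {i j k : Fin 3}

theorem axis_cases (hij : i ≠ j) (hik : i ≠ k) (hjk : j ≠ k) (l : Fin 3) :
    l = i ∨ l = j ∨ l = k := by omega

theorem mk3_fst (hij : i ≠ j) (hik : i ≠ k) (t s r : ℝ) : mk3 i j k t s r i = t := by
  simp [mk3, pt3, hij, hik]

theorem mk3_snd (i j k : Fin 3) (t s r : ℝ) : mk3 i j k t s r j = s := by
  simp [mk3]

theorem mk3_thd (hjk : j ≠ k) (t s r : ℝ) : mk3 i j k t s r k = r := by
  simp [mk3, pt3, hjk.symm]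

theorem insertNth_faceMap (i j k : Fin 3) (t r s : ℝ) :
    (j.insertNth s (faceMap i j k (t, r)) : V3) = mk3 i j k t s r :=
  Fin.insertNth_removeNth j s (pt3 i k t r)

theorem mk3_swap12 (hij : i ≠ j) (hik : i ≠ k) (hjk : j ≠ k) (t s r : ℝ) :
    mk3 j i k s t r = mk3 i j k t s r := by
  funext l
  rcases axis_cases hij hik hjk l with rfl | rfl | rfl
  · rw [mk3_snd, mk3_fst hij hik]
  · rw [mk3_fst hij.symm hjk, mk3_snd]
  · rw [mk3_thd hik, mk3_thd hjk]

theorem mk3_swap23 (hij : i ≠ j) (hik : i ≠ k) (hjk : j ≠ k) (t s r : ℝ) :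
    mk3 i k j t r s = mk3 i j k t s r := by
  funext l
  rcases axis_cases hij hik hjk l with rfl | rfl | rfl
  · rw [mk3_fst hik hij, mk3_fst hij hik]
  · rw [mk3_thd hjk.symm, mk3_snd]
  · rw [mk3_snd, mk3_thd hjk]

theorem faceMap_eq (hij : i ≠ j) (hik : i ≠ k) (hjk : j ≠ k) :
    faceMap i j k = ⇑(MeasurableEquiv.finTwoArrow (α := ℝ)).symm ∨
      faceMap i j k = ⇑(MeasurableEquiv.finTwoArrow (α := ℝ)).symm ∘ Prod.swap := by
  fin_cases i <;> fin_cases j <;> fin_cases k <;>
    simp_all [funext_iff, faceMap, pt3, Fin.removeNth, Fin.succAbove, Function.update,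
      Fin.forall_fin_two, Fin.tail, MeasurableEquiv.finTwoArrow, MeasurableEquiv.piFinTwo]

theorem faceMap_mp (hij : i ≠ j) (hik : i ≠ k) (hjk : j ≠ k) :
    MeasurePreserving (faceMap i j k) (volume.prod volume) volume := by
  have h1 : MeasurePreserving (⇑(MeasurableEquiv.finTwoArrow (α := ℝ)).symm)
      ((volume : Measure ℝ).prod volume) volume := (volume_preserving_finTwoArrow ℝ).symm _
  rcases faceMap_eq hij hik hjk with h | h <;> rw [h]
  · exact h1
  · exact h1.comp Measure.measurePreserving_swap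

theorem measurable_mk3 (i j k : Fin 3) :
    Measurable fun p : ℝ × ℝ × ℝ => mk3 i j k p.1 p.2.1 p.2.2 := by
  refine measurable_pi_lambda _ fun l => ?_
  simp only [mk3, pt3, Function.update_apply]
  split_ifs <;> fun_prop

theorem measurable_faceMap (i j k : Fin 3) : Measurable (faceMap i j k) := by
  refine measurable_pi_lambda _ fun l => ?_
  simp only [faceMap, Fin.removeNth, pt3, Function.update_apply]
  split_ifs <;> fun_prop

end coord

/-- Extent of the slice at height `t` in direction `j`, as a function of the third coordinate. -/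
noncomputable def fext (D : Set V3) (i j k : Fin 3) (t r : ℝ) : ℝ := ext D j (faceMap i j k (t, r))

section fext

variable {i j k : Fin 3} {t r s : ℝ}

theorem measurable_fext (hD : MeasurableSet D) (i j k : Fin 3) :
    Measurable fun p : ℝ × ℝ => fext D i j k p.1 p.2 :=
  (measurable_ext hD j).comp (measurable_faceMap i j k)

theorem measurable_fext_right (hD : MeasurableSet D) (i j k : Fin 3) (t : ℝ) :
    Measurable fun r => fext D i j k t r :=
  Measurable.comp (g := fun p : ℝ × ℝ => fext D i j k p.1 p.2) (f := fun r : ℝ => (t, r))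
    (measurable_fext hD i j k) (measurable_const.prodMk measurable_id)

theorem fext_nonneg (D : Set V3) (i j k : Fin 3) (t r : ℝ) : 0 ≤ fext D i j k t r :=
  ext_nonneg D j _

theorem fext_le_one (hD : IsDown D) (i j k : Fin 3) (t r : ℝ) : fext D i j k t r ≤ 1 :=
  ext_le_one hD j _

theorem mem_of_lt_fext (hD : IsDown D) (hs : 0 < s) (h : s < fext D i j k t r) :
    mk3 i j k t s r ∈ D := by
  rw [← insertNth_faceMap]
  exact mem_of_lt_ext hD hs h

theorem le_fext_of_mem (hD : IsDown D) (h : mk3 i j k t s r ∈ D) : s ≤ fext D i j k t r := by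
  rw [← insertNth_faceMap] at h
  exact le_ext_of_mem hD h

theorem ioo_of_fext_pos (hD : IsDown D) (hij : i ≠ j) (hik : i ≠ k) (hjk : j ≠ k)
    (h : 0 < fext D i j k t r) : t ∈ Ioo (0 : ℝ) 1 ∧ r ∈ Ioo (0 : ℝ) 1 := by
  have hm := hD.2.1 (mem_of_lt_fext hD (half_pos h) (half_lt_self h))
  have h1 := mem_cube_iff.1 hm i
  have h2 := mem_cube_iff.1 hm k
  rw [mk3_fst hij hik] at h1
  rw [mk3_thd hjk] at h2
  exact ⟨h1, h2⟩

theorem mk3_down (hD : IsDown D) (hij : i ≠ j) (hik : i ≠ k) (hjk : j ≠ k) {t' s' r' : ℝ}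
    (h : mk3 i j k t s r ∈ D) (ht : t' ∈ Ioo (0 : ℝ) 1) (hs : s' ∈ Ioo (0 : ℝ) 1)
    (hr : r' ∈ Ioo (0 : ℝ) 1) (htt : t' ≤ t) (hss : s' ≤ s) (hrr : r' ≤ r) :
    mk3 i j k t' s' r' ∈ D := by
  refine hD.2.2 _ h _ (mem_cube_iff.2 fun l => ?_) fun l => ?_ <;>
    rcases axis_cases hij hik hjk l with rfl | rfl | rfl <;>
    simp only [mk3_fst hij hik, mk3_snd, mk3_thd hjk] <;> assumption

theorem fext_mono (hD : IsDown D) (hij : i ≠ j) (hik : i ≠ k) (hjk : j ≠ k) {t' r' : ℝ}
    (ht : t ∈ Ioo (0 : ℝ) 1) (hr : r ∈ Ioo (0 : ℝ) 1) (htt : t ≤ t') (hrr : r ≤ r') :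
    fext D i j k t' r' ≤ fext D i j k t r := by
  refine le_of_forall_lt fun c hc => ?_
  rcases le_or_gt 0 c with hc0 | hc0
  · obtain ⟨c', h1, h2⟩ := exists_between hc
    have hm := mem_of_lt_fext hD (hc0.trans_lt h1) h2
    refine h1.trans_le (le_fext_of_mem hD (mk3_down hD hij hik hjk hm ht ?_ hr htt le_rfl hrr))
    exact ⟨hc0.trans_lt h1, h2.trans_le (fext_le_one hD i j k _ _)⟩
  · exact hc0.trans_le (fext_nonneg D i j k t r)

theorem lintegral_fext (hD : IsDown D) (hij : i ≠ j) (hik : i ≠ k) (hjk : j ≠ k) (t : ℝ) :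
    ∫⁻ r, ENNReal.ofReal (fext D i j k t r) = ENNReal.ofReal (sliceA D i t) := by
  rw [ofReal_sliceA hD, ← (faceMap_mp hij.symm hjk hik).measure_preimage
    (measurableSet_slice hD.1 i t).nullMeasurableSet,
    Measure.prod_apply_symm ((measurable_faceMap j i k) (measurableSet_slice hD.1 i t))]
  refine lintegral_congr fun r => ?_
  rw [fext, ext, ofReal_measureReal (ne_top_of_le_ne_top ENNReal.one_ne_top (volume_line_le hD j _))]
  congr 1
  ext s
  simp only [mem_preimage, mem_ofPred_eq, insertNth_faceMap, mk3_swap12 hij hik hjk]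

theorem faceW_eq (D : Set V3) (i j k : Fin 3) (t : ℝ) :
    faceW D i j k t = volume.real {r : ℝ | r ∈ Ioo (0 : ℝ) 1 ∧ fext D i j k t r = 1} := rfl

theorem fullRow_finite (D : Set V3) (i j k : Fin 3) (t : ℝ) :
    volume {r : ℝ | r ∈ Ioo (0 : ℝ) 1 ∧ fext D i j k t r = 1} ≠ ⊤ :=
  ne_top_of_le_ne_top (by simp : volume (Ioo (0 : ℝ) 1) ≠ ⊤) (measure_mono fun _ hr => hr.1)

theorem ofReal_faceW (D : Set V3) (i j k : Fin 3) (t : ℝ) :
    ENNReal.ofReal (faceW D i j k t) =
      volume {r : ℝ | r ∈ Ioo (0 : ℝ) 1 ∧ fext D i j k t r = 1} :=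
  ofReal_measureReal (fullRow_finite D i j k t)

theorem measurableSet_fullRow (hD : MeasurableSet D) (i j k : Fin 3) (t : ℝ) :
    MeasurableSet {r : ℝ | r ∈ Ioo (0 : ℝ) 1 ∧ fext D i j k t r = 1} :=
  measurableSet_Ioo.inter
    ((measurable_fext hD i j k).comp (measurable_const.prodMk measurable_id)
      (measurableSet_singleton 1))

theorem measurable_faceW (hD : MeasurableSet D) (i j k : Fin 3) :
    Measurable (faceW D i j k) := by
  have hs : MeasurableSet {p : ℝ × ℝ | p.2 ∈ Ioo (0 : ℝ) 1 ∧ fext D i j k p.1 p.2 = 1} :=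
    (measurable_snd measurableSet_Ioo).inter
      (measurable_fext hD i j k (measurableSet_singleton 1))
  exact (measurable_measure_prodMk_left (ν := (volume : Measure ℝ)) hs).ennreal_toReal

theorem faceW_nonneg (D : Set V3) (i j k : Fin 3) (t : ℝ) : 0 ≤ faceW D i j k t :=
  measureReal_nonneg

theorem faceW_le_one (D : Set V3) (i j k : Fin 3) (t : ℝ) : faceW D i j k t ≤ 1 :=
  ENNReal.toReal_le_of_le_ofReal zero_le_one
    ((measure_mono fun _ hr => hr.1).trans (by simp [Real.volume_Ioo]))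

theorem faceW_antitone (hD : IsDown D) (hij : i ≠ j) (hik : i ≠ k) (hjk : j ≠ k) :
    AntitoneOn (faceW D i j k) (Ioo 0 1) := fun t ht t' _ htt =>
  measureReal_mono (fun r ⟨hr, hr1⟩ => ⟨hr, le_antisymm (fext_le_one hD i j k t r)
      (hr1.symm.le.trans (fext_mono hD hij hik hjk ht hr htt le_rfl))⟩)
    (fullRow_finite D i j k t)

theorem faceW_le_sliceA (hD : IsDown D) (hij : i ≠ j) (hik : i ≠ k) (hjk : j ≠ k) (t : ℝ) :
    faceW D i j k t ≤ sliceA D i t := by
  rw [← ENNReal.ofReal_le_ofReal_iff (sliceA_nonneg D i t), ofReal_faceW,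
    ← lintegral_fext hD hij hik hjk, ← setLIntegral_one]
  refine (setLIntegral_mono' (measurableSet_fullRow hD.1 i j k t) fun r hr => ?_).trans
    (setLIntegral_le_lintegral _ _)
  simp [hr.2]

theorem lintegral_faceW (hD : IsDown D) (hij : i ≠ j) (hik : i ≠ k) (hjk : j ≠ k) :
    ∫⁻ t in Ioo (0 : ℝ) 1, ENNReal.ofReal (faceW D i j k t) =
      volume {q | q ∈ square ∧ ext D j q = 1} := by
  have hm : MeasurableSet {q | q ∈ square ∧ ext D j q = 1} :=
    measurableSet_square.inter (measurable_ext hD.1 j (measurableSet_singleton 1))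
  have hsec : ∀ t, Prod.mk t ⁻¹' (faceMap i j k ⁻¹' {q | q ∈ square ∧ ext D j q = 1}) =
      {r : ℝ | r ∈ Ioo (0 : ℝ) 1 ∧ fext D i j k t r = 1} := fun t => by
    ext r
    simp only [mem_preimage, mem_ofPred_eq]
    refine ⟨fun ⟨_, h⟩ => ⟨(ioo_of_fext_pos hD hij hik hjk (by rw [fext, h]; exact one_pos)).2,
      h⟩, fun ⟨_, h⟩ => ⟨mem_square_of_ext_pos hD (by rw [fext] at h; rw [h]; exact one_pos),
      h⟩⟩
  rw [← (faceMap_mp hij hik hjk).measure_preimage hm.nullMeasurableSet,
    Measure.prod_apply ((measurable_faceMap i j k) hm)]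
  simp only [hsec, ← ofReal_faceW]
  refine setLIntegral_eq_of_support_subset fun t ht => ?_
  by_contra h
  refine ht ?_
  have : {r : ℝ | r ∈ Ioo (0 : ℝ) 1 ∧ fext D i j k t r = 1} = ∅ := by
    ext r
    simp only [mem_ofPred_eq, mem_empty_iff_false, iff_false, not_and]
    exact fun _ h1 => h (ioo_of_fext_pos hD hij hik hjk (by rw [h1]; exact one_pos)).1
  simp only
  rw [faceW_eq, this]
  simp

theorem integral_faceW (hD : IsDown D) (hij : i ≠ j) (hik : i ≠ k) (hjk : j ≠ k) :
    ∫ t in Ioo (0 : ℝ) 1, faceW D i j k t = endA1 D j := by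
  rw [integral_eq_lintegral_of_nonneg_ae (f := faceW D i j k)
    (ae_of_all _ fun t => measureReal_nonneg) (measurable_faceW hD.1 i j k).aestronglyMeasurable,
    lintegral_faceW hD hij hik hjk]
  rfl

theorem faceW_eq_zero_of_endA1 (hD : IsDown D) (hij : i ≠ j) (hik : i ≠ k) (hjk : j ≠ k)
    (h0 : endA1 D j = 0) (ht : t ∈ Ioo (0 : ℝ) 1) : faceW D i j k t = 0 := by
  refine le_antisymm ?_ measureReal_nonneg
  have hint : IntegrableOn (faceW D i j k) (Ioo 0 1) :=
    IntegrableOn.of_bound (by simp) (measurable_faceW hD.1 i j k).aestronglyMeasurable 1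
      (ae_of_all _ fun u => by
        rw [Real.norm_eq_abs, abs_of_nonneg (faceW_nonneg D i j k u)]
        exact faceW_le_one D i j k u)
  have h1 : t * faceW D i j k t ≤ ∫ u in Ioo (0 : ℝ) t, faceW D i j k u := by
    have := setIntegral_mono_on (μ := volume)
      (integrableOn_const (C := faceW D i j k t) (by simp))
      (hint.mono_set (Ioo_subset_Ioo_right ht.2.le)) measurableSet_Ioo
      fun u hu => faceW_antitone hD hij hik hjk ⟨hu.1, hu.2.trans ht.2⟩ ht hu.2.le
    simpa [setIntegral_const, ht.1.le] using this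
  have h2 : ∫ u in Ioo (0 : ℝ) t, faceW D i j k u ≤ 0 := by
    refine (setIntegral_mono_set hint (ae_of_all _ fun u => measureReal_nonneg)
      (Ioo_subset_Ioo_right ht.2.le).eventuallyLE).trans ?_
    rw [integral_faceW hD hij hik hjk, h0]
  by_contra hc
  have := mul_pos ht.1 (not_le.1 hc)
  linarith

end fext

/-- Proof of `FaceBasics`. -/
theorem faceBasics : FaceBasics := by
  intro D hD i j k hij hik hjk
  refine ⟨faceW_antitone hD hij hik hjk, measurable_faceW hD.1 i j k,
    fun t => ⟨measureReal_nonneg, faceW_le_one D i j k t⟩, ?_,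
    fun t _ => faceW_le_sliceA hD hij hik hjk t⟩
  rw [intervalIntegral.integral_of_le zero_le_one, integral_Ioc_eq_integral_Ioo,
    integral_faceW hD hij hik hjk]

/-! ## Calibrations of a slice -/

theorem sq_dot_le {u v a b : ℝ}
    (h : u ^ 2 + v ^ 2 ≤ 1) : u * a + v * b ≤ √(a ^ 2 + b ^ 2) := by
  refine Real.le_sqrt_of_sq_le ?_
  nlinarith [sq_nonneg (u * b - v * a), mul_le_mul_of_nonneg_right h
    (add_nonneg (sq_nonneg a) (sq_nonneg b))]

section core

variable {i j k : Fin 3}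

theorem sheet_slices (hD : IsDown D) (hij : i ≠ j) (hik : i ≠ k) (hjk : j ≠ k)
    {g : ℝ → ℝ≥0∞} (hg : Measurable g) {u : V3 → ℝ} (hu : Measurable u) :
    ∫⁻ x, g (x i) * ENNReal.ofReal (u x) ∂sheet D j =
      ∫⁻ t, g t * ∫⁻ r in {r | fext D i j k t r ∈ Ioo (0 : ℝ) 1},
        ENNReal.ofReal (u (mk3 i j k t (fext D i j k t r) r)) := by
  have hF : Measurable fun x : V3 => g (x i) * ENNReal.ofReal (u x) :=
    (hg.comp (measurable_pi_apply i)).mul hu.ennreal_ofReal
  have hset : {q | q ∈ square ∧ ext D j q ∈ Ioo (0 : ℝ) 1} = ext D j ⁻¹' Ioo 0 1 := by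
    ext q
    exact ⟨fun h => h.2, fun h => ⟨mem_square_of_ext_pos hD h.1, h⟩⟩
  have hs : MeasurableSet (ext D j ⁻¹' Ioo (0 : ℝ) 1) := measurable_ext hD.1 j measurableSet_Ioo
  have hG : Measurable fun q => (g ((j.insertNth (ext D j q) q : V3) i)) *
      ENNReal.ofReal (u (j.insertNth (ext D j q) q)) := hF.comp (measurable_graph hD.1 j)
  have hs' : MeasurableSet {p : ℝ × ℝ | fext D i j k p.1 p.2 ∈ Ioo (0 : ℝ) 1} :=
    measurable_fext hD.1 i j k measurableSet_Ioo
  have hval : Measurable fun p : ℝ × ℝ =>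
      g p.1 * ENNReal.ofReal (u (mk3 i j k p.1 (fext D i j k p.1 p.2) p.2)) :=
    (hg.comp measurable_fst).mul (hu.comp ((measurable_mk3 i j k).comp (measurable_fst.prodMk
      ((measurable_fext hD.1 i j k).prodMk measurable_snd)))).ennreal_ofReal
  rw [lintegral_sheet hD.1 j hF, hset,
    ← (faceMap_mp hij hik hjk).setLIntegral_comp_preimage hs hG]
  have hpre : faceMap i j k ⁻¹' (ext D j ⁻¹' Ioo (0 : ℝ) 1) =
      {p : ℝ × ℝ | fext D i j k p.1 p.2 ∈ Ioo (0 : ℝ) 1} := rfl
  have heq : ∀ p : ℝ × ℝ,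
      (j.insertNth (ext D j (faceMap i j k p)) (faceMap i j k p) : V3) =
        mk3 i j k p.1 (fext D i j k p.1 p.2) p.2 := fun p => insertNth_faceMap i j k _ _ _
  simp only [hpre, heq, mk3_fst hij hik]
  rw [← lintegral_indicator hs', lintegral_prod _ (hval.indicator hs').aemeasurable]
  refine lintegral_congr fun t => ?_
  have hst : MeasurableSet {r | fext D i j k t r ∈ Ioo (0 : ℝ) 1} :=
    (measurable_fext hD.1 i j k).comp (measurable_const.prodMk measurable_id) measurableSet_Ioo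
  rw [← lintegral_indicator hst, ← lintegral_const_mul]
  · refine lintegral_congr fun r => ?_
    by_cases hr : fext D i j k t r ∈ Ioo (0 : ℝ) 1 <;> simp [indicator]
  · exact ((hu.comp ((measurable_mk3 i j k).comp (measurable_const.prodMk
      (((measurable_fext hD.1 i j k).comp (measurable_const.prodMk measurable_id)).prodMk
        measurable_id)))).ennreal_ofReal).indicator hst

/-- A unit field in the slice planes bounds the slice lengths from below. -/
theorem slice_core (hD : IsDown D) (hij : i ≠ j) (hik : i ≠ k) (hjk : j ≠ k) {u v : V3 → ℝ}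
    (hu : Measurable u) (hv : Measurable v) (hu0 : ∀ x, 0 ≤ u x) (hv0 : ∀ x, 0 ≤ v x)
    (huv : ∀ x, u x ^ 2 + v x ^ 2 ≤ 1) {L : ℝ → ℝ}
    (hbound : ∀ t ∈ Ioo (0 : ℝ) 1, ENNReal.ofReal (L t) ≤
      (∫⁻ r in {r | fext D i j k t r ∈ Ioo (0 : ℝ) 1},
          ENNReal.ofReal (u (mk3 i j k t (fext D i j k t r) r))) +
      ∫⁻ s in {s | fext D i k j t s ∈ Ioo (0 : ℝ) 1},
          ENNReal.ofReal (v (mk3 i j k t s (fext D i k j t s))))
    {g : ℝ → ℝ≥0∞} (hg : Measurable g) :
    ∫⁻ t in Ioo (0 : ℝ) 1, g t * ENNReal.ofReal (L t) ≤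
      ∫⁻ x, g (x i) * ENNReal.ofReal (dtan D i x) ∂surf D := by
  refine (setLIntegral_mono' measurableSet_Ioo fun t ht => mul_le_mul_right (hbound t ht) (g t)).trans ?_
  refine (setLIntegral_le_lintegral _ _).trans ?_
  have h1 := sheet_slices hD hij hik hjk hg hu
  have h2 := sheet_slices hD hik hij hjk.symm hg hv
  simp only [mk3_swap23 hij hik hjk] at h2
  have hgi : Measurable fun x : V3 => g (x i) := hg.comp (measurable_pi_apply i)
  calc _ ≤ (∫⁻ x, g (x i) * ENNReal.ofReal (u x) ∂sheet D j) +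
        ∫⁻ x, g (x i) * ENNReal.ofReal (v x) ∂sheet D k := by
        rw [h1, h2, ← lintegral_add_left' ?_]
        · simp only [mul_add]
          exact le_rfl
        · refine (Measurable.mul hg ?_).aemeasurable
          have hm : Measurable fun p : ℝ × ℝ =>
              ({p : ℝ × ℝ | fext D i j k p.1 p.2 ∈ Ioo (0 : ℝ) 1}).indicator
                (fun p => ENNReal.ofReal (u (mk3 i j k p.1 (fext D i j k p.1 p.2) p.2))) p :=
            ((hu.comp ((measurable_mk3 i j k).comp (measurable_fst.prodMk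
              ((measurable_fext hD.1 i j k).prodMk measurable_snd)))).ennreal_ofReal).indicator
              (measurable_fext hD.1 i j k measurableSet_Ioo)
          convert hm.lintegral_prod_right' (ν := (volume : Measure ℝ)) using 1
          refine funext fun t => ?_
          rw [← lintegral_indicator]
          · rfl
          · exact (measurable_fext hD.1 i j k).comp (measurable_const.prodMk measurable_id)
              measurableSet_Ioo
    _ = ∫⁻ x, g (x i) * ENNReal.ofReal (u x) * ENNReal.ofReal (dens D j x) +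
          g (x i) * ENNReal.ofReal (v x) * ENNReal.ofReal (dens D k x) ∂surf D := by
        rw [lintegral_add_left ((hgi.fun_mul hu.ennreal_ofReal).fun_mul
          (measurable_dens D j).ennreal_ofReal),
          lintegral_mul_dens D j (hgi.fun_mul hu.ennreal_ofReal),
          lintegral_mul_dens D k (hgi.fun_mul hv.ennreal_ofReal)]
    _ ≤ _ := lintegral_mono fun x => by
        rw [mul_assoc, mul_assoc, ← mul_add, ← ENNReal.ofReal_mul (hu0 x),
          ← ENNReal.ofReal_mul (hv0 x), ← ENNReal.ofReal_add (mul_nonneg (hu0 x) (dens_nonneg ..))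
            (mul_nonneg (hv0 x) (dens_nonneg ..))]
        gcongr
        refine (sq_dot_le (huv x)).trans ?_
        rw [← dtan_sq_of_perm D hij hik hjk, Real.sqrt_sq (dtan_nonneg ..)]

end core

/-! ## The slice length bounds -/

/-- Truncation to the unit interval. -/
noncomputable def clamp01 (x : ℝ) : ℝ := max 0 (min 1 x)

theorem clamp01_mem (x : ℝ) : 0 ≤ clamp01 x ∧ clamp01 x ≤ 1 :=
  ⟨le_max_left _ _, max_le zero_le_one (min_le_left _ _)⟩

theorem clamp01_eq {x : ℝ} (h0 : 0 ≤ x) (h1 : x ≤ 1) : clamp01 x = x := by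
  rw [clamp01, min_eq_right h1, max_eq_right h0]

theorem measurable_clamp01 : Measurable clamp01 :=
  measurable_const.max (measurable_const.min measurable_id)

theorem lintegral_Ioo_ofReal {f : ℝ → ℝ} {a b : ℝ} (hab : a ≤ b) (hf : Continuous f)
    (h0 : ∀ x, 0 ≤ f x) :
    ∫⁻ x in Ioo a b, ENNReal.ofReal (f x) = ENNReal.ofReal (∫ x in a..b, f x) := by
  rw [intervalIntegral.integral_of_le hab, integral_Ioc_eq_integral_Ioo,
    ofReal_integral_eq_lintegral_ofReal
      (hf.continuousOn.integrableOn_Icc.mono_set Ioo_subset_Icc_self) (ae_of_all _ h0)]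

theorem integral_quarter : ∫ y in (0 : ℝ)..1, √(1 - y ^ 2) = Real.pi / 4 := by
  have hc : Continuous fun y : ℝ => √(1 - y ^ 2) := by fun_prop
  have h := intervalIntegral.integral_add_adjacent_intervals (a := (-1 : ℝ)) (b := 0) (c := 1)
    (hc.intervalIntegrable _ _) (hc.intervalIntegrable _ _) (μ := volume)
  have h' := intervalIntegral.integral_comp_neg (a := (0 : ℝ)) (b := 1) fun y => √(1 - y ^ 2)
  simp only [neg_sq, neg_zero] at h'
  rw [integral_sqrt_one_sub_sq, ← h'] at h
  linarith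

theorem arc_left {b : ℝ} (hb : 0 < b) :
    ∫⁻ s in Ioo (0 : ℝ) b, ENNReal.ofReal √(1 - (s / b) ^ 2) =
      ENNReal.ofReal (b * Real.pi / 4) := by
  rw [lintegral_Ioo_ofReal hb.le (by fun_prop) fun x => Real.sqrt_nonneg _,
    intervalIntegral.integral_comp_div (fun y => √(1 - y ^ 2)) hb.ne', zero_div, div_self hb.ne',
    integral_quarter, smul_eq_mul]
  congr 1
  ring

theorem arc_right {b : ℝ} (hb : 0 < b) :
    ∫⁻ s in Ioo (1 - b) 1, ENNReal.ofReal √(1 - ((1 - s) / b) ^ 2) =
      ENNReal.ofReal (b * Real.pi / 4) := by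
  rw [lintegral_Ioo_ofReal (by linarith) (by fun_prop) fun x => Real.sqrt_nonneg _,
    intervalIntegral.integral_comp_sub_left (fun y => √(1 - (y / b) ^ 2)) 1, sub_self,
    sub_sub_cancel, intervalIntegral.integral_comp_div (fun y => √(1 - y ^ 2)) hb.ne', zero_div,
    div_self hb.ne', integral_quarter, smul_eq_mul]
  congr 1
  ring

theorem phiK_lintegral (κ : ℝ) :
    ∫⁻ s in Ioo (0 : ℝ) 1, ENNReal.ofReal √(1 - (κ * s) ^ 2) = ENNReal.ofReal (phiK κ) := by
  rw [lintegral_Ioo_ofReal zero_le_one (by fun_prop) fun x => Real.sqrt_nonneg _, phiK]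
  simp only [mul_pow]

theorem phiK_nonneg (κ : ℝ) : 0 ≤ phiK κ :=
  intervalIntegral.integral_nonneg zero_le_one fun _ _ => Real.sqrt_nonneg _

theorem sqrt_pi_le {a b : ℝ} (ha : 0 ≤ a) (hb : 0 < b) :
    √(Real.pi * a) ≤ a / b + b * Real.pi / 4 := by
  refine Real.sqrt_le_iff.2 ⟨by positivity, ?_⟩
  have h : (a / b) * (b * Real.pi / 4) * 4 = Real.pi * a := by field_simp
  nlinarith [sq_nonneg (a / b - b * Real.pi / 4)]

/-- Width of the slice at height `t` seen along the direction `k`. -/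
noncomputable def wPos (D : Set V3) (i j k : Fin 3) (t : ℝ) : ℝ :=
  volume.real {s : ℝ | 0 < fext D i k j t s}

/-- Part of the width without full lines along the direction `k`. -/
noncomputable def wNF (D : Set V3) (i j k : Fin 3) (t : ℝ) : ℝ :=
  volume.real {s : ℝ | s ∈ Ioo (0 : ℝ) 1 ∧ fext D i k j t s < 1}

/-- The slope used in the mixed cases. -/
noncomputable def slope (L κ : ℝ → ℝ) (t : ℝ) : ℝ := if L t ≤ 1 then 0 else κ t

theorem slope_mem {L κ : ℝ → ℝ} (hκ : ∀ t, 0 ≤ κ t ∧ κ t ≤ 1) (t : ℝ) :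
    0 ≤ slope L κ t ∧ slope L κ t ≤ 1 := by
  unfold slope
  split_ifs with h
  · exact ⟨le_rfl, zero_le_one⟩
  · exact hκ t

theorem slope_bound {L κ : ℝ → ℝ} {t c : ℝ} (h : L t ≤ max 1 (phiK (κ t) + κ t * c)) :
    L t ≤ phiK (slope L κ t) + slope L κ t * c := by
  unfold slope
  split_ifs with h1
  · simpa [phiK] using h1
  · exact (le_max_iff.1 h).resolve_left h1

/-- Component along the axis `j` of the slice calibration. -/
noncomputable def calU (D : Set V3) (i j k : Fin 3) (L κ : ℝ → ℝ) (x : V3) : ℝ :=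
  if faceW D i j k (x i) = 0 then
    if faceW D i k j (x i) = 0 then clamp01 (x j / wPos D i j k (x i))
    else √(1 - (slope L κ (x i) * x k) ^ 2)
  else
    if faceW D i k j (x i) = 0 then clamp01 (slope L κ (x i) * x j)
    else clamp01 ((1 - x j) / wNF D i j k (x i))

theorem calU_mem (D : Set V3) (i j k : Fin 3) (L κ : ℝ → ℝ) (x : V3) :
    0 ≤ calU D i j k L κ x ∧ calU D i j k L κ x ≤ 1 := by
  unfold calU
  split_ifs
  · exact clamp01_mem _
  · exact ⟨Real.sqrt_nonneg _, Real.sqrt_le_one.2 (by nlinarith [sq_nonneg (slope L κ (x i) * x k)])⟩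
  · exact clamp01_mem _
  · exact clamp01_mem _

theorem measurable_wPos (hD : MeasurableSet D) (i j k : Fin 3) : Measurable (wPos D i j k) := by
  have hs : MeasurableSet {p : ℝ × ℝ | 0 < fext D i k j p.1 p.2} :=
    measurable_fext hD i k j measurableSet_Ioi
  exact (measurable_measure_prodMk_left (ν := (volume : Measure ℝ)) hs).ennreal_toReal

theorem measurable_wNF (hD : MeasurableSet D) (i j k : Fin 3) : Measurable (wNF D i j k) := by
  have hs : MeasurableSet {p : ℝ × ℝ | p.2 ∈ Ioo (0 : ℝ) 1 ∧ fext D i k j p.1 p.2 < 1} :=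
    (measurable_snd measurableSet_Ioo).inter (measurable_fext hD i k j measurableSet_Iio)
  exact (measurable_measure_prodMk_left (ν := (volume : Measure ℝ)) hs).ennreal_toReal

theorem measurable_calU (hD : MeasurableSet D) (i j k : Fin 3) {L κ : ℝ → ℝ} (hL : Measurable L)
    (hκ : Measurable κ) : Measurable (calU D i j k L κ) := by
  have hi : Measurable fun x : V3 => x i := measurable_pi_apply i
  have hj : Measurable fun x : V3 => x j := measurable_pi_apply j
  have hk : Measurable fun x : V3 => x k := measurable_pi_apply k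
  have hs : Measurable (slope L κ) :=
    Measurable.ite (measurableSet_le hL measurable_const) measurable_const hκ
  have h1 : MeasurableSet {x : V3 | faceW D i j k (x i) = 0} :=
    ((measurable_faceW hD i j k).comp hi) (measurableSet_singleton 0)
  have h2 : MeasurableSet {x : V3 | faceW D i k j (x i) = 0} :=
    ((measurable_faceW hD i k j).comp hi) (measurableSet_singleton 0)
  refine Measurable.ite h1 (Measurable.ite h2 ?_ ?_) (Measurable.ite h2 ?_ ?_)
  · exact measurable_clamp01.comp (hj.div ((measurable_wPos hD i j k).comp hi))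
  · exact (measurable_const.sub (((hs.comp hi).mul hk).pow_const 2)).sqrt
  · exact measurable_clamp01.comp ((hs.comp hi).mul hj)
  · exact measurable_clamp01.comp
      ((measurable_const.sub hj).div ((measurable_wNF hD i j k).comp hi))

section cases

variable {i j k : Fin 3} {t r s : ℝ}

theorem fext_dual (hD : IsDown D) (hij : i ≠ j) (hik : i ≠ k) (hjk : j ≠ k) (hs : 0 < s)
    (h : s < fext D i j k t r) : r ≤ fext D i k j t s := by
  refine le_fext_of_mem hD ?_
  rw [mk3_swap23 hij hik hjk]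
  exact mem_of_lt_fext hD hs h

theorem fext_lt_one (hD : IsDown D) (hij : i ≠ j) (hik : i ≠ k) (hjk : j ≠ k)
    (ht : t ∈ Ioo (0 : ℝ) 1) (hw : faceW D i j k t = 0) (r : ℝ) : fext D i j k t r < 1 := by
  refine lt_of_le_of_ne (fext_le_one hD i j k t r) fun hr1 => ?_
  have hr := (ioo_of_fext_pos hD hij hik hjk (hr1 ▸ one_pos)).2
  have hsub : Ioo 0 r ⊆ {r' : ℝ | r' ∈ Ioo (0 : ℝ) 1 ∧ fext D i j k t r' = 1} := fun r' hr' =>
    ⟨⟨hr'.1, hr'.2.trans hr.2⟩, le_antisymm (fext_le_one hD i j k t r')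
      (hr1.symm.le.trans (fext_mono hD hij hik hjk ht ⟨hr'.1, hr'.2.trans hr.2⟩ le_rfl hr'.2.le))⟩
  have h := measureReal_mono (μ := volume) hsub (fullRow_finite D i j k t)
  rw [← faceW_eq, hw, Real.volume_real_Ioo_of_le hr.1.le] at h
  linarith [hr.1]

theorem fext_pos_of_faceW (hD : IsDown D) (hij : i ≠ j) (hik : i ≠ k) (hjk : j ≠ k)
    (hw : 0 < faceW D i j k t) (hs : s ∈ Ioo (0 : ℝ) 1) : 0 < fext D i k j t s := by
  obtain ⟨r, hr, hr1⟩ : {r : ℝ | r ∈ Ioo (0 : ℝ) 1 ∧ fext D i j k t r = 1}.Nonempty := by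
    by_contra hne
    rw [not_nonempty_iff_eq_empty] at hne
    rw [faceW_eq, hne] at hw
    simp at hw
  exact hr.1.trans_le (fext_dual hD hij hik hjk hs.1 (hs.2.trans_eq hr1.symm))

theorem fext_support (hD : IsDown D) (hij : i ≠ j) (hik : i ≠ k) (hjk : j ≠ k)
    (hlt : ∀ r, fext D i j k t r < 1) :
    ∫⁻ r in {r | fext D i j k t r ∈ Ioo (0 : ℝ) 1}, ENNReal.ofReal (fext D i j k t r) =
      ENNReal.ofReal (sliceA D i t) := by
  rw [← lintegral_fext hD hij hik hjk t]
  refine setLIntegral_eq_of_support_subset fun r hr => ⟨?_, hlt r⟩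
  simpa using hr

theorem measurableSet_fextIoo (hD : MeasurableSet D) (i j k : Fin 3) (t : ℝ) :
    MeasurableSet {r | fext D i j k t r ∈ Ioo (0 : ℝ) 1} :=
  (measurable_fext hD i j k).comp (measurable_const.prodMk measurable_id) measurableSet_Ioo

theorem fext_ioo_part (hD : IsDown D) (hij : i ≠ j) (hik : i ≠ k) (hjk : j ≠ k) (t : ℝ) :
    ∫⁻ r in {r | fext D i j k t r ∈ Ioo (0 : ℝ) 1}, ENNReal.ofReal (fext D i j k t r) =
      ENNReal.ofReal (sliceA D i t - faceW D i j k t) := by
  have hA := measurableSet_fextIoo hD.1 i j k t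
  have hB := measurableSet_fullRow hD.1 i j k t
  have hdisj : Disjoint {r | fext D i j k t r ∈ Ioo (0 : ℝ) 1}
      {r : ℝ | r ∈ Ioo (0 : ℝ) 1 ∧ fext D i j k t r = 1} :=
    disjoint_left.2 fun r hr hr' => hr.2.ne hr'.2
  have h := lintegral_fext hD hij hik hjk t
  rw [← setLIntegral_eq_of_support_subset (s := {r | fext D i j k t r ∈ Ioo (0 : ℝ) 1} ∪
      {r : ℝ | r ∈ Ioo (0 : ℝ) 1 ∧ fext D i j k t r = 1}), lintegral_union hB hdisj,
    setLIntegral_congr_fun hB (g := fun _ => (1 : ℝ≥0∞)) (fun r hr => by simp [hr.2]),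
    setLIntegral_one, ← ofReal_faceW] at h
  · rw [ENNReal.ofReal_sub _ (faceW_nonneg D i j k t), ← h,
      ENNReal.add_sub_cancel_right ENNReal.ofReal_ne_top]
  · intro r hr
    have hpos : 0 < fext D i j k t r := by simpa using hr
    rcases (fext_le_one hD i j k t r).lt_or_eq with h1 | h1
    · exact Or.inl ⟨hpos, h1⟩
    · exact Or.inr ⟨(ioo_of_fext_pos hD hij hik hjk hpos).2, h1⟩

theorem case_none (hD : IsDown D) (hij : i ≠ j) (hik : i ≠ k) (hjk : j ≠ k)
    (ht : t ∈ Ioo (0 : ℝ) 1) (hw : faceW D i j k t = 0) (hw' : faceW D i k j t = 0) {L : ℝ}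
    (hL : L ≤ √(Real.pi * sliceA D i t)) :
    ENNReal.ofReal L ≤
      (∫⁻ r in {r | fext D i j k t r ∈ Ioo (0 : ℝ) 1},
          ENNReal.ofReal (clamp01 (fext D i j k t r / wPos D i j k t))) +
      ∫⁻ s in {s | fext D i k j t s ∈ Ioo (0 : ℝ) 1},
          ENNReal.ofReal √(1 - clamp01 (s / wPos D i j k t) ^ 2) := by
  set b := wPos D i j k t with hb
  have hfin : volume {s : ℝ | 0 < fext D i k j t s} ≠ ⊤ :=
    ne_top_of_le_ne_top (by simp : volume (Ioo (0 : ℝ) 1) ≠ ⊤)
      (measure_mono fun s hs => (ioo_of_fext_pos hD hik hij hjk.symm hs).2)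
  have hFb : ∀ r, fext D i j k t r ≤ b := fun r => by
    rcases (fext_nonneg D i j k t r).lt_or_eq with h | h
    · have hr := (ioo_of_fext_pos hD hij hik hjk h).2
      have h2 := measureReal_mono (μ := volume) (s₁ := Ioo 0 (fext D i j k t r))
        (fun s hs => hr.1.trans_le (fext_dual hD hij hik hjk hs.1 hs.2)) hfin
      rwa [Real.volume_real_Ioo_of_le h.le, sub_zero] at h2
    · rw [← h]; exact measureReal_nonneg
  rcases le_or_gt L 0 with hL0 | hL0
  · simp [ENNReal.ofReal_of_nonpos hL0]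
  have ha : 0 < sliceA D i t := by
    by_contra h
    rw [le_antisymm (not_lt.1 h) (sliceA_nonneg D i t)] at hL
    simp at hL
    linarith
  have hb0 : 0 < b := by
    by_contra h
    have h0 := lintegral_fext hD hij hik hjk t
    simp only [fun r => ENNReal.ofReal_of_nonpos ((hFb r).trans (not_lt.1 h)),
      lintegral_zero] at h0
    exact absurd h0.symm (by simpa using ha)
  have h1 : ∫⁻ r in {r | fext D i j k t r ∈ Ioo (0 : ℝ) 1},
      ENNReal.ofReal (clamp01 (fext D i j k t r / b)) = ENNReal.ofReal (sliceA D i t / b) := by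
    calc _ = ∫⁻ r in {r | fext D i j k t r ∈ Ioo (0 : ℝ) 1},
          ENNReal.ofReal (fext D i j k t r) * ENNReal.ofReal b⁻¹ := by
          refine lintegral_congr fun r => ?_
          rw [clamp01_eq (by have := fext_nonneg D i j k t r; positivity)
            ((div_le_one hb0).2 (hFb r)), ← ENNReal.ofReal_mul (fext_nonneg D i j k t r),
            div_eq_mul_inv]
      _ = _ := by
          rw [lintegral_mul_const' _ _ ENNReal.ofReal_ne_top,
            fext_support hD hij hik hjk (fext_lt_one hD hij hik hjk ht hw),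
            ← ENNReal.ofReal_mul (sliceA_nonneg D i t), div_eq_mul_inv]
  have hsub : Ioo 0 b ⊆ {s | fext D i k j t s ∈ Ioo (0 : ℝ) 1} := fun s hs => by
    refine ⟨?_, fext_lt_one hD hik hij hjk.symm ht hw' s⟩
    by_contra hc
    have hs1 : {u : ℝ | 0 < fext D i k j t u} ⊆ Ioo 0 s := fun u hu => by
      have hu' := (ioo_of_fext_pos hD hik hij hjk.symm hu).2
      refine ⟨hu'.1, lt_of_not_ge fun hsu => hc ?_⟩
      exact lt_of_lt_of_le hu (fext_mono hD hik hij hjk.symm ht
        ⟨hs.1, lt_of_le_of_lt hsu hu'.2⟩ le_rfl hsu)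
    have h3 := measureReal_mono (μ := volume) hs1 (by simp)
    rw [Real.volume_real_Ioo_of_le hs.1.le, sub_zero] at h3
    exact absurd hs.2 (not_lt.2 h3)
  rw [h1]
  calc ENNReal.ofReal L ≤ ENNReal.ofReal (sliceA D i t / b + b * Real.pi / 4) :=
        ENNReal.ofReal_le_ofReal (hL.trans (sqrt_pi_le ha.le hb0))
    _ = ENNReal.ofReal (sliceA D i t / b) +
        ∫⁻ s in Ioo (0 : ℝ) b, ENNReal.ofReal √(1 - (s / b) ^ 2) := by
        rw [arc_left hb0, ENNReal.ofReal_add (by positivity) (by positivity)]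
    _ ≤ _ := by
        refine add_le_add_right ?_ _
        refine le_trans (le_of_eq (setLIntegral_congr_fun measurableSet_Ioo fun s hs => ?_))
          (lintegral_mono_set hsub)
        rw [clamp01_eq (div_nonneg hs.1.le hb0.le) ((div_le_one hb0).2 hs.2.le)]

theorem case_mixed (hD : IsDown D) (hij : i ≠ j) (hik : i ≠ k) (hjk : j ≠ k)
    (ht : t ∈ Ioo (0 : ℝ) 1) (hw : 0 < faceW D i j k t) (hw' : faceW D i k j t = 0) {L σ : ℝ}
    (hσ : 0 ≤ σ ∧ σ ≤ 1) (hL : L ≤ phiK σ + σ * (sliceA D i t - faceW D i j k t)) :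
    ENNReal.ofReal L ≤
      (∫⁻ r in {r | fext D i j k t r ∈ Ioo (0 : ℝ) 1},
          ENNReal.ofReal (σ * fext D i j k t r)) +
      ∫⁻ s in {s | fext D i k j t s ∈ Ioo (0 : ℝ) 1}, ENNReal.ofReal √(1 - (σ * s) ^ 2) := by
  have hnn : 0 ≤ σ * (sliceA D i t - faceW D i j k t) :=
    mul_nonneg hσ.1 (sub_nonneg.2 (faceW_le_sliceA hD hij hik hjk t))
  calc ENNReal.ofReal L
      ≤ ENNReal.ofReal (σ * (sliceA D i t - faceW D i j k t)) +
          ∫⁻ s in Ioo (0 : ℝ) 1, ENNReal.ofReal √(1 - (σ * s) ^ 2) := by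
        rw [phiK_lintegral, ← ENNReal.ofReal_add hnn (phiK_nonneg σ)]
        exact ENNReal.ofReal_le_ofReal (by linarith)
    _ ≤ _ := by
        refine add_le_add (le_of_eq ?_) (lintegral_mono_set fun s hs => ?_)
        · rw [ENNReal.ofReal_mul hσ.1, ← fext_ioo_part hD hij hik hjk t,
            ← lintegral_const_mul' _ _ ENNReal.ofReal_ne_top]
          simp only [← ENNReal.ofReal_mul hσ.1]
        · exact ⟨fext_pos_of_faceW hD hij hik hjk hw hs, fext_lt_one hD hik hij hjk.symm ht hw' s⟩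

theorem both_integral (hD : IsDown D) (hij : i ≠ j) (hik : i ≠ k) (hjk : j ≠ k) (t : ℝ) :
    IntegrableOn (fun r => 1 - fext D i j k t r) (Ioo 0 1) ∧
      ∫ r in Ioo (0 : ℝ) 1, (1 - fext D i j k t r) = 1 - sliceA D i t := by
  have hFm : Measurable (fext D i j k t) := measurable_fext_right hD.1 i j k t
  have hint : IntegrableOn (fext D i j k t) (Ioo 0 1) :=
    IntegrableOn.of_bound (by simp) hFm.aestronglyMeasurable 1 (ae_of_all _ fun r => by
      rw [Real.norm_eq_abs, abs_of_nonneg (fext_nonneg D i j k t r)]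
      exact fext_le_one hD i j k t r)
  refine ⟨(integrableOn_const (C := (1 : ℝ)) (by simp)).sub hint, ?_⟩
  have hone : ∫ r in Ioo (0 : ℝ) 1, (1 - fext D i j k t r) = 1 - sliceA D i t := by
    rw [integral_sub (integrableOn_const (C := (1 : ℝ)) (by simp)) hint]
    have hre : ∫ r in Ioo (0 : ℝ) 1, fext D i j k t r = sliceA D i t := by
      have hl : ∫⁻ r in Ioo (0 : ℝ) 1, ENNReal.ofReal (fext D i j k t r) =
          ENNReal.ofReal (sliceA D i t) :=
        (setLIntegral_eq_of_support_subset fun r hr =>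
          (ioo_of_fext_pos hD hij hik hjk (by simpa using hr)).2).trans
          (lintegral_fext hD hij hik hjk t)
      rw [integral_eq_lintegral_of_nonneg_ae (ae_of_all _ (fext_nonneg D i j k t))
        hFm.aestronglyMeasurable, hl, ENNReal.toReal_ofReal (sliceA_nonneg D i t)]
    rw [hre]
    simp
  exact hone

theorem both_first (hD : IsDown D) (hij : i ≠ j) (hik : i ≠ k) (hjk : j ≠ k) {b : ℝ} (hb0 : 0 < b)
    (hFpos : ∀ r ∈ Ioo (0 : ℝ) 1, 0 < fext D i j k t r)
    (hFb : ∀ r ∈ Ioo (0 : ℝ) 1, 1 - fext D i j k t r ≤ b) :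
    ENNReal.ofReal ((1 - sliceA D i t) / b) ≤
      ∫⁻ r in {r | fext D i j k t r ∈ Ioo (0 : ℝ) 1},
        ENNReal.ofReal (clamp01 ((1 - fext D i j k t r) / b)) := by
  obtain ⟨hint, hone⟩ := both_integral hD hij hik hjk t
  rw [← hone, ← integral_div, ofReal_integral_eq_lintegral_ofReal]
  · calc ∫⁻ r in Ioo (0 : ℝ) 1, ENNReal.ofReal ((1 - fext D i j k t r) / b)
        = ∫⁻ r in {r | fext D i j k t r ∈ Ioo (0 : ℝ) 1} ∩ Ioo 0 1,
            ENNReal.ofReal ((1 - fext D i j k t r) / b) := by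
          rw [← setLIntegral_indicator (measurableSet_fextIoo hD.1 i j k t)]
          refine setLIntegral_congr_fun measurableSet_Ioo fun r hr => ?_
          by_cases hm : fext D i j k t r ∈ Ioo (0 : ℝ) 1
          · rw [indicator_of_mem (show r ∈ {r | fext D i j k t r ∈ Ioo (0 : ℝ) 1} from hm)]
          · have h1 : fext D i j k t r = 1 :=
              le_antisymm (fext_le_one hD i j k t r) (not_lt.1 fun h => hm ⟨hFpos r hr, h⟩)
            simp [h1]
      _ ≤ _ := by
          refine le_trans ?_ (lintegral_mono_set (inter_subset_left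
            (s := {r | fext D i j k t r ∈ Ioo (0 : ℝ) 1}) (t := Ioo (0 : ℝ) 1)))
          refine setLIntegral_mono' ((measurableSet_fextIoo hD.1 i j k t).inter measurableSet_Ioo)
            fun r hr => le_of_eq ?_
          rw [clamp01_eq (div_nonneg (by linarith [hr.1.2]) hb0.le)
            ((div_le_one hb0).2 (hFb r hr.2))]
  · exact hint.div_const b
  · exact ae_of_all _ fun r =>
      div_nonneg (sub_nonneg.2 (fext_le_one hD i j k t r)) hb0.le

theorem case_both (hD : IsDown D) (hij : i ≠ j) (hik : i ≠ k) (hjk : j ≠ k)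
    (ht : t ∈ Ioo (0 : ℝ) 1) (hw : 0 < faceW D i j k t) (hw' : 0 < faceW D i k j t) {L : ℝ}
    (hL : L ≤ √(Real.pi * (1 - sliceA D i t))) :
    ENNReal.ofReal L ≤
      (∫⁻ r in {r | fext D i j k t r ∈ Ioo (0 : ℝ) 1},
          ENNReal.ofReal (clamp01 ((1 - fext D i j k t r) / wNF D i j k t))) +
      ∫⁻ s in {s | fext D i k j t s ∈ Ioo (0 : ℝ) 1},
          ENNReal.ofReal √(1 - clamp01 ((1 - s) / wNF D i j k t) ^ 2) := by
  set b := wNF D i j k t with hb
  have hfin : volume {s : ℝ | s ∈ Ioo (0 : ℝ) 1 ∧ fext D i k j t s < 1} ≠ ⊤ :=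
    ne_top_of_le_ne_top (by simp : volume (Ioo (0 : ℝ) 1) ≠ ⊤) (measure_mono fun s hs => hs.1)
  have hFpos : ∀ r ∈ Ioo (0 : ℝ) 1, 0 < fext D i j k t r := fun r hr =>
    fext_pos_of_faceW hD hik hij hjk.symm hw' hr
  have hFb : ∀ r ∈ Ioo (0 : ℝ) 1, 1 - fext D i j k t r ≤ b := fun r hr => by
    have hsub : Ioo (fext D i j k t r) 1 ⊆
        {s : ℝ | s ∈ Ioo (0 : ℝ) 1 ∧ fext D i k j t s < 1} := fun s hs => by
      have hs' : s ∈ Ioo (0 : ℝ) 1 := ⟨(hFpos r hr).trans hs.1, hs.2⟩
      refine ⟨hs', lt_of_le_of_ne (fext_le_one hD i k j t s) fun h1 => ?_⟩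
      have := fext_dual hD hik hij hjk.symm hr.1 (hr.2.trans_eq h1.symm)
      exact absurd hs.1 (not_lt.2 this)
    have h2 := measureReal_mono (μ := volume) hsub hfin
    rwa [Real.volume_real_Ioo_of_le (fext_le_one hD i j k t r)] at h2
  rcases le_or_gt L 0 with hL0 | hL0
  · simp [ENNReal.ofReal_of_nonpos hL0]
  have ha : sliceA D i t < 1 := by
    by_contra h
    rw [Real.sqrt_eq_zero_of_nonpos (mul_nonpos_of_nonneg_of_nonpos Real.pi_nonneg
      (by linarith [not_lt.1 h]))] at hL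
    linarith
  obtain ⟨hint, hone⟩ := both_integral hD hij hik hjk t
  have hb0 : 0 < b := by
    by_contra h
    have : ∫ r in Ioo (0 : ℝ) 1, (1 - fext D i j k t r) ≤ 0 :=
      setIntegral_nonpos measurableSet_Ioo fun r hr => (hFb r hr).trans (not_lt.1 h)
    linarith
  have h1 := both_first hD hij hik hjk hb0 hFpos hFb
  have hsub : Ioo (1 - b) 1 ⊆ {s | fext D i k j t s ∈ Ioo (0 : ℝ) 1} := fun s hs => by
    have hb1 : b ≤ 1 := by
      have := measureReal_mono (μ := volume) (s₂ := Ioo (0 : ℝ) 1)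
        (s₁ := {s : ℝ | s ∈ Ioo (0 : ℝ) 1 ∧ fext D i k j t s < 1}) (fun u hu => hu.1) (by simp)
      simpa [hb, wNF] using this
    have hs' : s ∈ Ioo (0 : ℝ) 1 := ⟨by linarith [hs.1], hs.2⟩
    refine ⟨fext_pos_of_faceW hD hij hik hjk hw hs', lt_of_le_of_ne (fext_le_one hD i k j t s)
      fun h1 => ?_⟩
    have hs1 : {u : ℝ | u ∈ Ioo (0 : ℝ) 1 ∧ fext D i k j t u < 1} ⊆ Ioo s 1 := fun u hu => by
      refine ⟨lt_of_not_ge fun hus => ?_, hu.1.2⟩
      have := fext_mono hD hik hij hjk.symm ht hu.1 le_rfl hus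
      linarith [hu.2]
    have h3 := measureReal_mono (μ := volume) hs1 (by simp)
    rw [Real.volume_real_Ioo_of_le hs.2.le] at h3
    linarith [hs.1, show b ≤ 1 - s from h3]
  calc ENNReal.ofReal L
      ≤ ENNReal.ofReal ((1 - sliceA D i t) / b + b * Real.pi / 4) :=
        ENNReal.ofReal_le_ofReal (hL.trans (sqrt_pi_le (by linarith) hb0))
    _ = ENNReal.ofReal ((1 - sliceA D i t) / b) +
        ∫⁻ s in Ioo (1 - b) 1, ENNReal.ofReal √(1 - ((1 - s) / b) ^ 2) := by
        rw [arc_right hb0,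
          ENNReal.ofReal_add (div_nonneg (by linarith) hb0.le) (by positivity)]
    _ ≤ _ := by
        refine add_le_add h1 ?_
        refine le_trans (le_of_eq (setLIntegral_congr_fun measurableSet_Ioo fun s hs => ?_))
          (lintegral_mono_set hsub)
        rw [clamp01_eq (div_nonneg (by linarith [hs.2]) hb0.le)
          ((div_le_one hb0).2 (by linarith [hs.1]))]

end cases

/-- Proof of `SliceGen`. -/
theorem sliceGen : SliceGen := by
  intro D hD i j k hij hik hjk L κ hL hκ hκ01 hcases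
  refine ⟨hL, fun g hg => ?_⟩
  have hu := measurable_calU hD.1 i j k hL hκ
  refine slice_core hD hij hik hjk (v := fun x => √(1 - calU D i j k L κ x ^ 2)) hu
    (measurable_const.sub (hu.pow_const 2)).sqrt
    (fun x => (calU_mem D i j k L κ x).1) (fun x => Real.sqrt_nonneg _) (fun x => ?_)
    (fun t ht => ?_) hg
  · have h := calU_mem D i j k L κ x
    rw [Real.sq_sqrt (sub_nonneg.2 (pow_le_one₀ h.1 h.2))]
    linarith
  have hσ := slope_mem (L := L) hκ01 t
  obtain ⟨hn, hb, hm1, hm2⟩ := hcases t ht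
  rcases (faceW_nonneg D i j k t).eq_or_lt with hw | hw <;>
    rcases (faceW_nonneg D i k j t).eq_or_lt with hw' | hw'
  · simp only [calU, mk3_fst hij hik, mk3_snd, ← hw, ← hw', if_true]
    exact case_none hD hij hik hjk ht hw.symm hw'.symm (hn hw.symm hw'.symm)
  · have hcase := case_mixed hD hik hij hjk.symm ht hw' hw.symm hσ
      (slope_bound (hm2 hw.symm hw'))
    simp only [calU, mk3_fst hij hik, mk3_thd hjk, ← hw, hw'.ne', if_true, if_false]
    rw [add_comm]
    refine hcase.trans (le_of_eq (congrArg₂ (· + ·) ?_ rfl))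
    refine setLIntegral_congr_fun (measurableSet_fextIoo hD.1 i k j t) fun s hs => ?_
    have hp : slope L κ t * fext D i k j t s ≤ 1 := mul_le_one₀ hσ.2 hs.1.le hs.2.le
    have hp0 : 0 ≤ slope L κ t * fext D i k j t s := mul_nonneg hσ.1 hs.1.le
    rw [Real.sq_sqrt (sub_nonneg.2 (pow_le_one₀ hp0 hp)), sub_sub_cancel, Real.sqrt_sq hp0]
  · have hcase := case_mixed hD hij hik hjk ht hw hw'.symm hσ (slope_bound (hm1 hw hw'.symm))
    simp only [calU, mk3_fst hij hik, mk3_snd, hw.ne', ← hw', if_true, if_false]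
    refine hcase.trans (le_of_eq (congrArg₂ (· + ·) ?_ ?_))
    · refine setLIntegral_congr_fun (measurableSet_fextIoo hD.1 i j k t) fun r hr => ?_
      rw [clamp01_eq (mul_nonneg hσ.1 hr.1.le) (mul_le_one₀ hσ.2 hr.1.le hr.2.le)]
    · refine setLIntegral_congr_fun (measurableSet_fextIoo hD.1 i k j t) fun s hs => ?_
      have hs' := (ioo_of_fext_pos hD hik hij hjk.symm hs.1).2
      rw [clamp01_eq (mul_nonneg hσ.1 hs'.1.le) (mul_le_one₀ hσ.2 hs'.1.le hs'.2.le)]
  · simp only [calU, mk3_fst hij hik, mk3_snd, hw.ne', hw'.ne', if_false]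
    exact case_both hD hij hik hjk ht hw hw' (hb hw hw')

theorem ell3_le_one (a : ℝ) : ell3 a ≤ 1 := min_le_left _ _

theorem measurable_ell3 : Measurable ell3 :=
  measurable_const.min ((measurable_const.mul measurable_id).sqrt.min
    (measurable_const.mul (measurable_const.sub measurable_id)).sqrt)

/-- Proof of `Slice3`. -/
theorem slice3 : Slice3 := by
  intro D hD i
  obtain ⟨j, k, hij, hik, hjk⟩ : ∃ j k : Fin 3, i ≠ j ∧ i ≠ k ∧ j ≠ k :=
    ⟨i + 1, i + 2, by omega, by omega, by omega⟩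
  refine sliceGen D hD i j k hij hik hjk _ 0 (measurable_ell3.comp (measurable_sliceA hD.1 i))
    measurable_const (fun t => ⟨le_rfl, zero_le_one⟩) fun t _ =>
    ⟨fun _ _ => (min_le_right _ _).trans (min_le_left _ _),
      fun _ _ => (min_le_right _ _).trans (min_le_right _ _),
      fun _ _ => le_max_of_le_left (ell3_le_one _), fun _ _ => le_max_of_le_left (ell3_le_one _)⟩

/-- Proof of `SliceFree`. -/
theorem sliceFree : SliceFree := by
  intro D hD i h0
  obtain ⟨j, k, hij, hik, hjk⟩ : ∃ j k : Fin 3, i ≠ j ∧ i ≠ k ∧ j ≠ k :=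
    ⟨i + 1, i + 2, by omega, by omega, by omega⟩
  refine sliceGen D hD i j k hij hik hjk _ 0
    (measurable_const.mul (measurable_sliceA hD.1 i)).sqrt measurable_const
    (fun t => ⟨le_rfl, zero_le_one⟩) fun t ht => ?_
  have h1 := faceW_eq_zero_of_endA1 hD hij hik hjk (h0 j hij.symm) ht
  have h2 := faceW_eq_zero_of_endA1 hD hik hij hjk.symm (h0 k hik.symm) ht
  refine ⟨fun _ _ => le_rfl, fun h => ?_, fun h => ?_, fun _ h => ?_⟩
  · exact absurd h1 h.ne'
  · exact absurd h1 h.ne'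
  · exact absurd h2 h.ne'

/-- Proof of `SliceExtent`. -/
theorem sliceExtent : SliceExtent := by
  intro D hD i j k hij hik hjk h0 s hs
  refine ⟨measurable_const, fun g hg => ?_⟩
  refine slice_core hD hij hik hjk (u := fun _ => 1) (v := fun _ => 0) measurable_const
    measurable_const (fun _ => zero_le_one) (fun _ => le_rfl) (fun _ => by norm_num)
    (fun t ht => le_trans ?_ le_self_add) hg
  rw [ENNReal.ofReal_one, setLIntegral_one, ofReal_faceW]
  refine measure_mono fun r hr => ?_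
  obtain ⟨hr, hr1⟩ := hr
  have hm : mk3 i j k t s r ∈ D := by
    rw [← mk3_swap12 hij hik hjk]
    exact mem_of_lt_fext hD ht.1 (ht.2.trans_eq hr1.symm)
  exact ⟨hs.1.trans_le (le_fext_of_mem hD hm),
    fext_lt_one hD hij hik hjk ht (faceW_eq_zero_of_endA1 hD hij hik hjk h0 ht) r⟩

end Vale.Agent.P232
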