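import Vale.Agent.P232.Reduction
import Vale.Agent.P232.Line

/-! # P232: Steiner symmetrisation along one axis -/

namespace Vale.Agent.P232

open MeasureTheory Set Filter Topology
open scoped ENNReal NNReal
open Real (cos)

/-- Membership decreases with the distance of `x i` to the integers. -/
def SymDecr (i : Fin 3) (E : Set V3) : Prop :=
  ∀ (x : V3) (s t : ℝ), tdist s ≤ tdist t → Function.update x i t ∈ E → Function.update x i s ∈ E

theorem tdist_nonneg (t : ℝ) : 0 ≤ tdist t := abs_nonneg _

theorem tdist_le_half (t : ℝ) : tdist t ≤ 1 / 2 := abs_sub_round t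

theorem measurable_tdist : Measurable tdist := by
  have : (fun t : ℝ => tdist t) = fun t => fold (fun _ => t) 0 / 2 := by
    funext t; simp [fold, tdist]
  rw [show tdist = fun t => tdist t from rfl, this]
  exact ((measurable_pi_apply 0).comp
    (measurable_fold.comp (measurable_pi_lambda _ fun _ => measurable_id))).div_const 2

theorem cos_tdist (t : ℝ) : cos (2 * Real.pi * tdist t) = cos (2 * Real.pi * t) := by
  have h : cos (2 * Real.pi * (t - round t)) = cos (2 * Real.pi * t) := by
    rw [mul_sub, show 2 * Real.pi * (round t : ℝ) = (round t : ℝ) * (2 * Real.pi) by ring,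
      Real.cos_sub_int_mul_two_pi]
  rcases abs_choice (t - round t) with e | e <;> rw [tdist, e]
  · exact h
  · rw [mul_neg, Real.cos_neg, h]

theorem cos_lt_of_tdist_lt {s t : ℝ} (h : tdist s < tdist t) :
    cos (2 * Real.pi * t) < cos (2 * Real.pi * s) := by
  rw [← cos_tdist t, ← cos_tdist s]
  exact cos_lt_cos_of_half (tdist_nonneg s) h (tdist_le_half t)

/-! ### Lines -/

section
variable {i : Fin 3}

theorem ZPeriodic.line {α : Type} {f : V3 → α} (hf : ZPeriodic f) (x : V3) :
    Function.Periodic (fun t => f (Function.update x i t)) 1 := fun t => by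
  have e : Function.update x i (t + 1)
      = Function.update x i t + fun j => ((Pi.single i 1 : Fin 3 → ℤ) j : ℝ) := by
    funext j
    by_cases hj : j = i
    · subst hj; simp
    · simp [hj]
  simp only [e]
  exact hf _ _

theorem measurable_line {f : V3 → ℝ} (hf : Measurable f) (x : V3) :
    Measurable fun t => f (Function.update x i t) :=
  hf.comp (continuous_const.update i continuous_id).measurable

theorem line_integral_refl {h : ℝ → ℝ} (hp : Function.Periodic h 1) (c : ℝ) :
    ∫ t in (0 : ℝ)..1, h (2 * c - t) = ∫ t in (0 : ℝ)..1, h t := by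
  rw [intervalIntegral.integral_comp_sub_left h, sub_zero]
  have := hp.intervalIntegral_add_eq (2 * c - 1) 0
  simpa using this

theorem line_integral_pol {L : ℝ≥0} {c : ℝ} {f : V3 → ℝ} {ψ : ℝ → ℝ} (hψ : Continuous ψ)
    (hc : Adm c) (hf : ZPeriodic f) (hl : LipschitzWith L f) (x : V3) :
    ∫ t in (0 : ℝ)..1, ψ (pol i c f (Function.update x i t))
      = ∫ t in (0 : ℝ)..1, ψ (f (Function.update x i t)) := by
  have hg := lipschitz_pol (i := i) hc hf hl
  have hu : Continuous fun t : ℝ => Function.update x i t := continuous_const.update i continuous_id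
  have hrefl : ∀ t, refl i c (Function.update x i t) = Function.update x i (2 * c - t) := fun t =>
    by simp [refl]
  have ii : ∀ {g : V3 → ℝ}, Continuous g →
      IntervalIntegrable (fun t => ψ (g (Function.update x i t))) volume 0 1 ∧
      IntervalIntegrable (fun t => ψ (g (refl i c (Function.update x i t)))) volume 0 1 := fun h =>
    ⟨((hψ.comp (h.comp hu))).intervalIntegrable _ _,
      ((hψ.comp (h.comp ((continuous_refl i c).comp hu)))).intervalIntegrable _ _⟩
  have e3 : ∫ t in (0 : ℝ)..1, (ψ (pol i c f (Function.update x i t))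
        + ψ (pol i c f (refl i c (Function.update x i t))))
      = ∫ t in (0 : ℝ)..1, (ψ (f (Function.update x i t))
        + ψ (f (refl i c (Function.update x i t)))) := by
    refine intervalIntegral.integral_congr fun t _ => ?_
    rcases pol_pair (i := i) hc hf (Function.update x i t) with ⟨a, b⟩ | ⟨a, b⟩
    · simp only [a, b]
    · simp only [a, b, add_comm]
  have key : ∀ {g : V3 → ℝ}, ZPeriodic g →
      ∫ t in (0 : ℝ)..1, ψ (g (refl i c (Function.update x i t)))
        = ∫ t in (0 : ℝ)..1, ψ (g (Function.update x i t)) := fun {g} hp => by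
    simp only [hrefl]
    exact line_integral_refl (h := fun t => ψ (g (Function.update x i t)))
      (fun t => congrArg ψ (hp.line x t)) c
  rw [intervalIntegral.integral_add (ii hg.continuous).1 (ii hg.continuous).2,
    intervalIntegral.integral_add (ii hl.continuous).1 (ii hl.continuous).2,
    key (pol_periodic hf), key hf] at e3
  linarith

theorem line_integral_tendsto {g : ℕ → V3 → ℝ} {G : V3 → ℝ} (hm : ∀ n, Measurable (g n))
    (hb : ∀ n x, g n x ∈ Icc (0 : ℝ) 1) {ψ : ℝ → ℝ} (hψ : Continuous ψ) (x : V3)
    (hlim : ∀ᵐ t ∂volume.restrict (Ioc (0 : ℝ) 1),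
      Tendsto (fun n => g n (Function.update x i t)) atTop (𝓝 (G (Function.update x i t)))) :
    Tendsto (fun n => ∫ t in (0 : ℝ)..1, ψ (g n (Function.update x i t))) atTop
      (𝓝 (∫ t in (0 : ℝ)..1, ψ (G (Function.update x i t)))) := by
  obtain ⟨C, hC⟩ :=
    (isCompact_Icc (a := (0 : ℝ)) (b := 1)).exists_bound_of_continuousOn hψ.continuousOn
  simp only [intervalIntegral.integral_of_le (zero_le_one' ℝ)]
  exact tendsto_integral_of_dominated_convergence (fun _ => C)
    (fun n => (hψ.measurable.comp (measurable_line (hm n) x)).aestronglyMeasurable)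
    (integrable_const _) (fun n => Eventually.of_forall fun t => hC _ (hb n _))
    (hlim.mono fun t ht => (hψ.tendsto _).comp ht)

theorem near_int {d : ℝ} (hd : d ∈ Icc (0 : ℝ) (1 / 2)) {p : ℝ → Prop} [DecidablePred p]
    (h1 : ∀ t, tdist t < d → p t) (h2 : ∀ t, d < tdist t → ¬ p t)
    (hp : Function.Periodic p 1) :
    ∫ t in (0 : ℝ)..1, (if p t then (1 : ℝ) else 0) = 2 * d := by
  have hper : Function.Periodic (fun t => if p t then (1 : ℝ) else 0) 1 := fun t => by
    simp only [hp t]
  have := hper.intervalIntegral_add_eq 0 (-(1 / 2))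
  rw [zero_add] at this
  rw [this]
  have hnd : ∀ t ∈ Ioo (-(1 / 2) : ℝ) (1 / 2), tdist t = |t| := fun t ht => by
    have : round t = 0 := by
      rw [round_eq, Int.floor_eq_zero_iff]
      constructor <;> linarith [ht.1, ht.2]
    simp [tdist, this]
  have e : ∫ t in (-(1 / 2) : ℝ)..(-(1 / 2) + 1), (if p t then (1 : ℝ) else 0)
      = ∫ t in (-(1 / 2) : ℝ)..(1 / 2), (Ioo (-d) d).indicator (fun _ => (1 : ℝ)) t := by
    rw [show (-(1 / 2) : ℝ) + 1 = 1 / 2 by norm_num]
    refine intervalIntegral.integral_congr_ae ?_
    filter_upwards [Measure.ae_ne volume (1 / 2 : ℝ), Measure.ae_ne volume d,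
      Measure.ae_ne volume (-d)] with t a1 a2 a3 ht
    rw [uIoc_of_le (by norm_num)] at ht
    have htd := hnd t ⟨ht.1, lt_of_le_of_ne ht.2 a1⟩
    by_cases h : |t| < d
    · rw [if_pos (h1 t (htd ▸ h)), indicator_of_mem (show t ∈ Ioo (-d) d from abs_lt.1 h)]
    · have hne : |t| ≠ d := fun e => by
        rcases (abs_eq hd.1).1 e with e' | e'
        · exact a2 e'
        · exact a3 e'
      rw [if_neg (h2 t (htd ▸ lt_of_le_of_ne (not_lt.1 h) (Ne.symm hne))),
        indicator_of_notMem (show t ∉ Ioo (-d) d from fun hm => h (abs_lt.2 hm))]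
  rw [e, intervalIntegral.integral_of_le (by norm_num), setIntegral_indicator measurableSet_Ioo,
    setIntegral_const, smul_eq_mul, mul_one]
  have hsub : Ioc (-(1 / 2) : ℝ) (1 / 2) ∩ Ioo (-d) d = Ioo (-d) d :=
    inter_eq_right.2 fun t ht => ⟨by linarith [ht.1, hd.2], by linarith [ht.2, hd.2]⟩
  rw [hsub, Real.volume_real_Ioo_of_le (by linarith [hd.1])]
  ring

/-- A symmetric decreasing line is close to the indicator of a centred interval. -/
theorem line_bounds {g : V3 → ℝ} (hc : Continuous g) (hb : ∀ x, g x ∈ Icc (0 : ℝ) 1)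
    (hmono : ∀ (x : V3) (s t : ℝ), cos (2 * Real.pi * t) < cos (2 * Real.pi * s) →
      g (Function.update x i t) ≤ g (Function.update x i s)) (x : V3) :
    (1 - g x) * ((∫ t in (0 : ℝ)..1, g (Function.update x i t)) - 2 * tdist (x i))
        ≤ ∫ t in (0 : ℝ)..1, g (Function.update x i t) * (1 - g (Function.update x i t)) ∧
    g x * (2 * tdist (x i) - ∫ t in (0 : ℝ)..1, g (Function.update x i t))
        ≤ ∫ t in (0 : ℝ)..1, g (Function.update x i t) * (1 - g (Function.update x i t)) := by
  set d := tdist (x i) with hd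
  set G : ℝ → ℝ := fun t => g (Function.update x i t) with hG
  have hGc : Continuous G := hc.comp (continuous_const.update i continuous_id)
  have hGx : G (x i) = g x := by simp [hG]
  have hG01 : ∀ t, G t ∈ Icc (0 : ℝ) 1 := fun t => hb _
  have hQi : IntervalIntegrable (fun t => G t * (1 - G t)) volume 0 1 :=
    (hGc.mul (continuous_const.sub hGc)).intervalIntegrable _ _
  have hper : Function.Periodic tdist 1 := fun t => by
    simpa using tdist_add_int t 1
  have hii : ∀ (p : ℝ → Prop) [DecidablePred p], MeasurableSet {t | p t} →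
      IntervalIntegrable (fun t => if p t then (1 : ℝ) else 0) volume 0 1 := fun p _ hp =>
    (intervalIntegrable_const (c := (1 : ℝ))).mono_fun
      (Measurable.ite hp measurable_const measurable_const).aestronglyMeasurable
      (Eventually.of_forall fun t => by dsimp only; split_ifs <;> simp)
  constructor
  · have e := near_int (d := d) ⟨tdist_nonneg _, tdist_le_half _⟩
      (p := fun t => tdist t ≤ d) (fun t h => h.le) (fun t h => not_le.2 h)
      (fun t => by simp only [hper t])
    have hi := hii (fun t => tdist t ≤ d) (measurableSet_le measurable_tdist measurable_const)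
    rw [← e, ← intervalIntegral.integral_sub (hGc.intervalIntegrable _ _) hi,
      ← intervalIntegral.integral_const_mul]
    refine intervalIntegral.integral_mono_on zero_le_one
      (((hGc.intervalIntegrable _ _).sub hi).const_mul _) hQi fun t _ => ?_
    obtain ⟨g0, g1⟩ := hG01 t
    rw [← hGx]
    obtain ⟨s0, s1⟩ := hG01 (x i)
    by_cases h : tdist t ≤ d
    · rw [if_pos h]
      exact (mul_nonpos_of_nonneg_of_nonpos (by linarith) (by linarith)).trans
        (mul_nonneg g0 (by linarith))
    · rw [if_neg h, sub_zero, mul_comm]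
      exact mul_le_mul_of_nonneg_left
        (by linarith [hmono x (x i) t (cos_lt_of_tdist_lt (not_le.1 h))]) g0
  · have e := near_int (d := d) ⟨tdist_nonneg _, tdist_le_half _⟩
      (p := fun t => tdist t < d) (fun t h => h) (fun t h => not_lt.2 h.le)
      (fun t => by simp only [hper t])
    have hi := hii (fun t => tdist t < d) (measurableSet_lt measurable_tdist measurable_const)
    rw [← e, ← intervalIntegral.integral_sub hi (hGc.intervalIntegrable _ _),
      ← intervalIntegral.integral_const_mul]
    refine intervalIntegral.integral_mono_on zero_le_one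
      ((hi.sub (hGc.intervalIntegrable _ _)).const_mul _) hQi fun t _ => ?_
    obtain ⟨g0, g1⟩ := hG01 t
    rw [← hGx]
    obtain ⟨s0, s1⟩ := hG01 (x i)
    by_cases h : tdist t < d
    · rw [if_pos h]
      exact mul_le_mul_of_nonneg_right (hmono x t (x i) (cos_lt_of_tdist_lt h)) (by linarith)
    · rw [if_neg h]
      exact (mul_nonpos_of_nonneg_of_nonpos s0 (by linarith)).trans
        (mul_nonneg g0 (by linarith))

/-! ### The symmetral -/

theorem lineLen_update (E : Set V3) (x : V3) (s : ℝ) :
    lineLen E i (Function.update x i s) = lineLen E i x := by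
  simp [lineLen]

theorem lineLen_eq {E : Set V3} (hE : MeasurableSet E) (x : V3) :
    lineLen E i x = ∫ t in (0 : ℝ)..1, ind E (Function.update x i t) := by
  have hL : MeasurableSet {t : ℝ | Function.update x i t ∈ E} :=
    (continuous_const.update i continuous_id).measurable hE
  rw [intervalIntegral.integral_of_le zero_le_one, ← integral_Icc_eq_integral_Ioc,
    integral_Icc_eq_integral_Ico]
  have e : (fun t => ind E (Function.update x i t))
      = {t : ℝ | Function.update x i t ∈ E}.indicator fun _ => 1 := by
    funext t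
    by_cases h : Function.update x i t ∈ E <;> simp [ind, h]
  rw [e, setIntegral_indicator hL, setIntegral_const, smul_eq_mul, mul_one]
  rfl

theorem lineLen_mem_Icc (E : Set V3) (x : V3) : lineLen E i x ∈ Icc (0 : ℝ) 1 := by
  refine ⟨measureReal_nonneg, (measureReal_mono (s₂ := Ico (0 : ℝ) 1) (fun t ht => ht.1)
    measure_Ico_lt_top.ne).trans ?_⟩
  simp

theorem measurable_lineLen {E : Set V3} (hE : MeasurableSet E) : Measurable (lineLen E i) := by
  have h : StronglyMeasurable (Function.uncurry fun (x : V3) (t : ℝ) =>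
      ind E (Function.update x i t)) :=
    ((measurable_ind hE).comp (continuous_fst.update i continuous_snd).measurable).stronglyMeasurable
  convert (h.integral_prod_right (ν := volume.restrict (Ioc (0 : ℝ) 1))).measurable using 1
  funext x
  simp [lineLen_eq hE, intervalIntegral.integral_of_le (zero_le_one' ℝ)]

theorem lineLen_periodic {E : Set V3} (hE : IsTorusSet E) : ZPeriodic (lineLen E i) := fun x k => by
  rw [lineLen_eq hE.1, lineLen_eq hE.1]
  refine intervalIntegral.integral_congr fun t _ => ?_
  have e : Function.update (x + fun j => (k j : ℝ)) i t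
      = Function.update x i t + fun j => ((Function.update k i 0 j : ℤ) : ℝ) := by
    funext j
    by_cases hj : j = i
    · subst hj; simp
    · simp [hj]
  simp only [e]
  exact hE.periodic _ _

theorem isTorusSet_steiner {E : Set V3} (hE : IsTorusSet E) : IsTorusSet (steiner i E) := by
  refine ⟨measurableSet_lt (measurable_tdist.comp (measurable_pi_apply i))
    ((measurable_lineLen hE.1).div_const 2), fun x k => ?_⟩
  simp only [steiner, mem_ofPred_eq, lineLen_periodic hE x k, Pi.add_apply, tdist_add_int]

/-- Almost every line sees almost every point. -/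
theorem ae_line {p : V3 → Prop} (h : ∀ᵐ z, p z) :
    ∀ᵐ x : V3, ∀ᵐ t : ℝ, p (Function.update x i t) := by
  have hmp := (volume_preserving_piFinSuccAbove (fun _ : Fin 3 => ℝ) i).symm
  have h1 : ∀ᵐ q : ℝ × (Fin 2 → ℝ), p (i.insertNth q.1 q.2) := hmp.quasiMeasurePreserving.ae h
  have h2 : ∀ᵐ q : Fin 2 → ℝ, ∀ᵐ t : ℝ, p (i.insertNth t q) :=
    Measure.ae_ae_of_ae_prod ((Measure.measurePreserving_swap).quasiMeasurePreserving.ae h1)
  have hsnd : Measure.QuasiMeasurePreserving (fun x : V3 => i.removeNth x) volume volume :=
    Measure.quasiMeasurePreserving_snd.comp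
      (volume_preserving_piFinSuccAbove (fun _ : Fin 3 => ℝ) i).quasiMeasurePreserving
  filter_upwards [hsnd.ae h2] with x hx
  filter_upwards [hx] with t ht
  rwa [Fin.insertNth_removeNth] at ht

theorem ae_ne_boundary {E : Set V3} (hE : IsTorusSet E) :
    ∀ᵐ x : V3, tdist (x i) ≠ lineLen E i x / 2 := by
  have hS : MeasurableSet {x : V3 | tdist (x i) = lineLen E i x / 2} :=
    measurableSet_eq_fun (measurable_tdist.comp (measurable_pi_apply i))
      ((measurable_lineLen hE.1).div_const 2)
  have hline : ∀ q : Fin 2 → ℝ, ∀ᵐ t : ℝ,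
      tdist t ≠ lineLen E i (i.insertNth 0 q) / 2 := fun q => by
    set m := lineLen E i (i.insertNth 0 q) / 2
    have hnull : volume (⋃ k : ℤ, ({(k : ℝ) + m, (k : ℝ) - m} : Set ℝ)) = 0 :=
      ((countable_iUnion fun k => (Set.toFinite _).countable)).measure_zero _
    filter_upwards [measure_eq_zero_iff_ae_notMem.1 hnull] with t ht heq
    refine ht (mem_iUnion.2 ⟨round t, ?_⟩)
    have hm : 0 ≤ m := heq ▸ tdist_nonneg t
    rcases (abs_eq hm).1 heq with e | e
    · exact Or.inl (by linarith)
    · exact Or.inr (show t = (round t : ℝ) - m by linarith)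
  have hmp := (volume_preserving_piFinSuccAbove (fun _ : Fin 3 => ℝ) i).symm
  have h0 : ∀ᵐ q : ℝ × (Fin 2 → ℝ),
      (MeasurableEquiv.piFinSuccAbove (fun _ : Fin 3 => ℝ) i).symm q ∈
        {x : V3 | tdist (x i) = lineLen E i x / 2}ᶜ := by
    refine (Measure.measurePreserving_swap).quasiMeasurePreserving.ae
      (p := fun q : (Fin 2 → ℝ) × ℝ => (MeasurableEquiv.piFinSuccAbove (fun _ : Fin 3 => ℝ) i).symm
        q.swap ∈ {x : V3 | tdist (x i) = lineLen E i x / 2}ᶜ) ?_ |>.mono fun q hq => by simpa using hq
    refine (Measure.ae_prod_iff_ae_ae ?_).2 (Eventually.of_forall fun q => ?_)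
    · exact ((MeasurableEquiv.piFinSuccAbove (fun _ : Fin 3 => ℝ) i).symm.measurable.comp
        measurable_swap) hS.compl
    · filter_upwards [hline q] with t ht
      intro h
      apply ht
      have h' : tdist ((i.insertNth t q : V3) i) = lineLen E i (i.insertNth t q) / 2 := h
      rw [Fin.insertNth_apply_same] at h'
      rw [h', show (i.insertNth t q : V3) = Function.update (i.insertNth 0 q) i t by
        simp [Fin.update_insertNth], lineLen_update]
  have := (volume_preserving_piFinSuccAbove (fun _ : Fin 3 => ℝ) i).quasiMeasurePreserving.ae h0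
  filter_upwards [this] with x hx
  rw [MeasurableEquiv.symm_apply_apply] at hx
  exact hx

theorem steiner_spec {E : Set V3} (hE : IsTorusSet E) (hfin : perim E ≠ ⊤) (i : Fin 3) :
    IsTorusSet (steiner i E) ∧ perim (steiner i E) ≤ perim E ∧
      torusVol (steiner i E) = torusVol E := by
  set P : ℝ := (perim E).toReal with hP
  have hTV : TVle (ind E) P := tvle_of_perim hE.1 hfin
  have hgood : ∀ n, ∃ L, Good L P (∫ x in cell, moll E n x)
      (∫ x in cell, moll E n x * (1 - moll E n x)) (moll E n) := fun n => by
    obtain ⟨L, hL⟩ := (moll_periodic hE n).exists_lipschitz ((contDiff_moll hE.1 n).of_le one_le_two)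
    exact ⟨L, moll_periodic hE n, hL, moll_mem_Icc n, rfl, rfl,
      setIntegral_gnorm_le (contDiff_moll hE.1 n) (moll_periodic hE n) (tvle_moll hE hTV n)⟩
  choose L hL using hgood
  let Q : ℕ → (V3 → ℝ) → Prop := fun n g => ∀ x,
    (∫ t in (0 : ℝ)..1, g (Function.update x i t)
        = ∫ t in (0 : ℝ)..1, moll E n (Function.update x i t)) ∧
      ∫ t in (0 : ℝ)..1, g (Function.update x i t) * (1 - g (Function.update x i t))
        = ∫ t in (0 : ℝ)..1, moll E n (Function.update x i t) *
            (1 - moll E n (Function.update x i t))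
  have hpolar := fun n => exists_polarised_axes (hL n) (fun j => j = i) (i0 := i) rfl (Q n)
    (fun x => ⟨rfl, rfl⟩) fun j c g hj hc hg hQ x => by
      subst hj
      exact ⟨(line_integral_pol continuous_id hc hg.per hg.lip x).trans (hQ x).1,
        (line_integral_pol (ψ := fun t => t * (1 - t)) (by fun_prop) hc hg.per hg.lip x).trans
          (hQ x).2⟩
  choose g gs hgp hgc hgb hg1 hg2 hgT hgs hgl hgm using hpolar
  have hline : ∀ n x,
      (∫ t in (0 : ℝ)..1, g n (Function.update x i t)
        = ∫ t in (0 : ℝ)..1, moll E n (Function.update x i t)) ∧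
      ∫ t in (0 : ℝ)..1, g n (Function.update x i t) * (1 - g n (Function.update x i t))
        = ∫ t in (0 : ℝ)..1, moll E n (Function.update x i t) *
            (1 - moll E n (Function.update x i t)) := fun n x => by
    have hm : ∀ m, Measurable (gs n m) := fun m => (hgs n m).1.lip.continuous.measurable
    have hb : ∀ m y, gs n m y ∈ Icc (0 : ℝ) 1 := fun m y => (hgs n m).1.mem y
    refine ⟨tendsto_nhds_unique (line_integral_tendsto hm hb continuous_id x
        (Eventually.of_forall fun t => hgl n _)) ?_,
      tendsto_nhds_unique (line_integral_tendsto hm hb (ψ := fun t => t * (1 - t)) (by fun_prop) x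
        (Eventually.of_forall fun t => hgl n _)) ?_⟩
    · simp only [id, ((hgs n _).2 x).1]; exact tendsto_const_nhds
    · simp only [((hgs n _).2 x).2]; exact tendsto_const_nhds
  have hmm : ∀ n, Measurable (moll E n) := fun n => (contDiff_moll hE.1 n).continuous.measurable
  have hmb : ∀ n x, moll E n x ∈ Icc (0 : ℝ) 1 := fun n x => moll_mem_Icc n x
  have hconv : ∀ᵐ x : V3, Tendsto (fun n => g n x) atTop (𝓝 (ind (steiner i E) x)) := by
    filter_upwards [ae_line (i := i) (ae_tendsto_moll hE.1), ae_ne_boundary (i := i) hE]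
      with x hx hne
    have hM : Tendsto (fun n => ∫ t in (0 : ℝ)..1, g n (Function.update x i t)) atTop
        (𝓝 (lineLen E i x)) := by
      rw [lineLen_eq hE.1]
      simp only [(hline _ x).1]
      exact line_integral_tendsto hmm hmb continuous_id x (ae_restrict_of_ae hx)
    have hQ0 : Tendsto (fun n => ∫ t in (0 : ℝ)..1,
        g n (Function.update x i t) * (1 - g n (Function.update x i t))) atTop (𝓝 0) := by
      simp only [(hline _ x).2]
      refine (line_integral_tendsto hmm hmb (ψ := fun t => t * (1 - t)) (by fun_prop) x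
        (ae_restrict_of_ae hx)).trans (le_of_eq (congrArg 𝓝 ?_))
      refine intervalIntegral.integral_zero_ae (Eventually.of_forall fun t _ => ?_)
      by_cases h : Function.update x i t ∈ E <;> simp [ind, h]
    rcases lt_or_gt_of_ne hne with h | h
    · rw [show ind (steiner i E) x = 1 from indicator_of_mem (show x ∈ steiner i E from h) _]
      set δ := lineLen E i x - 2 * tdist (x i) with hδ
      have hδ0 : 0 < δ := by linarith
      refine tendsto_of_tendsto_of_tendsto_of_le_of_le'
        (g := fun n => 1 - (∫ t in (0 : ℝ)..1,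
          g n (Function.update x i t) * (1 - g n (Function.update x i t))) / (δ / 2))
        (h := fun _ => 1) ?_ tendsto_const_nhds ?_ (Eventually.of_forall fun n => (hgb n x).2)
      · simpa using (hQ0.div_const (δ / 2)).const_sub 1
      · filter_upwards [hM.eventually_const_lt (show lineLen E i x - δ / 2 < lineLen E i x by linarith)]
          with n hn
        have hb := (line_bounds (hgc n) (hgb n) (hgm n i rfl) x).1
        rw [sub_le_comm, le_div_iff₀ (by positivity)]
        refine le_trans ?_ hb
        exact mul_le_mul_of_nonneg_left (by linarith) (by linarith [(hgb n x).2])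
    · rw [show ind (steiner i E) x = 0 from
        indicator_of_notMem (show x ∉ steiner i E from not_lt.2 h.le) _]
      set δ := 2 * tdist (x i) - lineLen E i x with hδ
      have hδ0 : 0 < δ := by linarith
      refine tendsto_of_tendsto_of_tendsto_of_le_of_le'
        (g := fun _ => 0)
        (h := fun n => (∫ t in (0 : ℝ)..1,
          g n (Function.update x i t) * (1 - g n (Function.update x i t))) / (δ / 2))
        tendsto_const_nhds ?_ (Eventually.of_forall fun n => (hgb n x).1) ?_
      · simpa using hQ0.div_const (δ / 2)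
      · filter_upwards [hM.eventually_lt_const (show lineLen E i x < lineLen E i x + δ / 2 by linarith)]
          with n hn
        have hb := (line_bounds (hgc n) (hgb n) (hgm n i rfl) x).2
        rw [le_div_iff₀ (by positivity)]
        refine le_trans ?_ hb
        exact mul_le_mul_of_nonneg_left (by linarith) (hgb n x).1
  have hT := isTorusSet_steiner (i := i) hE
  have hae := ae_restrict_of_ae (s := cell) hconv
  have hgmeas : ∀ n, Measurable (g n) := fun n => (hgc n).measurable
  refine ⟨hT, (TVle.perim_le hT.1 ?_).trans ENNReal.ofReal_toReal_le, ?_⟩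
  · exact TVle.of_tendsto hgmeas hgb hae tendsto_const_nhds hgT
  · rw [torusVol_eq hT.1, torusVol_eq hE.1]
    refine tendsto_nhds_unique (tendsto_cell_comp hgmeas hgb continuous_id hae) ?_
    simp only [id, hg1]
    exact tendsto_cell_comp hmm hmb continuous_id (ae_restrict_of_ae (ae_tendsto_moll hE.1))

end

theorem steinerLe : SteinerLe := fun _ i hE hfin => steiner_spec hE hfin i

/-! ### The triple symmetral -/

theorem symDecr_steiner (E : Set V3) (i : Fin 3) : SymDecr i (steiner i E) := by
  intro x s t hst h
  simp only [steiner, mem_ofPred_eq, Function.update_self, lineLen_update] at h ⊢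
  exact hst.trans_lt h

theorem SymDecr.steiner {E : Set V3} {i j : Fin 3} (h : SymDecr i E) (hij : i ≠ j) :
    SymDecr i (steiner j E) := by
  intro x s t hst hx
  simp only [Vale.Agent.P232.steiner, mem_ofPred_eq, Function.update_of_ne hij.symm] at hx ⊢
  refine hx.trans_le (div_le_div_of_nonneg_right ?_ zero_le_two)
  refine measureReal_mono (fun u hu => ⟨hu.1, ?_⟩)
    (measure_lt_top_of_subset (fun u hu => hu.1) measure_Ico_lt_top.ne).ne
  simp only [mem_ofPred_eq] at hu ⊢
  rw [Function.update_comm hij] at hu ⊢
  exact h _ s t hst hu.2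

theorem tdist_eq_self {t : ℝ} (h0 : 0 ≤ t) (h1 : t < 1 / 2) : tdist t = t := by
  have : round t = 0 := by
    rw [round_eq, Int.floor_eq_zero_iff]
    constructor <;> linarith
  simp [tdist, this, abs_of_nonneg h0]

theorem SymDecr.congr {E : Set V3} {i : Fin 3} (h : SymDecr i E) {x : V3} {s : ℝ}
    (e : tdist s = tdist (x i)) : Function.update x i s ∈ E ↔ x ∈ E := by
  constructor
  · intro hs
    simpa using h x (x i) s e.ge hs
  · intro hx
    exact h x s (x i) e.le (by simpa using hx)

theorem symDecr_le {E : Set V3} (hS : ∀ i, SymDecr i E) {x y : V3}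
    (h : ∀ i, tdist (y i) ≤ tdist (x i)) (hx : x ∈ E) : y ∈ E := by
  have h0 := hS 0 x (y 0) (x 0) (h 0) (by simpa using hx)
  have h1 := hS 1 _ (y 1) (x 1) (h 1) (show Function.update (Function.update x 0 (y 0)) 1 (x 1) ∈ E
    by rw [Function.update_eq_self_iff.2 (by simp)]; exact h0)
  have h2 := hS 2 _ (y 2) (x 2) (h 2) (show Function.update
    (Function.update (Function.update x 0 (y 0)) 1 (y 1)) 2 (x 2) ∈ E by
      rw [Function.update_eq_self_iff.2 (by simp)]; exact h1)
  convert h2 using 1
  funext i
  fin_cases i <;> simp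

theorem eq_lift_of_symDecr {E : Set V3} (hE : MeasurableSet E) (hS : ∀ i, SymDecr i E) :
    ∃ D, IsDown D ∧ E =ᵐ[volume] lift D := by
  have hcube : MeasurableSet cube := MeasurableSet.univ_pi fun _ => measurableSet_Ioo
  refine ⟨{y | y ∈ cube ∧ (fun i => y i / 2) ∈ E}, ⟨hcube.inter
    ((measurable_pi_lambda _ fun i => (measurable_pi_apply i).div_const 2) hE), fun y hy => hy.1,
    fun x hx y hy hyx => ⟨hy, symDecr_le hS (fun i => ?_) hx.2⟩⟩, ?_⟩
  · have hy' := hy i (mem_univ _)
    have hx' := hx.1 i (mem_univ _)
    rw [tdist_eq_self (by linarith [hy'.1]) (by linarith [hy'.2]),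
      tdist_eq_self (by linarith [hx'.1]) (by linarith [hx'.2])]
    linarith [hyx i]
  have hne : ∀ i : Fin 3, ∀ᵐ x : V3, tdist (x i) ∈ Ioo (0 : ℝ) (1 / 2) := fun i => by
    have hnull : volume (⋃ k : ℤ, ({(k : ℝ), (k : ℝ) + 1 / 2, (k : ℝ) - 1 / 2} : Set ℝ)) = 0 :=
      ((countable_iUnion fun k => (Set.toFinite _).countable)).measure_zero _
    have h1 : ∀ᵐ t : ℝ, tdist t ∈ Ioo (0 : ℝ) (1 / 2) := by
      filter_upwards [measure_eq_zero_iff_ae_notMem.1 hnull] with t ht
      simp only [mem_iUnion, mem_insert_iff, mem_singleton_iff, not_exists, not_or] at ht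
      obtain ⟨a, b, c⟩ := ht (round t)
      refine ⟨abs_pos.2 (sub_ne_zero.2 a), lt_of_le_of_ne (tdist_le_half t) fun e => ?_⟩
      rcases (abs_eq (by norm_num : (0 : ℝ) ≤ 1 / 2)).1 e with e | e
      · exact b (by linarith)
      · exact c (by linarith)
    exact (Measure.quasiMeasurePreserving_eval (fun _ : Fin 3 => (volume : Measure ℝ)) i).ae h1
  refine eventuallyEq_set.2 ?_
  filter_upwards [ae_all_iff.2 hne] with x hx
  have e : (fun i => 2 * |x i - round (x i)| / 2) = fun i => tdist (x i) := by
    funext i; simp [tdist]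
  simp only [lift, mem_ofPred_eq, e]
  have ht : ∀ i, tdist (tdist (x i)) = tdist (x i) := fun i =>
    tdist_eq_self (hx i).1.le (hx i).2
  refine ⟨fun h => ⟨fun i _ => ?_, symDecr_le hS (fun i => (ht i).le) h⟩,
    fun h => symDecr_le hS (fun i => (ht i).ge) h.2⟩
  have := hx i
  simp only [tdist, mem_Ioo] at this ⊢
  constructor <;> linarith [this.1, this.2]

theorem steinerDown : SteinerDown := fun E hE => by
  have h1 := isTorusSet_steiner (i := 0) hE
  have h2 := isTorusSet_steiner (i := 1) h1
  refine eq_lift_of_symDecr (isTorusSet_steiner (i := 2) h2).1 fun i => ?_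
  fin_cases i
  · exact ((symDecr_steiner E 0).steiner (by decide)).steiner (by decide)
  · exact (symDecr_steiner _ 1).steiner (by decide)
  · exact symDecr_steiner _ 2

end Vale.Agent.P232
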