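import Vale.Agent.P232.Interface

/-! # P232: lines and integration on the fundamental cell -/

namespace Vale.Agent.P232

open MeasureTheory Set Filter Topology

namespace Torus

/-- Fundamental cell of the face. -/
def cell2 : Set (Fin 2 → ℝ) := univ.pi fun _ => Ico (0 : ℝ) 1

/-- The point with coordinate `i` equal to `t` and the others given by `q`. -/
abbrev ins (i : Fin 3) (t : ℝ) (q : Fin 2 → ℝ) : V3 := i.insertNth t q

theorem measurableSet_cell : MeasurableSet cell :=
  MeasurableSet.univ_pi fun _ => measurableSet_Ico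

theorem measurableSet_cell2 : MeasurableSet cell2 :=
  MeasurableSet.univ_pi fun _ => measurableSet_Ico

theorem volume_cell : volume cell = 1 := by
  simp [cell, volume_pi_pi, Real.volume_Ico]

theorem volume_cell2 : volume cell2 = 1 := by
  simp [cell2, volume_pi_pi, Real.volume_Ico]

theorem ins_mem_cell {i : Fin 3} {t : ℝ} {q : Fin 2 → ℝ} :
    ins i t q ∈ cell ↔ t ∈ Ico (0 : ℝ) 1 ∧ q ∈ cell2 := by
  simp [cell, cell2, Fin.forall_iff_succAbove i]

theorem continuous_ins (i : Fin 3) : Continuous fun p : ℝ × (Fin 2 → ℝ) => ins i p.1 p.2 :=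
  Continuous.finInsertNth (A := fun _ : Fin 3 => ℝ) i continuous_fst continuous_snd

theorem measurePreserving_ins (i : Fin 3) :
    MeasurePreserving (fun p : ℝ × (Fin 2 → ℝ) => ins i p.1 p.2) volume volume :=
  (volume_preserving_piFinSuccAbove (fun _ : Fin 3 => ℝ) i).symm

theorem measurableEmbedding_ins (i : Fin 3) :
    MeasurableEmbedding (fun p : ℝ × (Fin 2 → ℝ) => ins i p.1 p.2) :=
  (MeasurableEquiv.piFinSuccAbove (fun _ : Fin 3 => ℝ) i).symm.measurableEmbedding

theorem preimage_cell (i : Fin 3) :
    (fun p : ℝ × (Fin 2 → ℝ) => ins i p.1 p.2) ⁻¹' cell = Ico (0 : ℝ) 1 ×ˢ cell2 :=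
  Set.ext fun _ => ins_mem_cell

/-- Fubini on the cell. -/
theorem integral_cell_split (i : Fin 3) {f : V3 → ℝ} (hf : IntegrableOn f cell) :
    ∫ x in cell, f x = ∫ q in cell2, ∫ t in Ico (0 : ℝ) 1, f (ins i t q) := by
  have hmp := measurePreserving_ins i
  rw [← hmp.setIntegral_preimage_emb (measurableEmbedding_ins i) f cell, preimage_cell,
    Measure.volume_eq_prod, ← Measure.prod_restrict]
  refine integral_prod_symm _ ?_
  have h := (hmp.integrableOn_comp_preimage (measurableEmbedding_ins i) (s := cell) (f := f)).2 hf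
  rw [preimage_cell, Measure.volume_eq_prod, IntegrableOn, ← Measure.prod_restrict] at h
  exact h

theorem hasDerivAt_ins (i : Fin 3) (q : Fin 2 → ℝ) (t : ℝ) :
    HasDerivAt (fun s => ins i s q) (Pi.single i 1) t := by
  have e : (fun s => ins i s q) = fun s => Function.update (ins i 0 q) i s := by
    funext s; simp [ins, Fin.update_insertNth]
  rw [e]
  exact hasDerivAt_update (ins i 0 q) i t

/-- The fundamental theorem of calculus along a line. -/
theorem integral_line {F : V3 → ℝ} (hF : ContDiff ℝ 1 F) (i : Fin 3) (q : Fin 2 → ℝ) {a b : ℝ}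
    (hab : a ≤ b) :
    ∫ t in Ioo a b, fderiv ℝ F (ins i t q) (Pi.single i 1) = F (ins i b q) - F (ins i a q) := by
  rw [← integral_Ioc_eq_integral_Ioo, ← intervalIntegral.integral_of_le hab]
  refine intervalIntegral.integral_eq_sub_of_hasDerivAt (f := fun t => F (ins i t q))
    (fun t _ => ?_) ?_
  · exact ((hF.differentiable one_ne_zero) _).hasFDerivAt.comp_hasDerivAt t (hasDerivAt_ins i q t)
  · exact (((hF.continuous_fderiv one_ne_zero).clm_apply continuous_const).comp
      ((continuous_ins i).comp (continuous_id.prodMk continuous_const))).intervalIntegrable a b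

theorem ins_one_eq {α : Type} {f : V3 → α} (hf : ZPeriodic f) (i : Fin 3) (q : Fin 2 → ℝ) :
    f (ins i 1 q) = f (ins i 0 q) := by
  have h := hf (ins i 0 q) (Pi.single i 1)
  have e : (ins i 0 q + fun j => (((Pi.single i 1 : Fin 3 → ℤ) j : ℤ) : ℝ)) = ins i 1 q := by
    funext j
    rcases Fin.eq_self_or_eq_succAbove i j with rfl | ⟨k, rfl⟩ <;> simp [ins]
  rw [e] at h
  exact h

theorem integrableOn_cell {f : V3 → ℝ} (hf : Continuous f) : IntegrableOn f cell := by
  refine (hf.integrableOn_Icc (a := fun _ : Fin 3 => (0 : ℝ)) (b := fun _ => 1)).mono_set ?_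
  intro x hx
  exact ⟨fun j => (hx j (mem_univ j)).1, fun j => (hx j (mem_univ j)).2.le⟩

theorem continuous_partial {F : V3 → ℝ} (hF : ContDiff ℝ 1 F) (i : Fin 3) :
    Continuous fun x => fderiv ℝ F x (Pi.single i 1) :=
  (hF.continuous_fderiv one_ne_zero).clm_apply continuous_const

/-- A derivative of a function with equal values on opposite faces has mean zero. -/
theorem integral_cell_fderiv {F : V3 → ℝ} (hF : ContDiff ℝ 1 F) (i : Fin 3)
    (h : ∀ q, F (ins i 1 q) = F (ins i 0 q)) :
    ∫ x in cell, fderiv ℝ F x (Pi.single i 1) = 0 := by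
  rw [integral_cell_split i (integrableOn_cell (continuous_partial hF i))]
  simp only [integral_Ico_eq_integral_Ioo]
  simp [integral_line hF i _ zero_le_one, h]

theorem fderiv_component {X : V3 → V3} (hX : ContDiff ℝ 1 X) (x v : V3) (i : Fin 3) :
    fderiv ℝ X x v i = fderiv ℝ (fun y => X y i) x v := by
  rw [fderiv_apply ((hX.differentiable one_ne_zero) x)]
  rfl

theorem divg_eq {X : V3 → V3} (hX : ContDiff ℝ 1 X) (x : V3) :
    divg X x = ∑ i, fderiv ℝ (fun y => X y i) x (Pi.single i 1) :=
  Finset.sum_congr rfl fun i _ => fderiv_component hX x _ i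

theorem contDiff_component {X : V3 → V3} (hX : ContDiff ℝ 1 X) (i : Fin 3) :
    ContDiff ℝ 1 fun y => X y i :=
  contDiff_pi.1 hX i

theorem continuous_divg {X : V3 → V3} (hX : ContDiff ℝ 1 X) : Continuous (divg X) := by
  rw [funext (divg_eq hX)]
  exact continuous_finsetSum _ fun i _ => continuous_partial (contDiff_component hX i) i

theorem periodic_component {X : V3 → V3} (hX : ZPeriodic X) (i : Fin 3) :
    ZPeriodic fun y => X y i :=
  fun x k => congrFun (hX x k) i

/-- The divergence of a periodic field has mean zero. -/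
theorem integral_cell_divg {X : V3 → V3} (hX : ContDiff ℝ 1 X) (hp : ZPeriodic X) :
    ∫ x in cell, divg X x = 0 := by
  simp only [divg_eq hX]
  rw [integral_finsetSum _ fun i _ =>
    (integrableOn_cell (continuous_partial (contDiff_component hX i) i)).integrable]
  exact Finset.sum_eq_zero fun i _ =>
    integral_cell_fderiv (contDiff_component hX i) i (ins_one_eq (periodic_component hp i) i)

theorem IsField.neg {X : V3 → V3} (hX : IsField X) : IsField (fun x => -X x) :=
  ⟨hX.1.neg, fun x k => by simp only [hX.2.1 x k], fun x => by simpa using hX.2.2 x⟩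

theorem divg_neg (X : V3 → V3) (x : V3) : divg (fun y => -X y) x = -divg X x := by
  simp only [divg, fderiv_fun_neg, neg_apply, Pi.neg_apply,
    Finset.sum_neg_distrib]

end Torus

end Vale.Agent.P232
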