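import Vale.Agent.P232.Interface

/-! # P232: the analytic core of the tube lemma -/

namespace Vale.Agent.P232

open MeasureTheory Set Real intervalIntegral

/-- Integrand of the tube lemma in the scaled variable. -/
noncomputable def tg (r K u : ℝ) : ℝ := √(1 - ((u + 1 - r ^ 2) / (2 * min √u K)) ^ 2)

lemma tg_nonneg (r K u : ℝ) : 0 ≤ tg r K u := Real.sqrt_nonneg _

lemma continuousOn_tg {r K : ℝ} (hK : 0 < K) : ContinuousOn (tg r K) (Ioi 0) := by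
  unfold tg
  refine (continuousOn_const.sub ((ContinuousOn.div (by fun_prop) (by fun_prop) ?_).pow 2)).sqrt
  intro u hu
  have : 0 < min √u K := lt_min (Real.sqrt_pos.2 hu) hK
  positivity

lemma intervalIntegrable_tg {r K a b : ℝ} (hK : 0 < K) (ha : 0 < a) (hb : 0 < b) :
    IntervalIntegrable (tg r K) volume a b :=
  ((continuousOn_tg hK).mono fun _ hx => lt_of_lt_of_le (lt_min ha hb) hx.1).intervalIntegrable

lemma integral_sqrt_unit : (∫ x in (0 : ℝ)..1, √(1 - x ^ 2)) = π / 4 := by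
  have h := integral_sqrt_one_sub_sq
  have c : Continuous fun x : ℝ => √(1 - x ^ 2) := by fun_prop
  rw [← integral_add_adjacent_intervals (b := (0 : ℝ)) (c.intervalIntegrable _ _)
    (c.intervalIntegrable _ _)] at h
  have h' := integral_comp_neg (a := (0 : ℝ)) (b := 1) fun x : ℝ => √(1 - x ^ 2)
  simp only [neg_sq, neg_zero] at h'
  linarith

lemma integral_id_sqrt {μ : ℝ} (h0 : 0 ≤ μ) (h1 : μ ≤ 1) :
    (∫ x in (0 : ℝ)..μ, x * √(1 - x ^ 2)) = (1 - (1 - μ ^ 2) * √(1 - μ ^ 2)) / 3 := by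
  rw [integral_eq_sub_of_hasDerivAt_of_le h0 (f := fun x => -((1 - x ^ 2) * √(1 - x ^ 2)) / 3)]
  · simp only [ne_eq, OfNat.ofNat_ne_zero, not_false_eq_true, zero_pow, sub_zero, Real.sqrt_one,
      mul_one]
    ring
  · fun_prop
  · intro x hx
    have hp : 0 < 1 - x ^ 2 := by nlinarith [hx.1, hx.2]
    have hd := (hasDerivAt_pow 2 x).const_sub (1 : ℝ)
    have h := ((hd.mul (hd.sqrt hp.ne')).neg).div_const 3
    refine h.congr_deriv ?_
    have hs := Real.sq_sqrt hp.le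
    have hw : √(1 - x ^ 2) ≠ 0 := (Real.sqrt_pos.2 hp).ne'
    set w := √(1 - x ^ 2)
    push_cast
    rw [← hs]
    field_simp
    ring
  · exact Continuous.intervalIntegrable (by fun_prop) _ _

lemma integral_sqrt_ge {μ : ℝ} (h0 : 0 ≤ μ) (h1 : μ ≤ 1) :
    μ - μ ^ 3 / 6 - μ ^ 5 / 10 ≤ ∫ x in (0 : ℝ)..μ, √(1 - x ^ 2) := by
  have hp : ∀ x ∈ Icc 0 μ, 1 - x ^ 2 / 2 - x ^ 4 / 2 ≤ √(1 - x ^ 2) := by
    intro x hx
    have hxx : 0 ≤ 1 - x ^ 2 := by nlinarith [hx.1, hx.2]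
    refine Real.le_sqrt_of_sq_le ?_
    nlinarith [sq_nonneg x, mul_nonneg hxx (mul_nonneg (sq_nonneg x) (sq_nonneg x)),
      mul_nonneg hxx (sq_nonneg x), mul_nonneg hxx hxx]
  have hm := integral_mono_on (μ := volume) h0 (f := fun x : ℝ => 1 - x ^ 2 / 2 - x ^ 4 / 2)
    (Continuous.intervalIntegrable (by fun_prop) _ _)
    (Continuous.intervalIntegrable (by fun_prop) _ _) hp
  have he : (∫ x in (0 : ℝ)..μ, (1 - x ^ 2 / 2 - x ^ 4 / 2)) = μ - μ ^ 3 / 6 - μ ^ 5 / 10 := by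
    rw [integral_eq_sub_of_hasDerivAt (f := fun x : ℝ => x - x ^ 3 / 6 - x ^ 5 / 10)]
    · simp
    · intro x _
      refine (((hasDerivAt_id' x).sub ((hasDerivAt_pow 3 x).div_const 6)).sub
        ((hasDerivAt_pow 5 x).div_const 10)).congr_deriv ?_
      push_cast
      ring
    · exact Continuous.intervalIntegrable (by fun_prop) _ _
  linarith

lemma integral_sqrt_pow {G : ℝ} (hG : 0 ≤ G) :
    (∫ x in (0 : ℝ)..G, √x) = 2 / 3 * (G * √G) := by
  rw [integral_eq_sub_of_hasDerivAt_of_le hG (f := fun x => 2 / 3 * (x * √x))]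
  · simp
  · fun_prop
  · intro x hx
    have hp : 0 < x := hx.1
    have h := ((hasDerivAt_id' x).mul ((hasDerivAt_id' x).sqrt hp.ne')).const_mul (2 / 3 : ℝ)
    refine h.congr_deriv ?_
    have hs := Real.sq_sqrt hp.le
    have hs0 : √x ≠ 0 := (Real.sqrt_pos.2 hp).ne'
    field_simp
    nlinarith [hs]
  · exact Continuous.intervalIntegrable (by fun_prop) _ _

/-- Substitution `u = (1 + r σ)²` on the square-root branch. -/
lemma tg_subst {r K μ : ℝ} (hr : 0 < r) (hr1 : r < 1) (h0 : 0 ≤ μ) (h1 : μ ≤ 1)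
    (hK : 1 + μ * r ≤ K) :
    (∫ u in (1 - r) ^ 2..(1 + μ * r) ^ 2, tg r K u) =
      r ^ 2 * ∫ σ in (-1 : ℝ)..μ, √(1 - σ ^ 2) * √((2 + r * σ) ^ 2 - r ^ 2) := by
  have hK0 : 0 < K := by nlinarith
  have hpos : ∀ σ ∈ uIcc (-1 : ℝ) μ, 0 < 1 + r * σ ∧ 1 + r * σ ≤ K := by
    intro σ hσ
    rw [uIcc_of_le (by linarith)] at hσ
    constructor <;> nlinarith [hσ.1, hσ.2]
  have hd : ∀ σ ∈ uIcc (-1 : ℝ) μ,
      HasDerivAt (fun σ => (1 + r * σ) ^ 2) (2 * r * (1 + r * σ)) σ := by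
    intro σ _
    refine ((((hasDerivAt_id' σ).const_mul r).const_add 1).pow 2).congr_deriv ?_
    push_cast
    ring
  have hg : ContinuousOn (tg r K) ((fun σ => (1 + r * σ) ^ 2) '' uIcc (-1 : ℝ) μ) := by
    refine (continuousOn_tg hK0).mono ?_
    rintro _ ⟨σ, hσ, rfl⟩
    exact pow_pos (hpos σ hσ).1 2
  have h := integral_comp_mul_deriv' hd (Continuous.continuousOn (by fun_prop)) hg
  have e1 : (1 + r * (-1 : ℝ)) ^ 2 = (1 - r) ^ 2 := by ring
  have e2 : (1 + r * μ) ^ 2 = (1 + μ * r) ^ 2 := by ring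
  simp only [e1, e2] at h
  rw [← h, ← intervalIntegral.integral_const_mul]
  refine integral_congr fun σ hσ => ?_
  obtain ⟨hp, hpK⟩ := hpos σ hσ
  rw [uIcc_of_le (by linarith)] at hσ
  have hs1 : 0 ≤ 1 - σ ^ 2 := by nlinarith [hσ.1, hσ.2]
  simp only [Function.comp_apply, tg, Real.sqrt_sq hp.le, min_eq_left hpK]
  set y := 1 + r * σ with hy
  have key : 1 - ((y ^ 2 + 1 - r ^ 2) / (2 * y)) ^ 2 =
      (1 - σ ^ 2) * ((2 + r * σ) ^ 2 - r ^ 2) * (r / (2 * y)) ^ 2 := by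
    field_simp
    rw [hy]
    ring
  rw [key, Real.sqrt_mul' _ (sq_nonneg _), Real.sqrt_sq (by positivity), Real.sqrt_mul hs1]
  field_simp

lemma wedge_bound {μ : ℝ} (h0 : 0 ≤ μ) (h1 : μ ≤ 1) :
    1 - 3 / 2 * μ ^ 2 ≤ (1 - μ ^ 2) * √(1 - μ ^ 2) := by
  have hp : 0 ≤ 1 - μ ^ 2 := by nlinarith
  have hs := Real.sq_sqrt hp
  set w := √(1 - μ ^ 2)
  have hw : 0 ≤ w := Real.sqrt_nonneg _
  nlinarith [mul_nonneg (sq_nonneg (w - 1)) (by linarith : 0 ≤ w + 1 / 2)]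

/-- Lower bound for the square-root branch. -/
lemma sqrt_branch_bound {r μ : ℝ} (hr : 0 < r) (hr2 : r ^ 2 ≤ 2 / 3) (h0 : 0 ≤ μ) (h1 : μ ≤ 1) :
    (2 - 0.262 * r ^ 2) * (π / 4) - (r + 0.29 * r ^ 3) / 3
        + √(4 - r ^ 2) * (∫ x in (0 : ℝ)..μ, √(1 - x ^ 2))
        + r * ((1 - (1 - μ ^ 2) * √(1 - μ ^ 2)) / 3)
      ≤ ∫ σ in (-1 : ℝ)..μ, √(1 - σ ^ 2) * √((2 + r * σ) ^ 2 - r ^ 2) := by
  have hrs : r < 0.8166 := by nlinarith
  have c : Continuous fun σ : ℝ => √(1 - σ ^ 2) * √((2 + r * σ) ^ 2 - r ^ 2) := by fun_prop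
  rw [← integral_add_adjacent_intervals (b := (0 : ℝ)) (c.intervalIntegrable _ _)
    (c.intervalIntegrable _ _)]
  have hneg := integral_comp_neg (a := (0 : ℝ)) (b := 1)
    fun σ : ℝ => √(1 - σ ^ 2) * √((2 + r * σ) ^ 2 - r ^ 2)
  simp only [neg_sq, neg_zero] at hneg
  have hL : (2 - 0.262 * r ^ 2) * (π / 4) - (r + 0.29 * r ^ 3) / 3 ≤
      ∫ σ in (0 : ℝ)..1, √(1 - σ ^ 2) * √((2 + r * -σ) ^ 2 - r ^ 2) := by
    have hp : ∀ σ ∈ Icc (0 : ℝ) 1,
        (2 - 0.262 * r ^ 2) * √(1 - σ ^ 2) - (r + 0.29 * r ^ 3) * (σ * √(1 - σ ^ 2)) ≤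
          √(1 - σ ^ 2) * √((2 + r * -σ) ^ 2 - r ^ 2) := by
      intro σ hσ
      set x := r * σ with hx
      have hx0 : 0 ≤ x := mul_nonneg hr.le hσ.1
      have hx1 : x ≤ r := by nlinarith [hσ.2]
      set a := 0.262 + 0.29 * x with ha
      have hphi : 1 ≤ 2 * (2 - x) * a - r ^ 2 * a ^ 2 := by
        have e : 1 ≤ 2 * (2 - x) * a - 2 / 3 * a ^ 2 := by
          rw [ha]
          nlinarith [mul_nonneg hx0 (by linarith : 0 ≤ 0.8166 - x)]
        nlinarith [mul_le_mul_of_nonneg_right hr2 (sq_nonneg a)]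
      have hw : (2 - 0.262 * r ^ 2) - (r + 0.29 * r ^ 3) * σ ≤ √((2 + r * -σ) ^ 2 - r ^ 2) := by
        refine Real.le_sqrt_of_sq_le ?_
        have e1 : (2 - 0.262 * r ^ 2) - (r + 0.29 * r ^ 3) * σ = (2 - x) - r ^ 2 * a := by
          rw [ha, hx]; ring
        have e2 : 2 + r * -σ = 2 - x := by rw [hx]; ring
        rw [e1, e2]
        nlinarith [mul_le_mul_of_nonneg_left hphi (sq_nonneg r)]
      calc _ = √(1 - σ ^ 2) * ((2 - 0.262 * r ^ 2) - (r + 0.29 * r ^ 3) * σ) := by ring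
        _ ≤ _ := mul_le_mul_of_nonneg_left hw (Real.sqrt_nonneg _)
    have hm := integral_mono_on (μ := volume) zero_le_one
      (Continuous.intervalIntegrable (by fun_prop) _ _)
      (Continuous.intervalIntegrable (by fun_prop) _ _) hp
    rw [intervalIntegral.integral_sub (Continuous.intervalIntegrable (by fun_prop) _ _)
      (Continuous.intervalIntegrable (by fun_prop) _ _), intervalIntegral.integral_const_mul,
      intervalIntegral.integral_const_mul, integral_sqrt_unit,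
      integral_id_sqrt zero_le_one le_rfl] at hm
    norm_num at hm ⊢
    linarith
  have hR : √(4 - r ^ 2) * (∫ x in (0 : ℝ)..μ, √(1 - x ^ 2))
      + r * ((1 - (1 - μ ^ 2) * √(1 - μ ^ 2)) / 3) ≤
      ∫ σ in (0 : ℝ)..μ, √(1 - σ ^ 2) * √((2 + r * σ) ^ 2 - r ^ 2) := by
    have hp : ∀ σ ∈ Icc (0 : ℝ) μ,
        √(4 - r ^ 2) * √(1 - σ ^ 2) + r * (σ * √(1 - σ ^ 2)) ≤
          √(1 - σ ^ 2) * √((2 + r * σ) ^ 2 - r ^ 2) := by
      intro σ hσ
      have hq := Real.sq_sqrt (by linarith : 0 ≤ 4 - r ^ 2)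
      have hq2 : √(4 - r ^ 2) ≤ 2 := (Real.sqrt_le_left (by norm_num)).2 (by nlinarith)
      have hw : √(4 - r ^ 2) + r * σ ≤ √((2 + r * σ) ^ 2 - r ^ 2) := by
        refine Real.le_sqrt_of_sq_le ?_
        nlinarith [mul_le_mul_of_nonneg_left hq2 (mul_nonneg hr.le hσ.1)]
      calc _ = √(1 - σ ^ 2) * (√(4 - r ^ 2) + r * σ) := by ring
        _ ≤ _ := mul_le_mul_of_nonneg_left hw (Real.sqrt_nonneg _)
    have hm := integral_mono_on (μ := volume) h0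
      (Continuous.intervalIntegrable (by fun_prop) _ _)
      (Continuous.intervalIntegrable (by fun_prop) _ _) hp
    rwa [intervalIntegral.integral_add (Continuous.intervalIntegrable (by fun_prop) _ _)
      (Continuous.intervalIntegrable (by fun_prop) _ _), intervalIntegral.integral_const_mul,
      intervalIntegral.integral_const_mul, integral_id_sqrt h0 h1] at hm
  linarith

/-- Lower bound for the flat branch. -/
lemma flat_branch_bound {r μ : ℝ} (hr : 0 < r) (hr2 : r ^ 2 ≤ 2 / 3) (h0 : 0 ≤ μ) (h1 : μ ≤ 1)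
    (hm : μ * r ≤ 2) :
    2 / 3 * (0.9128 * (1 - μ * r / 2)) * (r ^ 3 * ((1 - μ ^ 2) * √(1 - μ ^ 2))) ≤
      ∫ u in (1 + μ * r) ^ 2..1 + r ^ 2 + 2 * μ * r, tg r (1 + μ * r) u := by
  set K := 1 + μ * r with hKdef
  have hK : 1 ≤ K := by nlinarith
  set U := 1 + r ^ 2 + 2 * μ * r with hU
  have hG : U - K ^ 2 = r ^ 2 * (1 - μ ^ 2) := by rw [hU, hKdef]; ring
  have h12 : 0 ≤ 1 - μ ^ 2 := by nlinarith
  have hG0 : 0 ≤ r ^ 2 * (1 - μ ^ 2) := by positivity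
  set c0 := 0.9128 * (1 - μ * r / 2) with hc0
  have hc : 0 ≤ c0 := by rw [hc0]; nlinarith
  have hp : ∀ u ∈ Icc (K ^ 2) U, c0 * √(U - u) ≤ tg r K u := by
    intro u hu
    have hsu : K ≤ √u := Real.le_sqrt_of_sq_le hu.1
    set G := U - u with hGdef
    have hGn : 0 ≤ G := by rw [hGdef]; linarith [hu.2]
    have hGu : G ≤ 2 / 3 := by
      have : G ≤ r ^ 2 * (1 - μ ^ 2) := by rw [← hG, hGdef]; linarith [hu.1]
      nlinarith [sq_nonneg μ, sq_nonneg r, mul_nonneg (sq_nonneg r) (sq_nonneg μ)]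
    have hrepr : u + 1 - r ^ 2 = 2 * K - G := by rw [hGdef, hU, hKdef]; ring
    rw [tg, min_eq_right hsu, hrepr]
    refine Real.le_sqrt_of_sq_le ?_
    rw [mul_pow, Real.sq_sqrt hGn]
    have e : 1 - ((2 * K - G) / (2 * K)) ^ 2 = G * ((1 / K) * (1 - G / (4 * K))) := by
      field_simp; ring
    rw [e, mul_comm (c0 ^ 2) G]
    refine mul_le_mul_of_nonneg_left ?_ hGn
    have hm0 : 0 ≤ μ * r := by positivity
    have a1 : (1 - μ * r / 2) ^ 2 ≤ 1 / K := by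
      rw [le_div_iff₀ (by linarith), hKdef]
      nlinarith [mul_nonneg (sq_nonneg (μ * r)) (by linarith : 0 ≤ 3 - μ * r)]
    have a2 : (0.9128 : ℝ) ^ 2 ≤ 1 - G / (4 * K) := by
      have : G / (4 * K) ≤ 1 / 6 := by
        rw [div_le_iff₀ (by linarith)]
        nlinarith
      norm_num at this ⊢
      linarith
    calc c0 ^ 2 = (1 - μ * r / 2) ^ 2 * 0.9128 ^ 2 := by rw [hc0]; ring
      _ ≤ _ := mul_le_mul a1 a2 (sq_nonneg _) (by positivity)
  have hKU : K ^ 2 ≤ U := by linarith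
  have hm' := integral_mono_on (μ := volume) hKU
    (Continuous.intervalIntegrable (by fun_prop) _ _)
    (intervalIntegrable_tg (by linarith) (by positivity) (by positivity)) hp
  rw [intervalIntegral.integral_const_mul,
    intervalIntegral.integral_comp_sub_left (fun x => √x) U, sub_self, hG,
    integral_sqrt_pow hG0, Real.sqrt_mul (sq_nonneg r), Real.sqrt_sq hr.le] at hm'
  refine le_trans (le_of_eq ?_) hm'
  ring

lemma numeric_low {μ : ℝ} (h0 : 0 ≤ μ) (h1 : μ ≤ 0.4) :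
    0.2327 ≤ (1 - 3 / 2 * μ ^ 2) * (0.8256 - 0.7454 * μ) / 3
      + μ * (2.236 * (1 - μ ^ 2 / 6 - μ ^ 4 / 10) - 1.5708) := by
  have hs : 0 ≤ μ * (0.4 - μ) := mul_nonneg h0 (sub_nonneg.2 h1)
  have h4 : μ ^ 2 ≤ 0.16 := by nlinarith
  have h5 : μ ^ 5 ≤ 0.16 * μ ^ 3 := by
    nlinarith [mul_le_mul_of_nonneg_left h4 (pow_nonneg h0 3)]
  have h3 : μ ^ 3 ≤ 0.4 * μ ^ 2 := by
    nlinarith [mul_le_mul_of_nonneg_left h1 (sq_nonneg μ)]
  nlinarith

lemma numeric_mid {μ : ℝ} (h0 : 0.4 ≤ μ) (h1 : μ ≤ 0.8) :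
    0.233 ≤ μ * (2.236 * (1 - μ ^ 2 / 6 - μ ^ 4 / 10) - 1.5708) := by
  have hμ : 0 ≤ μ := by linarith
  have hd : 0 ≤ (μ - 0.4) * (0.8 - μ) := mul_nonneg (by linarith) (by linarith)
  nlinarith [mul_nonneg hd hμ, mul_nonneg hd (pow_nonneg hμ 2), mul_nonneg hd (pow_nonneg hμ 3)]

lemma numeric_high {μ : ℝ} (h0 : 0.8 ≤ μ) (h1 : μ ≤ 1) :
    0.21 ≤ μ * (2.47 * (1 - μ ^ 2 / 6 - μ ^ 4 / 10) - 1.5708) := by
  have hμ : 0 ≤ μ := by linarith
  have hd : 0 ≤ (μ - 0.8) * (1 - μ) := mul_nonneg (by linarith) (by linarith)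
  nlinarith [mul_nonneg hd hμ, mul_nonneg hd (pow_nonneg hμ 2), mul_nonneg hd (pow_nonneg hμ 3)]

/-- The numerical core, divided by `r`. -/
lemma tube_numeric {r μ : ℝ} (hr : 0 < r) (hr2 : r ^ 2 ≤ 2 / 3) (h0 : 0 ≤ μ) (h1 : μ ≤ 1)
    (hm : μ * r ≤ 0.6) :
    0 < (1 - μ ^ 2) * √(1 - μ ^ 2) * (2 * (0.9128 * (1 - μ * r / 2)) - 1) / 3 * r
      - 0.262 * r ^ 2 * (π / 4) - 0.29 * r ^ 3 / 3
      + √(4 - r ^ 2) * (μ - μ ^ 3 / 6 - μ ^ 5 / 10) - μ * r * (π / 2) := by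
  have hrs : r < 0.8166 := by nlinarith
  have hp : π / 2 ≤ 1.5708 := by linarith [Real.pi_lt_d4]
  have hn : 0.262 * r * (π / 4) + 0.29 * r ^ 2 / 3 < 0.2327 := by
    have h : r * π ≤ 0.8166 * 3.1416 :=
      mul_le_mul hrs.le Real.pi_lt_d4.le Real.pi_pos.le (by norm_num)
    norm_num at h ⊢
    linarith
  set A := 2 * (0.9128 * (1 - μ * r / 2)) - 1 with hA
  have hA0 : 0 ≤ A := by rw [hA]; linarith
  have h12 : 0 ≤ 1 - μ ^ 2 := by nlinarith
  have hW0 : 0 ≤ (1 - μ ^ 2) * √(1 - μ ^ 2) := mul_nonneg h12 (Real.sqrt_nonneg _)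
  set W := (1 - μ ^ 2) * √(1 - μ ^ 2) with hW
  have hWA : 0 ≤ W * A / 3 := by positivity
  have hSP : μ - μ ^ 3 / 6 - μ ^ 5 / 10 = μ * (1 - μ ^ 2 / 6 - μ ^ 4 / 10) := by ring
  rw [hSP]
  have hP0 : 0 ≤ 1 - μ ^ 2 / 6 - μ ^ 4 / 10 := by
    linarith [pow_le_one₀ (n := 2) h0 h1, pow_le_one₀ (n := 4) h0 h1]
  set P := 1 - μ ^ 2 / 6 - μ ^ 4 / 10 with hP
  have hq : ∀ a : ℝ, a ^ 2 * r ^ 2 ≤ 4 - r ^ 2 → a * r ≤ √(4 - r ^ 2) :=
    fun a h => Real.le_sqrt_of_sq_le (by rwa [mul_pow])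
  have main : ∀ a B : ℝ, a * r ≤ √(4 - r ^ 2) →
      0.262 * r * (π / 4) + 0.29 * r ^ 2 / 3 < B →
      B ≤ W * A / 3 + μ * (a * P - 1.5708) →
      0 < W * A / 3 * r - 0.262 * r ^ 2 * (π / 4) - 0.29 * r ^ 3 / 3
        + √(4 - r ^ 2) * (μ * P) - μ * r * (π / 2) := by
    intro a B ha hB hlo
    have e1 := mul_le_mul_of_nonneg_right ha (mul_nonneg h0 hP0)
    have e2 := mul_lt_mul_of_pos_right (hB.trans_le hlo) hr
    have e3 := mul_le_mul_of_nonneg_left hp (mul_nonneg h0 hr.le)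
    linarith
  rcases le_or_gt μ 0.4 with hμ | hμ
  · have h20 : (2.236 : ℝ) ^ 2 * r ^ 2 ≤ 4 - r ^ 2 := by norm_num; linarith
    refine main 2.236 0.2327 (hq _ h20) hn ?_
    have ha : 0.8256 - 0.7454 * μ ≤ A := by
      have := mul_le_mul_of_nonneg_left hrs.le h0
      rw [hA]; norm_num at this ⊢; linarith
    have hwa := mul_le_mul (wedge_bound h0 h1) ha (by linarith) hW0
    have := numeric_low h0 hμ
    linarith
  rcases le_or_gt μ 0.8 with hμ' | hμ'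
  · have h20 : (2.236 : ℝ) ^ 2 * r ^ 2 ≤ 4 - r ^ 2 := by norm_num; linarith
    refine main 2.236 0.233 (hq _ h20) (by norm_num at hn ⊢; linarith) ?_
    have := numeric_mid hμ.le hμ'
    linarith
  · have h8 := mul_le_mul_of_nonneg_right hμ'.le hr.le
    have hr' : r ≤ 0.75 := by norm_num at h8 hm ⊢; linarith
    have hr2' : r ^ 2 ≤ 0.5625 := by nlinarith
    have hpr : r * π ≤ 0.75 * 3.1416 :=
      mul_le_mul hr' Real.pi_lt_d4.le Real.pi_pos.le (by norm_num)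
    refine main 2.47 0.21 (hq _ (by norm_num at hr2' ⊢; linarith))
      (by norm_num at hpr hr2' ⊢; linarith) ?_
    have := numeric_high hμ'.le h1
    linarith

/-- The tube inequality in the scaled variable. -/
theorem tube_core {r K : ℝ} (hr : 0 < r) (hr2 : r ^ 2 ≤ 2 / 3) (hK1 : 1 ≤ K) (hK2 : K ≤ 8 / 5) :
    π * K * r ^ 2 / 2 <
      ∫ u in (1 - r) ^ 2..1 + r ^ 2 + 2 * min (K - 1) r, tg r K u := by
  have hr1 : r < 1 := by nlinarith
  have hl : 0 < (1 - r) ^ 2 := pow_pos (by linarith) 2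
  have hpi := Real.pi_pos
  rcases le_or_gt r (K - 1) with hcase | hcase
  · rw [min_eq_right hcase]
    have e : 1 + r ^ 2 + 2 * r = (1 + 1 * r) ^ 2 := by ring
    rw [e, tg_subst hr hr1 zero_le_one le_rfl (by linarith)]
    have hb := sqrt_branch_bound hr hr2 zero_le_one le_rfl
    rw [integral_sqrt_unit] at hb
    simp only [one_pow, sub_self, zero_mul, sub_zero] at hb
    have hr6 : r ≤ 0.6 := by linarith
    have hq : 1.9 ≤ √(4 - r ^ 2) := Real.le_sqrt_of_sq_le (by nlinarith)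
    have hpi' := Real.pi_gt_d4
    have hpi'' := Real.pi_lt_d4
    have : π * K / 2 < ∫ σ in (-1 : ℝ)..1, √(1 - σ ^ 2) * √((2 + r * σ) ^ 2 - r ^ 2) := by
      nlinarith [mul_le_mul_of_nonneg_right hq (div_nonneg hpi.le (by norm_num : (0:ℝ) ≤ 4)),
        mul_le_mul_of_nonneg_left hK2 hpi.le]
    have := mul_lt_mul_of_pos_left this (pow_pos hr 2)
    linarith
  · rw [min_eq_left hcase.le]
    set μ := (K - 1) / r with hμ
    have hμr : μ * r = K - 1 := div_mul_cancel₀ _ hr.ne'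
    have h0 : 0 ≤ μ := div_nonneg (by linarith) hr.le
    have h1 : μ ≤ 1 := (div_le_one hr).2 hcase.le
    have hKe : K = 1 + μ * r := by linarith
    have e : 1 + r ^ 2 + 2 * (K - 1) = 1 + r ^ 2 + 2 * μ * r := by rw [mul_assoc, hμr]
    have hU : 0 < 1 + r ^ 2 + 2 * μ * r := by positivity
    rw [e, ← integral_add_adjacent_intervals (b := (1 + μ * r) ^ 2)
      (intervalIntegrable_tg (by linarith) hl (by positivity))
      (intervalIntegrable_tg (by linarith) (by positivity) hU),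
      tg_subst hr hr1 h0 h1 hKe.ge]
    have hC := flat_branch_bound hr hr2 h0 h1 (by linarith)
    rw [← hKe] at hC
    have hb := mul_le_mul_of_nonneg_left (sqrt_branch_bound hr hr2 h0 h1) (sq_nonneg r)
    have hS := mul_le_mul_of_nonneg_left (mul_le_mul_of_nonneg_left (integral_sqrt_ge h0 h1)
      (Real.sqrt_nonneg (4 - r ^ 2))) (sq_nonneg r)
    have hn := mul_pos (tube_numeric hr hr2 h0 h1 (by linarith)) (pow_pos hr 2)
    have hKr : π * K * r ^ 2 / 2 = π / 2 * r ^ 2 + π / 2 * μ * r ^ 3 := by rw [hKe]; ring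
    rw [← hKe] at *
    nlinarith

end Vale.Agent.P232
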