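import Vale.Agent.P232.UnsteinerPhase
import Vale.Agent.P232.Steiner

/-! # P232, module C2: equality in one symmetrisation -/

namespace Vale.Agent.P232

open MeasureTheory Set Filter Topology
open scoped ENNReal

namespace Unst

theorem integral_arc (c : ℝ) {s : ℝ} (h0 : 0 ≤ s) (h1 : s ≤ 1 / 2) :
    (∫ t in (0 : ℝ)..1, if tdist (t - c) < s then (1 : ℝ) else 0) = 2 * s := by
  set f : ℝ → ℝ := fun t => if tdist (t - c) < s then (1 : ℝ) else 0 with hf
  have hp : Function.Periodic f 1 := fun t => by
    have : tdist (t + 1 - c) = tdist (t - c) := by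
      rw [← tdist_add_int (t - c) 1]; congr 1; push_cast; ring
    simp only [hf, this]
  have h := hp.intervalIntegral_add_eq 0 (c - 1 / 2)
  rw [zero_add] at h
  rw [h, show c - 1 / 2 + 1 = c + 1 / 2 by ring,
    intervalIntegral.integral_of_le (by linarith), integral_Ioc_eq_integral_Ioo]
  have e : ∀ t ∈ Ioo (c - 1 / 2) (c + 1 / 2),
      f t = (Ioo (c - s) (c + s)).indicator (fun _ => (1 : ℝ)) t := by
    intro t ht
    have : tdist (t - c) = |t - c| := by
      rw [tdist, round_eq_zero_iff.2 ⟨by linarith [ht.1], by linarith [ht.2]⟩]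
      simp
    simp only [hf, this, abs_lt, Set.indicator_apply, mem_Ioo]
    congr 1
    apply propext
    constructor <;> rintro ⟨a, b⟩ <;> constructor <;> linarith
  rw [setIntegral_congr_fun measurableSet_Ioo e, setIntegral_indicator measurableSet_Ioo,
    inter_eq_right.2 (Ioo_subset_Ioo (by linarith) (by linarith)), setIntegral_const,
    Real.volume_real_Ioo_of_le (by linarith), smul_eq_mul]
  ring

theorem isTorusSet_canon (S : Finset (Fin 3)) (R : ℝ) (a : V3) : IsTorusSet (canon S R a) := by
  refine ⟨?_, fun x k => ?_⟩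
  · exact measurableSet_lt (Finset.measurable_sum _ fun j _ =>
      (measurable_tdist.comp ((measurable_pi_apply j).sub measurable_const)).pow_const 2) measurable_const
  · simp only [canon, mem_ofPred_eq, Pi.add_apply]
    simp only [add_sub_right_comm _ (_ : ℝ), tdist_add_int]

theorem ins_eq_update (i : Fin 3) (s t : ℝ) (q : Fin 2 → ℝ) :
    Torus.ins i t q = Function.update (Torus.ins i s q) i t := by
  simp [Torus.ins, Fin.update_insertNth]

/-- A property of lines which holds almost everywhere holds on almost every line. -/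
theorem ae_face {i : Fin 3} {p : V3 → Prop} (hinv : ∀ x t, p (Function.update x i t) → p x)
    (h : ∀ᵐ x, p x) : ∀ᵐ q : Fin 2 → ℝ, p (Torus.ins i 0 q) := by
  have hmp : MeasurePreserving (fun z : (Fin 2 → ℝ) × ℝ => Torus.ins i z.2 z.1)
      ((volume : Measure (Fin 2 → ℝ)).prod volume) volume :=
    (Torus.measurePreserving_ins i).comp Measure.measurePreserving_swap
  filter_upwards [Measure.ae_ae_of_ae_prod (hmp.quasiMeasurePreserving.ae h)] with q hq
  obtain ⟨t, ht⟩ := hq.exists
  exact hinv _ t (by rwa [← ins_eq_update])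

/-- Sets agreeing on almost every line of the fundamental cube agree. -/
theorem ae_of_lines {A B : Set V3} (hA : IsTorusSet A) (hB : IsTorusSet B) (i : Fin 3)
    (h : ∀ᵐ q : Fin 2 → ℝ, q ∈ square → ∀ᵐ t : ℝ, t ∈ Ioc (0 : ℝ) 1 →
      ind A (Torus.ins i t q) = ind B (Torus.ins i t q)) : A =ᵐ[volume] B := by
  set G : Set V3 := {x | x ∈ cube → ind A x = ind B x}
  have hGm : MeasurableSet G := by
    have hc : MeasurableSet cube := MeasurableSet.univ_pi fun _ => measurableSet_Ioo
    have e : G = cubeᶜ ∪ {x | ind A x = ind B x} := by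
      ext x; simp only [G, mem_ofPred_eq, mem_union, mem_compl_iff]; tauto
    rw [e]
    exact hc.compl.union (measurableSet_eq_fun (measurable_ind hA.1) (measurable_ind hB.1))
  have hmp : MeasurePreserving (fun p : (Fin 2 → ℝ) × ℝ => Torus.ins i p.2 p.1)
      ((volume : Measure (Fin 2 → ℝ)).prod volume) volume :=
    (Torus.measurePreserving_ins i).comp Measure.measurePreserving_swap
  have h2 : ∀ᵐ x : V3, x ∈ G := by
    have h3 : ∀ᵐ p : (Fin 2 → ℝ) × ℝ, Torus.ins i p.2 p.1 ∈ G := by
      refine Measure.ae_prod_iff_ae_ae (hmp.measurable hGm) |>.2 ?_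
      filter_upwards [h] with q hq
      by_cases hqs : q ∈ square
      · filter_upwards [hq hqs] with t ht hc
        exact ht (Ioo_subset_Ioc_self (insertNth_mem_cube.1 hc).1)
      · exact ae_of_all _ fun t hc => absurd (insertNth_mem_cube.1 hc).2 hqs
    rw [← hmp.map_eq]
    exact (ae_map_iff hmp.measurable.aemeasurable hGm).2 h3
  have h4 : ∀ᵐ x : V3, ∀ k : Fin 3 → ℤ, (x + fun j => (k j : ℝ)) ∈ G :=
    ae_all_iff.2 fun k => (measurePreserving_add_right volume _).quasiMeasurePreserving.ae h2
  have h5 : ∀ᵐ x : V3, ∀ j, ∀ k : ℤ, x j ≠ k :=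
    ae_all_iff.2 fun j => ae_all_iff.2 fun k =>
      (Measure.quasiMeasurePreserving_eval (fun _ : Fin 3 => (volume : Measure ℝ)) j).ae
        (Measure.ae_ne volume _)
  refine eventuallyEq_set.2 ?_
  filter_upwards [h4, h5] with x hx hne
  set k : Fin 3 → ℤ := fun j => -⌊x j⌋
  have hc : (x + fun j => (k j : ℝ)) ∈ cube := fun j _ => by
    have h1 := Int.floor_le (x j)
    have h2 := Int.lt_floor_add_one (x j)
    have h3 : (⌊x j⌋ : ℝ) ≠ x j := fun e => hne j ⌊x j⌋ e.symm
    simp only [Pi.add_apply, k, Int.cast_neg, mem_Ioo]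
    constructor
    · linarith [lt_of_le_of_ne h1 h3]
    · linarith
  have e := hx k hc
  rw [hA.periodic x k, hB.periodic x k] at e
  by_cases ha : x ∈ A <;> by_cases hb : x ∈ B <;> simp_all [ind]

theorem torusVol_eq_lines {A : Set V3} (hA : IsTorusSet A) (i : Fin 3) :
    torusVol A = ∫ q in square, lineLen A i (Torus.ins i 0 q) := by
  have hi : IntegrableOn (ind A) cell :=
    integrableOn_cell_of_bound (measurable_ind hA.1).aestronglyMeasurable (C := 1)
      fun x => by rw [abs_of_nonneg (ind_mem_Icc A x).1]; exact (ind_mem_Icc A x).2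
  rw [torusVol_eq hA.1, integral_cell_square hi i]
  refine setIntegral_congr_fun measurableSet_square fun q _ => ?_
  simp only [lineLen_eq hA.1, ← ins_eq_update]

theorem lineLen_steiner {F : Set V3} (hF : IsTorusSet F) (i : Fin 3) (x : V3) :
    lineLen (steiner i F) i x = lineLen F i x := by
  rw [lineLen_eq (isTorusSet_steiner hF).1]
  obtain ⟨m0, m1⟩ := lineLen_mem_Icc (i := i) F x
  have e : (fun t => ind (steiner i F) (Function.update x i t)) =
      fun t => if tdist (t - 0) < lineLen F i x / 2 then (1 : ℝ) else 0 := by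
    funext t
    by_cases h : tdist t < lineLen F i x / 2
    · simp [ind, steiner, lineLen_update, h]
    · simp [ind, steiner, lineLen_update, h]
  rw [e, integral_arc 0 (by linarith) (by linarith)]
  ring

theorem sum_canon_ins {S : Finset (Fin 3)} {i : Fin 3} (hi : i ∈ S) (a : V3) {q : Fin 2 → ℝ}
    (hq : q ∈ square) (t : ℝ) :
    ∑ j ∈ S, tdist (Torus.ins i t q j +
        Function.update (fun j => a j - 1 / 2) i 0 j - a j) ^ 2 =
      tdist (t - a i) ^ 2 + sig S i q := by
  rw [← Finset.add_sum_erase S _ hi]
  congr 1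
  · simp [Torus.ins]
  have e : ∀ j ∈ S.erase i, tdist (Torus.ins i t q j +
      Function.update (fun j => a j - 1 / 2) i 0 j - a j) ^ 2 = (Torus.ins i t q j - 1 / 2) ^ 2 := by
    intro j hj
    obtain ⟨l, rfl⟩ := Fin.exists_succAbove_eq (Finset.ne_of_mem_erase hj)
    rw [Function.update_of_ne (Fin.succAbove_ne i l)]
    simp only [Torus.ins, Fin.insertNth_apply_succAbove]
    obtain ⟨h0, h1⟩ := mem_square_iff.1 hq l
    rw [show q l + (a (i.succAbove l) - 1 / 2) - a (i.succAbove l) = q l - 1 / 2 by ring, tdist,
      round_eq_zero_iff.2 ⟨by linarith, by linarith⟩, Int.cast_zero, sub_zero, sq_abs]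
  rw [Finset.sum_congr rfl e]
  exact sqd_ins S i t q

theorem ind_canon_ins {S : Finset (Fin 3)} {R : ℝ} {i : Fin 3} (hi : i ∈ S) (a : V3)
    {q : Fin 2 → ℝ} (hq : q ∈ square) (t : ℝ) :
    ind (canon S R a) (Torus.ins i t q + Function.update (fun j => a j - 1 / 2) i 0) =
      if sig S i q < R ^ 2 ∧ tdist (t - a i) < hs S R i q then 1 else 0 := by
  have hiff : (Torus.ins i t q + Function.update (fun j => a j - 1 / 2) i 0) ∈ canon S R a ↔
      sig S i q < R ^ 2 ∧ tdist (t - a i) < hs S R i q := by
    simp only [canon, mem_ofPred_eq, Pi.add_apply, sum_canon_ins hi a hq, hs,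
      Real.lt_sqrt (tdist_nonneg _)]
    have := sq_nonneg (tdist (t - a i))
    constructor
    · intro h; constructor <;> linarith
    · rintro ⟨-, h⟩; linarith
  by_cases h : sig S i q < R ^ 2 ∧ tdist (t - a i) < hs S R i q
  · rw [if_pos h, ind, indicator_of_mem (hiff.2 h)]
  · rw [if_neg h, ind, indicator_of_notMem fun hm => h (hiff.1 hm)]

theorem lineLen_canon {S : Finset (Fin 3)} {R : ℝ} (hR : 0 < R) (hR2 : R < 1 / 2) {i : Fin 3}
    (hi : i ∈ S) (a : V3) {q : Fin 2 → ℝ} (hq : q ∈ square) :
    lineLen (canon S R a) i (Torus.ins i 0 q + Function.update (fun j => a j - 1 / 2) i 0) =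
      if sig S i q < R ^ 2 then 2 * hs S R i q else 0 := by
  rw [lineLen_eq (isTorusSet_canon S R a).1]
  have e : ∀ t, Function.update (Torus.ins i 0 q + Function.update (fun j => a j - 1 / 2) i 0) i t =
      Torus.ins i t q + Function.update (fun j => a j - 1 / 2) i 0 := fun t => by
    funext j
    rcases Fin.eq_self_or_eq_succAbove i j with rfl | ⟨l, rfl⟩ <;> simp [Torus.ins]
  simp only [e, ind_canon_ins hi a hq]
  by_cases h : sig S i q < R ^ 2
  · simp only [h, true_and, if_true]
    exact integral_arc _ (Real.sqrt_nonneg _) ((hs_le hR.le i q).trans hR2.le)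
  · simp [h]

theorem tvle_shift {F : Set V3} (hF : IsTorusSet F) (d : V3) {P : ℝ} (h : TVle (ind F) P) :
    TVle (ind ((fun x => x + d) ⁻¹' F)) P := by
  intro X hX
  have e : ∀ x, ind ((fun x => x + d) ⁻¹' F) x * divg X x =
      (fun y => ind F y * divg (fun z => X (z + -d)) y) (x + d) := fun x => by
    simp only [divg_shift, add_neg_cancel_right]
    by_cases hx : x + d ∈ F <;> simp [ind, hx]
  have hper : ZPeriodic fun y => ind F y * divg (fun z => X (z + -d)) y := fun x k => by
    simp only [hF.periodic x k, periodic_divg (hX.shift (-d)) x k]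
  simp only [e]
  rw [setIntegral_cell_add hper d]
  exact h _ (hX.shift _)

theorem isTorusSet_shift {F : Set V3} (hF : IsTorusSet F) (d : V3) :
    IsTorusSet ((fun x => x + d) ⁻¹' F) :=
  ⟨(measurable_id.add_const d) hF.1, fun x k => by
    simp only [mem_preimage, add_right_comm x _ d]
    exact hF.2 (x + d) k⟩

theorem torusVol_shift {F : Set V3} (hF : IsTorusSet F) (d : V3) :
    torusVol ((fun x => x + d) ⁻¹' F) = torusVol F := by
  rw [torusVol_eq (isTorusSet_shift hF d).1, torusVol_eq hF.1,
    ← setIntegral_cell_add hF.periodic d]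
  refine integral_congr_ae (ae_of_all _ fun x => ?_)
  by_cases hx : x + d ∈ F <;> simp [ind, hx]

theorem unsteiner_not_mem {F : Set V3} {S : Finset (Fin 3)} {R : ℝ} {a : V3} {i : Fin 3}
    (hF : IsTorusSet F) (hi : i ∉ S)
    (hlen : ∀ᵐ x, lineLen F i x = lineLen (canon S R a) i x) : F =ᵐ[volume] canon S R a := by
  have hC := isTorusSet_canon S R a
  refine ae_of_lines hF hC i ?_
  have hinv : ∀ x t, lineLen F i (Function.update x i t) =
      lineLen (canon S R a) i (Function.update x i t) → lineLen F i x = lineLen (canon S R a) i x :=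
    fun x t h => by rwa [lineLen_update, lineLen_update] at h
  filter_upwards [ae_face hinv hlen] with q hq _
  set p := ind (canon S R a) (Torus.ins i 0 q)
  have hconst : ∀ t, ind (canon S R a) (Torus.ins i t q) = p := fun t => by
    have e : ∀ j ∈ S, Torus.ins i t q j = Torus.ins i 0 q j := fun j hj => by
      obtain ⟨l, rfl⟩ := Fin.exists_succAbove_eq (fun h : j = i => hi (h ▸ hj))
      simp [Torus.ins]
    have hiff : Torus.ins i t q ∈ canon S R a ↔ Torus.ins i 0 q ∈ canon S R a := by
      simp only [canon, mem_ofPred_eq]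
      rw [Finset.sum_congr rfl fun j hj => by rw [e j hj]]
    by_cases h : Torus.ins i 0 q ∈ canon S R a
    · simp [p, ind, h, hiff.2 h]
    · have : Torus.ins i t q ∉ canon S R a := fun h' => h (hiff.1 h')
      simp [p, ind, h, this]
  rw [lineLen_eq hF.1, lineLen_eq hC.1] at hq
  simp only [← ins_eq_update] at hq
  simp only [hconst] at hq ⊢
  simp only [intervalIntegral.integral_of_le (zero_le_one' ℝ), integral_const] at hq
  have hint : IntegrableOn (fun t => ind F (Torus.ins i t q)) (Ioc 0 1) :=
    IntegrableOn.of_bound measure_Ioc_lt_top (measurable_lineInd hF.1 q).aestronglyMeasurable 1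
      (ae_of_all _ fun t => by
        rw [Real.norm_eq_abs, abs_of_nonneg (ind_mem_Icc F _).1]; exact (ind_mem_Icc F _).2)
  simp at hq
  have hp : p = 0 ∨ p = 1 := by
    by_cases h : Torus.ins i 0 q ∈ canon S R a <;> simp [p, ind, h]
  rcases hp with h | h
  · rw [h] at hq ⊢
    exact (ae_restrict_iff' measurableSet_Ioc).1
      ((integral_eq_zero_iff_of_nonneg (fun t => (ind_mem_Icc F _).1) hint).1 hq)
  · rw [h] at hq ⊢
    have h0 : ∫ t in Ioc (0 : ℝ) 1, (1 - ind F (Torus.ins i t q)) = 0 := by
      rw [integral_sub (integrable_const _) hint, hq, integral_const]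
      simp
    filter_upwards [(ae_restrict_iff' measurableSet_Ioc).1
      ((integral_eq_zero_iff_of_nonneg (fun t => sub_nonneg.2 (ind_mem_Icc F _).2)
        ((integrable_const _).sub hint)).1 h0)] with t ht hm
    have := ht hm
    simp only [Pi.zero_apply] at this
    linarith

end Unst

open Unst

/-- Equality in one symmetrisation. -/
theorem unsteiner : Unsteiner := by
  intro F S R a i hF _ hR hR2 hst hper
  have hC := isTorusSet_canon S R a
  have hlen : ∀ᵐ x, lineLen F i x = lineLen (canon S R a) i x := by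
    filter_upwards [ae_line (i := i) (eventuallyEq_set.1 hst)] with x hx
    rw [← lineLen_steiner hF, lineLen_eq (isTorusSet_steiner hF).1, lineLen_eq hC.1]
    refine intervalIntegral.integral_congr_ae (hx.mono fun t ht _ => ?_)
    by_cases h : Function.update x i t ∈ canon S R a
    · simp [ind, h, ht.2 h]
    · have : Function.update x i t ∉ steiner i F := fun h' => h (ht.1 h')
      simp [ind, h, this]
  by_cases hi : i ∈ S
  swap
  · exact ⟨a i, by simpa using unsteiner_not_mem hF hi hlen⟩
  set d : V3 := Function.update (fun j => a j - 1 / 2) i 0 with hd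
  set F' : Set V3 := (fun x => x + d) ⁻¹' F with hF'
  have hF't : IsTorusSet F' := isTorusSet_shift hF d
  have hlen' : ∀ᵐ q : Fin 2 → ℝ,
      lineLen F i (Torus.ins i 0 q + d) = lineLen (canon S R a) i (Torus.ins i 0 q + d) := by
    refine ae_face (p := fun x => lineLen F i (x + d) = lineLen (canon S R a) i (x + d))
      (fun x t h => ?_) ((measurePreserving_add_right volume d).quasiMeasurePreserving.ae hlen)
    have e : Function.update x i t + d = Function.update (x + d) i (t + d i) := by
      funext j
      by_cases hj : j = i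
      · subst hj; simp
      · simp [hj]
    rwa [e, lineLen_update, lineLen_update] at h
  have hupd : ∀ q t, Torus.ins i t q + d = Function.update (Torus.ins i 0 q + d) i t := fun q t => by
    funext j
    rcases Fin.eq_self_or_eq_succAbove i j with rfl | ⟨l, rfl⟩ <;> simp [hd, Torus.ins]
  have hind : ∀ x, ind F' x = ind F (x + d) := fun x => by
    by_cases h : x + d ∈ F <;> simp [ind, hF', h]
  have hline : ∀ᵐ q : Fin 2 → ℝ, q ∈ square → (∫ t in (0 : ℝ)..1, lineInd F' i q t) =
      if sig S i q < R ^ 2 then 2 * hs S R i q else 0 := by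
    filter_upwards [hlen'] with q hq hsq
    have e : ∀ t, lineInd F' i q t = ind F (Function.update (Torus.ins i 0 q + d) i t) :=
      fun t => by rw [lineInd, hind, hupd]
    simp only [e, ← lineLen_eq hF.1]
    rw [hq, hd, lineLen_canon hR hR2 hi a hsq]
  have hvolF : torusVol (canon S R a) = torusVol F := by
    rw [torusVol_eq_lines hC i, torusVol_eq_lines hF i]
    exact setIntegral_congr_ae measurableSet_square ((ae_face (fun x t h => by
      rwa [lineLen_update, lineLen_update] at h) hlen).mono fun q hq _ => hq.symm)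
  have hvol : torusVol F' = ∫ q in om S R i, 2 * hs S R i q := by
    rw [torusVol_eq_lines hF't i]
    have e : ∫ q in square, lineLen F' i (Torus.ins i 0 q) =
        ∫ q in square, if sig S i q < R ^ 2 then 2 * hs S R i q else 0 := by
      refine setIntegral_congr_ae measurableSet_square ?_
      filter_upwards [hline] with q hq hsq
      rw [lineLen_eq hF't.1]
      simp only [← ins_eq_update]
      exact hq hsq
    rw [e, setIntegral_eq_of_subset_of_forall_sdiff_eq_zero measurableSet_square
      (fun q (hq : q ∈ om S R i) => hq.1)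
      (fun q (hq : q ∈ square \ om S R i) => if_neg fun h => hq.2 ⟨hq.1, h⟩)]
    exact setIntegral_congr_fun isOpen_om.measurableSet fun q hq => if_pos hq.2
  have hk : (0 : ℝ) ≤ S.card * torusVol (canon S R a) / R := by
    have : 0 ≤ torusVol (canon S R a) := measureReal_nonneg
    positivity
  have hfin : perim F ≠ ⊤ := ne_top_of_le_ne_top ENNReal.ofReal_ne_top hper
  have htv : TVle (ind F') (S.card * (∫ q in om S R i, 2 * hs S R i q) / R) := by
    refine tvle_shift hF d ?_
    intro X hX
    refine (tvle_of_perim hF.1 hfin X hX).trans ?_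
    rw [← hvol, hF', torusVol_shift hF d, ← hvolF]
    have := ENNReal.toReal_mono ENNReal.ofReal_ne_top hper
    rwa [ENNReal.toReal_ofReal hk] at this
  obtain ⟨c0, hc0⟩ := (Setup.exists_centre
    (⟨hF't, hi, hR, hR2, hline, htv⟩ : Setup F' S R i))
  refine ⟨c0, ?_⟩
  set B : Set V3 := canon S R (Function.update a i c0)
  have hB := isTorusSet_canon S R (Function.update a i c0)
  have hmain : F' =ᵐ[volume] ((fun x => x + d) ⁻¹' B : Set V3) := by
    refine ae_of_lines hF't (isTorusSet_shift hB d) i ?_
    filter_upwards [hc0] with q hq hsq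
    filter_upwards [hq hsq] with t ht htm
    have h1 : ind F' (Torus.ins i t q) = _ := ht htm
    have h2 : ind ((fun x => x + d) ⁻¹' B) (Torus.ins i t q) = ind B (Torus.ins i t q + d) := by
      by_cases h : Torus.ins i t q + d ∈ B <;> simp [ind, h]
    have hd' : d = Function.update (fun j => Function.update a i c0 j - 1 / 2) i 0 := by
      funext j
      by_cases hj : j = i
      · subst hj; simp [hd]
      · simp [hd, hj]
    rw [h1, h2, hd', ind_canon_ins hi _ hsq, Function.update_self]
  have h := (measurePreserving_add_right volume (-d)).quasiMeasurePreserving.ae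
    (eventuallyEq_set.1 hmain)
  exact eventuallyEq_set.2 (h.mono fun x hx => by simpa [hF', neg_add_cancel_right] using hx)

end Vale.Agent.P232
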