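import Vale.Agent.P232.Defs

/-! # P232, module C2: a bounded function with vanishing weak gradient on a convex set is constant -/

namespace Vale.Agent.P232

open MeasureTheory Set Filter Topology
open scoped Convolution

/-- Shrinking bump on the plane. -/
noncomputable def bump2 (n : ℕ) : ContDiffBump (0 : Fin 2 → ℝ) where
  rIn := 1 / ((n : ℝ) + 1)
  rOut := 2 / ((n : ℝ) + 1)
  rIn_pos := by positivity
  rIn_lt_rOut := div_lt_div_of_pos_right one_lt_two (by positivity)

theorem weakly_constant {U : Set (Fin 2 → ℝ)} (hU : IsOpen U) (hc : Convex ℝ U)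
    {u : (Fin 2 → ℝ) → ℝ} (hu : Measurable u) {M : ℝ} (hM : ∀ q, |u q| ≤ M)
    (h : ∀ ψ : (Fin 2 → ℝ) → ℝ, ContDiff ℝ 1 ψ → HasCompactSupport ψ → tsupport ψ ⊆ U →
      ∀ j, ∫ q, u q * fderiv ℝ ψ q (Pi.single j 1) = 0) :
    ∃ C, ∀ᵐ q : Fin 2 → ℝ, q ∈ U → u q = C := by
  set g : (Fin 2 → ℝ) → ℝ := U.indicator u with hg
  have hgm : Measurable g := hu.indicator hU.measurableSet
  have hgb : ∀ q, ‖g q‖ ≤ max M 0 := fun q => by
    by_cases hq : q ∈ U <;> simp [hg, hq, hM q]
  have hgi : LocallyIntegrable g volume := fun q =>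
    ⟨Metric.closedBall q 1, Metric.closedBall_mem_nhds q one_pos,
      IntegrableOn.of_bound measure_closedBall_lt_top hgm.aestronglyMeasurable (max M 0)
        (ae_of_all _ hgb)⟩
  set ρ : ℕ → (Fin 2 → ℝ) → ℝ := fun n => (bump2 n).normed volume with hρ
  set v : ℕ → (Fin 2 → ℝ) → ℝ :=
    fun n => ρ n ⋆[ContinuousLinearMap.lsmul ℝ ℝ, volume] g with hv
  have hρc : ∀ n, ContDiff ℝ 1 (ρ n) := fun n => (bump2 n).contDiff_normed
  set Un : ℕ → Set (Fin 2 → ℝ) := fun n => {x | Metric.closedBall x (2 / ((n : ℝ) + 1)) ⊆ U}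
  have hUc : ∀ n, Convex ℝ (Un n) := by
    intro n x hx y hy a b ha hb hab w hw
    rw [Metric.mem_closedBall, dist_eq_norm] at hw
    set d := w - (a • x + b • y) with hd
    have ex : x + d ∈ U := hx (by simpa [Metric.mem_closedBall, dist_eq_norm] using hw)
    have ey : y + d ∈ U := hy (by simpa [Metric.mem_closedBall, dist_eq_norm] using hw)
    have e : w = a • (x + d) + b • (y + d) := by
      rw [smul_add, smul_add, add_add_add_comm, ← add_smul, hab, one_smul, hd]
      abel
    rw [e]
    exact hc ex ey ha hb hab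
  have hzero : ∀ n x, x ∈ Un n → HasFDerivAt (v n) (0 : (Fin 2 → ℝ) →L[ℝ] ℝ) x := by
    intro n x hx
    have hd := ((bump2 n).hasCompactSupport_normed (μ := volume)).hasFDerivAt_convolution_left
      (ContinuousLinearMap.lsmul ℝ ℝ) (hρc n) hgi x
    refine HasFDerivAt.congr_fderiv hd ?_
    have hint : Integrable (fun t => (ContinuousLinearMap.precompL (Fin 2 → ℝ)
        (ContinuousLinearMap.lsmul ℝ ℝ)) (fderiv ℝ (ρ n) t) (g (x - t))) :=
      (((bump2 n).hasCompactSupport_normed (μ := volume)).fderiv ℝ).convolutionExists_left _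
        ((hρc n).continuous_fderiv one_ne_zero) hgi x
    refine ContinuousLinearMap.ext fun w => ?_
    rw [zero_apply, convolution_def, ContinuousLinearMap.integral_apply hint]
    set ψ : (Fin 2 → ℝ) → ℝ := fun y => ρ n (x - y) with hψ
    have hψ1 : ContDiff ℝ 1 ψ := (hρc n).comp (contDiff_const.sub contDiff_id)
    have hts : tsupport ψ ⊆ Metric.closedBall x (2 / ((n : ℝ) + 1)) := by
      refine closure_minimal (fun y hy => ?_) Metric.isClosed_closedBall
      have h1 : x - y ∈ Function.support ((bump2 n).normed volume) := hy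
      rw [(bump2 n).support_normed_eq, Metric.mem_ball, dist_zero_right] at h1
      rw [Metric.mem_closedBall, dist_comm, dist_eq_norm]
      exact h1.le
    have hψc : HasCompactSupport ψ :=
      (isCompact_closedBall x _).of_isClosed_subset (isClosed_tsupport _) hts
    have hder : ∀ y, fderiv ℝ ψ y w = -fderiv ℝ (ρ n) (x - y) w := fun y => by
      have h1 := (((hρc n).differentiable one_ne_zero) (x - y)).hasFDerivAt.comp y
        ((hasFDerivAt_id y).const_sub x)
      rw [show ψ = ρ n ∘ fun y => x - y from rfl, h1.fderiv]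
      simp
    have hsum : ∀ y, fderiv ℝ ψ y w = ∑ j, w j * fderiv ℝ ψ y (Pi.single j 1) := fun y => by
      conv_lhs => rw [pi_eq_sum_univ' w]
      simp
    have hI : ∀ j, Integrable fun y => u y * fderiv ℝ ψ y (Pi.single j 1) := fun j => by
      have hcont : Continuous fun y => fderiv ℝ ψ y (Pi.single j 1) :=
        (hψ1.continuous_fderiv one_ne_zero).clm_apply continuous_const
      exact (hcont.integrable_of_hasCompactSupport (hψc.fderiv_apply ℝ _)).bdd_mul
        hu.aestronglyMeasurable (c := M) (ae_of_all _ fun y => hM y)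
    have key : ∫ y, u y * fderiv ℝ ψ y w = 0 := by
      simp only [hsum, Finset.mul_sum, ← mul_assoc, mul_comm (u _) (w _)]
      simp only [mul_assoc]
      rw [integral_finsetSum _ fun j _ => (hI j).const_mul _]
      simp [integral_const_mul, h ψ hψ1 hψc (hts.trans hx)]
    have hval : ∀ t, ((ContinuousLinearMap.precompL (Fin 2 → ℝ)
        (ContinuousLinearMap.lsmul ℝ ℝ)) (fderiv ℝ (ρ n) t) (g (x - t))) w =
        -(u (x - t) * fderiv ℝ ψ (x - t) w) := fun t => by
      simp only [ContinuousLinearMap.precompL_apply, ContinuousLinearMap.lsmul_apply, smul_eq_mul,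
        hder, sub_sub_cancel]
      by_cases ht : x - t ∈ U
      · simp only [hg, indicator_of_mem ht]; ring
      · have hnot : x - t ∉ tsupport ψ := fun hmem => ht (hx (hts hmem))
        have h0 := image_eq_zero_of_notMem_tsupport
          (fun hmem => hnot (tsupport_fderiv_apply_subset ℝ w hmem))
        have h1 := hder (x - t)
        rw [sub_sub_cancel] at h1
        rw [h1] at h0
        simp only [hg, indicator_of_notMem ht, mul_zero]
        rw [neg_eq_zero] at h0
        simp [h0]
    simp only [hval]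
    rw [integral_sub_left_eq_self (fun y => -(u y * fderiv ℝ ψ y w)) volume x, integral_neg, key,
      neg_zero]
  have hconst : ∀ n x y, x ∈ Un n → y ∈ Un n → v n x = v n y := fun n x y hx hy => by
    have := (hUc n).norm_image_sub_le_of_norm_hasFDerivWithin_le
      (fun z hz => (hzero n z hz).hasFDerivWithinAt) (C := 0) (fun z _ => by simp) hy hx
    simpa [sub_eq_zero] using this
  have hlim : ∀ᵐ q : Fin 2 → ℝ, Tendsto (fun n => v n q) atTop (𝓝 (g q)) := by
    refine ContDiffBump.ae_convolution_tendsto_right_of_locallyIntegrable (K := 2) ?_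
      (Eventually.of_forall fun n => ?_) hgi
    · simpa [bump2, div_eq_mul_inv] using
        (tendsto_one_div_add_atTop_nhds_zero_nat (𝕜 := ℝ)).const_mul 2
    · simp [bump2, div_eq_mul_inv]
  by_cases hex : ∃ q ∈ U, Tendsto (fun n => v n q) atTop (𝓝 (g q))
  · obtain ⟨q0, hq0, hl0⟩ := hex
    refine ⟨u q0, hlim.mono fun q hl hq => ?_⟩
    have hev : ∀ z ∈ U, ∀ᶠ n : ℕ in atTop, z ∈ Un n := fun z hz => by
      obtain ⟨r, hr, hball⟩ := Metric.isOpen_iff.1 hU z hz
      have ht : Tendsto (fun n : ℕ => 2 / ((n : ℝ) + 1)) atTop (𝓝 0) := by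
        simpa [div_eq_mul_inv] using
          (tendsto_one_div_add_atTop_nhds_zero_nat (𝕜 := ℝ)).const_mul 2
      filter_upwards [ht.eventually (gt_mem_nhds hr)] with n hn
      exact (Metric.closedBall_subset_ball hn).trans hball
    have h2 : Tendsto (fun n => v n q) atTop (𝓝 (g q0)) :=
      hl0.congr' ((hev q hq).and (hev q0 hq0) |>.mono fun n hn => hconst n q0 q hn.2 hn.1)
    have := tendsto_nhds_unique hl h2
    simpa [hg, hq, hq0] using this
  · push Not at hex
    exact ⟨0, hlim.mono fun q hl hq => absurd hl (hex q hq)⟩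

end Vale.Agent.P232
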