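import Vale.Agent.P232.Attain
import Vale.Agent.P232.Reduction
import Vale.Agent.P232.Line
import Vale.Agent.P232.Surf
import Vale.Agent.P232.WeakConst

/-! # P232, module C2: the equality step of one symmetrisation, centred form -/

namespace Vale.Agent.P232

open MeasureTheory Set Filter Topology
open scoped ENNReal

namespace Unst

/-- Indicator of a set on a line. -/
noncomputable def lineInd (F : Set V3) (i : Fin 3) (q : Fin 2 → ℝ) (t : ℝ) : ℝ :=
  ind F (Torus.ins i t q)

/-- Offset of a face coordinate from the centre, for axes in `S`. -/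
noncomputable def yv (S : Finset (Fin 3)) (i : Fin 3) (q : Fin 2 → ℝ) (j : Fin 2) : ℝ :=
  if i.succAbove j ∈ S then q j - 1 / 2 else 0

/-- Squared distance on the face. -/
noncomputable def sig (S : Finset (Fin 3)) (i : Fin 3) (q : Fin 2 → ℝ) : ℝ :=
  ∑ j, yv S i q j ^ 2

/-- Half length of the fibre. -/
noncomputable def hs (S : Finset (Fin 3)) (R : ℝ) (i : Fin 3) (q : Fin 2 → ℝ) : ℝ :=
  √(R ^ 2 - sig S i q)

/-- The fields of the calibration. -/
noncomputable def bf (S : Finset (Fin 3)) (i : Fin 3) (R R' : ℝ) (j : Fin 3) (x : V3) : ℝ :=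
  if j ∈ S.erase i then (x j - 1 / 2) / R' * Region.cut (S.erase i) R R' x else 0

/-- The weight of the component along the axis. -/
noncomputable def gam (S : Finset (Fin 3)) (i : Fin 3) (R R' : ℝ) (x : V3) : ℝ :=
  √(1 - ∑ j, bf S i R R' j x ^ 2)

theorem sqd_ins (S : Finset (Fin 3)) (i : Fin 3) (t : ℝ) (q : Fin 2 → ℝ) :
    Region.sqd (S.erase i) (Torus.ins i t q) = sig S i q := by
  have h : Region.sqd (S.erase i) (Torus.ins i t q) =
      ∑ j, if j ∈ S.erase i then (Torus.ins i t q j - 1 / 2) ^ 2 else 0 := by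
    rw [Finset.sum_ite_mem, Finset.univ_inter]; rfl
  rw [h, Fin.sum_univ_succAbove _ i, sig]
  simp [yv, Torus.ins, Fin.succAbove_ne, ite_pow]

theorem continuous_yv (S : Finset (Fin 3)) (i : Fin 3) (j : Fin 2) :
    Continuous fun q => yv S i q j := by
  unfold yv
  split_ifs <;> fun_prop

theorem continuous_sig (S : Finset (Fin 3)) (i : Fin 3) : Continuous (sig S i) :=
  continuous_finsetSum _ fun j _ => (continuous_yv S i j).pow 2

theorem sig_nonneg (S : Finset (Fin 3)) (i : Fin 3) (q : Fin 2 → ℝ) : 0 ≤ sig S i q :=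
  Finset.sum_nonneg fun _ _ => sq_nonneg _

theorem continuous_hs (S : Finset (Fin 3)) (R : ℝ) (i : Fin 3) : Continuous (hs S R i) :=
  (continuous_const.sub (continuous_sig S i)).sqrt

theorem hs_le {S : Finset (Fin 3)} {R : ℝ} (hR : 0 ≤ R) (i : Fin 3) (q : Fin 2 → ℝ) :
    hs S R i q ≤ R :=
  Real.sqrt_le_iff.2 ⟨hR, by linarith [sig_nonneg S i q]⟩

theorem yv_sq_le (S : Finset (Fin 3)) (i : Fin 3) (q : Fin 2 → ℝ) (j : Fin 2) :
    yv S i q j ^ 2 ≤ sig S i q :=
  Finset.single_le_sum (f := fun j => yv S i q j ^ 2) (fun _ _ => sq_nonneg _) (Finset.mem_univ j)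

theorem contDiff_bf (S : Finset (Fin 3)) (i : Fin 3) (R R' : ℝ) (j : Fin 3) :
    ContDiff ℝ 1 (bf S i R R' j) := by
  unfold bf
  split_ifs
  · exact (((contDiff_apply ℝ ℝ j).sub contDiff_const).div_const R').mul
      (Region.contDiff_cut _ R R')
  · exact contDiff_const

theorem sum_bf_sq_le {S : Finset (Fin 3)} {i : Fin 3} {R R' : ℝ} (h0 : 0 < R')
    (h : R ^ 2 < R' ^ 2) (x : V3) : ∑ j, bf S i R R' j x ^ 2 ≤ 1 := by
  have e : ∑ j, bf S i R R' j x ^ 2 =
      Region.sqd (S.erase i) x / R' ^ 2 * Region.cut (S.erase i) R R' x ^ 2 := by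
    simp only [bf, ite_pow, zero_pow (two_ne_zero), Finset.sum_ite_mem, Finset.univ_inter,
      mul_pow, div_pow, Region.sqd, Finset.sum_div, Finset.sum_mul]
  rw [e]
  rcases le_or_gt (R' ^ 2) (Region.sqd (S.erase i) x) with hx | hx
  · simp [Region.cut_eq_zero h hx]
  · have hc := Region.cut_mem (S.erase i) R R' x
    refine mul_le_one₀ ((div_le_one (by positivity)).2 hx.le) (sq_nonneg _) ?_
    exact pow_le_one₀ hc.1 hc.2

theorem continuous_gam (S : Finset (Fin 3)) (i : Fin 3) (R R' : ℝ) :
    Continuous (gam S i R R') := by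
  have := fun j => (contDiff_bf S i R R' j).continuous
  unfold gam
  fun_prop

theorem bf_axis (S : Finset (Fin 3)) (i : Fin 3) (R R' : ℝ) (x : V3) : bf S i R R' i x = 0 := by
  simp [bf]

theorem bf_inside {S : Finset (Fin 3)} {i : Fin 3} {R R' : ℝ} (h : R ^ 2 < R' ^ 2) {q : Fin 2 → ℝ}
    (hq : sig S i q < R ^ 2) (t : ℝ) (j : Fin 2) :
    bf S i R R' (i.succAbove j) (Torus.ins i t q) = yv S i q j / R' := by
  have hc := Region.cut_eq_one h ((sqd_ins S i t q).trans_le hq.le)
  simp only [bf, hc, mul_one, Torus.ins, Fin.insertNth_apply_succAbove, yv, Finset.mem_erase,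
    ne_eq, Fin.succAbove_ne, not_false_eq_true, true_and]
  split_ifs <;> simp

theorem gam_inside {S : Finset (Fin 3)} {i : Fin 3} {R R' : ℝ} (h : R ^ 2 < R' ^ 2) (h0 : 0 < R')
    {q : Fin 2 → ℝ} (hq : sig S i q < R ^ 2) (t : ℝ) :
    R' * gam S i R R' (Torus.ins i t q) = √(R' ^ 2 - sig S i q) := by
  rw [gam, Fin.sum_univ_succAbove _ i, bf_axis]
  simp only [bf_inside h hq, div_pow, ← Finset.sum_div]
  rw [← Real.sqrt_sq h0.le, ← Real.sqrt_mul (sq_nonneg R'), Real.sqrt_sq h0.le]
  congr 1
  simp only [sig]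
  field_simp
  ring

/-- The algebra of the defect. -/
theorem defect_bounds {i : Fin 3} {v b : Fin 3 → ℝ} {γ : ℝ} (hbi : b i = 0) (hγ : 0 ≤ γ)
    (h1 : ∑ j, b j ^ 2 + γ ^ 2 = 1) :
    0 ≤ √(∑ j, v j ^ 2) - γ * |v i| + ∑ j, b j * v j ∧
      ∀ lam : ℝ, 0 < lam → ∀ j, j ≠ i →
        |γ * v j + b j * (|v i|)| ≤ lam * √(∑ j, v j ^ 2) +
          (√(∑ j, v j ^ 2) - γ * |v i| + ∑ j, b j * v j) / (2 * lam) := by
  set w := √(∑ j, v j ^ 2) with hw
  have hw0 : 0 ≤ w := Real.sqrt_nonneg _
  have hw2 : w ^ 2 = ∑ j, v j ^ 2 := Real.sq_sqrt (Finset.sum_nonneg fun _ _ => sq_nonneg _)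
  set D := w - γ * |v i| + ∑ j, b j * v j with hD
  have key : (∑ j ∈ Finset.univ.erase i, (v j + w * b j) ^ 2) + (|v i| - w * γ) ^ 2 =
      2 * w * D := by
    have ea : ∑ j, (v j + w * b j) ^ 2 =
        w ^ 2 + 2 * w * ∑ j, b j * v j + w ^ 2 * ∑ j, b j ^ 2 := by
      have e0 : ∀ j, (v j + w * b j) ^ 2 = v j ^ 2 + 2 * w * (b j * v j) + w ^ 2 * b j ^ 2 :=
        fun j => by ring
      simp only [e0, Finset.sum_add_distrib, ← Finset.mul_sum]
      rw [← hw2]
    rw [← Finset.add_sum_erase _ _ (Finset.mem_univ i), hbi, mul_zero, add_zero] at ea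
    have := sq_abs (v i)
    linear_combination ea + this + w ^ 2 * h1
  have hD0 : 0 ≤ D := by
    rcases hw0.lt_or_eq with h | h
    · have : 0 ≤ 2 * w * D := key ▸ add_nonneg (Finset.sum_nonneg fun _ _ => sq_nonneg _) (sq_nonneg _)
      exact nonneg_of_mul_nonneg_right this (by linarith)
    · have hv : ∀ j, v j = 0 := fun j => by
        have h2 : ∑ j, v j ^ 2 = 0 := by rw [← hw2, ← h]; ring
        exact pow_eq_zero_iff two_ne_zero |>.1
          ((Finset.sum_eq_zero_iff_of_nonneg fun _ _ => sq_nonneg _).1 h2 j (Finset.mem_univ j))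
      simp [hD, ← h, hv]
  refine ⟨hD0, fun lam hl j hj => abs_le_of_sq_le_sq ?_ (by positivity)⟩
  have hp : (v j + w * b j) ^ 2 ≤ ∑ l ∈ Finset.univ.erase i, (v l + w * b l) ^ 2 :=
    Finset.single_le_sum (f := fun l => (v l + w * b l) ^ 2) (fun _ _ => sq_nonneg _)
      (Finset.mem_erase.2 ⟨hj, Finset.mem_univ j⟩)
  have hb : b j ^ 2 + γ ^ 2 ≤ 1 := by
    have := Finset.single_le_sum (f := fun l => b l ^ 2) (fun _ _ => sq_nonneg _) (Finset.mem_univ j)
    linarith
  have e : γ * v j + b j * |v i| = γ * (v j + w * b j) + b j * (|v i| - w * γ) := by ring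
  have hcs : (γ * (v j + w * b j) + b j * (|v i| - w * γ)) ^ 2 ≤ 2 * w * D := by
    nlinarith [sq_nonneg (γ * (|v i| - w * γ) - b j * (v j + w * b j)),
      mul_le_mul_of_nonneg_right hb (add_nonneg (sq_nonneg (v j + w * b j))
        (sq_nonneg (|v i| - w * γ)))]
  rw [e]
  refine hcs.trans ?_
  have e2 : (lam * w + D / (2 * lam)) ^ 2 = (lam * w - D / (2 * lam)) ^ 2 + 2 * w * D := by
    field_simp; ring
  rw [e2]
  linarith [sq_nonneg (lam * w - D / (2 * lam))]

theorem ins_add_one (i : Fin 3) (t : ℝ) (q : Fin 2 → ℝ) :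
    Torus.ins i (t + 1) q =
      Torus.ins i t q + fun j => (((Pi.single i 1 : Fin 3 → ℤ) j : ℤ) : ℝ) := by
  funext j
  rcases Fin.eq_self_or_eq_succAbove i j with rfl | ⟨k, rfl⟩ <;> simp [Torus.ins]

theorem periodic_ins {α : Type} {f : V3 → α} (hf : ZPeriodic f) (i : Fin 3) (q : Fin 2 → ℝ) :
    Function.Periodic (fun t => f (Torus.ins i t q)) 1 := fun t => by
  show f (Torus.ins i (t + 1) q) = _
  rw [ins_add_one]
  exact hf _ _

variable {F : Set V3} {S : Finset (Fin 3)} {R : ℝ} {i : Fin 3}

/-- The face points over the interior of the shape. -/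
def om (S : Finset (Fin 3)) (R : ℝ) (i : Fin 3) : Set (Fin 2 → ℝ) :=
  {q | q ∈ square ∧ sig S i q < R ^ 2}

theorem isOpen_om : IsOpen (om S R i) :=
  (isOpen_set_pi finite_univ fun _ _ => isOpen_Ioo).inter
    (isOpen_lt (continuous_sig S i) continuous_const)

theorem convex_om : Convex ℝ (om S R i) := by
  refine (convex_pi fun _ _ => convex_Ioo 0 1).inter ?_
  intro q hq q' hq' a b ha hb hab
  have h : sig S i (a • q + b • q') ≤ a * sig S i q + b * sig S i q' := by
    simp only [sig, Finset.mul_sum, ← Finset.sum_add_distrib]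
    refine Finset.sum_le_sum fun j _ => ?_
    have e : yv S i (a • q + b • q') j = a * yv S i q j + b * yv S i q' j := by
      simp only [yv, Pi.add_apply, Pi.smul_apply, smul_eq_mul]
      split_ifs
      · linear_combination (1 / 2) * hab
      · ring
    rw [e]
    have hb' : b = 1 - a := by linarith
    subst hb'
    nlinarith [mul_nonneg (mul_nonneg ha hb) (sq_nonneg (yv S i q j - yv S i q' j))]
  refine lt_of_le_of_lt h ?_
  rcases ha.lt_or_eq with ha' | ha'
  · nlinarith [mul_lt_mul_of_pos_left (show sig S i q < R ^ 2 from hq) ha',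
      mul_le_mul_of_nonneg_left (show sig S i q' ≤ R ^ 2 from le_of_lt hq') hb]
  · subst ha'
    obtain rfl : b = 1 := by linarith
    rw [zero_mul, zero_add, one_mul]
    exact hq'

/-- Data of the core argument. -/
structure Setup (F : Set V3) (S : Finset (Fin 3)) (R : ℝ) (i : Fin 3) : Prop where
  torus : IsTorusSet F
  mem : i ∈ S
  pos : 0 < R
  lt_half : R < 1 / 2
  line : ∀ᵐ q : Fin 2 → ℝ, q ∈ square → (∫ t in (0 : ℝ)..1, lineInd F i q t) =
    if sig S i q < R ^ 2 then 2 * hs S R i q else 0
  tv : TVle (ind F) (S.card * (∫ q in om S R i, 2 * hs S R i q) / R)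

variable (H : Setup F S R i)

theorem Setup.hs_pos {q : Fin 2 → ℝ} (hq : q ∈ om S R i) : 0 < hs S R i q :=
  Real.sqrt_pos.2 (sub_pos.2 hq.2)

/-- Variation on a line. -/
noncomputable def tvLine (F : Set V3) (i : Fin 3) (n : ℕ) (q : Fin 2 → ℝ) : ℝ :=
  ∫ t in (0 : ℝ)..1, |grad (moll F n) (Torus.ins i t q) i|

theorem continuous_grad_moll (hF : MeasurableSet F) (n : ℕ) (j : Fin 3) :
    Continuous fun x => grad (moll F n) x j :=
  Torus.continuous_partial ((contDiff_moll hF n).of_le one_le_two) j

theorem continuous_gnorm_moll (hF : MeasurableSet F) (n : ℕ) : Continuous (gnorm (moll F n)) := by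
  have := fun j => continuous_grad_moll hF n j
  unfold gnorm
  fun_prop

theorem continuous_tvLine (hF : MeasurableSet F) (n : ℕ) : Continuous (tvLine F i n) := by
  unfold tvLine
  exact intervalIntegral.continuous_parametric_intervalIntegral_of_continuous'
    ((continuous_grad_moll hF n i).comp
      ((Torus.continuous_ins i).comp (continuous_snd.prodMk continuous_fst))).abs 0 1

theorem tvLine_nonneg (n : ℕ) (q : Fin 2 → ℝ) : 0 ≤ tvLine F i n q :=
  intervalIntegral.integral_nonneg zero_le_one fun _ _ => abs_nonneg _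

theorem contDiff_line (hF : MeasurableSet F) (n : ℕ) (q : Fin 2 → ℝ) :
    ContDiff ℝ 1 (fun t => moll F n (Torus.ins i t q)) ∧
      ∀ t, deriv (fun t => moll F n (Torus.ins i t q)) t = grad (moll F n) (Torus.ins i t q) i := by
  have hd : ∀ t, HasDerivAt (fun t => moll F n (Torus.ins i t q))
      (grad (moll F n) (Torus.ins i t q) i) t := fun t =>
    (((contDiff_moll hF n).differentiable two_ne_zero) _).hasFDerivAt.comp_hasDerivAt t
      (Torus.hasDerivAt_ins i q t)
  refine ⟨contDiff_one_iff_deriv.2 ⟨fun t => (hd t).differentiableAt, ?_⟩, fun t => (hd t).deriv⟩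
  rw [funext fun t => (hd t).deriv]
  exact (continuous_grad_moll hF n i).comp
    ((Torus.continuous_ins i).comp (continuous_id.prodMk continuous_const))

theorem measurable_lineInd (hF : MeasurableSet F) (q : Fin 2 → ℝ) :
    Measurable (lineInd F i q) :=
  (measurable_ind hF).comp
    ((Torus.continuous_ins i).comp (continuous_id.prodMk continuous_const)).measurable

theorem ae_line_tendsto (hF : MeasurableSet F) (i : Fin 3) :
    ∀ᵐ q : Fin 2 → ℝ, ∀ᵐ t : ℝ,
      Tendsto (fun n => moll F n (Torus.ins i t q)) atTop (𝓝 (lineInd F i q t)) := by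
  have hmp : MeasurePreserving (fun p : (Fin 2 → ℝ) × ℝ => Torus.ins i p.2 p.1)
      ((volume : Measure (Fin 2 → ℝ)).prod volume) volume :=
    (Torus.measurePreserving_ins i).comp Measure.measurePreserving_swap
  exact Measure.ae_ae_of_ae_prod (hmp.quasiMeasurePreserving.ae (ae_tendsto_moll hF))

include H in
/-- On almost every line over the interior, the limiting variation is at least two. -/
theorem Setup.ae_two_le :
    ∀ᵐ q : Fin 2 → ℝ, q ∈ om S R i →
      Tendsto (fun n => min (tvLine F i n q) 2) atTop (𝓝 2) := by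
  filter_upwards [H.line, ae_line_tendsto H.torus.1 i] with q hl ht hq
  have hm := hl hq.1
  rw [if_pos hq.2] at hm
  set χ := lineInd F i q
  have hχ : ∀ t, χ t = 0 ∨ χ t = 1 := fun t => by
    by_cases h : Torus.ins i t q ∈ F <;> simp [χ, lineInd, ind, h]
  have hlt : 2 * hs S R i q < 1 := by
    linarith [hs_le (S := S) H.pos.le i q, H.lt_half]
  have hex : ∀ b : ℝ, (b = 0 ∨ b = 1) → b ≠ 2 * hs S R i q →
      ∃ t ∈ Icc (0 : ℝ) 1, Tendsto (fun n => moll F n (Torus.ins i t q)) atTop (𝓝 (χ t)) ∧
        χ t ≠ b := by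
    intro b _ hne
    by_contra hno
    push Not at hno
    have : (∫ t in (0 : ℝ)..1, χ t) = ∫ _t in (0 : ℝ)..1, b :=
      intervalIntegral.integral_congr_ae (ht.mono fun t htt hmem => by
        rw [uIoc_of_le zero_le_one] at hmem
        exact hno t (Ioc_subset_Icc_self hmem) htt)
    rw [hm, intervalIntegral.integral_const] at this
    simp at this
    exact hne this.symm
  have hpos := Setup.hs_pos hq
  obtain ⟨t1, ht1, hl1, hn1⟩ := hex 0 (Or.inl rfl) (by linarith)
  obtain ⟨t2, ht2, hl2, hn2⟩ := hex 1 (Or.inr rfl) (by linarith)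
  have e1 : χ t1 = 1 := (hχ t1).resolve_left hn1
  have e2 : χ t2 = 0 := (hχ t2).resolve_right hn2
  have hlow : ∀ n, 2 * |moll F n (Torus.ins i t1 q) - moll F n (Torus.ins i t2 q)| ≤
      tvLine F i n q := by
    intro n
    obtain ⟨hc, hd⟩ := contDiff_line (i := i) H.torus.1 n q
    set g := fun t => moll F n (Torus.ins i t q)
    have hgp : Function.Periodic g 1 := periodic_ins (moll_periodic H.torus n) i q
    have hshift : ∀ a, tvLine F i n q = ∫ t in a..a + 1, |deriv g t| := fun a => by
      have := ((periodic_deriv hgp).comp abs).intervalIntegral_add_eq 0 a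
      simpa [tvLine, g, hd] using this
    have main : ∀ a b, a ≤ b → b ≤ a + 1 → 2 * |g b - g a| ≤ tvLine F i n q := fun a b hab hb => by
      rw [hshift a, ← intervalIntegral.integral_add_adjacent_intervals (b := b)
        ((hc.continuous_deriv le_rfl).abs.intervalIntegrable _ _)
        ((hc.continuous_deriv le_rfl).abs.intervalIntegrable _ _)]
      have l1 := abs_sub_eq_abs_integral hc hab
      have l2 := abs_sub_eq_abs_integral hc hb
      rw [hgp a, abs_sub_comm] at l2
      linarith
    rcases le_total t1 t2 with h | h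
    · exact le_of_eq_of_le (by rw [abs_sub_comm]) (main t1 t2 h (by linarith [ht1.1, ht2.2]))
    · exact main t2 t1 h (by linarith [ht2.1, ht1.2])
  have hl : Tendsto (fun n => min (2 * |moll F n (Torus.ins i t1 q) -
      moll F n (Torus.ins i t2 q)|) 2) atTop (𝓝 2) := by
    have := ((hl1.sub hl2).abs.const_mul 2).min (tendsto_const_nhds (x := (2 : ℝ)))
    rw [e1, e2] at this
    simpa using this
  exact tendsto_of_tendsto_of_tendsto_of_le_of_le hl tendsto_const_nhds
    (fun n => min_le_min_right 2 (hlow n)) fun n => min_le_right _ _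

include H in
theorem Setup.divergence {R' : ℝ} (h : R ^ 2 < R' ^ 2) (h' : R' ^ 2 ≤ 1 / 4) :
    Tendsto (fun n => ∫ x in cell,
        moll F n x * ∑ j, fderiv ℝ (bf S i R R' j) x (Pi.single j 1)) atTop
      (𝓝 (((S.card : ℝ) - 1) / R' * torusVol F)) ∧
    ∀ n, ∫ x in cell, ∑ j, bf S i R R' j x * grad (moll F n) x j =
      -∫ x in cell, moll F n x * ∑ j, fderiv ℝ (bf S i R R' j) x (Pi.single j 1) := by
  set dv : V3 → ℝ := fun x => ∑ j, fderiv ℝ (bf S i R R' j) x (Pi.single j 1) with hdv
  have hdvc : Continuous dv :=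
    continuous_finsetSum _ fun j _ => Torus.continuous_partial (contDiff_bf S i R R' j) j
  constructor
  · have hae : ∀ᵐ x ∂(volume.restrict cell),
        ind F x * dv x = ((S.card : ℝ) - 1) / R' * ind F x := by
      have h1 : ∀ᵐ q : Fin 2 → ℝ, ∀ᵐ t : ℝ, q ∈ square → t ∈ Ioc (0 : ℝ) 1 →
          ¬ sig S i q < R ^ 2 → lineInd F i q t = 0 := by
        filter_upwards [H.line] with q hq
        by_cases hqs : q ∈ square ∧ ¬ sig S i q < R ^ 2
        · have h2 := hq hqs.1
          rw [if_neg hqs.2, intervalIntegral.integral_of_le zero_le_one] at h2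
          have hint : IntegrableOn (lineInd F i q) (Ioc 0 1) :=
            IntegrableOn.of_bound measure_Ioc_lt_top
              (measurable_lineInd H.torus.1 q).aestronglyMeasurable 1
              (ae_of_all _ fun t => by
                rw [Real.norm_eq_abs, lineInd, abs_of_nonneg (ind_mem_Icc F _).1]
                exact (ind_mem_Icc F _).2)
          have h3 := (integral_eq_zero_iff_of_nonneg
            (fun t => (ind_mem_Icc F _).1) hint).1 h2
          filter_upwards [(ae_restrict_iff' measurableSet_Ioc).1 h3] with t ht _ htm _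
          exact ht htm
        · exact ae_of_all _ fun t hs _ hn => absurd ⟨hs, hn⟩ hqs
      have h2 : ∀ᵐ x : V3, x ∈ cube → sig S i (fun j => x (i.succAbove j)) < R ^ 2 ∨ ind F x = 0 := by
        set G : Set V3 :=
          {x | x ∈ cube → sig S i (fun j => x (i.succAbove j)) < R ^ 2 ∨ ind F x = 0}
        have hGm : MeasurableSet G := by
          have hc : MeasurableSet cube := MeasurableSet.univ_pi fun _ => measurableSet_Ioo
          have hs : MeasurableSet {x : V3 | sig S i (fun j => x (i.succAbove j)) < R ^ 2} :=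
            measurableSet_lt ((continuous_sig S i).comp
              (continuous_pi fun j => continuous_apply _)).measurable measurable_const
          have hi : MeasurableSet {x | ind F x = 0} :=
            (measurable_ind H.torus.1) (measurableSet_singleton 0)
          have e : G = cubeᶜ ∪ ({x : V3 | sig S i (fun j => x (i.succAbove j)) < R ^ 2} ∪
              {x | ind F x = 0}) := by
            ext x; simp only [G, mem_ofPred_eq, mem_union, mem_compl_iff]; tauto
          rw [e]; exact hc.compl.union (hs.union hi)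
        have hmp : MeasurePreserving (fun p : (Fin 2 → ℝ) × ℝ => Torus.ins i p.2 p.1)
            ((volume : Measure (Fin 2 → ℝ)).prod volume) volume :=
          (Torus.measurePreserving_ins i).comp Measure.measurePreserving_swap
        have h3 : ∀ᵐ p : (Fin 2 → ℝ) × ℝ, Torus.ins i p.2 p.1 ∈ G := by
          refine Measure.ae_prod_iff_ae_ae (hmp.measurable hGm) |>.2 ?_
          filter_upwards [h1] with q hq
          filter_upwards [hq] with t ht hc
          obtain ⟨htm, hqm⟩ := insertNth_mem_cube.1 hc
          by_cases hsig : sig S i q < R ^ 2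
          · left; simpa [Torus.ins] using hsig
          · exact Or.inr (ht hqm (Ioo_subset_Ioc_self htm) hsig)
        rw [← hmp.map_eq]
        exact (ae_map_iff hmp.measurable.aemeasurable hGm).2 h3
      have h4 : ∀ᵐ x ∂(volume.restrict cell), x ∈ cube := by
        have : ∀ᵐ x : V3, ∀ j, x j ≠ 0 :=
          ae_all_iff.2 fun j => (Measure.quasiMeasurePreserving_eval (fun _ : Fin 3 => (volume : Measure ℝ)) j).ae
            (Measure.ae_ne volume 0)
        filter_upwards [ae_restrict_mem Torus.measurableSet_cell, ae_restrict_of_ae this]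
          with x hx hne j _
        exact ⟨lt_of_le_of_ne (hx j trivial).1 (Ne.symm (hne j)), (hx j trivial).2⟩
      filter_upwards [ae_restrict_of_ae h2, h4] with x hx hc
      rcases hx hc with hs | hz
      · have hsq : Region.sqd (S.erase i) x = sig S i (fun j => x (i.succAbove j)) := by
          conv_lhs => rw [← i.insertNth_self_removeNth x]
          exact sqd_ins S i (x i) _
        have e : ∀ j, fderiv ℝ (bf S i R R' j) x (Pi.single j 1) =
            if j ∈ S.erase i then 1 / R' else 0 := by
          intro j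
          unfold bf
          split_ifs with hj
          · rw [fderiv_fun_mul (by fun_prop) ((Region.contDiff_cut _ R R').differentiable one_ne_zero x)]
            simp only [_root_.add_apply, _root_.smul_apply, smul_eq_mul, Region.fderiv_cut,
              Region.slope_eq_zero h (hsq ▸ hs), Region.cut_eq_one h (hsq ▸ hs).le, zero_mul,
              neg_zero, mul_zero, zero_add, one_mul]
            have hd : HasFDerivAt (fun x : V3 => (x j - 1 / 2) / R')
                (R'⁻¹ • ContinuousLinearMap.proj (R := ℝ) (φ := fun _ => ℝ) j) x := by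
              have h1 := ((hasFDerivAt_apply (𝕜 := ℝ) (F' := fun _ : Fin 3 => ℝ) j x).sub_const
                (1 / 2 : ℝ)).const_mul R'⁻¹
              simpa [div_eq_inv_mul] using h1
            rw [hd.fderiv]
            simp
          · simp
        simp only [hdv, e, Finset.sum_ite_mem, Finset.univ_inter, Finset.sum_const, nsmul_eq_mul,
          Finset.card_erase_of_mem H.mem]
        rw [Nat.cast_sub (Finset.card_pos.2 ⟨i, H.mem⟩)]
        push_cast; ring
      · simp [hz]
    have hlim : Tendsto (fun n => ∫ x in cell, moll F n x * dv x) atTop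
        (𝓝 (∫ x in cell, ind F x * dv x)) := by
      obtain ⟨C, hC⟩ := (isCompact_Icc (a := (0 : V3)) (b := 1)).exists_bound_of_continuousOn
        hdvc.continuousOn
      refine tendsto_integral_of_dominated_convergence (fun _ => C) (fun n => ?_)
        (integrable_const _) (fun n => ?_)
        ((ae_restrict_of_ae (ae_tendsto_moll H.torus.1)).mono fun x hx => hx.mul_const _)
      · exact ((contDiff_moll H.torus.1 n).continuous.mul hdvc).aestronglyMeasurable
      · filter_upwards [ae_restrict_mem Torus.measurableSet_cell] with x hx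
        rw [norm_mul, Real.norm_eq_abs, abs_of_nonneg (moll_mem_Icc n x).1]
        exact (mul_le_of_le_one_left (norm_nonneg _) (moll_mem_Icc n x).2).trans
          (hC x (cell_subset_Icc hx))
    rw [integral_congr_ae hae, integral_const_mul, ← torusVol_eq H.torus.1] at hlim
    exact hlim
  · intro n
    have hf1 : ContDiff ℝ 1 (moll F n) := (contDiff_moll H.torus.1 n).of_le one_le_two
    have hz : ∀ j, ∫ x in cell, fderiv ℝ (fun y => moll F n y * bf S i R R' j y) x (Pi.single j 1) = 0 := by
      intro j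
      refine Torus.integral_cell_fderiv (hf1.mul (contDiff_bf S i R R' j)) j fun q => ?_
      show moll F n _ * bf S i R R' j _ = moll F n _ * bf S i R R' j _
      rw [Torus.ins_one_eq (moll_periodic H.torus n) j q]
      congr 1
      unfold bf
      split_ifs with hj
      · have hb : ∀ t : ℝ, t = 0 ∨ t = 1 → 1 / 4 ≤ Region.sqd (S.erase i) (Torus.ins j t q) := by
          rintro t (rfl | rfl)
          · exact Region.face_large hj q
          · rw [Region.sqd_ins]; exact Region.face_large hj q
        rw [Region.cut_eq_zero h (h'.trans (hb 1 (Or.inr rfl))),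
          Region.cut_eq_zero h (h'.trans (hb 0 (Or.inl rfl))), mul_zero, mul_zero]
      · rfl
    have hsum := Finset.sum_eq_zero (s := Finset.univ) fun j _ => hz j
    rw [← integral_finsetSum _ fun j _ => (Torus.integrableOn_cell
      (Torus.continuous_partial (hf1.mul (contDiff_bf S i R R' j)) j)).integrable] at hsum
    have e : ∀ x, ∑ j, fderiv ℝ (fun y => moll F n y * bf S i R R' j y) x (Pi.single j 1) =
        (∑ j, bf S i R R' j x * grad (moll F n) x j) + moll F n x * dv x := by
      intro x
      rw [hdv, Finset.mul_sum, ← Finset.sum_add_distrib]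
      refine Finset.sum_congr rfl fun j _ => ?_
      rw [fderiv_fun_mul (hf1.differentiable one_ne_zero x)
        ((contDiff_bf S i R R' j).differentiable one_ne_zero x)]
      simp only [_root_.add_apply, _root_.smul_apply, smul_eq_mul, grad, evec]
      ring
    simp only [e] at hsum
    have hc1 : Continuous fun x => ∑ j, bf S i R R' j x * grad (moll F n) x j :=
      continuous_finsetSum _ fun j _ =>
        (contDiff_bf S i R R' j).continuous.mul (continuous_grad_moll H.torus.1 n j)
    rw [integral_add (Torus.integrableOn_cell hc1).integrable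
      (Torus.integrableOn_cell (f := fun x => moll F n x * dv x)
        (hf1.continuous.mul hdvc)).integrable] at hsum
    linarith

end Unst

end Vale.Agent.P232
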