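import Vale.Agent.P232.UnsteinerCore
import Vale.Agent.P232.Unfold

/-! # P232, module C2: the defect tends to zero -/

namespace Vale.Agent.P232

open MeasureTheory Set Filter Topology
open scoped ENNReal

namespace Unst

variable {F : Set V3} {S : Finset (Fin 3)} {R : ℝ} {i : Fin 3} (H : Setup F S R i)

theorem volume_om_ne_top : volume (om S R i) ≠ ⊤ :=
  ne_top_of_le_ne_top (by simp [volume_square]) (measure_mono fun q hq => hq.1)

instance om_isFinite : IsFiniteMeasure (volume.restrict (om S R i)) :=
  isFiniteMeasure_restrict.2 volume_om_ne_top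

theorem integrableOn_of_continuous {f : (Fin 2 → ℝ) → ℝ} (hf : Continuous f) :
    IntegrableOn f square := by
  refine (hf.integrableOn_Icc (a := fun _ : Fin 2 => (0 : ℝ)) (b := fun _ => 1)).mono_set ?_
  intro q hq
  exact ⟨fun j => (hq j trivial).1.le, fun j => (hq j trivial).2.le⟩

/-- Fubini over the square. -/
theorem integral_cell_square {f : V3 → ℝ} (hf : IntegrableOn f cell) (i : Fin 3) :
    ∫ x in cell, f x = ∫ q in square, ∫ t in (0 : ℝ)..1, f (Torus.ins i t q) := by
  rw [Torus.integral_cell_split i hf, Unfold.restrict_cell2]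
  refine setIntegral_congr_fun measurableSet_square fun q _ => ?_
  show ∫ t in Ico (0 : ℝ) 1, f (Torus.ins i t q) = _
  rw [intervalIntegral.integral_of_le zero_le_one, integral_Ico_eq_integral_Ioo,
    integral_Ioc_eq_integral_Ioo]

include H in
theorem Setup.torusVol_eq_integral :
    torusVol F = ∫ q in om S R i, 2 * hs S R i q := by
  have hi : IntegrableOn (ind F) cell :=
    integrableOn_cell_of_bound (measurable_ind H.torus.1).aestronglyMeasurable (C := 1)
      fun x => by rw [abs_of_nonneg (ind_mem_Icc F x).1]; exact (ind_mem_Icc F x).2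
  rw [torusVol_eq H.torus.1, integral_cell_square hi i]
  have hsub : om S R i ⊆ square := fun q hq => hq.1
  change ∫ q in square, (∫ t in (0 : ℝ)..1, lineInd F i q t) = _
  rw [setIntegral_eq_of_subset_of_ae_diff_eq_zero measurableSet_square.nullMeasurableSet hsub
    (f := fun q => ∫ t in (0 : ℝ)..1, lineInd F i q t) ?_]
  · refine setIntegral_congr_ae isOpen_om.measurableSet ?_
    filter_upwards [H.line] with q hq hmem
    rw [hq hmem.1, if_pos hmem.2]
  · filter_upwards [H.line] with q hq hmem
    rw [hq hmem.1, if_neg fun hs => hmem.2 ⟨hmem.1, hs⟩]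

theorem gam_ge {R' : ℝ} (hR : 0 < R) (hRR : R < R') {q : Fin 2 → ℝ} (hq : sig S i q < R ^ 2)
    (t : ℝ) : hs S R i q / R ≤ gam S i R R' (Torus.ins i t q) := by
  have h : R ^ 2 < R' ^ 2 := pow_lt_pow_left₀ hRR hR.le two_ne_zero
  have h0 : 0 < R' := hR.trans hRR
  have e := gam_inside h h0 hq t
  have e' : gam S i R R' (Torus.ins i t q) = √(R' ^ 2 - sig S i q) / R' := by
    rw [← e]; field_simp
  rw [e', hs, div_le_div_iff₀ hR h0, ← Real.sqrt_sq h0.le, ← Real.sqrt_mul (by linarith),
    Real.sqrt_sq h0.le]
  calc √((R ^ 2 - sig S i q) * R' ^ 2) ≤ √((R' ^ 2 - sig S i q) * R ^ 2) :=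
        Real.sqrt_le_sqrt (by nlinarith [sig_nonneg S i q])
    _ = √(R' ^ 2 - sig S i q) * R := by rw [Real.sqrt_mul (by linarith), Real.sqrt_sq hR.le]

/-- The defect of the calibration. -/
noncomputable def defect (F : Set V3) (S : Finset (Fin 3)) (i : Fin 3) (R R' : ℝ) (n : ℕ)
    (x : V3) : ℝ :=
  gnorm (moll F n) x - gam S i R R' x * |grad (moll F n) x i| +
    ∑ j, bf S i R R' j x * grad (moll F n) x j

theorem gam_sq_add {R' : ℝ} (h0 : 0 < R') (h : R ^ 2 < R' ^ 2) (x : V3) :
    ∑ j, bf S i R R' j x ^ 2 + gam S i R R' x ^ 2 = 1 := by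
  rw [gam, Real.sq_sqrt (by linarith [sum_bf_sq_le (S := S) (i := i) h0 h x])]
  ring

include H in
theorem Setup.gnorm_le (n : ℕ) :
    ∫ x in cell, gnorm (moll F n) x ≤ S.card * (∫ q in om S R i, 2 * hs S R i q) / R :=
  setIntegral_gnorm_le (contDiff_moll H.torus.1 n) (moll_periodic H.torus n)
    (tvle_moll H.torus H.tv n)

include H in
/-- For a radius slightly above `R` the total defect is eventually small. -/
theorem Setup.defect_small {ε : ℝ} (hε : 0 < ε) : ∀ᶠ R' in 𝓝[>] R, ∀ᶠ n : ℕ in atTop,
    0 ≤ (∫ q in om S R i, hs S R i q * (tvLine F i n q - min (tvLine F i n q) 2)) ∧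
    0 ≤ (∫ x in cell, defect F S i R R' n x) ∧
    (∫ x in cell, defect F S i R R' n x) +
      (∫ q in om S R i, hs S R i q * (tvLine F i n q - min (tvLine F i n q) 2)) / R < ε := by
  set v := ∫ q in om S R i, 2 * hs S R i q with hv
  set k : ℝ := (S.card : ℝ)
  have hη : Tendsto (fun R' : ℝ => (k - 1) * v / R - (k - 1) * v / R') (𝓝[>] R) (𝓝 0) := by
    refine (ContinuousAt.tendsto ?_).mono_left nhdsWithin_le_nhds |>.trans (by simp)
    exact continuousAt_const.sub (continuousAt_const.div continuousAt_id H.pos.ne')
  filter_upwards [self_mem_nhdsWithin, hη.eventually (gt_mem_nhds hε),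
    Ioo_mem_nhdsGT H.lt_half] with R' hR' hsmall hIoo
  replace hR' : R < R' := hR'
  have h0 : 0 < R' := H.pos.trans hR'
  have hsq : R ^ 2 < R' ^ 2 := pow_lt_pow_left₀ hR' H.pos.le two_ne_zero
  have h' : R' ^ 2 ≤ 1 / 4 := by nlinarith [hIoo.2]
  have hD0 : ∀ n x, 0 ≤ defect F S i R R' n x := fun n x =>
    (defect_bounds (v := fun j => grad (moll F n) x j) (bf_axis S i R R' x) (Real.sqrt_nonneg _)
      (gam_sq_add h0 hsq x)).1
  have hE0 : ∀ n, ∀ q, 0 ≤ hs S R i q * (tvLine F i n q - min (tvLine F i n q) 2) := fun n q =>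
    mul_nonneg (Real.sqrt_nonneg _) (sub_nonneg.2 (min_le_left _ _))
  obtain ⟨hA, hparts⟩ := H.divergence hsq h'
  have hU : Tendsto (fun n => ∫ q in om S R i, hs S R i q * min (tvLine F i n q) 2) atTop
      (𝓝 (∫ q in om S R i, hs S R i q * 2)) := by
    refine tendsto_integral_of_dominated_convergence (fun _ => R * 2) (fun n => ?_)
      (integrable_const _) (fun n => ae_of_all _ fun q => ?_) ?_
    · exact ((continuous_hs S R i).mul
        ((continuous_tvLine H.torus.1 n).min continuous_const)).aestronglyMeasurable
    · rw [norm_mul, Real.norm_eq_abs, Real.norm_eq_abs, abs_of_nonneg (show 0 ≤ hs S R i q from Real.sqrt_nonneg _),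
        abs_of_nonneg (le_min (tvLine_nonneg n q) zero_le_two)]
      exact mul_le_mul (hs_le H.pos.le i q) (min_le_right _ _)
        (le_min (tvLine_nonneg n q) zero_le_two) H.pos.le
    · filter_upwards [ae_restrict_of_ae H.ae_two_le, ae_restrict_mem isOpen_om.measurableSet]
        with q hq hmem using (hq hmem).const_mul _
  have hup : ∀ n, (∫ x in cell, defect F S i R R' n x) +
      (∫ q in om S R i, hs S R i q * (tvLine F i n q - min (tvLine F i n q) 2)) / R ≤
      k * v / R -
        (∫ x in cell, moll F n x * ∑ j, fderiv ℝ (bf S i R R' j) x (Pi.single j 1)) -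
        (∫ q in om S R i, hs S R i q * min (tvLine F i n q) 2) / R := by
    intro n
    have hcw := continuous_gnorm_moll H.torus.1 n
    have hcf := (continuous_gam S i R R').mul (continuous_grad_moll H.torus.1 n i).abs
    have hcb : Continuous fun x => ∑ j, bf S i R R' j x * grad (moll F n) x j :=
      continuous_finsetSum _ fun j _ =>
        (contDiff_bf S i R R' j).continuous.mul (continuous_grad_moll H.torus.1 n j)
    have hint : ∀ f : V3 → ℝ, Continuous f → Integrable f (volume.restrict cell) :=
      fun f hf => Torus.integrableOn_cell hf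
    simp only [defect]
    rw [integral_add (hint (fun x => gnorm (moll F n) x - gam S i R R' x * |grad (moll F n) x i|)
        (hcw.sub hcf)) (hint _ hcb),
      integral_sub (hint _ hcw) (hint (fun x => gam S i R R' x * |grad (moll F n) x i|) hcf),
      hparts n]
    have hmain : (∫ q in om S R i, hs S R i q * tvLine F i n q) / R ≤
        ∫ x in cell, gam S i R R' x * |grad (moll F n) x i| := by
      rw [integral_cell_square (Torus.integrableOn_cell
        (f := fun x => gam S i R R' x * |grad (moll F n) x i|) hcf) i, ← integral_div]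
      have hcl : Continuous fun q : Fin 2 → ℝ => ∫ t in (0 : ℝ)..1,
          gam S i R R' (Torus.ins i t q) * |grad (moll F n) (Torus.ins i t q) i| :=
        intervalIntegral.continuous_parametric_intervalIntegral_of_continuous'
          (f := fun q t => gam S i R R' (Torus.ins i t q) * |grad (moll F n) (Torus.ins i t q) i|)
          (hcf.comp ((Torus.continuous_ins i).comp (continuous_snd.prodMk continuous_fst))) 0 1
      refine (setIntegral_mono_on
        (((integrableOn_of_continuous ((continuous_hs S R i).mul
          (continuous_tvLine H.torus.1 n))).mono_set fun q hq => hq.1).div_const R)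
        ((integrableOn_of_continuous hcl).mono_set fun q hq => hq.1) isOpen_om.measurableSet
        fun q hq => ?_).trans (setIntegral_mono_set (integrableOn_of_continuous hcl)
          (ae_of_all _ fun q => intervalIntegral.integral_nonneg zero_le_one fun t _ =>
            mul_nonneg (Real.sqrt_nonneg _) (abs_nonneg _))
          (LE.le.eventuallyLE fun q hq => hq.1))
      show hs S R i q * tvLine F i n q / R ≤ _
      rw [mul_div_right_comm, tvLine, ← intervalIntegral.integral_const_mul]
      have hc1 : Continuous fun t => |grad (moll F n) (Torus.ins i t q) i| :=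
        ((continuous_grad_moll H.torus.1 n i).comp ((Torus.continuous_ins i).comp
          (continuous_id.prodMk continuous_const))).abs
      exact intervalIntegral.integral_mono_on zero_le_one
        ((continuous_const.mul hc1).intervalIntegrable _ _)
        ((hcf.comp ((Torus.continuous_ins i).comp
          (continuous_id.prodMk continuous_const))).intervalIntegrable _ _)
        fun t _ => mul_le_mul_of_nonneg_right (gam_ge H.pos hR' hq.2 t) (abs_nonneg _)
    have hsplit : (∫ q in om S R i, hs S R i q * (tvLine F i n q - min (tvLine F i n q) 2)) / R =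
        (∫ q in om S R i, hs S R i q * tvLine F i n q) / R -
          (∫ q in om S R i, hs S R i q * min (tvLine F i n q) 2) / R := by
      rw [← sub_div, ← integral_sub]
      · simp only [mul_sub]
      · exact (integrableOn_of_continuous ((continuous_hs S R i).mul
          (continuous_tvLine H.torus.1 n))).mono_set fun q hq => hq.1
      · exact (integrableOn_of_continuous ((continuous_hs S R i).mul
          ((continuous_tvLine H.torus.1 n).min continuous_const))).mono_set fun q hq => hq.1
    have := H.gnorm_le n
    linarith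
  have hlim := ((tendsto_const_nhds (x := k * v / R)).sub hA).sub (hU.div_const R)
  have hval : k * v / R - (k - 1) / R' * torusVol F - (∫ q in om S R i, hs S R i q * 2) / R =
      (k - 1) * v / R - (k - 1) * v / R' := by
    have e : (∫ q in om S R i, hs S R i q * 2) = v := by simp only [hv, mul_comm]
    rw [H.torusVol_eq_integral, e, ← hv]
    ring
  rw [hval] at hlim
  filter_upwards [hlim.eventually (gt_mem_nhds hsmall)] with n hn
  exact ⟨integral_nonneg (hE0 n), integral_nonneg (hD0 n), lt_of_le_of_lt (hup n) hn⟩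

include H in
theorem Setup.tendsto_excess :
    Tendsto (fun n => ∫ q in om S R i, hs S R i q * (tvLine F i n q - min (tvLine F i n q) 2))
      atTop (𝓝 0) := by
  refine Metric.tendsto_nhds.2 fun ε hε => ?_
  obtain ⟨R', hev⟩ := (H.defect_small (div_pos hε H.pos)).exists
  filter_upwards [hev] with n hn
  obtain ⟨h1, h2, h3⟩ := hn
  rw [Real.dist_eq, sub_zero, abs_of_nonneg h1]
  have : (∫ q in om S R i, hs S R i q * (tvLine F i n q - min (tvLine F i n q) 2)) / R < ε / R := by
    linarith
  rwa [div_lt_div_iff_of_pos_right H.pos] at this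

/-- The tangential error on the interior. -/
noncomputable def err (F : Set V3) (S : Finset (Fin 3)) (R : ℝ) (i : Fin 3) (j : Fin 2) (n : ℕ)
    (q : Fin 2 → ℝ) : ℝ :=
  ∫ t in (0 : ℝ)..1, |hs S R i q * grad (moll F n) (Torus.ins i t q) (i.succAbove j) +
    yv S i q j * (|grad (moll F n) (Torus.ins i t q) i|)|

theorem continuous_err (hF : MeasurableSet F) (j : Fin 2) (n : ℕ) :
    Continuous (err F S R i j n) := by
  unfold err
  have hins : Continuous fun p : (Fin 2 → ℝ) × ℝ => Torus.ins i p.2 p.1 :=
    (Torus.continuous_ins i).comp (continuous_snd.prodMk continuous_fst)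
  exact intervalIntegral.continuous_parametric_intervalIntegral_of_continuous'
    (((continuous_hs S R i).comp continuous_fst).mul
      ((continuous_grad_moll hF n _).comp hins) |>.add
      (((continuous_yv S i j).comp continuous_fst).mul
        ((continuous_grad_moll hF n i).comp hins).abs)).abs 0 1

include H in
theorem Setup.tendsto_err (j : Fin 2) :
    Tendsto (fun n => ∫ q in om S R i, err F S R i j n q) atTop (𝓝 0) := by
  set P := (S.card : ℝ) * (∫ q in om S R i, 2 * hs S R i q) / R with hP
  have hP0 : 0 ≤ P := H.tv.nonneg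
  refine Metric.tendsto_nhds.2 fun ε hε => ?_
  set lam := ε / (4 * (P + 1)) with hlam
  have hl0 : 0 < lam := by positivity
  have hlP : lam * P ≤ ε / 4 := by
    rw [hlam, div_mul_eq_mul_div, div_le_iff₀ (by positivity)]
    nlinarith
  have hroot : ∀ᶠ R' in 𝓝[>] R, √(R' ^ 2 - R ^ 2) * P < ε / 4 := by
    have : Tendsto (fun R' : ℝ => √(R' ^ 2 - R ^ 2) * P) (𝓝[>] R) (𝓝 0) :=
      (Continuous.tendsto' (by fun_prop) R _ (by simp)).mono_left nhdsWithin_le_nhds
    exact this.eventually (gt_mem_nhds (by positivity))
  obtain ⟨R', ⟨hev, hrt⟩, hIoo⟩ := (((H.defect_small (mul_pos hl0 hε)).and hroot).and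
    (Ioo_mem_nhdsGT H.lt_half)).exists
  have h0 : 0 < R' := H.pos.trans hIoo.1
  have hsq : R ^ 2 < R' ^ 2 := pow_lt_pow_left₀ hIoo.1 H.pos.le two_ne_zero
  filter_upwards [hev] with n hn
  obtain ⟨h1, h2, h3⟩ := hn
  have h1' : 0 ≤ (∫ q in om S R i, hs S R i q * (tvLine F i n q - min (tvLine F i n q) 2)) / R :=
    div_nonneg h1 H.pos.le
  set G : V3 → ℝ := fun x => R' * (lam * gnorm (moll F n) x +
    defect F S i R R' n x / (2 * lam)) + √(R' ^ 2 - R ^ 2) * gnorm (moll F n) x with hG
  have hcw := continuous_gnorm_moll H.torus.1 n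
  have hcD : Continuous (defect F S i R R' n) := by
    have := continuous_gam S i R R'
    have := fun j => (contDiff_bf S i R R' j).continuous
    have := fun j => continuous_grad_moll H.torus.1 n j
    unfold defect
    fun_prop
  have hcG : Continuous G :=
    (continuous_const.mul ((continuous_const.mul hcw).add (hcD.div_const _))).add
      (continuous_const.mul hcw)
  have hG0 : ∀ x, 0 ≤ G x := fun x => by
    have := (defect_bounds (v := fun j => grad (moll F n) x j) (bf_axis S i R R' x)
      (Real.sqrt_nonneg _) (gam_sq_add h0 hsq x)).1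
    have hw : 0 ≤ gnorm (moll F n) x := Real.sqrt_nonneg _
    simp only [hG, defect, gnorm, gam] at this ⊢
    positivity
  have hle : ∫ q in om S R i, err F S R i j n q ≤ ∫ x in cell, G x := by
    have hcl : Continuous fun q : Fin 2 → ℝ => ∫ t in (0 : ℝ)..1, G (Torus.ins i t q) :=
      intervalIntegral.continuous_parametric_intervalIntegral_of_continuous'
        (f := fun q t => G (Torus.ins i t q))
        (hcG.comp ((Torus.continuous_ins i).comp (continuous_snd.prodMk continuous_fst))) 0 1
    rw [integral_cell_square (Torus.integrableOn_cell hcG) i]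
    refine (setIntegral_mono_on
      ((integrableOn_of_continuous (continuous_err H.torus.1 j n)).mono_set fun q hq => hq.1)
      ((integrableOn_of_continuous hcl).mono_set fun q hq => hq.1) isOpen_om.measurableSet
      fun q hq => ?_).trans (setIntegral_mono_set (integrableOn_of_continuous hcl)
        (ae_of_all _ fun q => intervalIntegral.integral_nonneg zero_le_one fun t _ => hG0 _)
        (LE.le.eventuallyLE fun q hq => hq.1))
    have hins : Continuous fun t => Torus.ins i t q :=
      (Torus.continuous_ins i).comp (continuous_id.prodMk continuous_const)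
    have hce : Continuous fun t => |hs S R i q * grad (moll F n) (Torus.ins i t q) (i.succAbove j) +
        yv S i q j * (|grad (moll F n) (Torus.ins i t q) i|)| :=
      ((continuous_const.mul ((continuous_grad_moll H.torus.1 n _).comp hins)).add
        (continuous_const.mul ((continuous_grad_moll H.torus.1 n i).comp hins).abs)).abs
    refine intervalIntegral.integral_mono_on zero_le_one (hce.intervalIntegrable _ _)
      ((hcG.comp hins).intervalIntegrable _ _) fun t _ => ?_
    set x := Torus.ins i t q
    set fj := grad (moll F n) x (i.succAbove j)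
    set fi := grad (moll F n) x i
    have hb : |gam S i R R' x * fj + bf S i R R' (i.succAbove j) x * (|fi|)| ≤
        lam * gnorm (moll F n) x + defect F S i R R' n x / (2 * lam) :=
      (defect_bounds (v := fun j => grad (moll F n) x j) (bf_axis S i R R' x) (Real.sqrt_nonneg _)
        (gam_sq_add h0 hsq x)).2 lam hl0 (i.succAbove j) (Fin.succAbove_ne i j)
    have hg : R' * gam S i R R' x = √(R' ^ 2 - sig S i q) := gam_inside hsq h0 hq.2 t
    have hbe : R' * bf S i R R' (i.succAbove j) x = yv S i q j := by
      rw [bf_inside hsq hq.2]; field_simp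
    have hd : |hs S R i q - √(R' ^ 2 - sig S i q)| ≤ √(R' ^ 2 - R ^ 2) := by
      have h4 : hs S R i q ≤ √(R' ^ 2 - sig S i q) := Real.sqrt_le_sqrt (by linarith)
      rw [abs_of_nonpos (by linarith), neg_sub, sub_le_iff_le_add, Real.sqrt_le_iff]
      refine ⟨add_nonneg (Real.sqrt_nonneg _) (Real.sqrt_nonneg _), ?_⟩
      have h5 : 0 ≤ R ^ 2 - sig S i q := by linarith [hq.2]
      have h6 : 0 ≤ R' ^ 2 - R ^ 2 := by linarith
      rw [hs]
      nlinarith [Real.sq_sqrt h5, Real.sq_sqrt h6, mul_nonneg (Real.sqrt_nonneg (R ^ 2 - sig S i q))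
        (Real.sqrt_nonneg (R' ^ 2 - R ^ 2))]
    have hfj : |fj| ≤ gnorm (moll F n) x :=
      Real.abs_le_sqrt (Finset.single_le_sum (f := fun l => grad (moll F n) x l ^ 2)
        (fun _ _ => sq_nonneg _) (Finset.mem_univ _))
    calc |hs S R i q * fj + yv S i q j * (|fi|)|
        = |R' * (gam S i R R' x * fj + bf S i R R' (i.succAbove j) x * (|fi|)) +
            (hs S R i q - √(R' ^ 2 - sig S i q)) * fj| := by rw [← hg, ← hbe]; ring_nf
      _ ≤ R' * (lam * gnorm (moll F n) x + defect F S i R R' n x / (2 * lam)) +
            √(R' ^ 2 - R ^ 2) * gnorm (moll F n) x := by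
          refine (abs_add_le _ _).trans (add_le_add ?_ ?_)
          · rw [abs_mul, abs_of_pos h0]
            exact mul_le_mul_of_nonneg_left hb h0.le
          · rw [abs_mul]
            exact mul_le_mul hd hfj (abs_nonneg _) (Real.sqrt_nonneg _)
  have hval : ∫ x in cell, G x = R' * (lam * (∫ x in cell, gnorm (moll F n) x) +
      (∫ x in cell, defect F S i R R' n x) / (2 * lam)) +
      √(R' ^ 2 - R ^ 2) * ∫ x in cell, gnorm (moll F n) x := by
    have i1 : Integrable (gnorm (moll F n)) (volume.restrict cell) := Torus.integrableOn_cell hcw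
    have i2 : Integrable (defect F S i R R' n) (volume.restrict cell) :=
      Torus.integrableOn_cell hcD
    have j1 : Integrable (fun x => R' * (lam * gnorm (moll F n) x +
        defect F S i R R' n x / (2 * lam))) (volume.restrict cell) :=
      ((i1.const_mul lam).add (i2.div_const _)).const_mul R'
    simp only [hG]
    rw [integral_add j1 (i1.const_mul _), integral_const_mul, integral_const_mul,
      integral_add (i1.const_mul lam) (i2.div_const _), integral_const_mul, integral_div]
  have hnn : 0 ≤ ∫ q in om S R i, err F S R i j n q := integral_nonneg fun q =>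
    intervalIntegral.integral_nonneg zero_le_one fun t _ => abs_nonneg _
  rw [Real.dist_eq, sub_zero, abs_of_nonneg hnn]
  have hgn := H.gnorm_le n
  have hw0 : 0 ≤ ∫ x in cell, gnorm (moll F n) x := integral_nonneg fun x => Real.sqrt_nonneg _
  have hA : lam * (∫ x in cell, gnorm (moll F n) x) +
      (∫ x in cell, defect F S i R R' n x) / (2 * lam) ≤ ε / 4 + ε / 2 := by
    refine add_le_add ((mul_le_mul_of_nonneg_left hgn hl0.le).trans hlP) ?_
    rw [div_le_iff₀ (by positivity)]
    linarith
  have hA0 : 0 ≤ lam * (∫ x in cell, gnorm (moll F n) x) +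
      (∫ x in cell, defect F S i R R' n x) / (2 * lam) := by positivity
  have hB : √(R' ^ 2 - R ^ 2) * (∫ x in cell, gnorm (moll F n) x) ≤ ε / 4 :=
    (mul_le_mul_of_nonneg_left hgn (Real.sqrt_nonneg _)).trans hrt.le
  have hC : R' * (lam * (∫ x in cell, gnorm (moll F n) x) +
      (∫ x in cell, defect F S i R R' n x) / (2 * lam)) ≤ 1 / 2 * (ε / 4 + ε / 2) :=
    mul_le_mul hIoo.2.le hA hA0 (by norm_num)
  linarith

include H in
/-- Along a subsequence the variation on almost every interior line tends to two. -/
theorem Setup.exists_subseq :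
    ∃ φ : ℕ → ℕ, StrictMono φ ∧ ∀ᵐ q : Fin 2 → ℝ, q ∈ om S R i →
      Tendsto (fun n => tvLine F i (φ n) q) atTop (𝓝 2) := by
  set h : ℕ → (Fin 2 → ℝ) → ℝ :=
    fun n q => hs S R i q * (tvLine F i n q - min (tvLine F i n q) 2) with hh
  have hc : ∀ n, Continuous (h n) := fun n => (continuous_hs S R i).mul
    ((continuous_tvLine H.torus.1 n).sub ((continuous_tvLine H.torus.1 n).min continuous_const))
  have h0 : ∀ n q, 0 ≤ h n q := fun n q =>
    mul_nonneg (Real.sqrt_nonneg _) (sub_nonneg.2 (min_le_left _ _))
  have hL : Tendsto (fun n => eLpNorm (h n - 0) 1 (volume.restrict (om S R i))) atTop (𝓝 0) := by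
    have e : ∀ n, eLpNorm (h n - 0) 1 (volume.restrict (om S R i)) =
        ENNReal.ofReal (∫ q in om S R i, h n q) := fun n => by
      rw [sub_zero, eLpNorm_one_eq_lintegral_enorm, ofReal_integral_eq_lintegral_ofReal
        ((integrableOn_of_continuous (hc n)).mono_set fun q hq => hq.1).integrable
        (ae_of_all _ (h0 n))]
      exact lintegral_congr fun q => by rw [Real.enorm_eq_ofReal (h0 n q)]
    simp only [e]
    simpa using ENNReal.tendsto_ofReal H.tendsto_excess
  obtain ⟨φ, hφ, hae⟩ := (tendstoInMeasure_of_tendsto_eLpNorm one_ne_zero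
    (fun n => (hc n).aestronglyMeasurable) aestronglyMeasurable_const hL).exists_seq_tendsto_ae
  refine ⟨φ, hφ, ?_⟩
  filter_upwards [ae_imp_of_ae_restrict hae, H.ae_two_le] with q hq h2 hmem
  have hpos := Setup.hs_pos hmem
  have h3 : Tendsto (fun n => (hs S R i q)⁻¹ * h (φ n) q + min (tvLine F i (φ n) q) 2) atTop
      (𝓝 ((hs S R i q)⁻¹ * 0 + 2)) :=
    ((hq hmem).const_mul _).add ((h2 hmem).comp hφ.tendsto_atTop)
  rw [mul_zero, zero_add] at h3
  refine h3.congr fun n => ?_
  simp only [hh]
  field_simp
  ring

end Unst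

end Vale.Agent.P232
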