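import Vale.Agent.P232.UnsteinerLimit

/-! # P232, module C2: the centre of the fibre is constant -/

namespace Vale.Agent.P232

open MeasureTheory Set Filter Topology
open scoped ENNReal

namespace Unst

/-- Test function along the axis. -/
noncomputable def trig (θ t : ℝ) : ℝ := Real.cos (2 * Real.pi * (t - θ))

theorem contDiff_trig (θ : ℝ) : ContDiff ℝ 1 (trig θ) := by
  unfold trig
  fun_prop

theorem periodic_trig (θ : ℝ) : Function.Periodic (trig θ) 1 := fun t => by
  simp only [trig]
  rw [show 2 * Real.pi * (t + 1 - θ) = 2 * Real.pi * (t - θ) + 2 * Real.pi by ring,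
    Real.cos_add_two_pi]

theorem abs_trig_le (θ t : ℝ) : |trig θ t| ≤ 1 := Real.abs_cos_le_one _

theorem integral_trig (θ α β : ℝ) : (∫ t in α..β, trig θ t) =
    Real.sin (Real.pi * (β - α)) * Real.cos (2 * Real.pi * ((α + β) / 2 - θ)) / Real.pi := by
  have hd : ∀ t, HasDerivAt (fun s => Real.sin (2 * Real.pi * (s - θ)) / (2 * Real.pi)) (trig θ t) t :=
    fun t => by
    have h1 : HasDerivAt (fun s => 2 * Real.pi * (s - θ)) (2 * Real.pi) t := by
      simpa using ((hasDerivAt_id t).sub_const θ).const_mul (2 * Real.pi)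
    have h2 := h1.sin.div_const (2 * Real.pi)
    refine h2.congr_deriv ?_
    simp only [trig]
    field_simp
  rw [intervalIntegral.integral_eq_sub_of_hasDerivAt (fun t _ => hd t)
    ((contDiff_trig θ).continuous.intervalIntegrable _ _), ← sub_div, Real.sin_sub_sin]
  rw [show (2 * Real.pi * (β - θ) - 2 * Real.pi * (α - θ)) / 2 = Real.pi * (β - α) by ring,
    show (2 * Real.pi * (β - θ) + 2 * Real.pi * (α - θ)) / 2 =
      2 * Real.pi * ((α + β) / 2 - θ) by ring]
  field_simp

theorem trig_add (θ α β : ℝ) : trig θ α + trig θ β =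
    2 * Real.cos (Real.pi * (β - α)) * Real.cos (2 * Real.pi * ((α + β) / 2 - θ)) := by
  simp only [trig]
  rw [Real.cos_add_cos,
    show (2 * Real.pi * (α - θ) - 2 * Real.pi * (β - θ)) / 2 = -(Real.pi * (β - α)) by ring,
    Real.cos_neg, show (2 * Real.pi * (α - θ) + 2 * Real.pi * (β - θ)) / 2 =
      2 * Real.pi * ((α + β) / 2 - θ) by ring]
  ring

/-- Fourier coefficient of a fibre. -/
noncomputable def zed (F : Set V3) (i : Fin 3) (θ : ℝ) (q : Fin 2 → ℝ) : ℝ :=
  ∫ t in (0 : ℝ)..1, trig θ t * lineInd F i q t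

theorem measurable_zed {F : Set V3} (hF : MeasurableSet F) (i : Fin 3) (θ : ℝ) :
    Measurable (zed F i θ) := by
  have h : StronglyMeasurable (Function.uncurry fun (q : Fin 2 → ℝ) (t : ℝ) =>
      trig θ t * lineInd F i q t) :=
    (((contDiff_trig θ).continuous.comp continuous_snd).measurable.mul
      ((measurable_ind hF).comp ((Torus.continuous_ins i).comp
        (continuous_snd.prodMk continuous_fst)).measurable)).stronglyMeasurable
  convert (h.integral_prod_right (ν := volume.restrict (Ioc (0 : ℝ) 1))).measurable using 1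
  funext q
  simp [zed, intervalIntegral.integral_of_le (zero_le_one' ℝ)]

variable {F : Set V3} {S : Finset (Fin 3)} {R : ℝ} {i : Fin 3} (H : Setup F S R i)

theorem sin_pos_om (hR : 0 < R) (hR2 : R < 1 / 2) {q : Fin 2 → ℝ} (hq : q ∈ om S R i) :
    0 < Real.sin (2 * Real.pi * hs S R i q) := by
  have h0 := Setup.hs_pos hq
  have h1 := hs_le (S := S) hR.le i q
  exact Real.sin_pos_of_pos_of_lt_pi (by positivity) (by nlinarith [Real.pi_pos])

include H in
/-- The limit data of almost every interior line. -/
theorem Setup.arc_data {φ : ℕ → ℕ} (hφ : StrictMono φ)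
    (hae : ∀ᵐ q : Fin 2 → ℝ, q ∈ om S R i →
      Tendsto (fun n => tvLine F i (φ n) q) atTop (𝓝 2)) :
    ∀ᵐ q : Fin 2 → ℝ, q ∈ om S R i → ∃ c : ℝ,
      (∀ θ, zed F i θ q =
          Real.sin (2 * Real.pi * hs S R i q) * Real.cos (2 * Real.pi * (c - θ)) / Real.pi ∧
        Tendsto (fun n => ∫ t in (0 : ℝ)..1,
            trig θ t * |grad (moll F (φ n)) (Torus.ins i t q) i|) atTop
          (𝓝 (2 * Real.cos (2 * Real.pi * hs S R i q) * Real.cos (2 * Real.pi * (c - θ))))) ∧
      ∀ᵐ t : ℝ, lineInd F i q t = if tdist (t - c) < hs S R i q then 1 else 0 := by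
  filter_upwards [H.line, ae_line_tendsto H.torus.1 i, hae] with q hl ht hv hq
  have hm := hl hq.1
  rw [if_pos hq.2] at hm
  have hpos := Setup.hs_pos hq
  have hlt : 2 * hs S R i q < 1 := by linarith [hs_le (S := S) H.pos.le i q, H.lt_half]
  obtain ⟨α, β, hlen, hφi, hg, harc⟩ := arc_of_variation_two
    (h := fun n t => moll F (φ n) (Torus.ins i t q)) (χ := lineInd F i q)
    (fun n => (contDiff_line H.torus.1 (φ n) q).1)
    (fun n => periodic_ins (moll_periodic H.torus _) i q)
    (fun n t => moll_mem_Icc _ _) (periodic_ins H.torus.periodic i q)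
    (fun t => by by_cases h : Torus.ins i t q ∈ F <;> simp [lineInd, ind, h])
    (measurable_lineInd H.torus.1 q) (ht.mono fun t h => h.comp hφ.tendsto_atTop)
    (by
      refine (hv hq).congr fun n => ?_
      simp only [tvLine, (contDiff_line H.torus.1 (φ n) q).2])
    hm (by linarith) hlt
  have e : Real.pi * (β - α) = 2 * Real.pi * hs S R i q := by rw [hlen]; ring
  refine ⟨(α + β) / 2, fun θ => ⟨?_, ?_⟩, ?_⟩
  · rw [zed, hφi _ (contDiff_trig θ).continuous (periodic_trig θ), integral_trig, e]
  · have := hg _ (contDiff_trig θ) (periodic_trig θ)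
    simp only [(contDiff_line H.torus.1 _ q).2, trig_add, e] at this
    exact this
  · simp only [hlen] at harc
    simpa using harc

/-- The unit phase of a fibre, cut off. -/
noncomputable def uu (F : Set V3) (S : Finset (Fin 3)) (R : ℝ) (i : Fin 3) (θ : ℝ) :
    (Fin 2 → ℝ) → ℝ :=
  (om S R i).indicator fun q =>
    max (-1) (min 1 (Real.pi * zed F i θ q / Real.sin (2 * Real.pi * hs S R i q)))

theorem continuous_of_tsupport {U : Set (Fin 2 → ℝ)} (hU : IsOpen U) {ψ g : (Fin 2 → ℝ) → ℝ}
    (hψ : Continuous ψ) (hc : HasCompactSupport ψ) (hs : tsupport ψ ⊆ U) (hg : ContinuousOn g U) :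
    Continuous (fun q => ψ q * g q) ∧ ∃ C, 0 ≤ C ∧ ∀ q, |ψ q * g q| ≤ C := by
  have h : Continuous fun q => ψ q * g q := continuous_iff_continuousAt.2 fun q => by
    by_cases hq : q ∈ tsupport ψ
    · exact hψ.continuousAt.mul (hg.continuousAt (hU.mem_nhds (hs hq)))
    · refine (continuousAt_const (y := (0 : ℝ))).congr ?_
      filter_upwards [(isClosed_tsupport ψ).isOpen_compl.mem_nhds hq] with y hy
      simp [image_eq_zero_of_notMem_tsupport hy]
  obtain ⟨C, hC⟩ := h.bounded_above_of_compact_support (hc.mul_right)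
  exact ⟨h, max C 0, le_max_right _ _, fun q => (hC q).trans (le_max_left _ _)⟩

theorem contDiffAt_hs {q : Fin 2 → ℝ} (hq : q ∈ om S R i) : ContDiffAt ℝ 1 (hs S R i) q := by
  have h : ContDiff ℝ 1 (sig S i) := by
    refine ContDiff.sum fun j _ => ?_
    unfold yv
    split_ifs <;> fun_prop
  exact ((contDiffAt_const.sub h.contDiffAt)).sqrt (sub_pos.2 hq.2).ne'

theorem fderiv_hs {q : Fin 2 → ℝ} (hq : q ∈ om S R i) (j : Fin 2) :
    fderiv ℝ (hs S R i) q (Pi.single j 1) = -(yv S i q j / hs S R i q) := by
  have hy : ∀ l, HasFDerivAt (fun p => yv S i p l)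
      (if i.succAbove l ∈ S then ContinuousLinearMap.proj (R := ℝ) (φ := fun _ => ℝ) l else 0) q := by
    intro l
    unfold yv
    split_ifs
    · exact (hasFDerivAt_apply (𝕜 := ℝ) (F' := fun _ : Fin 2 => ℝ) l q).sub_const (1 / 2 : ℝ)
    · exact hasFDerivAt_const 0 q
  have hsig : HasFDerivAt (sig S i) (∑ l, (2 * yv S i q l) •
      if i.succAbove l ∈ S then ContinuousLinearMap.proj (R := ℝ) (φ := fun _ => ℝ) l else 0) q := by
    unfold sig
    refine HasFDerivAt.fun_sum fun l _ => ?_
    simpa using (hy l).pow 2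
  have hh : HasFDerivAt (hs S R i) _ q :=
    (hsig.const_sub (R ^ 2)).sqrt (sub_pos.2 hq.2).ne'
  rw [hh.fderiv]
  have hz : i.succAbove j ∉ S → yv S i q j = 0 := fun h => if_neg h
  simp only [_root_.smul_apply, _root_.neg_apply, FunLike.coe_sum, Finset.sum_apply, smul_eq_mul]
  rw [Finset.sum_eq_single j]
  · split_ifs with h
    · simp only [ContinuousLinearMap.proj_apply, Pi.single_eq_same, hs]
      ring
    · simp [hz h]
  · intro l _ hl
    split_ifs <;> simp [hl]
  · simp

/-- Projection to the face. -/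
noncomputable def face (i : Fin 3) : V3 →L[ℝ] (Fin 2 → ℝ) :=
  ContinuousLinearMap.pi fun j => ContinuousLinearMap.proj (R := ℝ) (φ := fun _ => ℝ) (i.succAbove j)

theorem face_ins (i : Fin 3) (t : ℝ) (q : Fin 2 → ℝ) : face i (Torus.ins i t q) = q := by
  funext j; simp [face, Torus.ins]

theorem face_single (i : Fin 3) (j : Fin 2) :
    face i (Pi.single (i.succAbove j) 1) = Pi.single j 1 := by
  funext l
  by_cases hl : l = j
  · subst hl; simp [face]
  · have : i.succAbove l ≠ i.succAbove j := fun h => hl (Fin.succAbove_right_injective h)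
    simp [face, hl, this]

include H in
theorem Setup.weak_zero {φ : ℕ → ℕ} (hφ : StrictMono φ)
    (hae : ∀ᵐ q : Fin 2 → ℝ, q ∈ om S R i →
      Tendsto (fun n => tvLine F i (φ n) q) atTop (𝓝 2)) (θ : ℝ)
    {ψ : (Fin 2 → ℝ) → ℝ} (hψ : ContDiff ℝ 1 ψ) (hψc : HasCompactSupport ψ)
    (hψs : tsupport ψ ⊆ om S R i) (j : Fin 2) :
    ∫ q, uu F S R i θ q * fderiv ℝ ψ q (Pi.single j 1) = 0 := by
  set U := om S R i
  have hU : IsOpen U := isOpen_om
  have hUsq : U ⊆ square := fun q hq => hq.1
  set sn : (Fin 2 → ℝ) → ℝ := fun q => Real.sin (2 * Real.pi * hs S R i q) with hsn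
  have hsn0 : ∀ q ∈ U, 0 < sn q := fun q hq => sin_pos_om H.pos H.lt_half hq
  have hh0 : ∀ q ∈ U, 0 < hs S R i q := fun q hq => Setup.hs_pos hq
  have hhc := continuous_hs S R i
  have hsnc : Continuous sn := Real.continuous_sin.comp (continuous_const.mul hhc)
  set Φ : (Fin 2 → ℝ) → ℝ := fun q => ψ q * (sn q)⁻¹ with hΦ
  have hΦ1 : ContDiff ℝ 1 Φ := contDiff_iff_contDiffAt.2 fun q => by
    by_cases hq : q ∈ tsupport ψ
    · exact hψ.contDiffAt.mul (((Real.contDiff_sin.contDiffAt).comp q
        (contDiffAt_const.mul (contDiffAt_hs (hψs hq)))).inv (hsn0 q (hψs hq)).ne')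
    · refine (contDiffAt_const (c := (0 : ℝ))).congr_of_eventuallyEq ?_
      filter_upwards [(isClosed_tsupport ψ).isOpen_compl.mem_nhds hq] with y hy
      simp [hΦ, image_eq_zero_of_notMem_tsupport hy]
  have hoff : ∀ q, q ∉ tsupport ψ → Φ q = 0 ∧ fderiv ℝ Φ q (Pi.single j 1) = 0 ∧
      fderiv ℝ ψ q (Pi.single j 1) = 0 := by
    intro q hq
    have hev : Φ =ᶠ[𝓝 q] fun _ => 0 := by
      filter_upwards [(isClosed_tsupport ψ).isOpen_compl.mem_nhds hq] with y hy
      simp [hΦ, image_eq_zero_of_notMem_tsupport hy]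
    have hev' : ψ =ᶠ[𝓝 q] fun _ => 0 := by
      filter_upwards [(isClosed_tsupport ψ).isOpen_compl.mem_nhds hq] with y hy
      simp [image_eq_zero_of_notMem_tsupport hy]
    refine ⟨hev.eq_of_nhds, ?_, ?_⟩ <;> simp [hev.fderiv_eq, hev'.fderiv_eq]
  set φ0 : (Fin 2 → ℝ) → ℝ := fun q => ψ q * ((hs S R i q)⁻¹ * (sn q)⁻¹) with hφ0
  obtain ⟨hφ0c, C0, hC0, hφ0b⟩ := continuous_of_tsupport hU hψ.continuous hψc hψs
    (g := fun q => (hs S R i q)⁻¹ * (sn q)⁻¹)
    ((hhc.continuousOn.inv₀ fun q hq => (hh0 q hq).ne').mul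
      (hsnc.continuousOn.inv₀ fun q hq => (hsn0 q hq).ne'))
  obtain ⟨hφ1c, C1, hC1, hφ1b⟩ := continuous_of_tsupport hU hψ.continuous hψc hψs
    (g := fun q => yv S i q j * ((hs S R i q)⁻¹ * (hs S R i q)⁻¹ * (sn q)⁻¹))
    ((continuous_yv S i j).continuousOn.mul
      (((hhc.continuousOn.inv₀ fun q hq => (hh0 q hq).ne').mul
        (hhc.continuousOn.inv₀ fun q hq => (hh0 q hq).ne')).mul
        (hsnc.continuousOn.inv₀ fun q hq => (hsn0 q hq).ne')))
  have hφ0y : Continuous fun q => φ0 q * yv S i q j := hφ0c.mul (continuous_yv S i j)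
  have hdΦc : Continuous fun q => fderiv ℝ Φ q (Pi.single j 1) :=
    (hΦ1.continuous_fderiv one_ne_zero).clm_apply continuous_const
  have htc : Continuous (trig θ) := (contDiff_trig θ).continuous
  have hto : ∀ f : (Fin 2 → ℝ) → ℝ, (∀ q, q ∉ tsupport ψ → f q = 0) →
      ∫ q in square, f q = ∫ q in U, f q := fun f hf =>
    setIntegral_eq_of_subset_of_forall_sdiff_eq_zero measurableSet_square hUsq
      fun q hq => hf q fun hm => hq.2 (hψs hm)
  set G : ℕ → (Fin 2 → ℝ) → ℝ := fun n q => ∫ t in (0 : ℝ)..1,
    trig θ t * |grad (moll F n) (Torus.ins i t q) i| with hG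
  have hins : Continuous fun p : (Fin 2 → ℝ) × ℝ => Torus.ins i p.2 p.1 :=
    (Torus.continuous_ins i).comp (continuous_snd.prodMk continuous_fst)
  have hGc : ∀ n, Continuous (G n) := fun n =>
    intervalIntegral.continuous_parametric_intervalIntegral_of_continuous'
      (f := fun q t => trig θ t * |grad (moll F n) (Torus.ins i t q) i|)
      ((htc.comp continuous_snd).mul ((continuous_grad_moll H.torus.1 n i).comp hins).abs) 0 1
  have hline : ∀ q : Fin 2 → ℝ, Continuous fun t => Torus.ins i t q := fun q =>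
    (Torus.continuous_ins i).comp (continuous_id.prodMk continuous_const)
  have hGT : ∀ n q, |G n q| ≤ tvLine F i n q := fun n q => by
    refine (intervalIntegral.abs_integral_le_integral_abs zero_le_one).trans
      (intervalIntegral.integral_mono_on zero_le_one
        ((htc.mul ((continuous_grad_moll H.torus.1 n i).comp (hline q)).abs).abs.intervalIntegrable _ _)
        (((continuous_grad_moll H.torus.1 n i).comp (hline q)).abs.intervalIntegrable _ _)
        fun t _ => ?_)
    rw [abs_mul, abs_abs]
    exact mul_le_of_le_one_left (abs_nonneg _) (abs_trig_le θ t)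
  -- integration by parts
  have hibp : ∀ n, (∫ x in cell, moll F n x * (trig θ (x i) * fderiv ℝ Φ (face i x) (Pi.single j 1))) +
      ∫ q in U, φ0 q * ∫ t in (0 : ℝ)..1,
        trig θ t * (hs S R i q * grad (moll F n) (Torus.ins i t q) (i.succAbove j)) = 0 := by
    intro n
    have hf1 : ContDiff ℝ 1 (moll F n) := (contDiff_moll H.torus.1 n).of_le one_le_two
    have hW : ContDiff ℝ 1 fun x : V3 => trig θ (x i) * Φ (face i x) :=
      ((contDiff_trig θ).comp (contDiff_apply ℝ ℝ i)).mul (hΦ1.comp (face i).contDiff)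
    have hz : ∫ x in cell, fderiv ℝ (fun x => moll F n x * (trig θ (x i) * Φ (face i x))) x
        (Pi.single (i.succAbove j) 1) = 0 := by
      refine Torus.integral_cell_fderiv (hf1.mul hW) _ fun q => ?_
      have h0 : ∀ s : ℝ, s ∉ Ioo (0 : ℝ) 1 → Φ (face i (Torus.ins (i.succAbove j) s q)) = 0 :=
        fun s hs => (hoff _ fun hm => hs (by
          have := mem_square_iff.1 (hUsq (hψs hm)) j
          simpa [face, Torus.ins] using this)).1
      show moll F n _ * _ = moll F n _ * _
      rw [h0 1 (by simp), h0 0 (by simp)]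
      simp
    have hd : ∀ x, fderiv ℝ (fun x => moll F n x * (trig θ (x i) * Φ (face i x))) x
        (Pi.single (i.succAbove j) 1) =
        moll F n x * (trig θ (x i) * fderiv ℝ Φ (face i x) (Pi.single j 1)) +
          trig θ (x i) * Φ (face i x) * grad (moll F n) x (i.succAbove j) := by
      intro x
      have h1 : HasFDerivAt (fun x : V3 => trig θ (x i))
          (deriv (trig θ) (x i) • ContinuousLinearMap.proj (R := ℝ) (φ := fun _ => ℝ) i) x :=
        ((((contDiff_trig θ).differentiable one_ne_zero) (x i)).hasDerivAt.comp_hasFDerivAt x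
          (hasFDerivAt_apply (𝕜 := ℝ) (F' := fun _ : Fin 3 => ℝ) i x) :)
      have h2 : HasFDerivAt (fun x : V3 => Φ (face i x)) ((fderiv ℝ Φ (face i x)).comp (face i)) x :=
        ((hΦ1.differentiable one_ne_zero) (face i x)).hasFDerivAt.comp x (face i).hasFDerivAt
      have h3 := (hf1.differentiable one_ne_zero x).hasFDerivAt.fun_mul (h1.fun_mul h2)
      rw [h3.fderiv]
      simp only [_root_.add_apply, _root_.smul_apply, smul_eq_mul, ContinuousLinearMap.comp_apply,
        face_single, ContinuousLinearMap.proj_apply, grad, evec,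
        Pi.single_eq_of_ne (Fin.ne_succAbove i j)]
      ring
    have hc1 : Continuous fun x : V3 =>
        moll F n x * (trig θ (x i) * fderiv ℝ Φ (face i x) (Pi.single j 1)) :=
      hf1.continuous.mul ((htc.comp (continuous_apply i)).mul (hdΦc.comp (face i).continuous))
    have hc2 : Continuous fun x : V3 =>
        trig θ (x i) * Φ (face i x) * grad (moll F n) x (i.succAbove j) :=
      ((htc.comp (continuous_apply i)).mul (hΦ1.continuous.comp (face i).continuous)).mul
        (continuous_grad_moll H.torus.1 n _)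
    simp only [hd] at hz
    rw [integral_add (Torus.integrableOn_cell hc1).integrable (Torus.integrableOn_cell hc2).integrable,
      integral_cell_square (Torus.integrableOn_cell hc2) i] at hz
    refine Eq.trans ?_ hz
    congr 1
    rw [hto _ fun q hq => ?_]
    · refine setIntegral_congr_fun hU.measurableSet fun q hq => ?_
      show φ0 q * _ = _
      rw [← intervalIntegral.integral_const_mul]
      refine intervalIntegral.integral_congr fun t _ => ?_
      have := (hh0 q hq).ne'
      simp only [face_ins, Torus.ins, Fin.insertNth_apply_same, hΦ, hφ0]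
      field_simp
    · simp [face_ins, (hoff q hq).1]
  -- limits
  have l1 : Tendsto (fun n => ∫ x in cell,
      moll F n x * (trig θ (x i) * fderiv ℝ Φ (face i x) (Pi.single j 1))) atTop
      (𝓝 (∫ q in U, fderiv ℝ Φ q (Pi.single j 1) * zed F i θ q)) := by
    have hc : Continuous fun x : V3 => trig θ (x i) * fderiv ℝ Φ (face i x) (Pi.single j 1) :=
      (htc.comp (continuous_apply i)).mul (hdΦc.comp (face i).continuous)
    obtain ⟨C, hC⟩ := (isCompact_Icc (a := (0 : V3)) (b := 1)).exists_bound_of_continuousOn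
      hc.continuousOn
    have hlim : Tendsto (fun n => ∫ x in cell,
        moll F n x * (trig θ (x i) * fderiv ℝ Φ (face i x) (Pi.single j 1))) atTop
        (𝓝 (∫ x in cell, ind F x * (trig θ (x i) * fderiv ℝ Φ (face i x) (Pi.single j 1)))) := by
      refine tendsto_integral_of_dominated_convergence (fun _ => C)
        (fun n => ((contDiff_moll H.torus.1 n).continuous.mul hc).aestronglyMeasurable)
        (integrable_const _) (fun n => ?_)
        ((ae_restrict_of_ae (ae_tendsto_moll H.torus.1)).mono fun x hx => hx.mul_const _)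
      filter_upwards [ae_restrict_mem Torus.measurableSet_cell] with x hx
      rw [norm_mul, Real.norm_eq_abs, abs_of_nonneg (moll_mem_Icc n x).1]
      exact (mul_le_of_le_one_left (norm_nonneg _) (moll_mem_Icc n x).2).trans
        (hC x (cell_subset_Icc hx))
    convert hlim using 2
    have hi : IntegrableOn
        (fun x => ind F x * (trig θ (x i) * fderiv ℝ Φ (face i x) (Pi.single j 1))) cell :=
      (Torus.integrableOn_cell hc).bdd_mul (c := 1) (measurable_ind H.torus.1).aestronglyMeasurable
        (ae_of_all _ fun x => by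
          rw [Real.norm_eq_abs, abs_of_nonneg (ind_mem_Icc F x).1]; exact (ind_mem_Icc F x).2)
    rw [integral_cell_square hi i, hto _ fun q hq => ?_]
    · refine setIntegral_congr_fun hU.measurableSet fun q _ => ?_
      show _ * zed F i θ q = _
      rw [zed, ← intervalIntegral.integral_const_mul]
      refine intervalIntegral.integral_congr fun t _ => ?_
      simp only [lineInd, face_ins, Torus.ins, Fin.insertNth_apply_same]
      ring
    · simp [face_ins, (hoff q hq).2.1]
  set L : (Fin 2 → ℝ) → ℝ := fun q =>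
    2 * Real.pi * Real.cos (2 * Real.pi * hs S R i q) / sn q * zed F i θ q with hL
  have l2 : Tendsto (fun n => ∫ q in U, φ0 q * yv S i q j * G (φ n) q) atTop
      (𝓝 (∫ q in U, φ0 q * yv S i q j * L q)) := by
    set G' : ℕ → (Fin 2 → ℝ) → ℝ := fun n q => max (-2) (min 2 (G (φ n) q))
    obtain ⟨C, hC⟩ := (isCompact_Icc (a := (0 : Fin 2 → ℝ)) (b := 1)).exists_bound_of_continuousOn
      hφ0y.continuousOn
    have hC' : ∀ q ∈ U, |φ0 q * yv S i q j| ≤ C := fun q hq =>
      hC q ⟨fun l => (mem_square_iff.1 hq.1 l).1.le, fun l => (mem_square_iff.1 hq.1 l).2.le⟩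
    have h1 : Tendsto (fun n => ∫ q in U, φ0 q * yv S i q j * G' n q) atTop
        (𝓝 (∫ q in U, φ0 q * yv S i q j * L q)) := by
      refine tendsto_integral_of_dominated_convergence (fun _ => C * 2) (fun n =>
        (hφ0y.mul (continuous_const.max (continuous_const.min (hGc _)))).aestronglyMeasurable)
        (integrable_const _) (fun n => ?_) ?_
      · filter_upwards [ae_restrict_mem hU.measurableSet] with q hq
        rw [norm_mul, Real.norm_eq_abs, Real.norm_eq_abs]
        refine mul_le_mul (hC' q hq) (abs_le.2 ⟨le_max_left _ _, ?_⟩) (abs_nonneg _)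
          ((abs_nonneg _).trans (hC' q hq))
        exact max_le (by norm_num) (min_le_left _ _)
      · filter_upwards [ae_restrict_of_ae (H.arc_data hφ hae), ae_restrict_mem hU.measurableSet]
          with q hq hmem
        obtain ⟨c, hc, -⟩ := hq hmem
        obtain ⟨hz, hT⟩ := hc θ
        have e : L q = 2 * Real.cos (2 * Real.pi * hs S R i q) *
            Real.cos (2 * Real.pi * (c - θ)) := by
          have := (hsn0 q hmem).ne'
          simp only [hL, hz]
          field_simp
          ring
        have hb : |2 * Real.cos (2 * Real.pi * hs S R i q) * Real.cos (2 * Real.pi * (c - θ))| ≤ 2 := by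
          rw [abs_mul, abs_mul, abs_two, mul_assoc]
          exact mul_le_of_le_one_right zero_le_two
            (mul_le_one₀ (Real.abs_cos_le_one _) (abs_nonneg _) (Real.abs_cos_le_one _))
        rw [e]
        refine Tendsto.const_mul _ ?_
        have := (tendsto_const_nhds (x := (-2 : ℝ))).max ((tendsto_const_nhds (x := (2 : ℝ))).min hT)
        rwa [min_eq_right (abs_le.1 hb).2, max_eq_right (abs_le.1 hb).1] at this
    have h2 : Tendsto (fun n => (∫ q in U, φ0 q * yv S i q j * G (φ n) q) -
        ∫ q in U, φ0 q * yv S i q j * G' n q) atTop (𝓝 0) := by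
      refine squeeze_zero_norm (fun n => ?_)
        (by simpa using ((H.tendsto_excess.comp hφ.tendsto_atTop).const_mul C1))
      have i1 : IntegrableOn (fun q => φ0 q * yv S i q j * G (φ n) q) U :=
        (integrableOn_of_continuous (hφ0y.mul (hGc _))).mono_set hUsq
      have i2 : IntegrableOn (fun q => φ0 q * yv S i q j * G' n q) U :=
        (integrableOn_of_continuous
          (hφ0y.mul (continuous_const.max (continuous_const.min (hGc _))))).mono_set hUsq
      have i3 : IntegrableOn (fun q => C1 *
          (hs S R i q * (tvLine F i (φ n) q - min (tvLine F i (φ n) q) 2))) U :=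
        (integrableOn_of_continuous (continuous_const.mul (hhc.mul
          ((continuous_tvLine H.torus.1 _).sub
            ((continuous_tvLine H.torus.1 _).min continuous_const))))).mono_set hUsq
      rw [← integral_sub i1 i2, ← integral_const_mul]
      refine norm_integral_le_of_norm_le i3 ?_
      filter_upwards [ae_restrict_mem hU.measurableSet] with q hq
      have hclip : |G (φ n) q - G' n q| ≤ tvLine F i (φ n) q - min (tvLine F i (φ n) q) 2 := by
        have hb := abs_le.1 (hGT (φ n) q)
        have e1 : min (tvLine F i (φ n) q) 2 ≤ 2 := min_le_right _ _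
        have e2 : min (tvLine F i (φ n) q) 2 ≤ tvLine F i (φ n) q := min_le_left _ _
        rcases le_or_gt (G (φ n) q) (-2) with h | h
        · simp only [G', min_eq_right (show G (φ n) q ≤ 2 by linarith), max_eq_left h]
          rw [abs_of_nonpos (by linarith)]
          linarith
        rcases le_or_gt (G (φ n) q) 2 with h' | h'
        · simp only [G', min_eq_right h', max_eq_right h.le, sub_self, abs_zero]
          linarith
        · simp only [G', min_eq_left h'.le, max_eq_right (show (-2 : ℝ) ≤ 2 by norm_num)]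
          rw [abs_of_nonneg (by linarith)]
          linarith
      have e : φ0 q * yv S i q j =
          ψ q * (yv S i q j * ((hs S R i q)⁻¹ * (hs S R i q)⁻¹ * (sn q)⁻¹)) * hs S R i q := by
        have := (hh0 q hq).ne'
        simp only [hφ0]
        field_simp
      rw [← mul_sub, norm_mul, Real.norm_eq_abs, Real.norm_eq_abs, e, abs_mul,
        abs_of_pos (hh0 q hq), mul_assoc]
      exact mul_le_mul (hφ1b q) (mul_le_mul_of_nonneg_left hclip (hh0 q hq).le)
        (by have := hh0 q hq; positivity) hC1
    simpa using h1.add h2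
  have l3 : Tendsto (fun n => (∫ q in U, φ0 q * ∫ t in (0 : ℝ)..1,
      trig θ t * (hs S R i q * grad (moll F (φ n)) (Torus.ins i t q) (i.succAbove j))) +
      ∫ q in U, φ0 q * yv S i q j * G (φ n) q) atTop (𝓝 0) := by
    refine squeeze_zero_norm (fun n => ?_)
      (by simpa using (((H.tendsto_err j).comp hφ.tendsto_atTop).const_mul C0))
    set A : (Fin 2 → ℝ) → ℝ := fun q => ∫ t in (0 : ℝ)..1,
      trig θ t * (hs S R i q * grad (moll F (φ n)) (Torus.ins i t q) (i.succAbove j)) with hA
    have hcA : Continuous A :=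
      intervalIntegral.continuous_parametric_intervalIntegral_of_continuous'
        (f := fun q t => trig θ t *
          (hs S R i q * grad (moll F (φ n)) (Torus.ins i t q) (i.succAbove j)))
        ((htc.comp continuous_snd).mul ((hhc.comp continuous_fst).mul
          ((continuous_grad_moll H.torus.1 _ _).comp hins))) 0 1
    have i1 : IntegrableOn (fun q => φ0 q * A q) U :=
      (integrableOn_of_continuous (hφ0c.mul hcA)).mono_set hUsq
    have i2 : IntegrableOn (fun q => φ0 q * yv S i q j * G (φ n) q) U :=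
      (integrableOn_of_continuous (hφ0y.mul (hGc _))).mono_set hUsq
    have i3 : IntegrableOn (fun q => C0 * err F S R i j (φ n) q) U :=
      (integrableOn_of_continuous (continuous_const.mul (continuous_err H.torus.1 j _))).mono_set hUsq
    rw [← integral_add i1 i2, ← integral_const_mul]
    refine norm_integral_le_of_norm_le i3 (ae_of_all _ fun q => ?_)
    rw [show φ0 q * A q + φ0 q * yv S i q j * G (φ n) q = φ0 q * (A q + yv S i q j * G (φ n) q) by ring,
      norm_mul, Real.norm_eq_abs, Real.norm_eq_abs]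
    refine mul_le_mul (hφ0b q) ?_ (abs_nonneg _) hC0
    have hcf := ((continuous_grad_moll H.torus.1 (φ n) (i.succAbove j)).comp (hline q))
    have hci := ((continuous_grad_moll H.torus.1 (φ n) i).comp (hline q)).abs
    simp only [hA, hG]
    have j1 : IntervalIntegrable (fun t => trig θ t *
        (hs S R i q * grad (moll F (φ n)) (Torus.ins i t q) (i.succAbove j))) volume 0 1 :=
      (htc.mul (continuous_const.mul hcf)).intervalIntegrable _ _
    have j2 : IntervalIntegrable (fun t => yv S i q j *
        (trig θ t * |grad (moll F (φ n)) (Torus.ins i t q) i|)) volume 0 1 :=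
      (continuous_const.mul (htc.mul hci)).intervalIntegrable _ _
    rw [← intervalIntegral.integral_const_mul, ← intervalIntegral.integral_add j1 j2]
    refine (intervalIntegral.abs_integral_le_integral_abs zero_le_one).trans
      (intervalIntegral.integral_mono_on zero_le_one
        (((htc.mul (continuous_const.mul hcf)).add
          (continuous_const.mul (htc.mul hci))).abs.intervalIntegrable _ _)
        (((continuous_const.mul hcf).add (continuous_const.mul hci)).abs.intervalIntegrable _ _)
        fun t _ => ?_)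
    rw [show trig θ t * (hs S R i q * grad (moll F (φ n)) (Torus.ins i t q) (i.succAbove j)) +
        yv S i q j * (trig θ t * |grad (moll F (φ n)) (Torus.ins i t q) i|) =
        trig θ t * (hs S R i q * grad (moll F (φ n)) (Torus.ins i t q) (i.succAbove j) +
          yv S i q j * |grad (moll F (φ n)) (Torus.ins i t q) i|) by ring, abs_mul]
    exact mul_le_of_le_one_left (abs_nonneg _) (abs_trig_le θ t)
  have hsum := ((l1.comp hφ.tendsto_atTop).sub l2).add l3
  have hzero : (∫ q in U, fderiv ℝ Φ q (Pi.single j 1) * zed F i θ q) -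
      (∫ q in U, φ0 q * yv S i q j * L q) + 0 = 0 := by
    refine tendsto_nhds_unique hsum (tendsto_const_nhds.congr fun n => ?_)
    have := hibp (φ n)
    simp only [Function.comp_apply]
    linarith
  rw [add_zero, sub_eq_zero] at hzero
  -- the algebra
  have hae2 : ∀ᵐ q ∂(volume.restrict U),
      fderiv ℝ ψ q (Pi.single j 1) * uu F S R i θ q / Real.pi =
        fderiv ℝ Φ q (Pi.single j 1) * zed F i θ q - φ0 q * yv S i q j * L q := by
    filter_upwards [ae_restrict_of_ae (H.arc_data hφ hae), ae_restrict_mem hU.measurableSet]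
      with q hq hmem
    obtain ⟨c, hc, -⟩ := hq hmem
    obtain ⟨hz, -⟩ := hc θ
    have hs1 := (hsn0 q hmem).ne'
    have hs2 := (hh0 q hmem).ne'
    have hu : uu F S R i θ q = Real.cos (2 * Real.pi * (c - θ)) := by
      rw [uu, indicator_of_mem hmem, hz]
      have e : Real.pi * (Real.sin (2 * Real.pi * hs S R i q) * Real.cos (2 * Real.pi * (c - θ)) /
          Real.pi) / Real.sin (2 * Real.pi * hs S R i q) = Real.cos (2 * Real.pi * (c - θ)) := by
        rw [mul_div_cancel₀ _ Real.pi_ne_zero, mul_div_cancel_left₀ _ hs1]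
      rw [e, min_eq_right (Real.cos_le_one _), max_eq_right (Real.neg_one_le_cos _)]
    have hdh : HasFDerivAt (hs S R i) (fderiv ℝ (hs S R i) q) q :=
      ((contDiffAt_hs hmem).differentiableAt one_ne_zero).hasFDerivAt
    have hdΦ := ((hψ.differentiable one_ne_zero q).hasFDerivAt.fun_mul
      ((hasDerivAt_inv hs1).comp_hasFDerivAt q ((hdh.const_mul (2 * Real.pi)).sin)))
    rw [show Φ = fun y => ψ y * ((fun z : ℝ => z⁻¹) ∘ fun y => Real.sin (2 * Real.pi * hs S R i y)) y
      from rfl, hdΦ.fderiv, hu]
    simp only [_root_.add_apply, _root_.smul_apply, smul_eq_mul, fderiv_hs hmem, hz, hL, hφ0,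
      Function.comp_apply, hsn]
    simp only [hsn] at hs1
    generalize Real.sin (2 * Real.pi * hs S R i q) = sv at hs1 ⊢
    field_simp
    ring
  have i1 : IntegrableOn (fun q => fderiv ℝ Φ q (Pi.single j 1) * zed F i θ q) U :=
    ((integrableOn_of_continuous hdΦc).mono_set hUsq).mul_bdd (c := 1)
      (measurable_zed H.torus.1 i θ).aestronglyMeasurable (ae_of_all _ fun q => by
        rw [zed, Real.norm_eq_abs]
        have hb := intervalIntegral.norm_integral_le_of_norm_le_const (a := (0 : ℝ)) (b := 1) (C := 1)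
          (f := fun t => trig θ t * lineInd F i q t) (fun t _ => by
            rw [Real.norm_eq_abs, abs_mul, lineInd, abs_of_nonneg (ind_mem_Icc F _).1]
            exact mul_le_one₀ (abs_trig_le θ t) (ind_mem_Icc F _).1 (ind_mem_Icc F _).2)
        simpa using hb)
  have hum : Measurable (uu F S R i θ) :=
    (measurable_const.max (measurable_const.min
      ((measurable_const.mul (measurable_zed H.torus.1 i θ)).div hsnc.measurable))).indicator
      hU.measurableSet
  have hub : ∀ q, ‖uu F S R i θ q‖ ≤ 1 := fun q => by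
    by_cases hq : q ∈ om S R i
    · rw [uu, indicator_of_mem hq, Real.norm_eq_abs]
      exact abs_le.2 ⟨le_max_left _ _, max_le (by norm_num) (min_le_left _ _)⟩
    · simp [uu, hq]
  have i0 : IntegrableOn (fun q => fderiv ℝ ψ q (Pi.single j 1) * uu F S R i θ q / Real.pi) U :=
    (((integrableOn_of_continuous ((hψ.continuous_fderiv one_ne_zero).clm_apply
      continuous_const)).mono_set hUsq).mul_bdd (c := 1) hum.aestronglyMeasurable
        (ae_of_all _ hub)).div_const _
  have i2 : IntegrableOn (fun q => φ0 q * yv S i q j * L q) U :=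
    (i1.sub i0).congr (hae2.mono fun q hq => by simp only [Pi.sub_apply]; linarith)
  have hfin : ∫ q in U, fderiv ℝ ψ q (Pi.single j 1) * uu F S R i θ q / Real.pi = 0 := by
    rw [integral_congr_ae hae2, integral_sub i1 i2, hzero, sub_self]
  rw [integral_div, div_eq_zero_iff] at hfin
  rw [← hfin.resolve_right Real.pi_ne_zero, setIntegral_eq_integral_of_forall_compl_eq_zero]
  · simp only [mul_comm]
  · intro q hq
    simp [(hoff q fun hm => hq (hψs hm)).2.2]

include H in
/-- The centre of the fibre is constant. -/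
theorem Setup.exists_centre :
    ∃ c0 : ℝ, ∀ᵐ q : Fin 2 → ℝ, q ∈ square → ∀ᵐ t : ℝ, t ∈ Ioc (0 : ℝ) 1 →
      lineInd F i q t = if sig S i q < R ^ 2 ∧ tdist (t - c0) < hs S R i q then 1 else 0 := by
  obtain ⟨φ, hφ, hae⟩ := H.exists_subseq
  have hconst : ∀ θ, ∃ C, ∀ᵐ q : Fin 2 → ℝ, q ∈ om S R i → uu F S R i θ q = C := fun θ =>
    weakly_constant isOpen_om convex_om
      ((measurable_const.max (measurable_const.min
        ((measurable_const.mul (measurable_zed H.torus.1 i θ)).div
          (Real.continuous_sin.comp (continuous_const.mul (continuous_hs S R i))).measurable))).indicator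
        isOpen_om.measurableSet)
      (M := 1) (fun q => by
        by_cases hq : q ∈ om S R i
        · rw [uu, indicator_of_mem hq]
          exact abs_le.2 ⟨le_max_left _ _, max_le (by norm_num) (min_le_left _ _)⟩
        · simp [uu, hq])
      fun ψ h1 h2 h3 j => H.weak_zero hφ hae θ h1 h2 h3 j
  obtain ⟨A, hA⟩ := hconst 0
  obtain ⟨B, hB⟩ := hconst (1 / 4)
  have hgood : ∀ᵐ q : Fin 2 → ℝ, q ∈ om S R i → ∃ c : ℝ,
      A = Real.cos (2 * Real.pi * c) ∧ B = Real.sin (2 * Real.pi * c) ∧
      ∀ᵐ t : ℝ, lineInd F i q t = if tdist (t - c) < hs S R i q then 1 else 0 := by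
    filter_upwards [H.arc_data hφ hae, hA, hB] with q hq hAq hBq hmem
    obtain ⟨c, hc, hsh⟩ := hq hmem
    have hval : ∀ θ, uu F S R i θ q = Real.cos (2 * Real.pi * (c - θ)) := fun θ => by
      have hs1 := (sin_pos_om H.pos H.lt_half hmem).ne'
      rw [uu, indicator_of_mem hmem, (hc θ).1, mul_div_cancel₀ _ Real.pi_ne_zero,
        mul_div_cancel_left₀ _ hs1, min_eq_right (Real.cos_le_one _),
        max_eq_right (Real.neg_one_le_cos _)]
    refine ⟨c, ?_, ?_, hsh⟩
    · rw [← hAq hmem, hval, sub_zero]
    · rw [← hBq hmem, hval, show 2 * Real.pi * (c - 1 / 4) = 2 * Real.pi * c - Real.pi / 2 by ring,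
        Real.cos_sub_pi_div_two]
  obtain ⟨c0, hc0⟩ : ∃ c0 : ℝ, ∀ c : ℝ, A = Real.cos (2 * Real.pi * c) →
      B = Real.sin (2 * Real.pi * c) → ∃ k : ℤ, c = c0 + k := by
    by_cases hex : ∃ c : ℝ, A = Real.cos (2 * Real.pi * c) ∧ B = Real.sin (2 * Real.pi * c)
    · obtain ⟨c0, h0, h0'⟩ := hex
      refine ⟨c0, fun c h1 h1' => ?_⟩
      have : Real.cos (2 * Real.pi * (c - c0)) = 1 := by
        rw [mul_sub, Real.cos_sub, ← h1, ← h1', ← h0, ← h0']
        rw [h0, h0', ← sq, ← sq]
        exact Real.cos_sq_add_sin_sq _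
      obtain ⟨k, hk⟩ := (Real.cos_eq_one_iff _).1 this
      refine ⟨k, ?_⟩
      have h2 := mul_left_cancel₀ (two_mul Real.pi ▸ by positivity : (2 * Real.pi) ≠ 0)
        (show 2 * Real.pi * (k : ℝ) = 2 * Real.pi * (c - c0) by linarith)
      linarith
    · exact ⟨0, fun c h1 h1' => absurd ⟨c, h1, h1'⟩ hex⟩
  refine ⟨c0, ?_⟩
  filter_upwards [hgood, H.line] with q hq hl hsq
  by_cases hsig : sig S i q < R ^ 2
  · obtain ⟨c, h1, h2, hsh⟩ := hq ⟨hsq, hsig⟩
    obtain ⟨k, rfl⟩ := hc0 c h1 h2
    filter_upwards [hsh] with t ht _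
    rw [ht]
    have : tdist (t - (c0 + k)) = tdist (t - c0) := by
      rw [← tdist_add_int (t - (c0 + k)) k]
      congr 1
      ring
    simp [this, hsig]
  · have h2 := hl hsq
    rw [if_neg hsig, intervalIntegral.integral_of_le zero_le_one] at h2
    have hint : IntegrableOn (lineInd F i q) (Ioc 0 1) :=
      IntegrableOn.of_bound measure_Ioc_lt_top
        (measurable_lineInd H.torus.1 q).aestronglyMeasurable 1
        (ae_of_all _ fun t => by
          rw [Real.norm_eq_abs, lineInd, abs_of_nonneg (ind_mem_Icc F _).1]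
          exact (ind_mem_Icc F _).2)
    have h3 := (integral_eq_zero_iff_of_nonneg (fun t => (ind_mem_Icc F _).1) hint).1 h2
    filter_upwards [(ae_restrict_iff' measurableSet_Ioc).1 h3] with t ht htm
    simp only [hsig, false_and, if_false]
    exact ht htm

end Unst

end Vale.Agent.P232
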