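import Vale.Agent.P232.Interface

/-! # P232: one-sided derivatives of the profile -/

namespace Vale.Agent.P232

open MeasureTheory Set Filter Topology Asymptotics
open Real (pi_pos)

namespace Var

/-- Ball branch. -/
noncomputable def fB (v : ℝ) : ℝ := (36 * Real.pi) ^ (1 / 3 : ℝ) * v ^ (2 / 3 : ℝ) / 2

/-- Tube branch. -/
noncomputable def fT (v : ℝ) : ℝ := √(Real.pi * v)

theorem jQ_def (v : ℝ) : jQ v = min (min (fB (min v (1 - v))) (fT (min v (1 - v)))) 1 := by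
  rw [jQ, J, ← min_div_div_right (by norm_num : (0:ℝ) ≤ 2),
    ← min_div_div_right (by norm_num : (0:ℝ) ≤ 2)]
  simp only [fB, fT]
  congr 1
  · congr 1
    ring
  · norm_num

theorem fB_pow {v : ℝ} (hv : 0 ≤ v) : fB v ^ 6 = 81 / 4 * Real.pi ^ 2 * v ^ 4 := by
  rw [fB, div_pow, mul_pow, ← Real.rpow_mul_natCast (by positivity),
    ← Real.rpow_mul_natCast hv,
    show (1 / 3 : ℝ) * ((6 : ℕ) : ℝ) = ((2 : ℕ) : ℝ) by norm_num,
    show (2 / 3 : ℝ) * ((6 : ℕ) : ℝ) = ((4 : ℕ) : ℝ) by norm_num, Real.rpow_natCast,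
    Real.rpow_natCast]
  ring

theorem fT_pow {v : ℝ} (hv : 0 ≤ v) : fT v ^ 6 = Real.pi ^ 3 * v ^ 3 := by
  rw [fT, show (6 : ℕ) = 2 * 3 from rfl, pow_mul, Real.sq_sqrt (by positivity)]
  ring

theorem fB_nonneg {v : ℝ} (hv : 0 ≤ v) : 0 ≤ fB v := by unfold fB; positivity

theorem fT_nonneg (v : ℝ) : 0 ≤ fT v := Real.sqrt_nonneg _

theorem fB_le_fT {v : ℝ} (hv : 0 ≤ v) (h : v ≤ vBT) : fB v ≤ fT v := by
  refine le_of_pow_le_pow_left₀ (n := 6) (by norm_num) (fT_nonneg v) ?_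
  rw [fB_pow hv, fT_pow hv, show 81 / 4 * Real.pi ^ 2 * v ^ 4 =
    (81 / 4 * v) * (Real.pi ^ 2 * v ^ 3) by ring, show Real.pi ^ 3 * v ^ 3 =
    Real.pi * (Real.pi ^ 2 * v ^ 3) by ring]
  refine mul_le_mul_of_nonneg_right ?_ (by positivity)
  unfold vBT at h
  linarith

theorem fT_le_fB {v : ℝ} (h : vBT ≤ v) : fT v ≤ fB v := by
  have hv : 0 ≤ v := le_trans (by unfold vBT; positivity) h
  refine le_of_pow_le_pow_left₀ (n := 6) (by norm_num) (fB_nonneg hv) ?_
  rw [fB_pow hv, fT_pow hv, show 81 / 4 * Real.pi ^ 2 * v ^ 4 =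
    (81 / 4 * v) * (Real.pi ^ 2 * v ^ 3) by ring, show Real.pi ^ 3 * v ^ 3 =
    Real.pi * (Real.pi ^ 2 * v ^ 3) by ring]
  refine mul_le_mul_of_nonneg_right ?_ (by positivity)
  unfold vBT at h
  linarith

theorem fT_le_one {v : ℝ} (h : v ≤ 1 / Real.pi) : fT v ≤ 1 := by
  rw [le_div_iff₀ pi_pos] at h
  exact Real.sqrt_le_one.2 (by linarith)

theorem one_le_fT {v : ℝ} (h : 1 / Real.pi ≤ v) : 1 ≤ fT v := by
  rw [div_le_iff₀ pi_pos] at h
  exact Real.one_le_sqrt.2 (by linarith)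

theorem kinks : vBT < 1 / Real.pi ∧ 1 / Real.pi < 1 / 2 := by
  have := Real.pi_gt_three
  have := Real.pi_lt_four
  refine ⟨?_, ?_⟩
  · rw [vBT, div_lt_div_iff₀ (by norm_num) pi_pos]
    nlinarith
  · rw [div_lt_div_iff₀ pi_pos (by norm_num)]
    linarith

theorem jQ_eq_fB {v : ℝ} (h0 : 0 ≤ v) (h : v ≤ vBT) : jQ v = fB v := by
  have := kinks
  rw [jQ_def, min_eq_left (by linarith : v ≤ 1 - v), min_eq_left (fB_le_fT h0 h),
    min_eq_left ((fB_le_fT h0 h).trans (fT_le_one (by linarith)))]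

theorem jQ_eq_fT {v : ℝ} (h0 : vBT ≤ v) (h : v ≤ 1 / Real.pi) : jQ v = fT v := by
  have := kinks
  rw [jQ_def, min_eq_left (by linarith : v ≤ 1 - v), min_eq_right (fT_le_fB h0),
    min_eq_left (fT_le_one h)]

theorem jQ_eq_one {v : ℝ} (h0 : 1 / Real.pi ≤ v) (h : v ≤ 1 - 1 / Real.pi) : jQ v = 1 := by
  have := kinks
  have hm : 1 / Real.pi ≤ min v (1 - v) := le_min h0 (by linarith)
  rw [jQ_def, min_eq_right (fT_le_fB (by linarith)), min_eq_right (one_le_fT hm)]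

theorem hasDerivAt_fB {v : ℝ} (hv : 0 < v) : HasDerivAt fB (2 * fB v / (3 * v)) v := by
  have h := ((Real.hasDerivAt_rpow_const (x := v) (p := (2 / 3 : ℝ)) (Or.inl hv.ne')).const_mul
    ((36 * Real.pi) ^ (1 / 3 : ℝ))).div_const 2
  refine h.congr_deriv ?_
  rw [fB, Real.rpow_sub_one hv.ne']
  field_simp

theorem hasDerivAt_fT {v : ℝ} (hv : 0 < v) : HasDerivAt fT (fT v / (2 * v)) v := by
  have h := ((hasDerivAt_id v).const_mul Real.pi).sqrt (by simp [hv.ne', pi_pos.ne'])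
  refine h.congr_deriv ?_
  have hp : 0 < Real.pi * v := mul_pos pi_pos hv
  rw [fT, div_eq_div_iff (by simp only [id_eq]; positivity) (by positivity)]
  simp only [id_eq]
  linear_combination (-2 : ℝ) * Real.mul_self_sqrt hp.le

theorem hasDeriv_right {v : ℝ} (h0 : 0 < v) (h2 : v ≤ 1 / 2) :
    HasDerivWithinAt jQ (hLo v) (Ici v) v := by
  have := kinks
  by_cases hB : v < vBT
  · rw [hLo, if_pos hB, jQ_eq_fB h0.le hB.le]
    refine (hasDerivAt_fB h0).hasDerivWithinAt.congr_of_eventuallyEq ?_ (jQ_eq_fB h0.le hB.le)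
    filter_upwards [Icc_mem_nhdsGE hB] with x hx using jQ_eq_fB (h0.le.trans hx.1) hx.2
  push Not at hB
  by_cases hT : v < 1 / Real.pi
  · rw [hLo, if_neg hB.not_gt, if_pos hT, jQ_eq_fT hB hT.le]
    refine (hasDerivAt_fT h0).hasDerivWithinAt.congr_of_eventuallyEq ?_ (jQ_eq_fT hB hT.le)
    filter_upwards [Icc_mem_nhdsGE hT] with x hx using jQ_eq_fT (hB.trans hx.1) hx.2
  push Not at hT
  rw [hLo, if_neg hB.not_gt, if_neg hT.not_gt]
  refine (hasDerivWithinAt_const v _ (1 : ℝ)).congr_of_eventuallyEq ?_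
    (jQ_eq_one hT (by linarith))
  filter_upwards [Icc_mem_nhdsGE (show v < 1 - 1 / Real.pi by linarith)] with x hx using
    jQ_eq_one (hT.trans hx.1) hx.2

theorem hasDeriv_left {v : ℝ} (h0 : 0 < v) (h2 : v ≤ 1 / 2) :
    HasDerivWithinAt jQ (hHi v) (Iic v) v := by
  have := kinks
  by_cases hB : v ≤ vBT
  · rw [hHi, if_pos hB, jQ_eq_fB h0.le hB]
    refine (hasDerivAt_fB h0).hasDerivWithinAt.congr_of_eventuallyEq ?_ (jQ_eq_fB h0.le hB)
    filter_upwards [Icc_mem_nhdsLE h0] with x hx using jQ_eq_fB hx.1 (hx.2.trans hB)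
  push Not at hB
  by_cases hT : v ≤ 1 / Real.pi
  · rw [hHi, if_neg hB.not_ge, if_pos hT, jQ_eq_fT hB.le hT]
    refine (hasDerivAt_fT h0).hasDerivWithinAt.congr_of_eventuallyEq ?_ (jQ_eq_fT hB.le hT)
    filter_upwards [Icc_mem_nhdsLE hB] with x hx using jQ_eq_fT hx.1 (hx.2.trans hT)
  push Not at hT
  rw [hHi, if_neg hB.not_ge, if_neg hT.not_ge]
  refine (hasDerivWithinAt_const v _ (1 : ℝ)).congr_of_eventuallyEq ?_
    (jQ_eq_one hT.le (by linarith))
  filter_upwards [Icc_mem_nhdsLE hT] with x hx using jQ_eq_one hx.1 (hx.2.trans (by linarith))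

theorem hLo_nonneg {v : ℝ} (h0 : 0 < v) : 0 ≤ hLo v := by
  have hj : 0 ≤ jQ v ∨ ¬v < 1 / Real.pi := by
    by_cases h : v < 1 / Real.pi
    · left
      rcases le_total v vBT with hb | hb
      · exact jQ_eq_fB h0.le hb ▸ fB_nonneg h0.le
      · exact jQ_eq_fT hb h.le ▸ fT_nonneg v
    · exact Or.inr h
  unfold hLo
  have := kinks
  split_ifs with h1 h2
  · exact div_nonneg (mul_nonneg zero_le_two (hj.resolve_right (not_not.2 (by linarith))))
      (by positivity)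
  · exact div_nonneg (hj.resolve_right (not_not.2 h2)) (by positivity)
  · exact le_rfl

/-- The first-order change of the profile. -/
noncomputable def slope (v x : ℝ) : ℝ := hLo v * max x 0 + hHi v * min x 0

theorem tendsto_jQ_slope {v : ℝ} (h0 : 0 < v) (h2 : v ≤ 1 / 2) {δ : ℝ → ℝ} {l : Filter ℝ}
    (hl : ∀ᶠ ε in l, 0 < ε) (hl0 : Tendsto id l (𝓝 0)) {V : ℝ}
    (hδ : Tendsto (fun ε => δ ε / ε) l (𝓝 V)) :
    Tendsto (fun ε => (jQ (v + δ ε) - jQ v) / ε) l (𝓝 (slope v V)) := by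
  set r : ℝ → ℝ := fun x => jQ x - jQ v - slope v (x - v) with hr
  have hR : r =o[𝓝 v] fun x => x - v := by
    rw [← nhdsLE_sup_nhdsGE v]
    refine IsLittleO.sup ?_ ?_
    · refine (hasDerivWithinAt_iff_isLittleO.1 (hasDeriv_left h0 h2)).congr' ?_ EventuallyEq.rfl
      filter_upwards [self_mem_nhdsWithin] with x hx
      have : x - v ≤ 0 := sub_nonpos.2 hx
      simp only [hr, slope, max_eq_right this, min_eq_left this, smul_eq_mul]
      ring
    · refine (hasDerivWithinAt_iff_isLittleO.1 (hasDeriv_right h0 h2)).congr' ?_ EventuallyEq.rfl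
      filter_upwards [self_mem_nhdsWithin] with x hx
      have : 0 ≤ x - v := sub_nonneg.2 hx
      simp only [hr, slope, max_eq_left this, min_eq_right this, smul_eq_mul]
      ring
  have hd0 : Tendsto δ l (𝓝 0) := by
    have := hδ.mul hl0
    rw [mul_zero] at this
    refine this.congr' ?_
    filter_upwards [hl] with ε hε
    exact div_mul_cancel₀ _ hε.ne'
  have hx : Tendsto (fun ε => v + δ ε) l (𝓝 v) := by simpa using hd0.const_add v
  have hO : (fun ε => v + δ ε - v) =O[l] fun ε => ε := by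
    simp only [add_sub_cancel_left]
    exact isBigO_of_div_tendsto_nhds (hl.mono fun ε hε h => absurd h hε.ne') V hδ
  have hsmall : Tendsto (fun ε => r (v + δ ε) / ε) l (𝓝 0) :=
    ((hR.comp_tendsto hx).trans_isBigO hO).tendsto_div_nhds_zero
  have hmain : Tendsto (fun ε => slope v (δ ε / ε)) l (𝓝 (slope v V)) := by
    refine (Continuous.tendsto ?_ V).comp hδ
    unfold slope
    fun_prop
  have := hsmall.add hmain
  rw [zero_add] at this
  refine this.congr' ?_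
  filter_upwards [hl] with ε hε
  simp only [hr, slope, add_sub_cancel_left]
  rw [show max (δ ε / ε) 0 = max (δ ε) 0 / ε by rw [← max_div_div_right hε.le, zero_div],
    show min (δ ε / ε) 0 = min (δ ε) 0 / ε by rw [← min_div_div_right hε.le, zero_div]]
  ring

end Var

end Vale.Agent.P232
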