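import Vale.Agent.P232.VarMap
import Vale.Agent.P232.VarJ

/-! # P232: the first variation inequality for stretches of the axes -/

namespace Vale.Agent.P232

open MeasureTheory Set Filter Topology
open scoped ENNReal

namespace Var

variable {D : Set V3}

/-- The displaced position on an axis. -/
noncomputable def adv (b : ℝ) (g : ℝ → ℝ) (ε t : ℝ) : ℝ := t + ε * (b + ∫ s in (0 : ℝ)..t, g s)

/-- Points which stay in the cube. -/
noncomputable def keepSet (b : Fin 3 → ℝ) (g : Fin 3 → ℝ → ℝ) (ε : ℝ) : Set V3 :=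
  {x | ∀ j, adv (b j) (g j) ε (x j) ∈ Ioo (0 : ℝ) 1}

theorem intervalIntegrable_bdd {f : ℝ → ℝ} (hf : Measurable f) {C : ℝ} (hC : ∀ t, |f t| ≤ C)
    (a b : ℝ) : IntervalIntegrable f volume a b := by
  rw [intervalIntegrable_iff]
  exact IntegrableOn.of_bound measure_Ioc_lt_top hf.aestronglyMeasurable C
    (ae_of_all _ fun t => hC t)

theorem abs_integral_le {f : ℝ → ℝ} {C : ℝ} (hC : ∀ t, |f t| ≤ C) (a b : ℝ) :
    |∫ t in a..b, f t| ≤ C * |b - a| := by
  simpa using intervalIntegral.norm_integral_le_of_norm_le_const (f := f) (a := a) (b := b)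
    fun t _ => hC t

theorem exists_iso (b : ℝ) {g : ℝ → ℝ} (hg : Measurable g) {C ε : ℝ} (hC : ∀ t, |g t| ≤ C)
    (hε : 0 < ε) (hεC : ε * C ≤ 1 / 2) :
    ∃ e : ℝ ≃o ℝ, (∀ t, e t = adv b g ε t) ∧ Transports e fun t => 1 + ε * g t := by
  have hii := intervalIntegrable_bdd hg hC
  have hdiff : ∀ s t, adv b g ε t - adv b g ε s = (t - s) + ε * ∫ u in s..t, g u := by
    intro s t
    rw [adv, adv, ← intervalIntegral.integral_add_adjacent_intervals (hii 0 s) (hii s t)]
    ring
  have hlow : ∀ s t, s ≤ t → (t - s) / 2 ≤ adv b g ε t - adv b g ε s := by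
    intro s t hst
    rw [hdiff]
    have h1 := abs_integral_le hC s t
    rw [abs_of_nonneg (sub_nonneg.2 hst)] at h1
    have h2 := (abs_le.1 h1).1
    have := mul_le_mul_of_nonneg_right hεC (sub_nonneg.2 hst)
    nlinarith [mul_le_mul_of_nonneg_left h2 hε.le]
  have hmono : StrictMono (adv b g ε) := fun s t hst => by have := hlow s t hst.le; linarith
  have hcont : Continuous (adv b g ε) := continuous_id.add
    (continuous_const.mul (continuous_const.add (intervalIntegral.continuous_primitive hii 0)))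
  have hsurj : Function.Surjective (adv b g ε) := by
    refine hcont.surjective ?_ ?_
    · refine tendsto_atTop_mono' _ ?_ (tendsto_atTop_add_const_right atTop (adv b g ε 0)
        (tendsto_id.atTop_div_const (two_pos : (0 : ℝ) < 2)))
      filter_upwards [eventually_ge_atTop (0 : ℝ)] with t ht
      have := hlow 0 t ht
      simp only [sub_zero, id] at this ⊢
      linarith
    · refine tendsto_atBot_mono' _ ?_ (tendsto_atBot_add_const_right atBot (adv b g ε 0)
        (tendsto_id.atBot_div_const (two_pos : (0 : ℝ) < 2)))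
      filter_upwards [eventually_le_atBot (0 : ℝ)] with t ht
      have := hlow t 0 ht
      simp only [id] at this ⊢
      linarith
  set e := StrictMono.orderIsoOfSurjective _ hmono hsurj
  have he : ∀ t, e t = adv b g ε t := fun t => rfl
  refine ⟨e, he, (measurable_const.add (measurable_const.mul hg)),
    ⟨e.continuous.measurable, (Measure.ext_of_Ioc' _ _ (fun _ _ _ => measure_Ioc_lt_top.ne)
      fun a c hac => ?_).symm⟩⟩
  rw [Real.volume_Ioc, Measure.map_apply e.continuous.measurable measurableSet_Ioc,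
    OrderIso.preimage_Ioc, withDensity_apply _ measurableSet_Ioc]
  have hsc : e.symm a ≤ e.symm c := e.symm.monotone hac.le
  have hw : ∀ t, 0 ≤ 1 + ε * g t := fun t => by
    nlinarith [mul_le_mul_of_nonneg_left (neg_le_of_abs_le (hC t)) hε.le]
  have hwi : IntervalIntegrable (fun t => 1 + ε * g t) volume (e.symm a) (e.symm c) :=
    intervalIntegrable_const.add ((hii _ _).const_mul ε)
  rw [← ofReal_integral_eq_lintegral_ofReal
    ((intervalIntegrable_iff_integrableOn_Ioc_of_le hsc).1 hwi) (ae_of_all _ hw),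
    ← intervalIntegral.integral_of_le hsc]
  congr 1
  rw [intervalIntegral.integral_add intervalIntegrable_const ((hii _ _).const_mul ε),
    intervalIntegral.integral_const, intervalIntegral.integral_const_mul, smul_eq_mul, mul_one,
    ← hdiff, ← he, ← he, e.apply_symm_apply, e.apply_symm_apply]

/-- Density of the flux in direction `i`. -/
noncomputable def fd (D : Set V3) (i : Fin 3) (x : V3) : ℝ := dtan D i x ^ 2 / dnorm D x

/-- First variation of the area. -/
noncomputable def dA (D : Set V3) (g : Fin 3 → ℝ → ℝ) : ℝ :=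
  ∑ j, ∫ x, g j (x j) * fd D j x ∂surf D

/-- First variation of the volume. -/
noncomputable def dV (D : Set V3) (g : Fin 3 → ℝ → ℝ) : ℝ := ∑ j, ∫ x in D, g j (x j)

theorem measurable_fd (D : Set V3) (i : Fin 3) : Measurable (fd D i) :=
  ((measurable_dtan D i).pow_const 2).div (measurable_dnorm D)

theorem fd_nonneg (D : Set V3) (i : Fin 3) (x : V3) : 0 ≤ fd D i x :=
  div_nonneg (sq_nonneg _) (dnorm_nonneg D x)

theorem fd_le (D : Set V3) (i : Fin 3) (x : V3) : fd D i x ≤ dnorm D x := by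
  refine div_le_of_le_mul₀ (dnorm_nonneg D x) (dnorm_nonneg D x) ?_
  rw [← pow_two, dnorm_sq D i x]
  nlinarith [sq_nonneg (dens D i x)]

theorem integrable_mul_fd {f : ℝ → ℝ} (hf : Measurable f) {C : ℝ} (hC : ∀ t, |f t| ≤ C)
    (i : Fin 3) : Integrable (fun x : V3 => f (x i) * fd D i x) (surf D) := by
  refine Integrable.mono' ((integrable_dnorm D).const_mul C)
    ((hf.comp (measurable_pi_apply i)).mul (measurable_fd D i)).aestronglyMeasurable
    (ae_of_all _ fun x => ?_)
  rw [Real.norm_eq_abs, abs_mul, abs_of_nonneg (fd_nonneg D i x)]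
  exact mul_le_mul (hC _) (fd_le D i x) (fd_nonneg D i x) ((abs_nonneg _).trans (hC 0))

theorem volume_cube : volume cube = 1 := by simp [cube, volume_pi_pi]

theorem volume_le_one (hD : IsDown D) : volume D ≤ 1 :=
  (measure_mono hD.2.1).trans volume_cube.le

theorem integrableOn_coord (hD : IsDown D) {f : ℝ → ℝ} (hf : Measurable f) {C : ℝ}
    (hC : ∀ t, |f t| ≤ C) (i : Fin 3) : IntegrableOn (fun x : V3 => f (x i)) D :=
  IntegrableOn.of_bound ((volume_le_one hD).trans_lt ENNReal.one_lt_top)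
    (hf.comp (measurable_pi_apply i)).aestronglyMeasurable C (ae_of_all _ fun x => hC _)

/-- Pointwise second-order bound. -/
theorem jac_norm_le (D : Set V3) (g : Fin 3 → ℝ → ℝ) {C ε : ℝ} (hC : ∀ j t, |g j t| ≤ C)
    (hε : 0 ≤ ε) (hεC : ε * C ≤ 1 / 2) (x : V3) :
    √(∑ i, (jac (fun j t => 1 + ε * g j t) i x * dens D i x) ^ 2) ≤
      dnorm D x + ε * ∑ j, g j (x j) * fd D j x + 5 * C ^ 2 * ε ^ 2 * dnorm D x := by
  have hC0 : 0 ≤ C := (abs_nonneg _).trans (hC 0 0)
  set r := dnorm D x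
  have hr2 : r ^ 2 = ∑ i, dens D i x ^ 2 := Real.sq_sqrt (Finset.sum_nonneg fun j _ => sq_nonneg _)
  rcases (dnorm_nonneg D x).eq_or_lt with h0 | h0
  · have : ∀ i, dens D i x = 0 := fun i => by
      have := Finset.single_le_sum (f := fun j => dens D j x ^ 2) (fun j _ => sq_nonneg _)
        (Finset.mem_univ i)
      rw [← hr2, show r = 0 from h0.symm] at this
      exact pow_eq_zero_iff two_ne_zero |>.1
        (le_antisymm (by simpa using this) (sq_nonneg _))
    simp [this, fd, show r = 0 from h0.symm, show dnorm D x = 0 from h0.symm]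
  have pair : ∀ a b : ℝ, |a| ≤ C → |b| ≤ C →
      ((1 + ε * a) * (1 + ε * b)) ^ 2 ≤ 1 + 2 * ε * (a + b) + 9 * C ^ 2 * ε ^ 2 := by
    intro a b ha hb
    set u := ε * a with hu'
    set w := ε * b with hw'
    set c := ε * C with hc'
    have hc0 : 0 ≤ c := mul_nonneg hε hC0
    have hu : |u| ≤ c := by rw [hu', abs_mul, abs_of_nonneg hε]; exact mul_le_mul_of_nonneg_left ha hε
    have hw : |w| ≤ c := by rw [hw', abs_mul, abs_of_nonneg hε]; exact mul_le_mul_of_nonneg_left hb hε
    have hp : |u * w| ≤ c ^ 2 := by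
      rw [abs_mul, pow_two]; exact mul_le_mul hu hw (abs_nonneg _) hc0
    have hu2 : u ^ 2 ≤ c ^ 2 := by rw [← sq_abs]; exact pow_le_pow_left₀ (abs_nonneg _) hu 2
    have hw2 : w ^ 2 ≤ c ^ 2 := by rw [← sq_abs]; exact pow_le_pow_left₀ (abs_nonneg _) hw 2
    have h3 : |u * w * (u + w)| ≤ c ^ 2 * 1 := by
      rw [abs_mul]
      exact mul_le_mul hp ((abs_add_le _ _).trans (by linarith)) (abs_nonneg _) (sq_nonneg _)
    have h4 : (u * w) ^ 2 ≤ c ^ 2 * (1 / 4) := by
      rw [mul_pow]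
      exact mul_le_mul hu2 (hw2.trans (by nlinarith)) (sq_nonneg _) (sq_nonneg _)
    have he : ((1 + u) * (1 + w)) ^ 2 = 1 + 2 * (u + w) + u ^ 2 + w ^ 2 + 4 * (u * w) +
        2 * (u * w * (u + w)) + (u * w) ^ 2 := by ring
    rw [he, show 1 + 2 * ε * (a + b) + 9 * C ^ 2 * ε ^ 2 = 1 + 2 * (u + w) + 9 * c ^ 2 by
      rw [hu', hw', hc']; ring]
    linarith [(abs_le.1 hp).2, (abs_le.1 h3).2, sq_nonneg c]
  set z := 2 * ε * ∑ j, g j (x j) * dtan D j x ^ 2 + 9 * C ^ 2 * ε ^ 2 * r ^ 2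
  have hz : ∑ i, (jac (fun j t => 1 + ε * g j t) i x * dens D i x) ^ 2 ≤ r ^ 2 + z := by
    have j0 : jac (fun j t => 1 + ε * g j t) 0 x = (1 + ε * g 1 (x 1)) * (1 + ε * g 2 (x 2)) := by
      simp [jac, Fin.prod_univ_two] 
    have j1 : jac (fun j t => 1 + ε * g j t) 1 x = (1 + ε * g 0 (x 0)) * (1 + ε * g 2 (x 2)) := by
      simp [jac, Fin.prod_univ_two] 
    have j2 : jac (fun j t => 1 + ε * g j t) 2 x = (1 + ε * g 0 (x 0)) * (1 + ε * g 1 (x 1)) := by
      simp [jac, Fin.prod_univ_two, show (2 : Fin 3).succAbove 1 = 1 from rfl]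
    have t0 := dtan_sq_of_perm D (show (0 : Fin 3) ≠ 1 by decide) (show (0 : Fin 3) ≠ 2 by decide)
      (show (1 : Fin 3) ≠ 2 by decide) x
    have t1 := dtan_sq_of_perm D (show (1 : Fin 3) ≠ 0 by decide) (show (1 : Fin 3) ≠ 2 by decide)
      (show (0 : Fin 3) ≠ 2 by decide) x
    have t2 := dtan_sq_of_perm D (show (2 : Fin 3) ≠ 0 by decide) (show (2 : Fin 3) ≠ 1 by decide)
      (show (0 : Fin 3) ≠ 1 by decide) x
    have p0 := mul_le_mul_of_nonneg_right (pair _ _ (hC 1 (x 1)) (hC 2 (x 2)))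
      (sq_nonneg (dens D 0 x))
    have p1 := mul_le_mul_of_nonneg_right (pair _ _ (hC 0 (x 0)) (hC 2 (x 2)))
      (sq_nonneg (dens D 1 x))
    have p2 := mul_le_mul_of_nonneg_right (pair _ _ (hC 0 (x 0)) (hC 1 (x 1)))
      (sq_nonneg (dens D 2 x))
    simp only [z, hr2, Fin.sum_univ_three, t0, t1, t2, mul_pow, j0, j1, j2] at *
    linarith
  refine (Real.sqrt_le_sqrt hz).trans ?_
  have hrz : 0 ≤ r ^ 2 + z := (Finset.sum_nonneg fun i _ => sq_nonneg _).trans hz
  have hr0 : r ≠ 0 := h0.ne'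
  have h1 : √(r ^ 2 + z) ≤ r + z / (2 * r) := by
    refine Real.sqrt_le_iff.2 ⟨?_, ?_⟩
    · rw [← sub_nonneg]
      have : r + z / (2 * r) - 0 = (r ^ 2 + (r ^ 2 + z)) / (2 * r) := by
        field_simp; ring
      rw [this]; positivity
    · have : (r + z / (2 * r)) ^ 2 = r ^ 2 + z + (z / (2 * r)) ^ 2 := by field_simp; ring
      rw [this]; nlinarith [sq_nonneg (z / (2 * r))]
  refine h1.trans ?_
  have hz2 : z / (2 * r) = ε * ∑ j, g j (x j) * fd D j x + 9 / 2 * C ^ 2 * ε ^ 2 * r := by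
    simp only [z, fd, mul_div_assoc', ← Finset.sum_div, r] at *
    field_simp
  rw [hz2]
  have : 0 ≤ C ^ 2 * ε ^ 2 * r := by positivity
  linarith

theorem abs_prod_le {a : Fin 3 → ℝ} {C ε : ℝ} (hC : ∀ j, |a j| ≤ C) (hε : 0 ≤ ε)
    (hεC : ε * C ≤ 1 / 2) :
    |∏ j, (1 + ε * a j) - 1 - ε * ∑ j, a j| ≤ 4 * C ^ 2 * ε ^ 2 ∧
      |∏ j, (1 + ε * a j) - 1| ≤ 5 * C * ε := by
  have hC0 : 0 ≤ C := (abs_nonneg _).trans (hC 0)
  simp only [Fin.prod_univ_three, Fin.sum_univ_three]
  set u := ε * a 0 with hu'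
  set w := ε * a 1 with hw'
  set z := ε * a 2 with hz'
  set c := ε * C with hc'
  have hc0 : 0 ≤ c := mul_nonneg hε hC0
  have bd : ∀ j, |ε * a j| ≤ c := fun j => by
    rw [abs_mul, abs_of_nonneg hε]; exact mul_le_mul_of_nonneg_left (hC j) hε
  have hu : |u| ≤ c := bd 0
  have hw : |w| ≤ c := bd 1
  have hz : |z| ≤ c := bd 2
  have pp : ∀ {p q : ℝ}, |p| ≤ c → |q| ≤ c → |p * q| ≤ c ^ 2 := fun hp hq => by
    rw [abs_mul, pow_two]; exact mul_le_mul hp hq (abs_nonneg _) hc0
  have h3 : |u * w * z| ≤ c ^ 2 * 1 := by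
    rw [abs_mul]; exact mul_le_mul (pp hu hw) (hz.trans (by linarith)) (abs_nonneg _) (sq_nonneg _)
  obtain ⟨a1, a2⟩ := abs_le.1 (pp hu hw)
  obtain ⟨b1, b2⟩ := abs_le.1 (pp hu hz)
  obtain ⟨c1, c2⟩ := abs_le.1 (pp hw hz)
  obtain ⟨d1, d2⟩ := abs_le.1 h3
  obtain ⟨u1, u2⟩ := abs_le.1 hu
  obtain ⟨w1, w2⟩ := abs_le.1 hw
  obtain ⟨z1, z2⟩ := abs_le.1 hz
  have hs : ε * (a 0 + a 1 + a 2) = u + w + z := by ring
  have hid : (1 + u) * (1 + w) * (1 + z) = 1 + (u + w + z) + (u * w + u * z + w * z) + u * w * z := by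
    ring
  have hcc : c ^ 2 ≤ c * (1 / 2) := by rw [pow_two]; exact mul_le_mul_of_nonneg_left hεC hc0
  rw [show 4 * C ^ 2 * ε ^ 2 = 4 * c ^ 2 by rw [hc']; ring, show 5 * C * ε = 5 * c by rw [hc']; ring,
    hs, hid]
  exact ⟨abs_le.2 ⟨by linarith, by linarith⟩, abs_le.2 ⟨by linarith, by linarith⟩⟩

/-- A down-set of least `area - jQ`, of volume at most one half. -/
def IsOpt (D : Set V3) : Prop :=
  IsDown D ∧ 0 < dvol D ∧ dvol D ≤ 1 / 2 ∧
    ∀ D', IsDown D' → area D - jQ (dvol D) ≤ area D' - jQ (dvol D')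

/-- The first variation inequality. -/
theorem firstVar (hmin : IsOpt D) (b : Fin 3 → ℝ) (g : Fin 3 → ℝ → ℝ)
    (hgm : ∀ j, Measurable (g j)) {C : ℝ} (hgC : ∀ j t, |g j t| ≤ C) (hb : ∀ j, b j ≤ 0)
    (hend : ∀ j, endA1 D j = 0 ∨ 0 ≤ b j + ∫ t in (0 : ℝ)..1, g j t) {W q0 : ℝ} {q : ℝ → ℝ}
    (hW : Tendsto (fun ε => volume.real (D \ keepSet b g ε) / ε) (𝓝[>] 0) (𝓝 W))
    (hq1 : ∀ᶠ ε in 𝓝[>] 0, q ε ≤ ∫ x in (keepSet b g ε)ᶜ, dnorm D x ∂surf D)
    (hq2 : Tendsto (fun ε => q ε / ε) (𝓝[>] 0) (𝓝 q0)) :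
    q0 + slope (dvol D) (dV D g - W) ≤ dA D g := by
  obtain ⟨hD, hv0, hv2, hopt⟩ := hmin
  have hC0 : 0 ≤ C := (abs_nonneg _).trans (hgC 0 0)
  set v := dvol D with hvdef
  set P := area D with hPdef
  set S : ℝ → Set V3 := fun ε => keepSet b g ε with hSdef
  set Pe : ℝ → V3 → ℝ := fun ε x => ∏ j, (1 + ε * g j (x j)) with hPe
  set δ : ℝ → ℝ := fun ε => (∫ x in D ∩ S ε, Pe ε x) - v with hδdef
  have hid : Tendsto id (𝓝[>] (0 : ℝ)) (𝓝 0) := nhdsWithin_le_nhds
  have hpos : ∀ᶠ ε in 𝓝[>] (0 : ℝ), 0 < ε := self_mem_nhdsWithin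
  have hsmall : ∀ᶠ ε in 𝓝[>] (0 : ℝ), 0 < ε ∧ ε * C ≤ 1 / 2 ∧ 0 ≤ 1 - 3 * C * ε := by
    have h1 : Tendsto (fun ε : ℝ => ε * C) (𝓝[>] 0) (𝓝 0) := by simpa using hid.mul_const C
    filter_upwards [hpos, h1.eventually (Iic_mem_nhds (show (0 : ℝ) < 1 / 6 by norm_num))]
      with ε h2 h3
    replace h3 : ε * C ≤ 1 / 6 := h3
    exact ⟨h2, by linarith, by nlinarith⟩
  have hvolD : volume D ≠ ⊤ := ne_top_of_le_ne_top ENNReal.one_ne_top (volume_le_one hD)
  have hlin_int : IntegrableOn (fun x => ∑ j, g j (x j)) D :=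
    integrable_finsetSum _ fun j _ => integrableOn_coord hD (hgm j) (hgC j) j
  have hstep : ∀ᶠ ε in 𝓝[>] (0 : ℝ),
      |δ ε / ε - (dV D g - volume.real (D \ S ε) / ε)| ≤
          4 * C ^ 2 * ε + 5 * C * (volume.real (D \ S ε) / ε) * ε ∧
      (1 - 3 * C * ε) * q ε ≤ ε * dA D g + 5 * C ^ 2 * ε ^ 2 * P - (jQ (v + δ ε) - jQ v) := by
    filter_upwards [hsmall, hq1] with ε ⟨hε, hεC, hε3⟩ hqε
    choose e he htr using fun j => exists_iso (b j) (hgm j) (hgC j) hε hεC
    have hkeep : keep e = S ε := by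
      ext x; simp [keep, pmap, mem_cube_iff, he, hSdef, keepSet]
    have h0 : ∀ j, e j 0 ≤ 0 := fun j => by
      rw [he, adv, intervalIntegral.integral_same]; nlinarith [hb j]
    have hend' : ∀ j, endA1 D j = 0 ∨ 1 ≤ e j 1 := fun j => (hend j).imp id fun h => by
      rw [he, adv]; nlinarith
    have hw : ∀ j t, 0 ≤ 1 + ε * g j t := fun j t => by
      nlinarith [mul_le_mul_of_nonneg_left (neg_le_of_abs_le (hgC j t)) hε.le]
    have hS : MeasurableSet (S ε) := hkeep ▸ measurableSet_keep e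
    have hpr := fun x : V3 => abs_prod_le (a := fun j => g j (x j)) (fun j => hgC j _) hε.le hεC
    have hPm : Measurable (Pe ε) := Finset.measurable_prod _ fun j _ =>
      measurable_const.add (measurable_const.mul ((hgm j).comp (measurable_pi_apply j)))
    have hPi : IntegrableOn (Pe ε) D := IntegrableOn.of_bound hvolD.lt_top
      hPm.aestronglyMeasurable (1 + 5 * C * ε) (ae_of_all _ fun x => by
        rw [Real.norm_eq_abs, abs_le]
        have := abs_le.1 (hpr x).2
        simp only [hPe] at this ⊢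
        constructor <;> linarith [mul_nonneg hC0 hε.le])
    have hdown := isDown_moved hD h0
    have hvol' : dvol (moved e D) = v + δ ε := by
      rw [dvol, measureReal_def, volume_moved hD h0 htr, hkeep]
      simp_rw [← ENNReal.ofReal_prod_of_nonneg fun j (_ : j ∈ Finset.univ) => hw j _]
      rw [← ofReal_integral_eq_lintegral_ofReal (hPi.mono_set inter_subset_left)
        (ae_of_all _ fun x => Finset.prod_nonneg fun j _ => hw j _), ENNReal.toReal_ofReal
        (integral_nonneg fun x => Finset.prod_nonneg fun j _ => hw j _), hδdef]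
      ring
    refine ⟨?_, ?_⟩
    · have h1 : v + δ ε = (∫ x in D, Pe ε x) - ∫ x in D \ S ε, Pe ε x := by
        rw [← integral_inter_add_sdiff hS hPi]
        simp only [hδdef]
        ring
      have hint1 : IntegrableOn (fun x => Pe ε x - 1 - ε * ∑ j, g j (x j)) D :=
        (hPi.sub (integrableOn_const hvolD)).sub (hlin_int.const_mul ε)
      have e1 : |∫ x in D, (Pe ε x - 1 - ε * ∑ j, g j (x j))| ≤ 4 * C ^ 2 * ε ^ 2 * v :=
        norm_setIntegral_le_of_norm_le_const (f := fun x => Pe ε x - 1 - ε * ∑ j, g j (x j))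
          hvolD.lt_top fun x _ => (hpr x).1
      have hDS : volume (D \ S ε) < ⊤ := (measure_mono sdiff_subset).trans_lt hvolD.lt_top
      have e2 : |∫ x in D \ S ε, (Pe ε x - 1)| ≤ 5 * C * ε * volume.real (D \ S ε) :=
        norm_setIntegral_le_of_norm_le_const (f := fun x => Pe ε x - 1) hDS fun x _ => (hpr x).2
      have i1 : ∫ x in D, (Pe ε x - 1 - ε * ∑ j, g j (x j)) = (∫ x in D, Pe ε x) - v - ε * dV D g := by
        have a1 : IntegrableOn (fun x => Pe ε x - 1) D := hPi.sub (integrableOn_const hvolD)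
        rw [integral_sub a1 (hlin_int.const_mul ε),
          integral_sub hPi (integrableOn_const hvolD), integral_const_mul,
          integral_finsetSum _ fun j _ => integrableOn_coord hD (hgm j) (hgC j) j]
        simp [dV, hvdef, dvol]
      have i2 : ∫ x in D \ S ε, (Pe ε x - 1) = (∫ x in D \ S ε, Pe ε x) - volume.real (D \ S ε) := by
        rw [integral_sub (hPi.mono_set sdiff_subset) (integrableOn_const hDS.ne)]
        simp
      rw [i1] at e1
      rw [i2] at e2
      have hv1 : v ≤ 1 := by linarith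
      have : |δ ε - (ε * dV D g - volume.real (D \ S ε))| ≤
          4 * C ^ 2 * ε ^ 2 + 5 * C * ε * volume.real (D \ S ε) := by
        rw [abs_le] at e1 e2 ⊢
        have : 4 * C ^ 2 * ε ^ 2 * v ≤ 4 * C ^ 2 * ε ^ 2 :=
          mul_le_of_le_one_right (by positivity) hv1
        constructor <;> linarith
      rw [show δ ε / ε - (dV D g - volume.real (D \ S ε) / ε) =
        (δ ε - (ε * dV D g - volume.real (D \ S ε))) / ε by field_simp, abs_div,
        abs_of_pos hε, div_le_iff₀ hε]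
      refine this.trans (le_of_eq ?_)
      field_simp
    · set G : V3 → ℝ := fun x =>
        dnorm D x + ε * ∑ j, g j (x j) * fd D j x + 5 * C ^ 2 * ε ^ 2 * dnorm D x
      have hA1 : Integrable (fun x => ∑ j, g j (x j) * fd D j x) (surf D) :=
        integrable_finsetSum _ fun j _ => integrable_mul_fd (hgm j) (hgC j) j
      have hGi : Integrable G (surf D) :=
        ((integrable_dnorm D).add (hA1.const_mul ε)).add
          ((integrable_dnorm D).const_mul (5 * C ^ 2 * ε ^ 2))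
      have hG : ∫ x, G x ∂surf D = P + ε * dA D g + 5 * C ^ 2 * ε ^ 2 * P := by
        rw [integral_add, integral_add, integral_const_mul, integral_const_mul,
          integral_finsetSum _ fun j _ => integrable_mul_fd (hgm j) (hgC j) j]
        · rfl
        · exact integrable_dnorm D
        · exact hA1.const_mul ε
        · exact (integrable_dnorm D).add (hA1.const_mul ε)
        · exact (integrable_dnorm D).const_mul _
      have hGlow : ∀ x, (1 - 3 * C * ε) * dnorm D x ≤ G x := by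
        intro x
        have : ∀ j, -(C * dnorm D x) ≤ g j (x j) * fd D j x := fun j => by
          have h1 : |g j (x j) * fd D j x| ≤ C * dnorm D x := by
            rw [abs_mul, abs_of_nonneg (fd_nonneg D j x)]
            exact mul_le_mul (hgC j _) (fd_le D j x) (fd_nonneg D j x) hC0
          exact (abs_le.1 h1).1
        have h3 : -(3 * C * dnorm D x) ≤ ∑ j, g j (x j) * fd D j x := by
          rw [Fin.sum_univ_three]; linarith [this 0, this 1, this 2]
        have := mul_le_mul_of_nonneg_left h3 hε.le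
        have : 0 ≤ 5 * C ^ 2 * ε ^ 2 * dnorm D x := by
          have := dnorm_nonneg D x; positivity
        simp only [G]; linarith
      have hG0 : ∀ x, 0 ≤ G x := fun x => (mul_nonneg hε3 (dnorm_nonneg D x)).trans (hGlow x)
      have harea : area (moved e D) ≤ ∫ x in S ε, G x ∂surf D := by
        rw [← ENNReal.ofReal_le_ofReal_iff (setIntegral_nonneg hS fun x _ => hG0 x),
          ofReal_integral_eq_lintegral_ofReal hGi.integrableOn (ae_of_all _ hG0)]
        refine (area_moved_le hD h0 htr hend' hw).trans ?_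
        rw [hkeep]
        exact lintegral_mono fun x =>
          ENNReal.ofReal_le_ofReal (jac_norm_le D g hgC hε.le hεC x)
      have hQ : (1 - 3 * C * ε) * q ε ≤ ∫ x in (S ε)ᶜ, G x ∂surf D :=
        calc _ ≤ (1 - 3 * C * ε) * ∫ x in (S ε)ᶜ, dnorm D x ∂surf D :=
              mul_le_mul_of_nonneg_left hqε hε3
          _ = ∫ x in (S ε)ᶜ, (1 - 3 * C * ε) * dnorm D x ∂surf D := (integral_const_mul _ _).symm
          _ ≤ _ := setIntegral_mono ((integrable_dnorm D).const_mul _).integrableOn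
              hGi.integrableOn hGlow
      have := hopt _ hdown
      rw [hvol'] at this
      linarith [integral_add_compl hS hGi]
  have hL0 : Tendsto (fun ε => volume.real (D \ S ε) / ε * ε) (𝓝[>] 0) (𝓝 (W * 0)) := hW.mul hid
  have hδ : Tendsto (fun ε => δ ε / ε) (𝓝[>] 0) (𝓝 (dV D g - W)) := by
    have herr : Tendsto (fun ε => 4 * C ^ 2 * ε + 5 * C * (volume.real (D \ S ε) / ε * ε))
        (𝓝[>] 0) (𝓝 0) := by
      simpa using (hid.const_mul (4 * C ^ 2)).add (hL0.const_mul (5 * C))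
    have h1 : Tendsto (fun ε => δ ε / ε - (dV D g - volume.real (D \ S ε) / ε)) (𝓝[>] 0) (𝓝 0) :=
      squeeze_zero_norm' (hstep.mono fun ε h => by
        rw [Real.norm_eq_abs]; exact h.1.trans (le_of_eq (by ring))) herr
    have h2 := h1.add ((tendsto_const_nhds (x := dV D g)).sub hW)
    rw [zero_add] at h2
    exact h2.congr fun ε => by simp only [hSdef]; ring
  have hJ := tendsto_jQ_slope hv0 hv2 hpos hid hδ
  have hlhs : Tendsto (fun ε => (1 - 3 * C * ε) * (q ε / ε) + (jQ (v + δ ε) - jQ v) / ε)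
      (𝓝[>] 0) (𝓝 (q0 + slope v (dV D g - W))) := by
    have := (((hid.const_mul (3 * C)).const_sub 1).mul hq2).add hJ
    simpa using this
  have hrhs : Tendsto (fun ε => dA D g + 5 * C ^ 2 * P * ε) (𝓝[>] 0) (𝓝 (dA D g)) := by
    simpa using (hid.const_mul (5 * C ^ 2 * P)).const_add (dA D g)
  refine le_of_tendsto_of_tendsto hlhs hrhs ?_
  filter_upwards [hstep, hpos] with ε h hε
  rw [← mul_div_assoc, ← add_div, div_le_iff₀ hε]
  linarith [h.2, show (dA D g + 5 * C ^ 2 * P * ε) * ε =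
    ε * dA D g + 5 * C ^ 2 * ε ^ 2 * P by ring]

end Var

end Vale.Agent.P232
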