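import Vale.Agent.P232.Surf

/-! # P232: images of down-sets under monotone maps of the axes -/

namespace Vale.Agent.P232

open MeasureTheory Set Filter Topology
open scoped ENNReal

namespace Var

/-- `e` carries the density `w` to Lebesgue measure. -/
def Transports (e : ℝ ≃o ℝ) (w : ℝ → ℝ) : Prop :=
  Measurable w ∧ MeasurePreserving e (volume.withDensity fun t => ENNReal.ofReal (w t)) volume

theorem lintegral_pi_prod : ∀ {n : ℕ} (f : Fin n → ℝ → ℝ≥0∞), (∀ i, Measurable (f i)) →
    ∫⁻ x : Fin n → ℝ, ∏ i, f i (x i) = ∏ i, ∫⁻ t, f i t := by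
  intro n
  induction n with
  | zero => intro f _; simp [volume_pi]
  | succ n ih =>
    intro f hf
    have hmp := (volume_preserving_piFinSuccAbove (fun _ : Fin (n + 1) => ℝ) 0).symm
    rw [← hmp.lintegral_comp_emb (MeasurableEquiv.measurableEmbedding _), Measure.volume_eq_prod]
    have hg : Measurable fun q : Fin n → ℝ => ∏ j, f j.succ (q j) :=
      Finset.measurable_prod _ fun j _ => (hf j.succ).comp (measurable_pi_apply j)
    calc _ = ∫⁻ p : ℝ × (Fin n → ℝ), f 0 p.1 * ∏ j, f j.succ (p.2 j)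
          ∂((volume : Measure ℝ).prod volume) := by
          refine lintegral_congr fun p => ?_
          simp [Fin.prod_univ_succ, MeasurableEquiv.piFinSuccAbove_symm_apply]
      _ = (∫⁻ t, f 0 t) * ∫⁻ q : Fin n → ℝ, ∏ j, f j.succ (q j) :=
          lintegral_prod_mul (hf 0).aemeasurable hg.aemeasurable
      _ = _ := by rw [ih _ fun j => hf j.succ, Fin.prod_univ_succ (fun i => ∫⁻ t, f i t)]

/-- The product map. -/
def pmap {n : ℕ} (e : Fin n → ℝ ≃o ℝ) (x : Fin n → ℝ) : Fin n → ℝ := fun i => e i (x i)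

theorem measurePreserving_pmap {n : ℕ} {e : Fin n → ℝ ≃o ℝ} {w : Fin n → ℝ → ℝ}
    (h : ∀ i, Transports (e i) (w i)) :
    MeasurePreserving (pmap e) (volume.withDensity fun x => ∏ i, ENNReal.ofReal (w i (x i)))
      volume := by
  have hp := measurePreserving_pi (fun i => (volume : Measure ℝ).withDensity
    fun t => ENNReal.ofReal (w i t)) (fun _ => volume) (fun i => (h i).2)
  rw [← volume_pi] at hp
  have hm : ∀ i, Measurable fun t => ENNReal.ofReal (w i t) := fun i => (h i).1.ennreal_ofReal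
  have e : Measure.pi (fun i => (volume : Measure ℝ).withDensity fun t => ENNReal.ofReal (w i t))
      = volume.withDensity fun x => ∏ i, ENNReal.ofReal (w i (x i)) := by
    refine Measure.pi_eq fun s hs => ?_
    rw [withDensity_apply _ (MeasurableSet.univ_pi hs),
      ← lintegral_indicator (MeasurableSet.univ_pi hs)]
    have : ((univ.pi s).indicator fun x => ∏ i, ENNReal.ofReal (w i (x i))) =
        fun x => ∏ i, (s i).indicator (fun t => ENNReal.ofReal (w i t)) (x i) := by
      classical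
      funext x
      by_cases hx : x ∈ univ.pi s
      · rw [indicator_of_mem hx]
        exact Finset.prod_congr rfl fun i _ => (indicator_of_mem (hx i (mem_univ i)) (f := fun t =>
          ENNReal.ofReal (w i t))).symm
      · rw [indicator_of_notMem hx]
        simp only [mem_univ_pi, not_forall] at hx
        obtain ⟨i, hi⟩ := hx
        exact (Finset.prod_eq_zero (Finset.mem_univ i) (indicator_of_notMem hi _)).symm
    rw [this, lintegral_pi_prod _ fun i => (hm i).indicator (hs i)]
    exact Finset.prod_congr rfl fun i _ => by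
      rw [lintegral_indicator (hs i), withDensity_apply _ (hs i)]
  rw [e] at hp
  exact hp

theorem measurable_pmap {n : ℕ} (e : Fin n → ℝ ≃o ℝ) : Measurable (pmap e) :=
  measurable_pi_iff.2 fun i => (e i).continuous.measurable.comp (measurable_pi_apply i)

variable {D : Set V3} {e : Fin 3 → ℝ ≃o ℝ} {w : Fin 3 → ℝ → ℝ}

/-- The image of `D`, cut off by the cube. -/
def moved (e : Fin 3 → ℝ ≃o ℝ) (D : Set V3) : Set V3 :=
  cube ∩ {y | (fun i => (e i).symm (y i)) ∈ D}

/-- The points which stay in the cube. -/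
def keep (e : Fin 3 → ℝ ≃o ℝ) : Set V3 := {x | pmap e x ∈ cube}

theorem measurableSet_cube : MeasurableSet cube :=
  MeasurableSet.univ_pi fun _ => measurableSet_Ioo

theorem measurableSet_keep (e : Fin 3 → ℝ ≃o ℝ) : MeasurableSet (keep e) :=
  measurable_pmap e measurableSet_cube

theorem symm_zero_nonneg {f : ℝ ≃o ℝ} (h : f 0 ≤ 0) : 0 ≤ f.symm 0 := by
  rw [← f.le_iff_le, f.apply_symm_apply]
  exact h

theorem isDown_moved (hD : IsDown D) (h0 : ∀ i, e i 0 ≤ 0) : IsDown (moved e D) := by
  refine ⟨measurableSet_cube.inter ((measurable_pi_iff.2 fun i =>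
    (e i).symm.continuous.measurable.comp (measurable_pi_apply i)) hD.1), inter_subset_left,
    fun x hx y hy hyx => ⟨hy, hD.2.2 _ hx.2 _ (mem_cube_iff.2 fun i => ?_) fun i => ?_⟩⟩
  · exact ⟨(symm_zero_nonneg (h0 i)).trans_lt ((e i).symm.strictMono (mem_cube_iff.1 hy i).1),
      ((e i).symm.monotone (hyx i)).trans_lt (mem_cube_iff.1 (hD.2.1 hx.2) i).2⟩
  · exact (e i).symm.monotone (hyx i)

theorem preimage_moved (e : Fin 3 → ℝ ≃o ℝ) (D : Set V3) :
    pmap e ⁻¹' moved e D = D ∩ keep e := by
  ext x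
  simp [moved, keep, pmap, and_comm]

theorem volume_moved (hD : IsDown D) (h0 : ∀ i, e i 0 ≤ 0)
    (h : ∀ i, Transports (e i) (w i)) :
    volume (moved e D) = ∫⁻ x in D ∩ keep e, ∏ i, ENNReal.ofReal (w i (x i)) := by
  rw [← (measurePreserving_pmap h).measure_preimage
      (isDown_moved hD h0).1.nullMeasurableSet, preimage_moved,
    withDensity_apply _ (hD.1.inter (measurableSet_keep e))]

/-- The Jacobian of the face normal to the axis `i`. -/
noncomputable def jac (w : Fin 3 → ℝ → ℝ) (i : Fin 3) (x : V3) : ℝ :=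
  ∏ j : Fin 2, w (i.succAbove j) (x (i.succAbove j))

theorem measurable_jac (hw : ∀ i, Measurable (w i)) (i : Fin 3) : Measurable (jac w i) :=
  Finset.measurable_prod _ fun j _ => (hw _).comp (measurable_pi_apply _)

theorem line_le_ext (hD : IsDown D) {i : Fin 3} (h0 : ∀ i, e i 0 ≤ 0) (p : Fin 2 → ℝ)
    (hq : pmap (fun j => e (i.succAbove j)) p ∈ square) :
    ext (moved e D) i (pmap (fun j => e (i.succAbove j)) p) =
      max 0 (min 1 (e i (ext D i p))) := by
  have key : ∀ t, i.insertNth t (pmap (fun j => e (i.succAbove j)) p) ∈ moved e D ↔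
      t ∈ Ioo (0 : ℝ) 1 ∧ i.insertNth ((e i).symm t) p ∈ D := by
    intro t
    have : (fun k => (e k).symm ((i.insertNth t (pmap (fun j => e (i.succAbove j)) p) : V3) k)) =
        i.insertNth ((e i).symm t) p := by
      funext k
      rcases Fin.eq_self_or_eq_succAbove i k with rfl | ⟨l, rfl⟩ <;> simp [pmap]
    simp [moved, insertNth_mem_cube, hq, this]
  set M := max 0 (min 1 (e i (ext D i p))) with hM
  have hsub : {t | i.insertNth t (pmap (fun j => e (i.succAbove j)) p) ∈ moved e D} ⊆
      Ioc 0 M := by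
    intro t ht
    obtain ⟨ht1, ht2⟩ := (key t).1 ht
    refine ⟨ht1.1, le_max_of_le_right (le_min ht1.2.le ?_)⟩
    have := (e i).monotone (le_ext_of_mem hD ht2)
    simpa using this
  have hsup : Ioo 0 M ⊆ {t | i.insertNth t (pmap (fun j => e (i.succAbove j)) p) ∈ moved e D} := by
    intro t ht
    rcases lt_max_iff.1 ht.2 with h | h
    · exact absurd ht.1 h.not_gt
    refine (key t).2 ⟨⟨ht.1, h.trans_le (min_le_left _ _)⟩, mem_of_lt_ext hD
      ((symm_zero_nonneg (h0 i)).trans_lt ((e i).symm.strictMono ht.1)) ?_⟩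
    rw [(e i).symm_apply_lt]
    exact h.trans_le (min_le_right _ _)
  have hM0 : 0 ≤ M := le_max_left _ _
  have e1 : volume {t | i.insertNth t (pmap (fun j => e (i.succAbove j)) p) ∈ moved e D} =
      ENNReal.ofReal M := le_antisymm ((measure_mono hsub).trans (by simp [Real.volume_Ioc]))
    (le_trans (by simp [Real.volume_Ioo]) (measure_mono hsup))
  rw [ext, measureReal_def, e1, ENNReal.toReal_ofReal hM0]

theorem sheet_moved_le (hD : IsDown D) (h0 : ∀ i, e i 0 ≤ 0)
    (h : ∀ i, Transports (e i) (w i)) (hend : ∀ i, endA1 D i = 0 ∨ 1 ≤ e i 1)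
    (hw : ∀ i t, 0 ≤ w i t) (i : Fin 3)
    {F : V3 → ℝ≥0∞} (hF : Measurable F) :
    ∫⁻ y, F y ∂sheet (moved e D) i ≤
      ∫⁻ x, (keep e).indicator (fun x => ENNReal.ofReal (jac w i x) * F (pmap e x)) x
        ∂sheet D i := by
  set e2 : Fin 2 → ℝ ≃o ℝ := fun j => e (i.succAbove j) with he2
  set w2 : Fin 2 → ℝ → ℝ := fun j => w (i.succAbove j) with hw2
  have hmp : MeasurePreserving (pmap e2)
      (volume.withDensity fun x => ∏ j, ENNReal.ofReal (w2 j (x j))) volume :=
    measurePreserving_pmap fun j => h (i.succAbove j)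
  have hD' := isDown_moved hD h0
  have hwd : Measurable fun x : Fin 2 → ℝ => ∏ j, ENNReal.ofReal (w2 j (x j)) :=
    Finset.measurable_prod _ fun j _ => (h _).1.ennreal_ofReal.comp (measurable_pi_apply j)
  have hG : Measurable fun x : V3 => (keep e).indicator
      (fun x => ENNReal.ofReal (jac w i x) * F (pmap e x)) x :=
    ((measurable_jac (fun k => (h k).1) i).ennreal_ofReal.mul
      (hF.comp (measurable_pmap e))).indicator (measurableSet_keep e)
  rw [lintegral_sheet hD'.1 i hF, lintegral_sheet hD.1 i hG,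
    ← lintegral_indicator (measurableSet_sheetDom hD'.1 i),
    ← lintegral_indicator (measurableSet_sheetDom hD.1 i)]
  have hFg : Measurable fun q => ({q | q ∈ square ∧ ext (moved e D) i q ∈ Ioo (0 : ℝ) 1}).indicator
      (fun q => F (i.insertNth (ext (moved e D) i q) q)) q :=
    (hF.comp (measurable_graph hD'.1 i)).indicator (measurableSet_sheetDom hD'.1 i)
  rw [← hmp.lintegral_comp hFg]
  have hbad : ∀ᵐ p : Fin 2 → ℝ, ¬(endA1 D i = 0 ∧ (p ∈ square ∧ ext D i p = 1)) := by
    by_cases h1 : endA1 D i = 0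
    · have hne : volume {q : Fin 2 → ℝ | q ∈ square ∧ ext D i q = 1} ≠ ⊤ :=
        ne_top_of_le_ne_top (by simp [volume_square])
          (measure_mono (show _ ⊆ square from fun q hq => hq.1))
      have := (measureReal_eq_zero_iff hne).1 h1
      filter_upwards [measure_eq_zero_iff_ae_notMem.1 this] with p hp using fun hh => hp hh.2
    · exact ae_of_all _ fun p hp => h1 hp.1
  refine le_trans (le_of_eq (lintegral_withDensity_eq_lintegral_mul _ hwd
    (hFg.comp (measurable_pmap e2)))) (lintegral_mono_ae ?_)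
  filter_upwards [hbad] with p hp
  simp only [Pi.mul_apply]
  by_cases hq : pmap e2 p ∈ {q | q ∈ square ∧ ext (moved e D) i q ∈ Ioo (0 : ℝ) 1}
  · have hEq := line_le_ext hD h0 p hq.1
    obtain ⟨hpos, hlt⟩ := hq.2
    have hs := hq.1
    have he' : e i (ext D i p) = ext (moved e D) i (pmap e2 p) := by
      rw [hEq] at hpos hlt ⊢
      rcases lt_max_iff.1 hpos with h | h
      · exact absurd h (lt_irrefl 0)
      rw [max_eq_right h.le] at hlt ⊢
      rcases le_total 1 (e i (ext D i p)) with h' | h'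
      · rw [min_eq_left h'] at hlt; exact absurd hlt (lt_irrefl 1)
      · rw [min_eq_right h']
    have hE0 : 0 < ext D i p := by
      refine lt_of_le_of_lt (symm_zero_nonneg (h0 i)) ?_
      rw [(e i).symm_apply_lt, he']
      exact hpos
    have hps := mem_square_of_ext_pos hD hE0
    have hE1 : ext D i p < 1 := by
      refine lt_of_le_of_ne (ext_le_one hD i p) fun h1 => ?_
      rcases hend i with hA | hA
      · exact hp ⟨hA, hps, h1⟩
      · rw [h1] at he'
        linarith
    have hpt : pmap e (i.insertNth (ext D i p) p) =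
        i.insertNth (ext (moved e D) i (pmap e2 p)) (pmap e2 p) := by
      funext k
      rcases Fin.eq_self_or_eq_succAbove i k with rfl | ⟨l, rfl⟩ <;> simp [pmap, he', e2]
    have hk : (i.insertNth (ext D i p) p : V3) ∈ keep e := by
      show pmap e (i.insertNth (ext D i p) p) ∈ cube
      rw [hpt]
      exact insertNth_mem_cube.2 ⟨⟨hpos, hlt⟩, hs⟩
    have hdom : p ∈ {q | q ∈ square ∧ ext D i q ∈ Ioo (0 : ℝ) 1} := ⟨hps, hE0, hE1⟩
    rw [indicator_of_mem hq, indicator_of_mem hdom, indicator_of_mem hk, hpt]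
    refine mul_le_mul' (le_of_eq ?_) le_rfl
    simp [jac, Fin.prod_univ_two, w2, ENNReal.ofReal_mul (hw _ _)]
  · rw [indicator_of_notMem hq, mul_zero]
    exact zero_le

/-- The area after the move. -/
theorem area_moved_le (hD : IsDown D) (h0 : ∀ i, e i 0 ≤ 0)
    (h : ∀ i, Transports (e i) (w i)) (hend : ∀ i, endA1 D i = 0 ∨ 1 ≤ e i 1)
    (hw : ∀ i t, 0 ≤ w i t) :
    ENNReal.ofReal (area (moved e D)) ≤ ∫⁻ x in keep e,
      ENNReal.ofReal (√(∑ i, (jac w i x * dens D i x) ^ 2)) ∂surf D := by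
  set D' := moved e D
  set u : Fin 3 → V3 → ℝ := fun i y => dens D' i y / dnorm D' y with hu
  have hu0 : ∀ i y, 0 ≤ u i y := fun i y => div_nonneg (dens_nonneg _ _ _) (dnorm_nonneg _ _)
  have hum : ∀ i, Measurable (u i) := fun i => (measurable_dens D' i).div (measurable_dnorm D')
  have hj : ∀ i x, 0 ≤ jac w i x := fun i x => Finset.prod_nonneg fun j _ => hw _ _
  have hu2 : ∀ y, ∑ i, u i y ^ 2 ≤ 1 := by
    intro y
    have hs : ∑ i, dens D' i y ^ 2 = dnorm D' y ^ 2 :=
      (Real.sq_sqrt (Finset.sum_nonneg fun j _ => sq_nonneg _)).symm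
    simp only [hu, div_pow, ← Finset.sum_div, hs]
    exact div_self_le_one _
  have e1 : ∀ y, ENNReal.ofReal (dnorm D' y) =
      ∑ i, ENNReal.ofReal (u i y) * ENNReal.ofReal (dens D' i y) := by
    intro y
    simp_rw [← ENNReal.ofReal_mul (hu0 _ y)]
    rw [← ENNReal.ofReal_sum_of_nonneg fun i _ => mul_nonneg (hu0 i y) (dens_nonneg _ _ _)]
    congr 1
    have hs : ∑ i, dens D' i y ^ 2 = dnorm D' y ^ 2 :=
      (Real.sq_sqrt (Finset.sum_nonneg fun j _ => sq_nonneg _)).symm
    simp only [hu, div_mul_eq_mul_div, ← pow_two, ← Finset.sum_div, hs]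
    rw [pow_two, mul_self_div_self]
  rw [ofReal_area]
  simp_rw [e1]
  have hm1 : ∀ i, Measurable fun y => ENNReal.ofReal (u i y) * ENNReal.ofReal (dens D' i y) :=
    fun i => (hum i).ennreal_ofReal.mul (measurable_dens D' i).ennreal_ofReal
  rw [lintegral_finsetSum _ fun i _ => hm1 i]
  simp_rw [lintegral_mul_dens D' _ (hum _).ennreal_ofReal]
  have hGm : ∀ i, Measurable fun x => (keep e).indicator
      (fun x => ENNReal.ofReal (jac w i x) * ENNReal.ofReal (u i (pmap e x))) x := fun i =>
    ((measurable_jac (fun k => (h k).1) i).ennreal_ofReal.mul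
      ((hum i).ennreal_ofReal.comp (measurable_pmap e))).indicator (measurableSet_keep e)
  refine (Finset.sum_le_sum fun i _ =>
    sheet_moved_le hD h0 h hend hw i (hum i).ennreal_ofReal).trans ?_
  simp_rw [← lintegral_mul_dens D _ (hGm _)]
  have hm2 : ∀ i, Measurable fun x => (keep e).indicator
      (fun x => ENNReal.ofReal (jac w i x) * ENNReal.ofReal (u i (pmap e x))) x *
        ENNReal.ofReal (dens D i x) := fun i => (hGm i).mul (measurable_dens D i).ennreal_ofReal
  rw [← lintegral_finsetSum _ fun i _ => hm2 i, ← lintegral_indicator (measurableSet_keep e)]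
  refine lintegral_mono fun x => ?_
  by_cases hx : x ∈ keep e
  · simp only [indicator_of_mem hx]
    simp_rw [← ENNReal.ofReal_mul (hj _ x)]
    simp_rw [← ENNReal.ofReal_mul (mul_nonneg (hj _ x) (hu0 _ _))]
    rw [← ENNReal.ofReal_sum_of_nonneg fun i _ =>
      mul_nonneg (mul_nonneg (hj i x) (hu0 i _)) (dens_nonneg _ _ _)]
    refine ENNReal.ofReal_le_ofReal ?_
    calc ∑ i, jac w i x * u i (pmap e x) * dens D i x
        = ∑ i, u i (pmap e x) * (jac w i x * dens D i x) := Finset.sum_congr rfl fun i _ => by ring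
      _ ≤ √(∑ i, u i (pmap e x) ^ 2) * √(∑ i, (jac w i x * dens D i x) ^ 2) :=
          Real.sum_mul_le_sqrt_mul_sqrt _ _ _
      _ ≤ _ := mul_le_of_le_one_left (Real.sqrt_nonneg _) (Real.sqrt_le_one.2 (hu2 _))
  · simp [indicator_of_notMem hx]

end Var

end Vale.Agent.P232
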